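import Vale.Agent.P114.MathlibUsed
import Vale.Agent.P114.Defs
attribute [-instance] ProperSMul.toContinuousSMul IsTopologicalTorsor.toContinuousSMul IdemSemiring.toCanonicallyOrderedAdd IdemSemiring.toMulLeftMono IdemSemiring.toMulRightMono AddQuantale.instAddLeftMono AddQuantale.instAddRightMono Quantale.instMulLeftMono Quantale.instMulRightMono FiniteDimensional.rclike_to_real IsScalarTower.complexToReal FiniteDimensional.complexToReal

set_option linter.all false

section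

open scoped Classical

noncomputable section

namespace Vale.Agent.P114

universe u v

/-- A probability weight on a finite type. -/
structure FinProb (Ω : Type u) [Fintype Ω] where
  w : Ω → ℝ
  nonneg : ∀ ω, 0 ≤ w ω
  sum_one : ∑ ω, w ω = 1

namespace FinProb

variable {Ω : Type*} [Fintype Ω] (P : FinProb Ω) {α β γ δ : Type*}

/-- The probability that `f = a`. -/
def p (f : Ω → α) (a : α) : ℝ := ∑ ω, if f ω = a then P.w ω else 0

/-- Shannon entropy in nats. -/
def H (f : Ω → α) : ℝ := ∑ ω, P.w ω * (-Real.log (P.p f (f ω)))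

lemma p_nonneg (f : Ω → α) (a : α) : 0 ≤ P.p f a :=
  Finset.sum_nonneg fun ω _ => by split_ifs; exacts [P.nonneg ω, le_rfl]

lemma w_le_p (f : Ω → α) (ω : Ω) : P.w ω ≤ P.p f (f ω) := by
  unfold p
  have := Finset.single_le_sum (f := fun ω' => if f ω' = f ω then P.w ω' else 0)
    (s := Finset.univ) (fun i _ => by split_ifs; exacts [P.nonneg i, le_rfl])
    (Finset.mem_univ ω)
  simpa only [ge_iff_le, ↓reduceIte] using this

lemma w_le_one (ω : Ω) : P.w ω ≤ 1 := by
  rw [← P.sum_one]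
  exact Finset.single_le_sum (fun i _ => P.nonneg i) (Finset.mem_univ ω)

lemma p_le_one (f : Ω → α) (a : α) : P.p f a ≤ 1 := by
  rw [← P.sum_one]
  exact Finset.sum_le_sum fun ω _ => by split_ifs; exacts [le_rfl, P.nonneg ω]

lemma p_pos {ω : Ω} (h : 0 < P.w ω) (f : Ω → α) : 0 < P.p f (f ω) :=
  lt_of_lt_of_le h (P.w_le_p f ω)

lemma w_zero_or_pos (ω : Ω) : P.w ω = 0 ∨ 0 < P.w ω := by
  rcases (P.nonneg ω).eq_or_lt with h | h
  · exact Or.inl h.symm
  · exact Or.inr h

/-- `f` determines `g` on the support: probabilities of fibres are monotone. -/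
lemma p_mono_of_det {f : Ω → α} {g : Ω → β} (hfg : ∀ ω ω', f ω = f ω' → g ω = g ω') (ω : Ω) :
    P.p f (f ω) ≤ P.p g (g ω) := by
  unfold p
  refine Finset.sum_le_sum fun ω' _ => ?_
  by_cases h : f ω' = f ω
  · simp [h, hfg _ _ h]
  · simp only [h, if_false]
    split_ifs
    exacts [P.nonneg ω', le_rfl]

lemma H_nonneg (f : Ω → α) : 0 ≤ P.H f := by
  unfold H
  refine Finset.sum_nonneg fun ω _ => mul_nonneg (P.nonneg ω) ?_
  have := Real.log_nonpos (P.p_nonneg f (f ω)) (P.p_le_one f (f ω))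
  linarith only [this]

/-- If `f` determines `g` then `H g ≤ H f`. -/
lemma H_le_of_det {f : Ω → α} {g : Ω → β} (hfg : ∀ ω ω', f ω = f ω' → g ω = g ω') :
    P.H g ≤ P.H f := by
  unfold H
  refine Finset.sum_le_sum fun ω _ => ?_
  rcases P.w_zero_or_pos ω with h | h
  · simp [h]
  · refine mul_le_mul_of_nonneg_left ?_ h.le
    have := Real.log_le_log (P.p_pos h f) (P.p_mono_of_det hfg ω)
    linarith

lemma H_congr_det {f : Ω → α} {g : Ω → β} (hfg : ∀ ω ω', f ω = f ω' ↔ g ω = g ω') :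
    P.H g = P.H f :=
  le_antisymm (P.H_le_of_det fun ω ω' h => (hfg ω ω').1 h)
    (P.H_le_of_det fun ω ω' h => (hfg ω ω').2 h)

/-- Sum over fibres. -/
lemma sum_fiber [DecidableEq α] (f : Ω → α) (φ : α → ℝ) :
    ∑ ω, P.w ω * φ (f ω) = ∑ a ∈ Finset.univ.image f, P.p f a * φ a := by
  have h1 : ∀ a ∈ Finset.univ.image f, P.p f a * φ a
      = ∑ ω, if f ω = a then P.w ω * φ (f ω) else 0 := by
    intro a _
    unfold p
    rw [Finset.sum_mul]
    refine Finset.sum_congr rfl fun ω _ => ?_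
    by_cases h : f ω = a
    · simp [h]
    · simp [h]
  rw [Finset.sum_congr rfl h1, Finset.sum_comm]
  refine Finset.sum_congr rfl fun ω _ => ?_
  rw [Finset.sum_ite_eq]
  simp only [Finset.mem_image, Finset.mem_univ, true_and, exists_apply_eq_apply, ↓reduceIte]

lemma H_eq_sum [DecidableEq α] (f : Ω → α) :
    P.H f = ∑ a ∈ Finset.univ.image f, Real.negMulLog (P.p f a) := by
  unfold H
  rw [P.sum_fiber f (fun a => -Real.log (P.p f a))]
  refine Finset.sum_congr rfl fun a _ => ?_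
  simp [Real.negMulLog]

/-- The sum of the probabilities over any finset is at most one. -/
lemma sum_p_le_one (f : Ω → α) (s : Finset α) : ∑ a ∈ s, P.p f a ≤ 1 := by
  unfold p
  rw [Finset.sum_comm, ← P.sum_one]
  refine Finset.sum_le_sum fun ω _ => ?_
  rw [Finset.sum_ite_eq]
  split_ifs
  exacts [le_rfl, P.nonneg ω]

lemma sum_p_image [DecidableEq α] (f : Ω → α) : ∑ a ∈ Finset.univ.image f, P.p f a = 1 := by
  have := P.sum_fiber f (fun _ => 1)
  simp only [mul_one] at this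
  rw [← this, P.sum_one]

lemma sum_p_pair_left [DecidableEq α] (f : Ω → α) (h : Ω → γ) (c : γ) :
    ∑ a ∈ Finset.univ.image f, P.p (fun ω => (f ω, h ω)) (a, c) = P.p h c := by
  unfold p
  rw [Finset.sum_comm]
  refine Finset.sum_congr rfl fun ω _ => ?_
  by_cases hc : h ω = c
  · rw [Finset.sum_eq_single (f ω)]
    · simp [hc]
    · intro b _ hb
      simp [Ne.symm hb]
    · intro hb
      exact absurd (Finset.mem_image_of_mem f (Finset.mem_univ ω)) hb
  · have : ∀ a, ¬ ((f ω, h ω) = (a, c)) := by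
      intro a h'; exact hc (by simpa using (Prod.ext_iff.1 h').2)
    simp only [this, ↓reduceIte, Finset.sum_const_zero, hc]

/-- Gibbs' inequality. -/
lemma H_le_gibbs [DecidableEq α] (f : Ω → α) (q : α → ℝ) (hq : ∀ ω, 0 < P.w ω → 0 < q (f ω))
    (hs : ∑ a ∈ Finset.univ.image f, q a ≤ 1) (hq0 : ∀ a, 0 ≤ q a) :
    P.H f ≤ ∑ ω, P.w ω * (-Real.log (q (f ω))) := by
  have key : ∑ ω, P.w ω * (Real.log (q (f ω)) - Real.log (P.p f (f ω))) ≤ 0 := by
    have h1 : ∑ ω, P.w ω * (Real.log (q (f ω)) - Real.log (P.p f (f ω)))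
        ≤ ∑ ω, P.w ω * (q (f ω) / P.p f (f ω) - 1) := by
      refine Finset.sum_le_sum fun ω _ => ?_
      rcases P.w_zero_or_pos ω with h | h
      · simp [h]
      · refine mul_le_mul_of_nonneg_left ?_ h.le
        rw [← Real.log_div (hq ω h).ne' (P.p_pos h f).ne']
        exact Real.log_le_sub_one_of_pos (div_pos (hq ω h) (P.p_pos h f))
    have h2 : ∑ ω, P.w ω * (q (f ω) / P.p f (f ω) - 1)
        = ∑ ω, P.w ω * (q (f ω) / P.p f (f ω)) - 1 := by
      simp only [mul_sub, mul_one, Finset.sum_sub_distrib, P.sum_one]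
    have h3 : ∑ ω, P.w ω * (q (f ω) / P.p f (f ω)) ≤ ∑ a ∈ Finset.univ.image f, q a := by
      rw [P.sum_fiber f (fun a => q a / P.p f a)]
      refine Finset.sum_le_sum fun a _ => ?_
      rcases (P.p_nonneg f a).eq_or_lt with h | h
      · rw [← h]; simpa only [div_zero, mul_zero] using hq0 a
      · rw [mul_div_cancel₀ _ h.ne']
    linarith only [hs, h1, h2, h3]
  have : ∑ ω, P.w ω * (-Real.log (q (f ω))) - P.H f
      = -∑ ω, P.w ω * (Real.log (q (f ω)) - Real.log (P.p f (f ω))) := by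
    unfold H
    rw [← Finset.sum_sub_distrib, ← Finset.sum_neg_distrib]
    exact Finset.sum_congr rfl fun ω _ => by ring
  linarith only [key, this]

/-- Entropy is at most the log of the number of values. -/
lemma H_le_log_card (f : Ω → α) (s : Finset α) (hs : ∀ ω, f ω ∈ s) :
    P.H f ≤ Real.log s.card := by
  have hne : s.Nonempty := by
    by_contra h
    rw [Finset.not_nonempty_iff_eq_empty] at h
    have : IsEmpty Ω := ⟨fun ω => by simpa [h] using hs ω⟩
    have h1 := P.sum_one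
    simp at h1
  have hc : (0 : ℝ) < s.card := by exact_mod_cast hne.card_pos
  have := P.H_le_gibbs f (fun _ => (1 : ℝ) / s.card) (fun ω _ => by (clear * - hne; positivity)) (by
    rw [Finset.sum_const, nsmul_eq_mul]
    have : (Finset.univ.image f).card ≤ s.card :=
      Finset.card_le_card (by intro a ha; obtain ⟨ω, -, rfl⟩ := Finset.mem_image.1 ha; exact hs ω)
    have h2 : ((Finset.univ.image f).card : ℝ) ≤ s.card := by exact_mod_cast this
    rw [mul_one_div]
    exact (div_le_one hc).2 h2) (fun a => by positivity)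
  refine this.trans ?_
  rw [← Finset.sum_mul, P.sum_one]
  simp

/-- Strong subadditivity (submodularity). -/
lemma H_submod (f : Ω → α) (g : Ω → β) (h : Ω → γ) :
    P.H (fun ω => (f ω, g ω, h ω)) + P.H h
      ≤ P.H (fun ω => (f ω, h ω)) + P.H (fun ω => (g ω, h ω)) := by
  set A : α × γ → ℝ := P.p (fun ω => (f ω, h ω)) with hA
  set B : β × γ → ℝ := P.p (fun ω => (g ω, h ω)) with hB
  set C : α × β × γ → ℝ := P.p (fun ω => (f ω, g ω, h ω)) with hC
  set D : γ → ℝ := P.p h with hD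
  have hA0 : ∀ x, 0 ≤ A x := fun x => P.p_nonneg _ x
  have hB0 : ∀ x, 0 ≤ B x := fun x => P.p_nonneg _ x
  have hC0 : ∀ x, 0 ≤ C x := fun x => P.p_nonneg _ x
  have hD0 : ∀ x, 0 ≤ D x := fun x => P.p_nonneg _ x
  have key : ∑ ω, P.w ω * (Real.log (A (f ω, h ω)) + Real.log (B (g ω, h ω))
      - Real.log (C (f ω, g ω, h ω)) - Real.log (D (h ω))) ≤ 0 := by
    have h1 : ∀ ω, P.w ω * (Real.log (A (f ω, h ω)) + Real.log (B (g ω, h ω))
        - Real.log (C (f ω, g ω, h ω)) - Real.log (D (h ω)))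
        ≤ P.w ω * (A (f ω, h ω) * B (g ω, h ω) / (C (f ω, g ω, h ω) * D (h ω)) - 1) := by
      intro ω
      rcases P.w_zero_or_pos ω with hw | hw
      · simp only [hw, zero_mul, Std.le_refl]
      · refine mul_le_mul_of_nonneg_left ?_ hw.le
        have a0 : 0 < A (f ω, h ω) := P.p_pos hw (fun ω => (f ω, h ω))
        have b0 : 0 < B (g ω, h ω) := P.p_pos hw (fun ω => (g ω, h ω))
        have c0 : 0 < C (f ω, g ω, h ω) := P.p_pos hw (fun ω => (f ω, g ω, h ω))
        have d0 : 0 < D (h ω) := P.p_pos hw h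
        rw [← Real.log_mul a0.ne' b0.ne', ← Real.log_div (by (clear * - a0 b0; positivity)) c0.ne',
          ← Real.log_div (by (clear * - a0 b0 c0; positivity)) d0.ne', div_div]
        exact Real.log_le_sub_one_of_pos (by (clear * - a0 b0 c0 d0; positivity))
    have h2 : ∑ ω, P.w ω * (A (f ω, h ω) * B (g ω, h ω) / (C (f ω, g ω, h ω) * D (h ω)) - 1)
        = ∑ ω, P.w ω * (A (f ω, h ω) * B (g ω, h ω) / (C (f ω, g ω, h ω) * D (h ω))) - 1 := by
      simp only [mul_sub, mul_one, Finset.sum_sub_distrib, P.sum_one]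
    have h3 : ∑ ω, P.w ω * (A (f ω, h ω) * B (g ω, h ω) / (C (f ω, g ω, h ω) * D (h ω))) ≤ 1 := by
      have e1 := P.sum_fiber (fun ω => (f ω, g ω, h ω))
        (fun x : α × β × γ => A (x.1, x.2.2) * B (x.2.1, x.2.2) / (C x * D x.2.2))
      simp only at e1
      rw [e1]
      have e2 : ∑ x ∈ Finset.univ.image (fun ω => (f ω, g ω, h ω)),
          P.p (fun ω => (f ω, g ω, h ω)) x
            * (A (x.1, x.2.2) * B (x.2.1, x.2.2) / (C x * D x.2.2))
          ≤ ∑ x ∈ Finset.univ.image (fun ω => (f ω, g ω, h ω)),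
            A (x.1, x.2.2) * B (x.2.1, x.2.2) / D x.2.2 := by
        refine Finset.sum_le_sum fun x _ => ?_
        rw [← hC]
        rcases (hC0 x).eq_or_lt with hx | hx
        · rw [← hx, zero_mul]
          exact div_nonneg (mul_nonneg (hA0 _) (hB0 _)) (hD0 _)
        · rw [mul_comm (C x) (D x.2.2), ← div_div, mul_div_cancel₀ _ hx.ne']
      have e3 : ∑ x ∈ Finset.univ.image (fun ω => (f ω, g ω, h ω)),
            A (x.1, x.2.2) * B (x.2.1, x.2.2) / D x.2.2
          ≤ ∑ x ∈ (Finset.univ.image f) ×ˢ ((Finset.univ.image g) ×ˢ (Finset.univ.image h)),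
            A (x.1, x.2.2) * B (x.2.1, x.2.2) / D x.2.2 := by
        refine Finset.sum_le_sum_of_subset_of_nonneg ?_ ?_
        · intro x hx
          obtain ⟨ω, -, rfl⟩ := Finset.mem_image.1 hx
          simp only [Finset.mem_product, Finset.mem_image, Finset.mem_univ, true_and, exists_apply_eq_apply, and_self]
        · intro x _ _
          exact div_nonneg (mul_nonneg (hA0 _) (hB0 _)) (hD0 _)
      have e4 : ∑ x ∈ (Finset.univ.image f) ×ˢ ((Finset.univ.image g) ×ˢ (Finset.univ.image h)),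
            A (x.1, x.2.2) * B (x.2.1, x.2.2) / D x.2.2
          = ∑ c ∈ Finset.univ.image h, D c * D c / D c := by
        rw [Finset.sum_product]
        simp_rw [Finset.sum_product]
        have : ∀ a ∈ Finset.univ.image f, ∑ b ∈ Finset.univ.image g, ∑ c ∈ Finset.univ.image h,
            A (a, c) * B (b, c) / D c = ∑ c ∈ Finset.univ.image h, A (a, c) * D c / D c := by
          intro a _
          rw [Finset.sum_comm]
          refine Finset.sum_congr rfl fun c _ => ?_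
          rw [← Finset.sum_div, ← Finset.mul_sum, hB, P.sum_p_pair_left g h c]
        rw [Finset.sum_congr rfl this, Finset.sum_comm]
        refine Finset.sum_congr rfl fun c _ => ?_
        rw [← Finset.sum_div, ← Finset.sum_mul, hA, P.sum_p_pair_left f h c]
      have e5 : ∑ c ∈ Finset.univ.image h, D c * D c / D c = 1 := by
        rw [← P.sum_p_image h]
        refine Finset.sum_congr rfl fun c _ => ?_
        rcases (hD0 c).eq_or_lt with hx | hx
        · rw [← hD, ← hx]; simp only [mul_zero, div_zero]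
        · rw [mul_div_assoc, div_self hx.ne', mul_one]
      linarith only [e2, e3, e4, e5]
    have h4 := Finset.sum_le_sum (s := Finset.univ) fun ω _ => h1 ω
    linarith only [h2, h3, h4]
  have e : P.H (fun ω => (f ω, h ω)) + P.H (fun ω => (g ω, h ω))
      - P.H (fun ω => (f ω, g ω, h ω)) - P.H h
      = -∑ ω, P.w ω * (Real.log (A (f ω, h ω)) + Real.log (B (g ω, h ω))
      - Real.log (C (f ω, g ω, h ω)) - Real.log (D (h ω))) := by
    unfold H
    rw [← Finset.sum_add_distrib, ← Finset.sum_sub_distrib, ← Finset.sum_sub_distrib,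
      ← Finset.sum_neg_distrib]
    refine Finset.sum_congr rfl fun ω _ => ?_
    simp only [hA, hB, hC, hD]
    ring
  linarith only [key, e]

end FinProb

end Vale.Agent.P114
end
end

section

open scoped Classical

noncomputable section

namespace Vale.Agent.P114

namespace FinProb

variable {Ω : Type*} [Fintype Ω] (P : FinProb Ω) {α β γ δ : Type*}

lemma p_eq_zero_of_notMem {f : Ω → α} {a : α} (h : ∀ ω, f ω ≠ a) : P.p f a = 0 := by
  unfold p
  exact Finset.sum_eq_zero fun ω _ => by simp [h ω]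

/-- Entropy as a sum over any finset containing the range. -/
lemma H_eq_sum_of_subset [DecidableEq α] (f : Ω → α) (s : Finset α) (hs : ∀ ω, f ω ∈ s) :
    P.H f = ∑ a ∈ s, Real.negMulLog (P.p f a) := by
  rw [P.H_eq_sum]
  refine Finset.sum_subset ?_ ?_
  · intro a ha
    obtain ⟨ω, -, rfl⟩ := Finset.mem_image.1 ha
    exact hs ω
  · intro a _ ha
    rw [P.p_eq_zero_of_notMem, Real.negMulLog_zero]
    intro ω hω
    exact ha (hω ▸ Finset.mem_image_of_mem f (Finset.mem_univ ω))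

/-- Entropy depends only on the law. -/
lemma H_eq_of_law {Ω' : Type*} [Fintype Ω'] (Q : FinProb Ω') (f : Ω → α) (g : Ω' → α)
    (h : ∀ a, P.p f a = Q.p g a) : P.H f = Q.H g := by
  rw [P.H_eq_sum_of_subset f (Finset.univ.image f ∪ Finset.univ.image g)
    (fun ω => Finset.mem_union_left _ (Finset.mem_image_of_mem f (Finset.mem_univ ω))),
    Q.H_eq_sum_of_subset g (Finset.univ.image f ∪ Finset.univ.image g)
    (fun ω => Finset.mem_union_right _ (Finset.mem_image_of_mem g (Finset.mem_univ ω)))]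
  exact Finset.sum_congr rfl fun a _ => by rw [h a]

/-- If `φ` pushes `Q` to `P`, laws of compositions agree. -/
lemma p_comp_of_map {Ω' : Type*} [Fintype Ω'] (Q : FinProb Ω') (φ : Ω' → Ω)
    (hφ : ∀ ω, Q.p φ ω = P.w ω) (f : Ω → α) (a : α) :
    Q.p (fun x => f (φ x)) a = P.p f a := by
  unfold p
  have : ∀ ω, (if f ω = a then P.w ω else 0)
      = ∑ x, if φ x = ω then (if f ω = a then Q.w x else 0) else 0 := by
    intro ω
    by_cases h : f ω = a
    · simp only [h, if_true]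
      rw [← hφ ω]; rfl
    · simp only [h, ↓reduceIte, ite_self, Finset.sum_const_zero]
  rw [Finset.sum_congr rfl fun ω _ => this ω, Finset.sum_comm]
  refine Finset.sum_congr rfl fun x _ => ?_
  rw [Finset.sum_ite_eq]
  simp only [Finset.mem_univ, ↓reduceIte]

lemma H_comp_of_map {Ω' : Type*} [Fintype Ω'] (Q : FinProb Ω') (φ : Ω' → Ω)
    (hφ : ∀ ω, Q.p φ ω = P.w ω) (f : Ω → α) :
    Q.H (fun x => f (φ x)) = P.H f :=
  Q.H_eq_of_law P _ _ (P.p_comp_of_map Q φ hφ f)

/-- Sum of test functions under a push forward. -/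
lemma sum_comp_of_map {Ω' : Type*} [Fintype Ω'] (Q : FinProb Ω') (φ : Ω' → Ω)
    (hφ : ∀ ω, Q.p φ ω = P.w ω) (g : Ω → ℝ) :
    ∑ x, Q.w x * g (φ x) = ∑ ω, P.w ω * g ω := by
  have h1 : ∀ ω, P.w ω * g ω = ∑ x, if φ x = ω then Q.w x * g (φ x) else 0 := by
    intro ω
    rw [← hφ ω]
    unfold p
    rw [Finset.sum_mul]
    refine Finset.sum_congr rfl fun x _ => ?_
    by_cases h : φ x = ω
    · simp [h]
    · simp [h]
  rw [Finset.sum_congr rfl fun ω _ => h1 ω, Finset.sum_comm]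
  refine Finset.sum_congr rfl fun x _ => ?_
  rw [Finset.sum_ite_eq]
  simp only [Finset.mem_univ, ↓reduceIte]

/-- Product of two finite probability spaces. -/
def prod {Ω' : Type*} [Fintype Ω'] (Q : FinProb Ω') : FinProb (Ω × Ω') where
  w x := P.w x.1 * Q.w x.2
  nonneg x := mul_nonneg (P.nonneg _) (Q.nonneg _)
  sum_one := by
    rw [Fintype.sum_prod_type]
    simp_rw [← Finset.mul_sum, Q.sum_one, mul_one, P.sum_one]

/-- Two-stage probability space. -/
def sigma {J : Type*} [Fintype J] {Θ : J → Type*} [∀ j, Fintype (Θ j)] (c : FinProb J)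
    (Q : ∀ j, FinProb (Θ j)) : FinProb (Σ j, Θ j) where
  w x := c.w x.1 * (Q x.1).w x.2
  nonneg x := mul_nonneg (c.nonneg _) ((Q _).nonneg _)
  sum_one := by
    rw [Fintype.sum_sigma]
    simp_rw [← Finset.mul_sum, (Q _).sum_one, mul_one, c.sum_one]

/-- Finite i.i.d. power. -/
def pi (k : ℕ) : FinProb (Fin k → Ω) where
  w x := ∏ i, P.w (x i)
  nonneg x := Finset.prod_nonneg fun i _ => P.nonneg _
  sum_one := by
    have := Finset.prod_univ_sum (fun _ : Fin k => (Finset.univ : Finset Ω)) (fun _ a => P.w a)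
    simp only [P.sum_one, Finset.prod_const_one, Fintype.piFinset_univ] at this
    exact this.symm

@[simp] lemma prod_w {Ω' : Type*} [Fintype Ω'] (Q : FinProb Ω') (x : Ω × Ω') :
    (P.prod Q).w x = P.w x.1 * Q.w x.2 := rfl

@[simp] lemma pi_w (k : ℕ) (x : Fin k → Ω) : (P.pi k).w x = ∏ i, P.w (x i) := rfl

lemma sum_prod_w {Ω' : Type*} [Fintype Ω'] (Q : FinProb Ω') (g : Ω × Ω' → ℝ) :
    ∑ x, (P.prod Q).w x * g x = ∑ a, P.w a * ∑ b, Q.w b * g (a, b) := by
  rw [Fintype.sum_prod_type]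
  refine Finset.sum_congr rfl fun a _ => ?_
  rw [Finset.mul_sum]
  refine Finset.sum_congr rfl fun b _ => ?_
  simp [mul_assoc]

/-- The law of a function of the first coordinate. -/
lemma H_prod_fst {Ω' : Type*} [Fintype Ω'] (Q : FinProb Ω') (f : Ω → α) :
    (P.prod Q).H (fun x => f x.1) = P.H f := by
  refine P.H_comp_of_map (P.prod Q) Prod.fst ?_ f
  intro ω
  unfold p
  rw [Fintype.sum_prod_type, Finset.sum_eq_single ω]
  · simp only [prod_w, if_true]
    rw [← Finset.mul_sum, Q.sum_one, mul_one]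
  · intro b _ hb
    simp only [hb, ↓reduceIte, Finset.sum_const_zero]
  · simp only [Finset.mem_univ, not_true_eq_false, ↓reduceIte, prod_w, IsEmpty.forall_iff]

lemma H_prod_snd {Ω' : Type*} [Fintype Ω'] (Q : FinProb Ω') (f : Ω' → α) :
    (P.prod Q).H (fun x => f x.2) = Q.H f := by
  refine Q.H_comp_of_map (P.prod Q) Prod.snd ?_ f
  intro ω
  unfold p
  rw [Fintype.sum_prod_type_right, Finset.sum_eq_single ω]
  · simp only [prod_w, if_true]
    rw [← Finset.sum_mul, P.sum_one, one_mul]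
  · intro b _ hb
    simp only [hb, ↓reduceIte, Finset.sum_const_zero]
  · simp only [Finset.mem_univ, not_true_eq_false, ↓reduceIte, prod_w, IsEmpty.forall_iff]

/-- Chain rule for two-stage spaces. -/
lemma H_sigma_pair {J : Type*} [Fintype J] {Θ : J → Type*} [∀ j, Fintype (Θ j)] (c : FinProb J)
    (Q : ∀ j, FinProb (Θ j)) (f : (Σ j, Θ j) → α) :
    (c.sigma Q).H (fun x => (f x, x.1))
      = c.H (fun j => j) + ∑ j, c.w j * (Q j).H (fun ω => f ⟨j, ω⟩) := by
  have hp : ∀ (a : α) (j : J), (c.sigma Q).p (fun x => (f x, x.1)) (a, j)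
      = c.w j * (Q j).p (fun ω => f ⟨j, ω⟩) a := by
    intro a j
    unfold p
    rw [Fintype.sum_sigma, Finset.sum_eq_single j]
    · rw [Finset.mul_sum]
      refine Finset.sum_congr rfl fun ω _ => ?_
      by_cases h : f ⟨j, ω⟩ = a
      · simp [h, sigma]
      · simp [h]
    · intro b _ hb
      refine Finset.sum_eq_zero fun ω _ => ?_
      simp [hb]
    · simp only [Finset.mem_univ, not_true_eq_false, Prod.mk.injEq, and_true, IsEmpty.forall_iff]
  have hc : ∀ j : J, c.p (fun j => j) j = c.w j := by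
    intro j
    unfold p
    rw [Finset.sum_ite_eq']
    simp only [Finset.mem_univ, ↓reduceIte]
  unfold H
  rw [Fintype.sum_sigma, ← Finset.sum_add_distrib]
  refine Finset.sum_congr rfl fun j _ => ?_
  rcases c.w_zero_or_pos j with hj | hj
  · simp only [sigma, hj, zero_mul, mul_neg, neg_zero, Finset.sum_const_zero, Finset.sum_neg_distrib, add_zero]
  rw [hc j]
  have h1 : ∀ ω : Θ j, (c.sigma Q).w ⟨j, ω⟩ * -Real.log ((c.sigma Q).p (fun x => (f x, x.1))
      (f ⟨j, ω⟩, j)) = c.w j * ((Q j).w ω * -Real.log (c.w j))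
        + c.w j * ((Q j).w ω * -Real.log ((Q j).p (fun ω => f ⟨j, ω⟩) (f ⟨j, ω⟩))) := by
    intro ω
    rw [hp]
    rcases (Q j).w_zero_or_pos ω with hw | hw
    · simp only [sigma, hw, mul_zero, mul_neg, zero_mul, neg_zero, add_zero]
    · have h2 := (Q j).p_pos hw (fun ω => f ⟨j, ω⟩)
      rw [Real.log_mul hj.ne' h2.ne']
      simp only [sigma]
      ring
  rw [Finset.sum_congr rfl fun ω _ => h1 ω, Finset.sum_add_distrib, ← Finset.mul_sum,
    ← Finset.sum_mul, (Q j).sum_one, ← Finset.mul_sum, one_mul]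

/-- Conditioning reduces entropy differences (two-stage spaces). -/
lemma sigma_cond_le {J : Type*} [Fintype J] {Θ : J → Type*} [∀ j, Fintype (Θ j)] (c : FinProb J)
    (Q : ∀ j, FinProb (Θ j)) (f : (Σ j, Θ j) → α) (g : (Σ j, Θ j) → β)
    (hfg : ∀ x y, f x = f y → g x = g y) :
    ∑ j, c.w j * ((Q j).H (fun ω => f ⟨j, ω⟩) - (Q j).H (fun ω => g ⟨j, ω⟩))
      ≤ (c.sigma Q).H f - (c.sigma Q).H g := by
  have h1 := (c.sigma Q).H_submod f (fun x => x.1) g
  have h2 := H_sigma_pair c Q f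
  have h3 := H_sigma_pair c Q g
  have h4 : (c.sigma Q).H (fun ω => (f ω, g ω)) = (c.sigma Q).H f :=
    (c.sigma Q).H_congr_det fun x y => by
      constructor
      · intro h; simp [h, hfg _ _ h]
      · intro h; exact (Prod.ext_iff.1 h).1
  have h5 : (c.sigma Q).H (fun ω => (f ω, ω.1, g ω)) = (c.sigma Q).H (fun x => (f x, x.1)) :=
    (c.sigma Q).H_congr_det fun x y => by
      constructor
      · intro h
        have h' := Prod.ext_iff.1 h
        simp only at h'
        simp [h'.1, h'.2, hfg _ _ h'.1]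
      · intro h
        simp only [Prod.mk.injEq] at h ⊢
        exact ⟨h.1, h.2.1⟩
  have h6 : (c.sigma Q).H (fun ω => (ω.1, g ω)) = (c.sigma Q).H (fun x => (g x, x.1)) :=
    (c.sigma Q).H_congr_det fun x y => by
      simp only [Prod.mk.injEq]
      (clear * -; tauto)
  have h7 : ∑ j, c.w j * ((Q j).H (fun ω => f ⟨j, ω⟩) - (Q j).H (fun ω => g ⟨j, ω⟩))
      = ∑ j, c.w j * (Q j).H (fun ω => f ⟨j, ω⟩)
        - ∑ j, c.w j * (Q j).H (fun ω => g ⟨j, ω⟩) := by
    rw [← Finset.sum_sub_distrib]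
    exact Finset.sum_congr rfl fun j _ => by ring
  rw [h7]
  linarith only [h1, h2, h3, h4, h5, h6]

/-- The product space is a special two-stage space. -/
lemma H_prod_eq_sigma {Ω' : Type*} [Fintype Ω'] (Q : FinProb Ω') (f : Ω × Ω' → α) :
    (P.prod Q).H f = (P.sigma fun _ => Q).H (fun x => f (x.1, x.2)) := by
  symm
  refine (P.prod Q).H_comp_of_map (P.sigma fun _ => Q) (fun x => (x.1, x.2)) ?_ f
  intro ω
  unfold p
  rw [Fintype.sum_sigma, Finset.sum_eq_single ω.1]
  · rw [Finset.sum_eq_single ω.2]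
    · simp [sigma]
    · intro b _ hb
      have : ¬ ((ω.1, b) = ω) := fun h => hb (by rw [← h])
      simp [this]
    · simp only [Finset.mem_univ, not_true_eq_false, Prod.mk.eta, ↓reduceIte, IsEmpty.forall_iff]
  · intro b _ hb
    refine Finset.sum_eq_zero fun x _ => ?_
    have : ¬ ((b, x) = ω) := fun h => hb (by rw [← h])
    simp [this]
  · simp only [Finset.mem_univ, not_true_eq_false, IsEmpty.forall_iff]

lemma prod_cond_le {Ω' : Type*} [Fintype Ω'] (Q : FinProb Ω') (f : Ω × Ω' → α)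
    (g : Ω × Ω' → β) (hfg : ∀ x y, f x = f y → g x = g y) :
    ∑ a, P.w a * (Q.H (fun b => f (a, b)) - Q.H (fun b => g (a, b)))
      ≤ (P.prod Q).H f - (P.prod Q).H g := by
  rw [P.H_prod_eq_sigma, P.H_prod_eq_sigma]
  exact sigma_cond_le P (fun _ => Q) (fun x => f (x.1, x.2)) (fun x => g (x.1, x.2))
    fun x y h => hfg _ _ h

/-- In a product space, entropy is at least the average of the entropies of the sections. -/
lemma prod_sections_le {Ω' : Type*} [Fintype Ω'] (Q : FinProb Ω') (f : Ω × Ω' → α) :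
    ∑ a, P.w a * Q.H (fun b => f (a, b)) ≤ (P.prod Q).H f := by
  have h := P.prod_cond_le Q f (fun _ => ()) (fun _ _ _ => rfl)
  have h0 : (P.prod Q).H (fun _ : Ω × Ω' => ()) = 0 := by
    unfold H
    have : ∀ ω : Ω × Ω', (P.prod Q).p (fun _ : Ω × Ω' => ()) () = 1 := by
      intro _
      unfold p
      simp only [if_true]
      exact (P.prod Q).sum_one
    refine Finset.sum_eq_zero fun ω _ => ?_
    rw [this ω]; simp
  have h1 : Q.H (fun _ : Ω' => ()) = 0 := by
    unfold H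
    have : Q.p (fun _ : Ω' => ()) () = 1 := by
      unfold p
      simp only [↓reduceIte, Q.sum_one]
    refine Finset.sum_eq_zero fun ω _ => ?_
    rw [this]; simp
  simp only [h0, h1, sub_zero] at h
  exact h

/-- Joint entropy of independent variables. -/
lemma H_prod_pair {Ω' : Type*} [Fintype Ω'] (Q : FinProb Ω') (f : Ω → α) (g : Ω' → β) :
    (P.prod Q).H (fun x => (f x.1, g x.2)) = P.H f + Q.H g := by
  have hp : ∀ (a : α) (b : β), (P.prod Q).p (fun x => (f x.1, g x.2)) (a, b)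
      = P.p f a * Q.p g b := by
    intro a b
    unfold p
    rw [Fintype.sum_prod_type, Finset.sum_mul]
    refine Finset.sum_congr rfl fun x _ => ?_
    by_cases h : f x = a
    · simp only [h, if_true, Finset.mul_sum]
      refine Finset.sum_congr rfl fun y _ => ?_
      by_cases h' : g y = b
      · simp [h']
      · simp [h']
    · simp only [Prod.mk.injEq, h, false_and, ↓reduceIte, Finset.sum_const_zero, zero_mul]
  unfold H
  have h1 : ∀ x : Ω × Ω', (P.prod Q).w x * -Real.log ((P.prod Q).p (fun x => (f x.1, g x.2))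
      (f x.1, g x.2)) = (P.w x.1 * -Real.log (P.p f (f x.1))) * Q.w x.2
        + P.w x.1 * (Q.w x.2 * -Real.log (Q.p g (g x.2))) := by
    intro x
    rw [hp]
    rcases P.w_zero_or_pos x.1 with h | h
    · simp [h]
    rcases Q.w_zero_or_pos x.2 with h' | h'
    · simp only [prod_w, h', mul_zero, mul_neg, zero_mul, neg_zero, add_zero]
    rw [Real.log_mul (P.p_pos h f).ne' (Q.p_pos h' g).ne']
    simp only [prod_w]
    ring
  rw [Finset.sum_congr rfl fun x _ => h1 x, Finset.sum_add_distrib, Fintype.sum_prod_type,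
    Fintype.sum_prod_type]
  congr 1
  · refine Finset.sum_congr rfl fun a _ => ?_
    simp only
    rw [← Finset.mul_sum, Q.sum_one, mul_one]
  · simp only
    simp_rw [← Finset.mul_sum]
    rw [← Finset.sum_mul, P.sum_one, one_mul]

/-- If given `g` the variable `f` takes at most `K` values then `H f ≤ H g + log K`. -/
lemma H_le_add_log_card [DecidableEq α] (f : Ω → α) (g : Ω → β) (S : β → Finset α) (K : ℕ)
    (hS : ∀ ω, f ω ∈ S (g ω)) (hK : ∀ b, (S b).card ≤ K) :
    P.H f ≤ P.H g + Real.log K := by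
  classical
  have hK0 : (0 : ℝ) < K := by
    have hne : Nonempty Ω := by
      by_contra h
      rw [not_nonempty_iff] at h
      have h1 := P.sum_one
      simp at h1
    obtain ⟨ω⟩ := hne
    have h1 : 0 < (S (g ω)).card := Finset.card_pos.2 ⟨_, hS ω⟩
    exact_mod_cast lt_of_lt_of_le h1 (hK _)
  have h1 : P.H f ≤ P.H (fun ω => (f ω, g ω)) :=
    P.H_le_of_det fun ω ω' h => (Prod.ext_iff.1 h).1
  have h2 := P.H_le_gibbs (fun ω => (f ω, g ω))
    (fun x => if x.1 ∈ S x.2 then P.p g x.2 / K else 0)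
    (fun ω hω => by
      simp only [hS ω, if_true]
      exact div_pos (P.p_pos hω g) hK0)
    (by
      have hsub : Finset.univ.image (fun ω => (f ω, g ω))
          ⊆ (Finset.univ.image f) ×ˢ (Finset.univ.image g) := by
        intro x hx
        obtain ⟨ω, -, rfl⟩ := Finset.mem_image.1 hx
        simp only [Finset.mem_product, Finset.mem_image, Finset.mem_univ, true_and, exists_apply_eq_apply, and_self]
      have hmono : ∑ x ∈ Finset.univ.image (fun ω => (f ω, g ω)),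
          (if x.1 ∈ S x.2 then P.p g x.2 / (K : ℝ) else 0)
          ≤ ∑ x ∈ (Finset.univ.image f) ×ˢ (Finset.univ.image g),
          (if x.1 ∈ S x.2 then P.p g x.2 / (K : ℝ) else 0) := by
        refine Finset.sum_le_sum_of_subset_of_nonneg hsub ?_
        intro x _ _
        split_ifs
        exacts [div_nonneg (P.p_nonneg _ _) hK0.le, le_rfl]
      refine le_trans hmono ?_
      rw [Finset.sum_product_right, ← P.sum_p_image g]
      refine Finset.sum_le_sum fun b _ => ?_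
      simp only
      rw [← Finset.sum_filter, Finset.sum_const, nsmul_eq_mul]
      have : ((Finset.univ.image f).filter fun a => a ∈ S b).card ≤ K :=
        (Finset.card_le_card (by intro a ha; exact (Finset.mem_filter.1 ha).2)).trans (hK b)
      have h3 : ((((Finset.univ.image f).filter fun a => a ∈ S b).card : ℕ) : ℝ) ≤ K := by
        exact_mod_cast this
      have h5 : (K : ℝ) * (P.p g b / K) = P.p g b := by (clear * - hK0; field_simp)
      exact (mul_le_mul_of_nonneg_right h3 (div_nonneg (P.p_nonneg _ _) hK0.le)).trans_eq h5)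
    (fun x => by
      split_ifs
      exacts [div_nonneg (P.p_nonneg _ _) hK0.le, le_rfl])
  refine h1.trans (h2.trans ?_)
  unfold H
  have h4 : ∀ ω, P.w ω * -Real.log (if f ω ∈ S (g ω) then P.p g (g ω) / K else 0)
      = P.w ω * -Real.log (P.p g (g ω)) + P.w ω * Real.log K := by
    intro ω
    rcases P.w_zero_or_pos ω with h | h
    · simp only [h, mul_neg, zero_mul, neg_zero, add_zero]
    · rw [if_pos (hS ω), Real.log_div (P.p_pos h g).ne' hK0.ne']
      ring
  simp only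
  rw [Finset.sum_congr rfl fun ω _ => h4 ω, Finset.sum_add_distrib, ← Finset.sum_mul, P.sum_one,
    one_mul]

/-- Min-entropy bound. -/
lemma neg_log_le_H (f : Ω → α) (B : ℝ) (hB : ∀ a, P.p f a ≤ B) : -Real.log B ≤ P.H f := by
  unfold H
  have : -Real.log B = ∑ ω, P.w ω * (-Real.log B) := by
    rw [← Finset.sum_mul, P.sum_one, one_mul]
  rw [this]
  refine Finset.sum_le_sum fun ω _ => ?_
  rcases P.w_zero_or_pos ω with h | h
  · simp [h]
  · refine mul_le_mul_of_nonneg_left ?_ h.le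
    have := Real.log_le_log (P.p_pos h f) (hB (f ω))
    linarith

/-- Kaimanovich-Vershik / Madiman submodularity for independent integer variables. -/
lemma H_add_submod {Ω₁ Ω₂ Ω₃ : Type*} [Fintype Ω₁] [Fintype Ω₂] [Fintype Ω₃]
    (P₁ : FinProb Ω₁) (P₂ : FinProb Ω₂) (P₃ : FinProb Ω₃) (U : Ω₁ → ℤ) (Z : Ω₂ → ℤ)
    (Y : Ω₃ → ℤ) :
    (P₁.prod (P₂.prod P₃)).H (fun x => U x.1 + (Z x.2.1 + Y x.2.2)) + P₃.H Y
      ≤ (P₂.prod P₃).H (fun x => Z x.1 + Y x.2) + (P₁.prod P₃).H (fun x => U x.1 + Y x.2) := by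
  set R := P₁.prod (P₂.prod P₃) with hR
  have h1 := R.H_submod (fun x => U x.1) (fun x => (U x.1 + Y x.2.2, Z x.2.1))
    (fun x => U x.1 + (Z x.2.1 + Y x.2.2))
  -- joint entropies
  have e1 : R.H (fun ω => (U ω.1, (U ω.1 + Y ω.2.2, Z ω.2.1), U ω.1 + (Z ω.2.1 + Y ω.2.2)))
      = P₁.H U + (P₂.H Z + P₃.H Y) := by
    have : R.H (fun ω => (U ω.1, (U ω.1 + Y ω.2.2, Z ω.2.1), U ω.1 + (Z ω.2.1 + Y ω.2.2)))
        = R.H (fun x => (U x.1, (fun y : Ω₂ × Ω₃ => (Z y.1, Y y.2)) x.2)) :=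
      R.H_congr_det fun x y => by
        simp only [Prod.mk.injEq]
        constructor
        · rintro ⟨h1, h2, h3⟩
          refine ⟨h1, ⟨by rw [h1, h3], h2⟩, by rw [h1, h2, h3]⟩
        · rintro ⟨h1, ⟨h2, h3⟩, h4⟩
          refine ⟨h1, h3, by linarith only [h1, h2]⟩
    rw [this, H_prod_pair P₁ (P₂.prod P₃) U (fun y : Ω₂ × Ω₃ => (Z y.1, Y y.2)),
      H_prod_pair P₂ P₃ Z Y]
  have e2 : R.H (fun ω => (U ω.1, U ω.1 + (Z ω.2.1 + Y ω.2.2)))
      = P₁.H U + (P₂.prod P₃).H (fun x => Z x.1 + Y x.2) := by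
    have : R.H (fun ω => (U ω.1, U ω.1 + (Z ω.2.1 + Y ω.2.2)))
        = R.H (fun x => (U x.1, (fun y : Ω₂ × Ω₃ => Z y.1 + Y y.2) x.2)) :=
      R.H_congr_det fun x y => by
        simp only [Prod.mk.injEq]
        constructor
        · rintro ⟨h1, h2⟩
          exact ⟨h1, by rw [h1, h2]⟩
        · rintro ⟨h1, h2⟩
          exact ⟨h1, by linarith⟩
    rw [this, H_prod_pair P₁ (P₂.prod P₃) U (fun y : Ω₂ × Ω₃ => Z y.1 + Y y.2)]
  have e3 : R.H (fun ω => ((U ω.1 + Y ω.2.2, Z ω.2.1), U ω.1 + (Z ω.2.1 + Y ω.2.2)))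
      = P₂.H Z + (P₁.prod P₃).H (fun x => U x.1 + Y x.2) := by
    have h : R.H (fun ω => ((U ω.1 + Y ω.2.2, Z ω.2.1), U ω.1 + (Z ω.2.1 + Y ω.2.2)))
        = R.H (fun ω => (Z ω.2.1, U ω.1 + Y ω.2.2)) :=
      R.H_congr_det fun x y => by
        simp only [Prod.mk.injEq]
        constructor
        · rintro ⟨h1, h2⟩
          exact ⟨⟨h2, h1⟩, by linarith only [h1, h2]⟩
        · rintro ⟨⟨h1, h2⟩, h3⟩
          exact ⟨h2, h1⟩
    rw [h, ← H_prod_pair P₂ (P₁.prod P₃) Z (fun x => U x.1 + Y x.2)]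
    refine (P₂.prod (P₁.prod P₃)).H_comp_of_map R (fun x => (x.2.1, (x.1, x.2.2))) ?_
      (fun x => (Z x.1, U x.2.1 + Y x.2.2))
    intro ω
    unfold p
    rw [Finset.sum_eq_single (ω.2.1, (ω.1, ω.2.2))]
    · simp only [hR, prod_w, if_true]; ring
    · intro b _ hb
      rw [if_neg]
      intro h
      apply hb
      rw [← h]
    · simp only [Finset.mem_univ, not_true_eq_false, Prod.mk.eta, ↓reduceIte, IsEmpty.forall_iff]
  rw [e1, e2, e3] at h1
  linarith only [h1]

end FinProb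

end Vale.Agent.P114
end
end

section

open scoped Classical

noncomputable section

namespace Vale.Agent.P114

namespace FinProb

variable {Ω : Type*} [Fintype Ω] (P : FinProb Ω) {α β γ δ : Type*}

/-- Push forward under a weight preserving bijection. -/
lemma p_equiv {Ω' : Type*} [Fintype Ω'] (Q : FinProb Ω') (e : Ω' ≃ Ω)
    (he : ∀ x, Q.w x = P.w (e x)) (ω : Ω) : Q.p e ω = P.w ω := by
  unfold p
  rw [Finset.sum_eq_single (e.symm ω)]
  · simp [he]
  · intro b _ hb
    rw [if_neg]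
    intro h
    exact hb (by rw [← h]; simp)
  · simp only [Finset.mem_univ, not_true_eq_false, Equiv.apply_symm_apply, ↓reduceIte, IsEmpty.forall_iff]

lemma H_equiv {Ω' : Type*} [Fintype Ω'] (Q : FinProb Ω') (e : Ω' ≃ Ω)
    (he : ∀ x, Q.w x = P.w (e x)) (f : Ω → α) : Q.H (fun x => f (e x)) = P.H f :=
  P.H_comp_of_map Q e (P.p_equiv Q e he) f

lemma H_pi_add (m n : ℕ) (f : (Fin (m + n) → Ω) → α) :
    ((P.pi m).prod (P.pi n)).H (fun x => f (Fin.append x.1 x.2)) = (P.pi (m + n)).H f := by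
  refine (P.pi (m + n)).H_equiv ((P.pi m).prod (P.pi n)) (Fin.appendEquiv m n) ?_ f
  intro x
  simp only [prod_w, pi_w, Fin.appendEquiv, Equiv.coe_fn_mk]
  rw [Fin.prod_univ_add]
  simp only [Fin.append_left, Fin.append_right]

lemma H_pi_succ (n : ℕ) (f : (Fin (n + 1) → Ω) → α) :
    (P.prod (P.pi n)).H (fun x => f (Fin.cons x.1 x.2)) = (P.pi (n + 1)).H f := by
  refine (P.pi (n + 1)).H_equiv (P.prod (P.pi n)) (Fin.consEquiv (fun _ => Ω)) ?_ f
  intro x
  simp only [prod_w, pi_w, Fin.consEquiv, Equiv.coe_fn_mk]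
  rw [Fin.prod_univ_succ]
  simp only [Fin.cons_zero, Fin.cons_succ]

end FinProb

variable {Λ : Type*}

/-- Slope of a word. -/
def slL (r : Λ → ℝ) : List Λ → ℝ
  | [] => 1
  | i :: w => r i * slL r w

/-- Translation part `φ_w(0)` of a word. -/
def trL (r t : Λ → ℝ) : List Λ → ℝ
  | [] => 0
  | i :: w => t i + r i * trL r t w

/-- Coefficient of `t i` in the translation part of a word. -/
def coefL (r : Λ → ℝ) : List Λ → Λ → ℝ
  | [], _ => 0
  | j :: w, i => (if j = i then 1 else 0) + r j * coefL r w i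

/-- Slope of a word of length `n`. -/
def sl (r : Λ → ℝ) {n : ℕ} (w : Fin n → Λ) : ℝ := slL r (List.ofFn w)

/-- Translation part of a word of length `n`. -/
def tr (r t : Λ → ℝ) {n : ℕ} (w : Fin n → Λ) : ℝ := trL r t (List.ofFn w)

lemma slL_append (r : Λ → ℝ) (u v : List Λ) : slL r (u ++ v) = slL r u * slL r v := by
  induction u with
  | nil => simp only [List.nil_append, slL, one_mul]
  | cons i u ih => simp [slL, ih, mul_assoc]

lemma trL_append (r t : Λ → ℝ) (u v : List Λ) :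
    trL r t (u ++ v) = trL r t u + slL r u * trL r t v := by
  induction u with
  | nil => simp only [List.nil_append, trL, slL, one_mul, zero_add]
  | cons i u ih => simp only [List.cons_append, trL, slL, ih]; ring

lemma slL_eq_prod (r : Λ → ℝ) (u : List Λ) : slL r u = (u.map r).prod := by
  induction u with
  | nil => simp only [slL, List.map_nil, List.prod_nil]
  | cons i u ih => simp only [slL, ih, List.map_cons, List.prod_cons]

lemma sl_eq_prod (r : Λ → ℝ) {n : ℕ} (w : Fin n → Λ) : sl r w = ∏ k, r (w k) := by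
  unfold sl
  rw [slL_eq_prod, List.map_ofFn, List.prod_ofFn]
  rfl

@[simp] lemma sl_zero (r : Λ → ℝ) (w : Fin 0 → Λ) : sl r w = 1 := by
  simp [sl, slL]

@[simp] lemma tr_zero (r t : Λ → ℝ) (w : Fin 0 → Λ) : tr r t w = 0 := by
  simp [tr, trL]

lemma sl_cons (r : Λ → ℝ) {n : ℕ} (i : Λ) (w : Fin n → Λ) :
    sl r (Fin.cons i w : Fin (n + 1) → Λ) = r i * sl r w := by
  simp [sl, List.ofFn_succ, slL]

lemma tr_cons (r t : Λ → ℝ) {n : ℕ} (i : Λ) (w : Fin n → Λ) :
    tr r t (Fin.cons i w : Fin (n + 1) → Λ) = t i + r i * tr r t w := by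
  simp [tr, List.ofFn_succ, trL]

lemma sl_append (r : Λ → ℝ) {m n : ℕ} (u : Fin m → Λ) (v : Fin n → Λ) :
    sl r (Fin.append u v) = sl r u * sl r v := by
  simp only [sl, List.ofFn_fin_append, slL_append]

lemma tr_append (r t : Λ → ℝ) {m n : ℕ} (u : Fin m → Λ) (v : Fin n → Λ) :
    tr r t (Fin.append u v) = tr r t u + sl r u * tr r t v := by
  simp only [tr, sl, List.ofFn_fin_append, trL_append]

lemma trL_eq_sum [Fintype Λ] (r t : Λ → ℝ) (u : List Λ) :
    trL r t u = ∑ i, coefL r u i * t i := by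
  induction u with
  | nil => simp only [trL, coefL, zero_mul, Finset.sum_const_zero]
  | cons j u ih =>
    simp only [trL, coefL, ih, add_mul, Finset.sum_add_distrib, ite_mul, one_mul, zero_mul,
      Finset.sum_ite_eq, Finset.mem_univ, if_true, Finset.mul_sum, mul_assoc]

/-- Real numbers occurring as coefficients of difference forms of words of length `≤ n`. -/
def Ent (r : Λ → ℝ) (n : ℕ) : Set ℝ :=
  {x | ∃ u v : List Λ, u.length ≤ n ∧ v.length ≤ n ∧ ∃ i, x = coefL r u i - coefL r v i}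

end Vale.Agent.P114
end
end

section

open scoped Classical

noncomputable section

namespace Vale.Agent.P114

namespace FinProb

variable {Ω : Type*} [Fintype Ω] (P : FinProb Ω) {α β γ δ : Type*}

lemma sum_pi_succ (k : ℕ) (f : (Fin (k + 1) → Ω) → ℝ) :
    ∑ x, (P.pi (k + 1)).w x * f x
      = ∑ a, P.w a * ∑ x, (P.pi k).w x * f (Fin.cons a x) := by
  have h := (P.pi (k + 1)).sum_comp_of_map (P.prod (P.pi k)) (Fin.consEquiv (fun _ => Ω))
    ((P.pi (k + 1)).p_equiv (P.prod (P.pi k)) (Fin.consEquiv (fun _ => Ω)) (by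
      intro x
      simp only [prod_w, pi_w, Fin.consEquiv, Equiv.coe_fn_mk]
      rw [Fin.prod_univ_succ]
      simp only [Fin.cons_zero, Fin.cons_succ])) f
  rw [← h, P.sum_prod_w]
  rfl

/-- Second moment of a sum of independent centred variables. -/
lemma second_moment (k : ℕ) (g : Fin k → Ω → ℝ) (hg : ∀ i, ∑ ω, P.w ω * g i ω = 0) :
    ∑ x, (P.pi k).w x * (∑ i, g i (x i)) ^ 2 = ∑ i, ∑ ω, P.w ω * (g i ω) ^ 2 := by
  induction k with
  | zero => simp only [Finset.univ_unique, pi_w, Finset.univ_eq_empty, Finset.prod_empty, Finset.sum_empty, ne_eq, OfNat.ofNat_ne_zero, not_false_eq_true, zero_pow, mul_zero, Finset.sum_const_zero]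
  | succ k ih =>
    rw [P.sum_pi_succ]
    have hmean : ∀ (j : ℕ) (g : Fin j → Ω → ℝ), (∀ i, ∑ ω, P.w ω * g i ω = 0) →
        ∑ x, (P.pi j).w x * (∑ i, g i (x i)) = 0 := by
      intro j
      induction j with
      | zero => intro g _; simp only [Finset.univ_unique, pi_w, Finset.univ_eq_empty, Finset.prod_empty, Finset.sum_empty, mul_zero, Finset.sum_const_zero]
      | succ j ihj =>
        intro g hg
        rw [P.sum_pi_succ]
        have : ∀ a, ∑ x, (P.pi j).w x * ∑ i, g i ((Fin.cons a x : Fin (j + 1) → Ω) i)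
            = g 0 a := by
          intro a
          simp only [Fin.sum_univ_succ, Fin.cons_zero, Fin.cons_succ, mul_add,
            Finset.sum_add_distrib]
          rw [← Finset.sum_mul, (P.pi j).sum_one, ihj (fun i => g i.succ) (fun i => hg _)]
          ring
        simp only [this]
        exact hg 0
    have h1 : ∀ a, ∑ x, (P.pi k).w x * (∑ i, g i ((Fin.cons a x : Fin (k + 1) → Ω) i)) ^ 2
        = (g 0 a) ^ 2 + ∑ i : Fin k, ∑ ω, P.w ω * (g i.succ ω) ^ 2 := by
      intro a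
      rw [← ih (fun i => g i.succ) (fun i => hg _)]
      have h2 : ∀ x : Fin k → Ω, (P.pi k).w x
          * (∑ i, g i ((Fin.cons a x : Fin (k + 1) → Ω) i)) ^ 2
          = (P.pi k).w x * (g 0 a) ^ 2
            + 2 * g 0 a * ((P.pi k).w x * (∑ i : Fin k, g i.succ (x i)))
            + (P.pi k).w x * (∑ i : Fin k, g i.succ (x i)) ^ 2 := by
        intro x
        simp only [Fin.sum_univ_succ, Fin.cons_zero, Fin.cons_succ]
        ring
      rw [Finset.sum_congr rfl fun x _ => h2 x, Finset.sum_add_distrib, Finset.sum_add_distrib,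
        ← Finset.sum_mul, (P.pi k).sum_one, ← Finset.mul_sum,
        hmean k (fun i => g i.succ) (fun i => hg _)]
      ring
    simp only [h1, mul_add, Finset.sum_add_distrib]
    rw [← Finset.sum_mul, P.sum_one, one_mul, Fin.sum_univ_succ (fun i => ∑ ω, P.w ω * (g i ω) ^ 2)]

/-- Cauchy-Schwarz: first absolute moment. -/
lemma abs_moment_le (X : Ω → ℝ) (B : ℝ) (hB0 : 0 ≤ B) (hB : ∑ ω, P.w ω * X ω ^ 2 ≤ B ^ 2) :
    ∑ ω, P.w ω * |X ω| ≤ B := by
  have h : (∑ ω, P.w ω * |X ω|) ^ 2 ≤ (∑ ω, P.w ω) * ∑ ω, P.w ω * |X ω| ^ 2 := by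
    have := Finset.sum_mul_sq_le_sq_mul_sq Finset.univ (fun ω => Real.sqrt (P.w ω))
      (fun ω => Real.sqrt (P.w ω) * |X ω|)
    have e1 : ∀ ω, Real.sqrt (P.w ω) * (Real.sqrt (P.w ω) * |X ω|) = P.w ω * |X ω| := by
      intro ω
      rw [← mul_assoc, Real.mul_self_sqrt (P.nonneg ω)]
    have e2 : ∀ ω, Real.sqrt (P.w ω) ^ 2 = P.w ω := fun ω => Real.sq_sqrt (P.nonneg ω)
    have e3 : ∀ ω, (Real.sqrt (P.w ω) * |X ω|) ^ 2 = P.w ω * |X ω| ^ 2 := by
      intro ω
      rw [mul_pow, e2]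
    simpa only [e1, e2, e3] using this
  rw [P.sum_one, one_mul] at h
  simp only [sq_abs] at h
  have h0 : 0 ≤ ∑ ω, P.w ω * |X ω| :=
    Finset.sum_nonneg fun ω _ => mul_nonneg (P.nonneg ω) (abs_nonneg _)
  nlinarith only [h, hB, hB0]

/-- Iterated Kaimanovich-Vershik inequality. -/
lemma H_pi_add_le {A B : Type*} [Fintype A] [Fintype B] (PA : FinProb A) (PB : FinProb B)
    (U : A → ℤ) (Y : B → ℤ) (k : ℕ) :
    ((PA.pi k).prod PB).H (fun x => ∑ i, U (x.1 i) + Y x.2)
      ≤ PB.H Y + k * ((PA.prod PB).H (fun x => U x.1 + Y x.2) - PB.H Y) := by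
  induction k with
  | zero =>
    have : ((PA.pi 0).prod PB).H (fun x => ∑ i, U (x.1 i) + Y x.2)
        = ((PA.pi 0).prod PB).H (fun x => Y x.2) := by
      congr 1
      ext x
      simp
    rw [this, H_prod_snd]
    simp
  | succ k ih =>
    have h1 := H_add_submod PA (PA.pi k) PB U (fun x => ∑ i, U (x i)) Y
    have h2 : ((PA.pi (k + 1)).prod PB).H (fun x => ∑ i, U (x.1 i) + Y x.2)
        = (PA.prod ((PA.pi k).prod PB)).H
          (fun x => U x.1 + ((∑ i, U (x.2.1 i)) + Y x.2.2)) := by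
      have h3 := ((PA.pi (k + 1)).prod PB).H_equiv (PA.prod ((PA.pi k).prod PB))
        ((Equiv.prodAssoc A (Fin k → A) B).symm.trans
          ((Fin.consEquiv (fun _ : Fin (k + 1) => A)).prodCongr (Equiv.refl B)))
        (by
          intro x
          simp only [prod_w, pi_w, Equiv.trans_apply, Equiv.prodAssoc_symm_apply,
            Equiv.prodCongr_apply, Fin.consEquiv, Equiv.coe_fn_mk, Prod.map_apply,
            Equiv.refl_apply]
          rw [Fin.prod_univ_succ]
          simp only [Fin.cons_zero, Fin.cons_succ]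
          ring)
        (fun x => ∑ i, U (x.1 i) + Y x.2)
      rw [← h3]
      congr 1
      ext x
      simp only [Equiv.trans_apply, Equiv.prodAssoc_symm_apply,
            Equiv.prodCongr_apply, Fin.consEquiv, Equiv.coe_fn_mk, Prod.map_apply,
            Equiv.refl_apply]
      rw [Fin.sum_univ_succ]
      simp only [Fin.cons_zero, Fin.cons_succ]
      ring
    rw [h2]
    push_cast
    linarith only [ih, h1]

end FinProb

end Vale.Agent.P114
end
end

section

open scoped Classical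

noncomputable section

namespace Vale.Agent.P114

namespace FinProb

variable {Ω : Type*} [Fintype Ω] (P : FinProb Ω) {α β γ δ : Type*}

/-- Weight conditioned on the event `h = c` (equal to `P` when the event is null). -/
def cond (h : Ω → γ) (c : γ) : FinProb Ω :=
  if hc : 0 < P.p h c then
    { w := fun ω => (if h ω = c then P.w ω else 0) / P.p h c
      nonneg := fun ω => div_nonneg (by split_ifs; exacts [P.nonneg ω, le_rfl]) hc.le
      sum_one := by
        rw [← Finset.sum_div]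
        exact div_self hc.ne' }
  else P

lemma cond_w (h : Ω → γ) (c : γ) (hc : 0 < P.p h c) (ω : Ω) :
    (P.cond h c).w ω = (if h ω = c then P.w ω else 0) / P.p h c := by
  unfold cond
  rw [dif_pos hc]

lemma cond_p (h : Ω → γ) (c : γ) (hc : 0 < P.p h c) (f : Ω → α) (a : α) :
    (P.cond h c).p f a = P.p (fun ω => (f ω, h ω)) (a, c) / P.p h c := by
  unfold p
  simp only [P.cond_w h c hc]
  rw [Finset.sum_div]
  refine Finset.sum_congr rfl fun ω _ => ?_
  by_cases h1 : f ω = a <;> by_cases h2 : h ω = c <;> simp [h1, h2, p]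

/-- Disintegration of expectations. -/
lemma sum_cond (h : Ω → γ) (F : Ω → Ω → ℝ) :
    ∑ ω, P.w ω * ∑ ω', (P.cond h (h ω)).w ω' * F ω ω'
      = ∑ ω', P.w ω' * ∑ ω, (P.cond h (h ω')).w ω * F ω ω' := by
  have h1 : ∀ ω, P.w ω * ∑ ω', (P.cond h (h ω)).w ω' * F ω ω'
      = ∑ ω', (if h ω' = h ω then P.w ω * P.w ω' / P.p h (h ω) else 0) * F ω ω' := by
    intro ω
    rcases P.w_zero_or_pos ω with hw | hw
    · simp only [hw, zero_mul, zero_div, ite_self, Finset.sum_const_zero]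
    · rw [Finset.mul_sum]
      refine Finset.sum_congr rfl fun ω' _ => ?_
      rw [P.cond_w h _ (P.p_pos hw h)]
      split_ifs <;> ring
  have h2 : ∀ ω', P.w ω' * ∑ ω, (P.cond h (h ω')).w ω * F ω ω'
      = ∑ ω, (if h ω' = h ω then P.w ω * P.w ω' / P.p h (h ω) else 0) * F ω ω' := by
    intro ω'
    rcases P.w_zero_or_pos ω' with hw | hw
    · simp only [hw, zero_mul, mul_zero, zero_div, ite_self, Finset.sum_const_zero]
    · rw [Finset.mul_sum]
      refine Finset.sum_congr rfl fun ω _ => ?_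
      rw [P.cond_w h _ (P.p_pos hw h)]
      by_cases h3 : h ω' = h ω
      · simp only [h3, if_true]; ring
      · have h4 : ¬ h ω = h ω' := fun h5 => h3 h5.symm
        simp only [h3, h4, if_false]; ring
  rw [Finset.sum_congr rfl fun ω _ => h1 ω, Finset.sum_congr rfl fun ω _ => h2 ω,
    Finset.sum_comm]

/-- Total expectation. -/
lemma sum_cond_total (h : Ω → γ) (F : Ω → ℝ) :
    ∑ ω, P.w ω * ∑ ω', (P.cond h (h ω)).w ω' * F ω' = ∑ ω', P.w ω' * F ω' := by
  rw [P.sum_cond h (fun _ ω' => F ω')]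
  refine Finset.sum_congr rfl fun ω' _ => ?_
  rw [← Finset.sum_mul, (P.cond h (h ω')).sum_one, one_mul]

/-- Chain rule with conditional spaces. -/
lemma H_pair_eq_cond (f : Ω → α) (h : Ω → γ) :
    P.H (fun ω => (f ω, h ω)) = P.H h + ∑ ω, P.w ω * (P.cond h (h ω)).H f := by
  unfold H
  have h1 : ∀ ω, P.w ω * ∑ ω', (P.cond h (h ω)).w ω' * -Real.log ((P.cond h (h ω)).p f (f ω'))
      = P.w ω * ∑ ω', (P.cond h (h ω)).w ω' *
        (-Real.log (P.p (fun ω => (f ω, h ω)) (f ω', h ω')) + Real.log (P.p h (h ω'))) := by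
    intro ω
    rcases P.w_zero_or_pos ω with hw | hw
    · simp only [hw, mul_neg, Finset.sum_neg_distrib, zero_mul, neg_zero]
    · congr 1
      refine Finset.sum_congr rfl fun ω' _ => ?_
      rw [P.cond_w h _ (P.p_pos hw h), P.cond_p h _ (P.p_pos hw h)]
      by_cases h2 : h ω' = h ω
      · rcases P.w_zero_or_pos ω' with hw' | hw'
        · simp [hw']
        · have h3 : 0 < P.p (fun ω => (f ω, h ω)) (f ω', h ω) := by
            rw [← h2]
            exact P.p_pos hw' (fun ω => (f ω, h ω))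
          rw [Real.log_div h3.ne' (P.p_pos hw h).ne', h2]
          ring
      · simp only [h2, ↓reduceIte, zero_div, mul_neg, zero_mul, neg_zero]
  rw [Finset.sum_congr rfl fun ω _ => h1 ω,
    P.sum_cond_total h (fun ω' => -Real.log (P.p (fun ω => (f ω, h ω)) (f ω', h ω'))
      + Real.log (P.p h (h ω'))), ← Finset.sum_add_distrib]
  exact Finset.sum_congr rfl fun ω _ => by ring

/-- Conditioning on `h` reduces conditional entropies. -/
lemma cond_le (f : Ω → α) (g : Ω → β) (h : Ω → γ) (hfg : ∀ x y, f x = f y → g x = g y) :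
    ∑ ω, P.w ω * ((P.cond h (h ω)).H f - (P.cond h (h ω)).H g) ≤ P.H f - P.H g := by
  have h1 := P.H_submod f h g
  have h2 := P.H_pair_eq_cond f h
  have h3 := P.H_pair_eq_cond g h
  have h4 : P.H (fun ω => (f ω, g ω)) = P.H f :=
    P.H_congr_det fun x y => by
      constructor
      · intro h; simp [h, hfg _ _ h]
      · intro h; exact (Prod.ext_iff.1 h).1
  have h5 : P.H (fun ω => (f ω, h ω, g ω)) = P.H (fun x => (f x, h x)) :=
    P.H_congr_det fun x y => by
      constructor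
      · intro h
        have h' := Prod.ext_iff.1 h
        simp only at h'
        simp [h'.1, h'.2, hfg _ _ h'.1]
      · intro h
        simp only [Prod.mk.injEq] at h ⊢
        exact ⟨h.1, h.2.1⟩
  have h6 : P.H (fun ω => (h ω, g ω)) = P.H (fun x => (g x, h x)) :=
    P.H_congr_det fun x y => by
      simp only [Prod.mk.injEq]
      (clear * -; tauto)
  have h7 : ∑ ω, P.w ω * ((P.cond h (h ω)).H f - (P.cond h (h ω)).H g)
      = ∑ ω, P.w ω * (P.cond h (h ω)).H f - ∑ ω, P.w ω * (P.cond h (h ω)).H g := by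
    rw [← Finset.sum_sub_distrib]
    exact Finset.sum_congr rfl fun j _ => by ring
  rw [h7]
  linarith

/-- The space of pairs in the same cell of `h`, conditionally independent. -/
def couple (h : Ω → γ) : FinProb (Ω × Ω) where
  w x := P.w x.1 * (P.cond h (h x.1)).w x.2
  nonneg x := mul_nonneg (P.nonneg _) ((P.cond h _).nonneg _)
  sum_one := by
    rw [Fintype.sum_prod_type]
    simp_rw [← Finset.mul_sum, (P.cond h _).sum_one, mul_one, P.sum_one]

lemma sum_couple (h : Ω → γ) (F : Ω → Ω → ℝ) :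
    ∑ x, (P.couple h).w x * F x.1 x.2
      = ∑ ω, P.w ω * ∑ ω', (P.cond h (h ω)).w ω' * F ω ω' := by
  rw [Fintype.sum_prod_type]
  refine Finset.sum_congr rfl fun ω _ => ?_
  rw [Finset.mul_sum]
  exact Finset.sum_congr rfl fun ω' _ => by simp only [couple]; ring

/-- On the support of the coupling, both points lie in the same cell. -/
lemma couple_same (h : Ω → γ) (x : Ω × Ω) (hx : 0 < (P.couple h).w x) : h x.1 = h x.2 := by
  have h1 : 0 < P.w x.1 := by
    rcases P.w_zero_or_pos x.1 with h2 | h2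
    · simp [couple, h2] at hx
    · exact h2
  by_contra hne
  have h2 : (P.cond h (h x.1)).w x.2 = 0 := by
    rw [P.cond_w h _ (P.p_pos h1 h), if_neg (fun h3 => hne h3.symm)]
    simp
  simp [couple, h2] at hx

end FinProb

end Vale.Agent.P114
end
end

section

open scoped Classical

noncomputable section

namespace Vale.Agent.P114

open FinProb

/-- `f` is within one of a function of `g`. -/
lemma H_le_of_near {Ω : Type*} [Fintype Ω] (P : FinProb Ω) {β : Type*} (f : Ω → ℤ) (g : Ω → β)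
    (σ : β → ℤ) (h : ∀ ω, |f ω - σ (g ω)| ≤ 1) : P.H f ≤ P.H g + Real.log 3 := by
  have h1 := P.H_le_add_log_card f g (fun z => Finset.Icc (σ z - 1) (σ z + 1)) 3 (by
    intro ω
    have := abs_le.1 (h ω)
    rw [Finset.mem_Icc]
    constructor <;> linarith only [this]) (by
    intro b
    rw [Int.card_Icc]
    have : σ b + 1 + 1 - (σ b - 1) = 3 := by ring
    rw [this]; decide)
  simpa only [ge_iff_le, Nat.cast_ofNat] using h1

lemma floor_near {x y : ℝ} (h : |x - y| ≤ 1) : |⌊x⌋ - ⌊y⌋| ≤ 1 := by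
  have h1 := Int.floor_le x
  have h2 := Int.lt_floor_add_one x
  have h3 := Int.floor_le y
  have h4 := Int.lt_floor_add_one y
  obtain ⟨h5, h6⟩ := abs_le.1 h
  rw [abs_le]
  constructor
  · have : (⌊y⌋ : ℝ) < ⌊x⌋ + 2 := by linarith
    have : ⌊y⌋ < ⌊x⌋ + 2 := by exact_mod_cast this
    omega
  · have : (⌊x⌋ : ℝ) < ⌊y⌋ + 2 := by linarith only [h1, h4, h6]
    have : ⌊x⌋ < ⌊y⌋ + 2 := by exact_mod_cast this
    omega

/-- Entropy of a rescaled variable. -/
lemma H_rescale_le {Ω : Type*} [Fintype Ω] (P : FinProb Ω) (X : Ω → ℝ) (s a θ : ℝ) (hs : 0 < s) :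
    P.H (fun ω => ⌊a * X ω + θ⌋) ≤ P.H (fun ω => ⌊s * X ω⌋) + Real.log (|a| / s + 2) := by
  have ha : 0 ≤ |a| / s := by positivity
  set K : ℕ := ⌊|a| / s⌋₊ + 2 with hK
  have h1 := P.H_le_add_log_card (fun ω => ⌊a * X ω + θ⌋) (fun ω => ⌊s * X ω⌋)
    (fun z => if 0 ≤ a then Finset.Ico ⌊a / s * z + θ⌋ (⌊a / s * z + θ⌋ + K)
      else Finset.Ico ⌊a / s * (z + 1) + θ⌋ (⌊a / s * (z + 1) + θ⌋ + K)) K (by
      intro ω
      have h2 := Int.floor_le (s * X ω)
      have h3 := Int.lt_floor_add_one (s * X ω)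
      have hK1 : |a| / s + 1 < K := by
        rw [hK]; push_cast
        have := Nat.lt_floor_add_one (|a| / s)
        linarith only [this]
      have e1 : a * X ω = a / s * (s * X ω) := by field_simp
      split_ifs with h0
      · rw [abs_of_nonneg h0] at hK1
        have h4 : a / s * ⌊s * X ω⌋ ≤ a / s * (s * X ω) :=
          mul_le_mul_of_nonneg_left h2 (div_nonneg h0 hs.le)
        have h5 : a / s * (s * X ω) ≤ a / s * (⌊s * X ω⌋ + 1) :=
          mul_le_mul_of_nonneg_left h3.le (div_nonneg h0 hs.le)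
        rw [Finset.mem_Ico]
        constructor
        · exact Int.floor_le_floor (by rw [e1]; linarith only [h4])
        · have h6 := Int.floor_le (a * X ω + θ)
          have h7 := Int.lt_floor_add_one (a / s * ⌊s * X ω⌋ + θ)
          have h8 : (⌊a * X ω + θ⌋ : ℝ) < ⌊a / s * ⌊s * X ω⌋ + θ⌋ + K := by
            rw [e1] at h6
            rw [e1]
            linarith only [h7, h6, h5, hK1]
          exact_mod_cast h8
      · push Not at h0
        rw [abs_of_neg h0] at hK1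
        have hneg : a / s ≤ 0 := div_nonpos_of_nonpos_of_nonneg h0.le hs.le
        have h4 : a / s * (s * X ω) ≤ a / s * ⌊s * X ω⌋ :=
          mul_le_mul_of_nonpos_left h2 hneg
        have h5 : a / s * (⌊s * X ω⌋ + 1) ≤ a / s * (s * X ω) :=
          mul_le_mul_of_nonpos_left h3.le hneg
        have e2 : -a / s = -(a / s) := by ring
        rw [e2] at hK1
        rw [Finset.mem_Ico]
        constructor
        · exact Int.floor_le_floor (by rw [e1]; linarith only [h5])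
        · have h6 := Int.floor_le (a * X ω + θ)
          have h7 := Int.lt_floor_add_one (a / s * (⌊s * X ω⌋ + 1) + θ)
          have h8 : (⌊a * X ω + θ⌋ : ℝ) < ⌊a / s * (⌊s * X ω⌋ + 1) + θ⌋ + K := by
            rw [e1] at h6
            rw [e1]
            linarith only [hK1, h4, h6, h7]
          exact_mod_cast h8)
    (by
      intro b
      split_ifs <;> simp only [Int.card_Ico, add_sub_cancel_left, Int.toNat_natCast, Std.le_refl])
  refine h1.trans ?_
  gcongr
  rw [hK]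
  push_cast
  have := Nat.floor_le ha
  linarith only [this]

/-- Entropy of a variable in an interval. -/
lemma H_floor_le_log {Ω : Type*} [Fintype Ω] (P : FinProb Ω) (X : Ω → ℝ) (D a θ : ℝ)
    (hX : ∀ ω, |X ω| ≤ D) :
    P.H (fun ω => ⌊a * X ω + θ⌋) ≤ Real.log (2 * (|a| * D) + 3) := by
  by_cases hne : Nonempty Ω
  swap
  · rw [not_nonempty_iff] at hne
    have h1 := P.sum_one
    simp at h1
  obtain ⟨ω0⟩ := hne
  have hD : 0 ≤ D := (abs_nonneg _).trans (hX ω0)
  have hx : 0 ≤ |a| * D := by positivity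
  have hb : ∀ ω, |a * X ω| ≤ |a| * D := fun ω => by
    rw [abs_mul]; exact mul_le_mul_of_nonneg_left (hX ω) (abs_nonneg _)
  have h1 := P.H_le_log_card (fun ω => ⌊a * X ω + θ⌋)
    (Finset.Icc ⌊θ - |a| * D⌋ ⌊θ + |a| * D⌋) (by
      intro ω
      have := abs_le.1 (hb ω)
      rw [Finset.mem_Icc]
      exact ⟨Int.floor_le_floor (by linarith only [this]), Int.floor_le_floor (by linarith only [this])⟩)
  have hle : ⌊θ - |a| * D⌋ ≤ ⌊θ + |a| * D⌋ := Int.floor_le_floor (by linarith)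
  refine h1.trans (Real.log_le_log ?_ ?_)
  · rw [Int.card_Icc]
    have : 0 < (⌊θ + |a| * D⌋ + 1 - ⌊θ - |a| * D⌋).toNat := by omega
    exact_mod_cast this
  · rw [Int.card_Icc]
    have h2 : ((⌊θ + |a| * D⌋ + 1 - ⌊θ - |a| * D⌋).toNat : ℝ)
        = ((⌊θ + |a| * D⌋ + 1 - ⌊θ - |a| * D⌋ : ℤ) : ℝ) := by
      have : ((⌊θ + |a| * D⌋ + 1 - ⌊θ - |a| * D⌋).toNat : ℤ)
          = ⌊θ + |a| * D⌋ + 1 - ⌊θ - |a| * D⌋ := Int.toNat_of_nonneg (by omega)
      exact_mod_cast this
    rw [h2]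
    push_cast
    have h3 := Int.floor_le (θ + |a| * D)
    have h4 := Int.lt_floor_add_one (θ - |a| * D)
    linarith only [h3, h4]

/-- The contraction data of a self-similar system (translations vary). -/
structure Sys (Λ : Type) [Fintype Λ] where
  r : Λ → ℝ
  P : FinProb Λ
  ρ : ℝ
  κ : ℝ
  κ_pos : 0 < κ
  ρ_lt : ρ < 1
  κ_le : ∀ i, κ ≤ |r i|
  le_ρ : ∀ i, |r i| ≤ ρ

namespace Sys

variable {Λ : Type} [Fintype Λ] (S : Sys Λ)

include S in
lemma nonempty : Nonempty Λ := by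
  by_contra h
  rw [not_nonempty_iff] at h
  have h1 := S.P.sum_one
  simp at h1

lemma ρ_pos : 0 < S.ρ := by
  obtain ⟨i⟩ := S.nonempty
  exact S.κ_pos.trans_le ((S.κ_le i).trans (S.le_ρ i))

lemma κ_le_ρ : S.κ ≤ S.ρ := by
  obtain ⟨i⟩ := S.nonempty
  exact (S.κ_le i).trans (S.le_ρ i)

/-- Bound for all the translation parts. -/
def D (t : Λ → ℝ) : ℝ := ‖t‖ / (1 - S.ρ) + 1

lemma one_le_D (t : Λ → ℝ) : 1 ≤ S.D t := by
  have : 0 ≤ ‖t‖ / (1 - S.ρ) := div_nonneg (norm_nonneg _) (by linarith [S.ρ_lt])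
  unfold D
  linarith only [this]

lemma D_nonneg (t : Λ → ℝ) : 0 ≤ S.D t := zero_le_one.trans (S.one_le_D t)

lemma abs_slL_le (u : List Λ) : |slL S.r u| ≤ S.ρ ^ u.length := by
  induction u with
  | nil => simp [slL]
  | cons i u ih =>
    simp only [slL, List.length_cons, abs_mul, pow_succ]
    rw [mul_comm (S.ρ ^ u.length)]
    exact mul_le_mul (S.le_ρ i) ih (abs_nonneg _) S.ρ_pos.le

lemma le_abs_slL (u : List Λ) : S.κ ^ u.length ≤ |slL S.r u| := by
  induction u with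
  | nil => simp [slL]
  | cons i u ih =>
    simp only [slL, List.length_cons, abs_mul, pow_succ]
    rw [mul_comm (S.κ ^ u.length)]
    exact mul_le_mul (S.κ_le i) ih (pow_nonneg S.κ_pos.le _) (abs_nonneg _)

lemma abs_trL_le (t : Λ → ℝ) (u : List Λ) : |trL S.r t u| ≤ S.D t := by
  induction u with
  | nil => simpa only [trL, abs_zero] using S.D_nonneg t
  | cons i u ih =>
    simp only [trL]
    have h1 : |t i| ≤ ‖t‖ := norm_le_pi_norm t i
    have h2 : |S.r i * trL S.r t u| ≤ S.ρ * S.D t := by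
      rw [abs_mul]
      exact mul_le_mul (S.le_ρ i) ih (abs_nonneg _) S.ρ_pos.le
    have h3 : ‖t‖ + S.ρ * S.D t ≤ S.D t := by
      have h4 : 1 - S.ρ ≠ 0 := by linarith only [S.ρ_lt]
      have h5 : S.D t - (‖t‖ + S.ρ * S.D t) = 1 - S.ρ := by
        unfold D
        field_simp
        ring
      linarith [S.ρ_lt]
    calc _ ≤ |t i| + |S.r i * trL S.r t u| := abs_add_le _ _
      _ ≤ ‖t‖ + S.ρ * S.D t := add_le_add h1 h2
      _ ≤ _ := h3

lemma abs_sl_le {n : ℕ} (w : Fin n → Λ) : |sl S.r w| ≤ S.ρ ^ n := by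
  have := S.abs_slL_le (List.ofFn w)
  rw [List.length_ofFn] at this
  exact this

lemma le_abs_sl {n : ℕ} (w : Fin n → Λ) : S.κ ^ n ≤ |sl S.r w| := by
  have := S.le_abs_slL (List.ofFn w)
  rw [List.length_ofFn] at this
  exact this

lemma abs_sl_pos {n : ℕ} (w : Fin n → Λ) : 0 < |sl S.r w| :=
  lt_of_lt_of_le (pow_pos S.κ_pos n) (S.le_abs_sl w)

lemma abs_tr_le (t : Λ → ℝ) {n : ℕ} (w : Fin n → Λ) : |tr S.r t w| ≤ S.D t :=
  S.abs_trL_le t _

/-- Entropy of the level `N` approximation at scale `1/s`. -/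
def F (t : Λ → ℝ) (N : ℕ) (s : ℝ) : ℝ := (S.P.pi N).H (fun w => ⌊s * tr S.r t w⌋)

lemma F_nonneg (t : Λ → ℝ) (N : ℕ) (s : ℝ) : 0 ≤ S.F t N s := (S.P.pi N).H_nonneg _

lemma F_transfer (t : Λ → ℝ) (N m : ℕ) (s : ℝ) (hs : 0 ≤ s)
    (h : S.D t * S.ρ ^ N * s ≤ 1) :
    |S.F t (N + m) s - S.F t N s| ≤ Real.log 3 := by
  have e1 : S.F t (N + m) s = ((S.P.pi N).prod (S.P.pi m)).H
      (fun x => ⌊s * (tr S.r t x.1 + sl S.r x.1 * tr S.r t x.2)⌋) := by
    unfold F
    rw [← H_pi_add]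
    simp only [tr_append]
  have e2 : S.F t N s = ((S.P.pi N).prod (S.P.pi m)).H (fun x => ⌊s * tr S.r t x.1⌋) := by
    unfold F
    rw [H_prod_fst (S.P.pi N) (S.P.pi m) (fun w => ⌊s * tr S.r t w⌋)]
  have hb : ∀ x : (Fin N → Λ) × (Fin m → Λ),
      |⌊s * (tr S.r t x.1 + sl S.r x.1 * tr S.r t x.2)⌋ - ⌊s * tr S.r t x.1⌋| ≤ 1 := by
    intro x
    apply floor_near
    have e3 : s * (tr S.r t x.1 + sl S.r x.1 * tr S.r t x.2) - s * tr S.r t x.1
        = s * (sl S.r x.1 * tr S.r t x.2) := by ring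
    rw [e3, abs_mul, abs_mul, abs_of_nonneg hs]
    have h1 : |sl S.r x.1| * |tr S.r t x.2| ≤ S.ρ ^ N * S.D t :=
      mul_le_mul (S.abs_sl_le x.1) (S.abs_tr_le t x.2) (abs_nonneg _)
        (pow_nonneg S.ρ_pos.le _)
    calc _ ≤ s * (S.ρ ^ N * S.D t) := mul_le_mul_of_nonneg_left h1 hs
      _ = S.D t * S.ρ ^ N * s := by ring
      _ ≤ 1 := h
  rw [e1, e2, abs_le]
  constructor
  · have := H_le_of_near ((S.P.pi N).prod (S.P.pi m)) (fun x => ⌊s * tr S.r t x.1⌋)
      (fun x => ⌊s * (tr S.r t x.1 + sl S.r x.1 * tr S.r t x.2)⌋) id (fun x => by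
        rw [abs_sub_comm]; exact hb x)
    linarith only [this]
  · have := H_le_of_near ((S.P.pi N).prod (S.P.pi m))
      (fun x => ⌊s * (tr S.r t x.1 + sl S.r x.1 * tr S.r t x.2)⌋)
      (fun x => ⌊s * tr S.r t x.1⌋) id hb
    linarith only [this]

lemma F_transfer' (t : Λ → ℝ) (N N' : ℕ) (s : ℝ) (hs : 0 ≤ s)
    (h : S.D t * S.ρ ^ N * s ≤ 1) (h' : S.D t * S.ρ ^ N' * s ≤ 1) :
    S.F t N s ≤ S.F t N' s + Real.log 3 := by
  rcases le_total N N' with hle | hle
  · obtain ⟨m, rfl⟩ := Nat.exists_eq_add_of_le hle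
    have := abs_le.1 (S.F_transfer t N m s hs h)
    linarith only [this]
  · obtain ⟨m, rfl⟩ := Nat.exists_eq_add_of_le hle
    have := abs_le.1 (S.F_transfer t N' m s hs h')
    linarith only [this]

lemma F_rescale (t : Λ → ℝ) (N : ℕ) (s a θ : ℝ) (hs : 0 < s) :
    (S.P.pi N).H (fun w => ⌊a * tr S.r t w + θ⌋)
      ≤ S.F t N s + Real.log (|a| / s + 2) :=
  H_rescale_le (S.P.pi N) (fun w => tr S.r t w) s a θ hs

lemma F_rescale' (t : Λ → ℝ) (N : ℕ) (s a θ : ℝ) (ha : 0 < |a|) :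
    S.F t N s ≤ (S.P.pi N).H (fun w => ⌊a * tr S.r t w + θ⌋)
      + Real.log (|s| / |a| + 2) + Real.log 3 := by
  have h1 := H_rescale_le (S.P.pi N) (fun w => tr S.r t w) |a| s 0 ha
  simp only [add_zero] at h1
  have h2 : (S.P.pi N).H (fun w => ⌊|a| * tr S.r t w⌋)
      ≤ (S.P.pi N).H (fun w => ⌊a * tr S.r t w + θ⌋) + Real.log 3 := by
    rcases le_or_gt 0 a with h0 | h0
    · refine H_le_of_near _ _ _ (fun z => z - ⌊θ⌋) (fun w => ?_)
      rw [abs_of_nonneg h0]
      have h3 := Int.floor_le (a * tr S.r t w)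
      have h4 := Int.lt_floor_add_one (a * tr S.r t w)
      have h5 := Int.floor_le θ
      have h6 := Int.lt_floor_add_one θ
      have h7 := Int.floor_le (a * tr S.r t w + θ)
      have h8 := Int.lt_floor_add_one (a * tr S.r t w + θ)
      rw [abs_le]
      constructor
      · have : (⌊a * tr S.r t w + θ⌋ : ℝ) < ⌊a * tr S.r t w⌋ + ⌊θ⌋ + 2 := by linarith only [h4, h6, h7]
        have : ⌊a * tr S.r t w + θ⌋ < ⌊a * tr S.r t w⌋ + ⌊θ⌋ + 2 := by exact_mod_cast this
        omega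
      · have : (⌊a * tr S.r t w⌋ : ℝ) + ⌊θ⌋ < ⌊a * tr S.r t w + θ⌋ + 1 := by linarith only [h3, h5, h8]
        have : ⌊a * tr S.r t w⌋ + ⌊θ⌋ < ⌊a * tr S.r t w + θ⌋ + 1 := by exact_mod_cast this
        omega
    · refine H_le_of_near _ _ _ (fun z => -z + ⌊θ⌋) (fun w => ?_)
      rw [abs_of_neg h0]
      have h3 := Int.floor_le (-a * tr S.r t w)
      have h4 := Int.lt_floor_add_one (-a * tr S.r t w)
      have h5 := Int.floor_le θ
      have h6 := Int.lt_floor_add_one θ
      have h7 := Int.floor_le (a * tr S.r t w + θ)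
      have h8 := Int.lt_floor_add_one (a * tr S.r t w + θ)
      rw [abs_le]
      constructor
      · have : (⌊θ⌋ : ℝ) < ⌊-a * tr S.r t w⌋ + ⌊a * tr S.r t w + θ⌋ + 2 := by linarith only [h4, h5, h8]
        have : ⌊θ⌋ < ⌊-a * tr S.r t w⌋ + ⌊a * tr S.r t w + θ⌋ + 2 := by exact_mod_cast this
        omega
      · have : (⌊-a * tr S.r t w⌋ : ℝ) + ⌊a * tr S.r t w + θ⌋ < ⌊θ⌋ + 1 := by linarith only [h3, h6, h7]
        have : ⌊-a * tr S.r t w⌋ + ⌊a * tr S.r t w + θ⌋ < ⌊θ⌋ + 1 := by exact_mod_cast this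
        omega
  unfold F
  rw [← abs_of_pos ha] at h1
  simp only [abs_abs] at h1
  linarith

/-- Decomposition into pieces of size about `1/s`. -/
lemma pieces (t : Λ → ℝ) (s : ℝ) (hs : 0 < s) (N : ℕ) :
    ∀ (a τ : ℝ), S.κ / s ≤ |a| → S.ρ ^ N * |a| ≤ 1 / s →
    ∃ (J : Type) (_ : Fintype J) (c : FinProb J) (n : J → ℕ) (b θ : J → ℝ),
      (∀ G : ℝ → ℝ, ∑ w, (S.P.pi N).w w * G (a * tr S.r t w + τ)
        = ∑ j, c.w j * ∑ w, (S.P.pi (n j)).w w * G (b j * tr S.r t w + θ j)) ∧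
      (∀ j, |b j| ≤ 1 / s) ∧ (∀ j, S.κ / s ≤ |b j|) ∧
      (∀ j, S.ρ ^ (n j) * |b j| ≤ S.ρ ^ N * |a|) := by
  induction N with
  | zero =>
    intro a τ h1 h2
    refine ⟨Unit, inferInstance, ⟨fun _ => 1, fun _ => zero_le_one, by simp⟩,
      fun _ => 0, fun _ => a, fun _ => τ, ?_, ?_, fun _ => h1, fun _ => le_rfl⟩
    · intro G; simp only [Finset.univ_unique, pi_w, Finset.univ_eq_empty, Finset.prod_empty, tr_zero, mul_zero, zero_add, one_mul, Finset.sum_const, Finset.card_singleton, one_smul, PUnit.default_eq_unit]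
    · intro _; simpa only [one_div, pow_zero, one_mul] using h2
  | succ N ih =>
    intro a τ h1 h2
    by_cases ha : |a| ≤ 1 / s
    · refine ⟨Unit, inferInstance, ⟨fun _ => 1, fun _ => zero_le_one, by simp only [Finset.univ_unique, PUnit.default_eq_unit, Finset.sum_const, Finset.card_singleton, one_smul]⟩,
        fun _ => N + 1, fun _ => a, fun _ => τ, ?_, fun _ => ha, fun _ => h1, fun _ => le_rfl⟩
      intro G; simp only [pi_w, Finset.univ_unique, PUnit.default_eq_unit, one_mul, Finset.sum_const, Finset.card_singleton, one_smul]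
    · push Not at ha
      have hrec : ∀ i : Λ, S.κ / s ≤ |a * S.r i| ∧ S.ρ ^ N * |a * S.r i| ≤ 1 / s := by
        intro i
        constructor
        · rw [abs_mul]
          have h3 := S.κ_le i
          calc S.κ / s = 1 / s * S.κ := by ring
            _ ≤ |a| * |S.r i| := mul_le_mul ha.le h3 S.κ_pos.le (abs_nonneg _)
        · rw [abs_mul]
          have h3 := S.le_ρ i
          calc S.ρ ^ N * (|a| * |S.r i|) ≤ S.ρ ^ N * (|a| * S.ρ) := by
                have := pow_nonneg S.ρ_pos.le N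
                (clear * - h3 this; gcongr)
            _ = S.ρ ^ (N + 1) * |a| := by rw [pow_succ]; ring
            _ ≤ 1 / s := h2
      choose J hJ c n b θ hG hb1 hb2 hb3 using
        fun i : Λ => ih (a * S.r i) (a * t i + τ) (hrec i).1 (hrec i).2
      refine ⟨Σ i : Λ, J i, inferInstance, S.P.sigma c, fun x => n x.1 x.2,
        fun x => b x.1 x.2, fun x => θ x.1 x.2, ?_, fun x => hb1 x.1 x.2,
        fun x => hb2 x.1 x.2, ?_⟩
      · intro G
        rw [S.P.sum_pi_succ N (fun w => G (a * tr S.r t w + τ)), Fintype.sum_sigma]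
        refine Finset.sum_congr rfl fun i _ => ?_
        have e1 : ∀ w : Fin N → Λ, a * tr S.r t (Fin.cons i w : Fin (N + 1) → Λ) + τ
            = (a * S.r i) * tr S.r t w + (a * t i + τ) := by
          intro w
          rw [tr_cons]; ring
        simp only [e1]
        rw [hG i G, Finset.mul_sum]
        refine Finset.sum_congr rfl fun j _ => ?_
        simp only [sigma]
        ring
      · intro x
        refine (hb3 x.1 x.2).trans ?_
        rw [abs_mul, pow_succ]
        have h3 := S.le_ρ x.1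
        have := pow_nonneg S.ρ_pos.le N
        calc S.ρ ^ N * (|a| * |S.r x.1|) ≤ S.ρ ^ N * (|a| * S.ρ) := by (clear * - h3 this; gcongr)
          _ = _ := by ring

end Sys

end Vale.Agent.P114
end
end

section

open scoped Classical

noncomputable section

namespace Vale.Agent.P114

open FinProb Filter

lemma floor_mul_ediv (x : ℝ) (b : ℕ) : ⌊(2 : ℝ) ^ b * x⌋ / 2 ^ b = ⌊x⌋ := by
  have h := Int.floor_div_natCast ((2 : ℝ) ^ b * x) (2 ^ b)
  push_cast at h
  rw [← h]
  congr 1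
  (clear * -; field_simp)

namespace Sys

variable {Λ : Type} [Fintype Λ] (S : Sys Λ)

/-- The superadditivity constant. -/
def C4 (t : Λ → ℝ) : ℝ := Real.log (1 / S.κ + 2) + 2 * Real.log 3 + Real.log (2 * S.D t + 3)

lemma C4_nonneg (t : Λ → ℝ) : 0 ≤ S.C4 t := by
  have h1 : 0 < 1 / S.κ := by have := S.κ_pos; positivity
  have h2 := S.one_le_D t
  have h3 : 0 ≤ Real.log (1 / S.κ + 2) := Real.log_nonneg (by linarith)
  have h4 : 0 ≤ Real.log 3 := Real.log_nonneg (by norm_num)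
  have h5 : 0 ≤ Real.log (2 * S.D t + 3) := Real.log_nonneg (by linarith only [h2])
  unfold C4
  linarith only [h3, h4, h5]

lemma F_superadd (t : Λ → ℝ) (N N' b : ℕ) (s : ℝ) (hs : 1 ≤ s)
    (hN : S.D t * S.ρ ^ N * (2 ^ b * s) ≤ S.κ) (hN' : S.D t * S.ρ ^ N' * 2 ^ b ≤ 1) :
    S.F t N s + S.F t N' (2 ^ b) - S.C4 t ≤ S.F t N (2 ^ b * s) := by
  have hs0 : 0 < s := by linarith only [hs]
  have hκ := S.κ_pos
  have hκ1 : S.κ ≤ 1 := (S.κ_le_ρ).trans S.ρ_lt.le
  have hD := S.one_le_D t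
  have hρ := S.ρ_pos
  have hρN : 0 < S.ρ ^ N := pow_pos hρ N
  have h2b : (1 : ℝ) ≤ 2 ^ b := one_le_pow₀ (by norm_num)
  have hρs : S.ρ ^ N * s ≤ S.κ := by
    refine le_trans ?_ hN
    calc S.ρ ^ N * s = 1 * S.ρ ^ N * (1 * s) := by ring
      _ ≤ S.D t * S.ρ ^ N * (2 ^ b * s) := by (clear * - hD hρ h2b hs; gcongr)
  obtain ⟨J, _, c, n, b', θ, hG, hb1, hb2, hb3⟩ := S.pieces t s hs0 N 1 0
    (by
      rw [abs_one, div_le_one hs0]
      linarith only [hs, hκ1])
    (by
      rw [abs_one, mul_one, le_div_iff₀ hs0]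
      linarith only [hκ1, hρs])
  set Q := c.sigma (fun j => S.P.pi (n j)) with hQ
  set X : (Σ j, Fin (n j) → Λ) → ℝ := fun x => b' x.1 * tr S.r t x.2 + θ x.1 with hX
  have hlaw : ∀ φ : ℝ → ℤ, Q.H (fun x => φ (X x)) = (S.P.pi N).H (fun w => φ (tr S.r t w)) := by
    intro φ
    refine Q.H_eq_of_law (S.P.pi N) _ _ fun a => ?_
    have h1 := hG (fun x => if φ x = a then 1 else 0)
    simp only [one_mul, add_zero, mul_ite, mul_one, mul_zero] at h1
    have h2 : (S.P.pi N).p (fun w => φ (tr S.r t w)) a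
        = ∑ w, if φ (tr S.r t w) = a then (S.P.pi N).w w else 0 := by
      unfold p
      exact Finset.sum_congr rfl fun w _ => by by_cases h : φ (tr S.r t w) = a <;> simp only [h, ↓reduceIte, pi_w]
    have h3 : Q.p (fun x => φ (X x)) a = ∑ x, if φ (X x) = a then Q.w x else 0 := by
      unfold p
      exact Finset.sum_congr rfl fun w _ => by by_cases h : φ (X w) = a <;> simp [h]
    rw [h2, h3, h1, Fintype.sum_sigma]
    refine Finset.sum_congr rfl fun j _ => ?_
    rw [Finset.mul_sum]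
    refine Finset.sum_congr rfl fun w _ => ?_
    simp only [hX, hQ, sigma]
    split_ifs <;> simp
  have h1 := sigma_cond_le c (fun j => S.P.pi (n j)) (fun x => ⌊(2 : ℝ) ^ b * s * X x⌋)
    (fun x => ⌊s * X x⌋) (by
      intro x y hxy
      rw [← floor_mul_ediv (s * X x) b, ← floor_mul_ediv (s * X y) b, ← mul_assoc, ← mul_assoc,
        hxy])
  rw [← hQ, hlaw (fun x => ⌊(2 : ℝ) ^ b * s * x⌋), hlaw (fun x => ⌊s * x⌋)] at h1
  have h2 : ∀ j, S.F t N' (2 ^ b) - S.C4 t
      ≤ (S.P.pi (n j)).H (fun ω => ⌊(2 : ℝ) ^ b * s * X ⟨j, ω⟩⌋)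
        - (S.P.pi (n j)).H (fun ω => ⌊s * X ⟨j, ω⟩⌋) := by
    intro j
    have hbj : 0 < |b' j| := lt_of_lt_of_le (by positivity) (hb2 j)
    have e1 : (fun ω => ⌊(2 : ℝ) ^ b * s * X ⟨j, ω⟩⌋)
        = (fun ω => ⌊((2 : ℝ) ^ b * s * b' j) * tr S.r t ω + (2 : ℝ) ^ b * s * θ j⌋) := by
      funext ω
      simp only [hX]
      congr 1
      ring
    have e2 : (fun ω => ⌊s * X ⟨j, ω⟩⌋)
        = (fun ω => ⌊(s * b' j) * tr S.r t ω + s * θ j⌋) := by
      funext ω
      simp only [hX]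
      congr 1
      ring
    have h3 := S.F_rescale' t (n j) (2 ^ b) ((2 : ℝ) ^ b * s * b' j) ((2 : ℝ) ^ b * s * θ j)
      (by rw [abs_mul]; (clear * - hs hbj; positivity))
    rw [← e1] at h3
    have h4 : |(2 : ℝ) ^ b| / |(2 : ℝ) ^ b * s * b' j| ≤ 1 / S.κ := by
      rw [abs_mul, abs_mul, abs_of_pos (by positivity : (0 : ℝ) < 2 ^ b), abs_of_pos hs0,
        div_le_div_iff₀ (by (clear * - hs hbj; positivity)) hκ]
      have h5 := hb2 j
      rw [div_le_iff₀ hs0] at h5
      have h6 : (2 : ℝ) ^ b * S.κ ≤ 2 ^ b * (|b' j| * s) := by (clear * - h5; gcongr)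
      linarith only [h6]
    have h5 : Real.log (|(2 : ℝ) ^ b| / |(2 : ℝ) ^ b * s * b' j| + 2)
        ≤ Real.log (1 / S.κ + 2) := Real.log_le_log (by (clear * -; positivity)) (by linarith only [h4])
    have h6 := H_floor_le_log (S.P.pi (n j)) (fun w => tr S.r t w) (S.D t) (s * b' j) (s * θ j)
      (fun w => S.abs_tr_le t w)
    rw [← e2] at h6
    have h7 : |s * b' j| ≤ 1 := by
      rw [abs_mul, abs_of_pos hs0]
      have := hb1 j
      rw [le_div_iff₀ hs0] at this
      linarith only [this]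
    have h8 : Real.log (2 * (|s * b' j| * S.D t) + 3) ≤ Real.log (2 * S.D t + 3) := by
      refine Real.log_le_log (by (clear * - hD; positivity)) ?_
      have : |s * b' j| * S.D t ≤ 1 * S.D t := by (clear * - h7 hD; gcongr)
      linarith only [this]
    have h9 : S.D t * S.ρ ^ (n j) * 2 ^ b ≤ 1 := by
      have h10 := hb3 j
      rw [abs_one, mul_one] at h10
      have h11 : S.ρ ^ (n j) * (S.κ / s) ≤ S.ρ ^ N :=
        le_trans (mul_le_mul_of_nonneg_left (hb2 j) (pow_nonneg hρ.le _)) h10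
      have h12 : S.ρ ^ (n j) * S.κ ≤ S.ρ ^ N * s := by
        have e3 : S.ρ ^ (n j) * (S.κ / s) = S.ρ ^ (n j) * S.κ / s := by ring
        rw [e3, div_le_iff₀ hs0] at h11
        exact h11
      have h13 : S.D t * S.ρ ^ (n j) * 2 ^ b * S.κ ≤ S.κ := by
        calc S.D t * S.ρ ^ (n j) * 2 ^ b * S.κ = S.D t * 2 ^ b * (S.ρ ^ (n j) * S.κ) := by ring
          _ ≤ S.D t * 2 ^ b * (S.ρ ^ N * s) := by (clear * - h12 hD; gcongr)
          _ = S.D t * S.ρ ^ N * (2 ^ b * s) := by ring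
          _ ≤ S.κ := hN
      by_contra hcon
      push Not at hcon
      linarith only [mul_pos (sub_pos.2 hκ) (sub_pos.2 hcon), h13]
    have h10 := S.F_transfer' t N' (n j) (2 ^ b) (by positivity) hN' h9
    unfold C4
    linarith only [h10, h8, h6, h5, h3]
  have h3 : S.F t N' (2 ^ b) - S.C4 t ≤ ∑ j, c.w j *
      ((S.P.pi (n j)).H (fun ω => ⌊(2 : ℝ) ^ b * s * X ⟨j, ω⟩⌋)
        - (S.P.pi (n j)).H (fun ω => ⌊s * X ⟨j, ω⟩⌋)) := by
    calc S.F t N' (2 ^ b) - S.C4 t = ∑ j, c.w j * (S.F t N' (2 ^ b) - S.C4 t) := by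
          rw [← Finset.sum_mul, c.sum_one, one_mul]
      _ ≤ _ := Finset.sum_le_sum fun j _ => mul_le_mul_of_nonneg_left (h2 j) (c.nonneg j)
  unfold F at h3 ⊢
  linarith only [h1, h3]

lemma exists_N (t : Λ → ℝ) (b : ℕ) : ∃ N : ℕ, S.D t * S.ρ ^ N * 2 ^ b ≤ S.κ := by
  have h1 : Tendsto (fun N : ℕ => S.D t * S.ρ ^ N * 2 ^ b) atTop (nhds (S.D t * 0 * 2 ^ b)) :=
    ((tendsto_pow_atTop_nhds_zero_of_lt_one S.ρ_pos.le S.ρ_lt).const_mul _).mul_const _
  rw [mul_zero, zero_mul] at h1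
  exact (h1.eventually_le_const S.κ_pos).exists

/-- A canonical sufficiently large level for scale `2^{-b}`. -/
def Nb (t : Λ → ℝ) (b : ℕ) : ℕ := Nat.find (S.exists_N t b)

lemma Nb_spec (t : Λ → ℝ) (b : ℕ) : S.D t * S.ρ ^ (S.Nb t b) * 2 ^ b ≤ S.κ :=
  Nat.find_spec (S.exists_N t b)

lemma κ_le_one : S.κ ≤ 1 := (S.κ_le_ρ).trans S.ρ_lt.le

lemma Nb_spec' (t : Λ → ℝ) (b : ℕ) : S.D t * S.ρ ^ (S.Nb t b) * 2 ^ b ≤ 1 :=
  (S.Nb_spec t b).trans S.κ_le_one

/-- Entropy at scale `2^{-b}`. -/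
def fS (t : Λ → ℝ) (b : ℕ) : ℝ := S.F t (S.Nb t b) (2 ^ b)

lemma fS_nonneg (t : Λ → ℝ) (b : ℕ) : 0 ≤ S.fS t b := S.F_nonneg t _ _

lemma fS_le_F (t : Λ → ℝ) (b N : ℕ) (h : S.D t * S.ρ ^ N * 2 ^ b ≤ 1) :
    S.fS t b ≤ S.F t N (2 ^ b) + Real.log 3 :=
  S.F_transfer' t _ _ _ (by positivity) (S.Nb_spec' t b) h

lemma F_le_fS (t : Λ → ℝ) (b N : ℕ) (h : S.D t * S.ρ ^ N * 2 ^ b ≤ 1) :
    S.F t N (2 ^ b) ≤ S.fS t b + Real.log 3 :=
  S.F_transfer' t _ _ _ (by positivity) h (S.Nb_spec' t b)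

/-- Constant in the superadditivity of `fS`. -/
def C5 (t : Λ → ℝ) : ℝ := S.C4 t + Real.log 3

lemma C5_nonneg (t : Λ → ℝ) : 0 ≤ S.C5 t := by
  have := S.C4_nonneg t
  have h4 : 0 ≤ Real.log 3 := Real.log_nonneg (by norm_num)
  unfold C5; linarith

lemma fS_superadd (t : Λ → ℝ) (a b : ℕ) : S.fS t a + S.fS t b - S.C5 t ≤ S.fS t (a + b) := by
  have h0 := S.Nb_spec t (a + b)
  have h1 := S.F_superadd t (S.Nb t (a + b)) (S.Nb t b) b (2 ^ a) (one_le_pow₀ (by norm_num))
    (by rw [← pow_add, add_comm b a]; exact h0) (S.Nb_spec' t b)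
  rw [← pow_add, add_comm b a] at h1
  have h2 : S.D t * S.ρ ^ (S.Nb t (a + b)) * 2 ^ a ≤ 1 := by
    refine le_trans ?_ (S.Nb_spec' t (a + b))
    have := S.D_nonneg t
    have := pow_nonneg S.ρ_pos.le (S.Nb t (a + b))
    have h3 : (2 : ℝ) ^ a ≤ 2 ^ (a + b) := pow_le_pow_right₀ (by norm_num) (by omega)
    (clear h0 h1; gcongr)
  have h3 := S.fS_le_F t a (S.Nb t (a + b)) h2
  unfold C5
  have e : S.fS t b = S.F t (S.Nb t b) (2 ^ b) := rfl
  have e' : S.fS t (a + b) = S.F t (S.Nb t (a + b)) (2 ^ (a + b)) := rfl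
  rw [e'] 
  rw [e]
  linarith only [h1, h3]

lemma fS_le (t : Λ → ℝ) (b : ℕ) : S.fS t b ≤ b * Real.log 2 + Real.log (2 * S.D t + 3) := by
  have h6 := H_floor_le_log (S.P.pi (S.Nb t b)) (fun w => tr S.r t w) (S.D t) (2 ^ b) 0
      (fun w => S.abs_tr_le t w)
  simp only [add_zero] at h6
  have h2b : (1 : ℝ) ≤ 2 ^ b := one_le_pow₀ (by norm_num)
  have hD := S.one_le_D t
  refine h6.trans ?_
  rw [← Real.log_pow, ← Real.log_mul (by positivity) (by positivity)]
  refine Real.log_le_log (by positivity) ?_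
  rw [abs_of_pos (by positivity)]
  linarith

/-- Existence of the entropy dimension. -/
lemma exists_alpha (t : Λ → ℝ) : ∃ α : ℝ, 0 ≤ α ∧ α ≤ 1 ∧
    (∀ b : ℕ, S.fS t b ≤ α * (b * Real.log 2) + S.C5 t) ∧
    (∀ ε > 0, ∃ b0 : ℕ, ∀ b ≥ b0, (α - ε) * (b * Real.log 2) ≤ S.fS t b) := by
  have hlog : 0 < Real.log 2 := Real.log_pos (by norm_num)
  set u : ℕ → ℝ := fun b => S.C5 t - S.fS t b with hu
  have hsub : Subadditive u := by
    intro a b
    have := S.fS_superadd t a b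
    simp only [hu]
    linarith only [this]
  set B : ℝ := Real.log 2 + Real.log (2 * S.D t + 3) with hB
  have hD := S.one_le_D t
  have hlD : 0 ≤ Real.log (2 * S.D t + 3) := Real.log_nonneg (by linarith only [hD])
  have hC5 := S.C5_nonneg t
  have hbdd : BddBelow (Set.range fun n => u n / n) := by
    refine ⟨-B, ?_⟩
    rintro _ ⟨n, rfl⟩
    rcases Nat.eq_zero_or_pos n with h | h
    · subst h
      simp only [Nat.cast_zero, div_zero]
      have : 0 ≤ B := by positivity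
      linarith only [hlog, hlD]
    · have hn : (1 : ℝ) ≤ n := by exact_mod_cast h
      simp only
      rw [le_div_iff₀ (by linarith only [hn])]
      have := S.fS_le t n
      simp only [hu, hB]
      linarith only [mul_nonneg (sub_nonneg.2 hlD) (sub_nonneg.2 hn), this, hC5]
  have hlim := hsub.tendsto_lim hbdd
  set L := hsub.lim with hL
  have hup : ∀ b : ℕ, S.fS t b ≤ (-L / Real.log 2) * (b * Real.log 2) + S.C5 t := by
    intro b
    have e : (-L / Real.log 2) * (b * Real.log 2) = -L * b := by field_simp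
    rw [e]
    rcases Nat.eq_zero_or_pos b with h | h
    · subst h
      -- use superadditivity at 0
      have := S.fS_superadd t 0 0
      simp only [add_zero] at this
      simp only [Nat.cast_zero, mul_zero, zero_add]
      linarith only [this]
    · have h1 := hsub.lim_le_div hbdd h.ne'
      rw [← hL] at h1
      have hn : (0 : ℝ) < b := by exact_mod_cast h
      rw [le_div_iff₀ hn] at h1
      simp only [hu] at h1
      linarith only [h1]
  have hlow : ∀ ε > 0, ∃ b0 : ℕ, ∀ b ≥ b0, ((-L / Real.log 2) - ε) * (b * Real.log 2)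
      ≤ S.fS t b := by
    intro ε hε
    have h1 : ∀ᶠ n : ℕ in atTop, u n / n < L + ε * Real.log 2 :=
      hlim.eventually_lt_const (by have : 0 < ε * Real.log 2 := by (clear * - hε; positivity)
                                   linarith only [this])
    obtain ⟨b0, hb0⟩ := eventually_atTop.1 h1
    refine ⟨b0 + 1, fun b hb => ?_⟩
    have h2 := hb0 b (by omega)
    have hn : (0 : ℝ) < b := by
      have : 0 < b := by omega
      exact_mod_cast this
    rw [div_lt_iff₀ hn] at h2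
    have e : ((-L / Real.log 2) - ε) * (b * Real.log 2) = (-L - ε * Real.log 2) * b := by
      (clear * - hn; field_simp)
    rw [e]
    simp only [hu] at h2
    linarith only [hC5, h2]
  refine ⟨-L / Real.log 2, ?_, ?_, hup, hlow⟩
  · -- nonnegativity
    by_contra hcon
    push Not at hcon
    obtain ⟨b, hb⟩ := exists_nat_gt (S.C5 t / (-(-L / Real.log 2) * Real.log 2))
    have h1 := hup b
    have h2 := S.fS_nonneg t b
    have h3 : 0 < -(-L / Real.log 2) * Real.log 2 := by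
      have : 0 < -(-L / Real.log 2) := by linarith only [hcon]
      (clear * - this; positivity)
    rw [div_lt_iff₀ h3] at hb
    linarith
  · by_contra hcon
    push Not at hcon
    set a := -L / Real.log 2 with ha
    obtain ⟨b0, hb0⟩ := hlow ((a - 1) / 2) (by linarith)
    obtain ⟨b1, hb1⟩ := exists_nat_gt (Real.log (2 * S.D t + 3) / ((a - 1) / 2 * Real.log 2))
    have h3 : 0 < (a - 1) / 2 * Real.log 2 := by
      have : 0 < (a - 1) / 2 := by linarith only [hcon]
      positivity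
    rw [div_lt_iff₀ h3] at hb1
    have h1 := hb0 (b0 + b1) (by omega)
    have h2 := S.fS_le t (b0 + b1)
    have h4 : (a - (a - 1) / 2) * (((b0 + b1 : ℕ) : ℝ) * Real.log 2)
        = ((b0 + b1 : ℕ) : ℝ) * Real.log 2
          + ((a - 1) / 2 * Real.log 2) * ((b0 + b1 : ℕ) : ℝ) := by ring
    rw [h4] at h1
    have h5 : (b1 : ℝ) ≤ ((b0 + b1 : ℕ) : ℝ) := by push_cast; linarith only []
    linarith only [mul_nonneg (le_of_lt (sub_pos.2 h3)) (sub_nonneg.2 h5), mul_nonneg (mul_self_nonneg (1 : ℝ)) (sub_nonneg.2 h2), mul_nonneg (mul_self_nonneg (1 : ℝ)) (sub_nonneg.2 h1), hb1]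

/-- The entropy dimension. -/
def alpha (t : Λ → ℝ) : ℝ := Classical.choose (S.exists_alpha t)

lemma alpha_nonneg (t : Λ → ℝ) : 0 ≤ S.alpha t := (Classical.choose_spec (S.exists_alpha t)).1

lemma alpha_le_one (t : Λ → ℝ) : S.alpha t ≤ 1 := (Classical.choose_spec (S.exists_alpha t)).2.1

lemma fS_le_alpha (t : Λ → ℝ) (b : ℕ) : S.fS t b ≤ S.alpha t * (b * Real.log 2) + S.C5 t :=
  (Classical.choose_spec (S.exists_alpha t)).2.2.1 b

lemma alpha_le_fS (t : Λ → ℝ) (ε : ℝ) (hε : 0 < ε) :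
    ∃ b0 : ℕ, ∀ b ≥ b0, (S.alpha t - ε) * (b * Real.log 2) ≤ S.fS t b :=
  (Classical.choose_spec (S.exists_alpha t)).2.2.2 ε hε

/-- Characterization: an affine upper bound for `fS` bounds `alpha`. -/
lemma alpha_le_of_bound (t : Λ → ℝ) (a C : ℝ) (h : ∀ b : ℕ, S.fS t b ≤ a * (b * Real.log 2) + C) :
    S.alpha t ≤ a := by
  have hlog : 0 < Real.log 2 := Real.log_pos (by norm_num)
  by_contra hcon
  push Not at hcon
  obtain ⟨b0, hb0⟩ := S.alpha_le_fS t ((S.alpha t - a) / 2) (by linarith)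
  have h3 : 0 < (S.alpha t - a) / 2 * Real.log 2 := by
    have : 0 < (S.alpha t - a) / 2 := by linarith
    positivity
  obtain ⟨b1, hb1⟩ := exists_nat_gt (C / ((S.alpha t - a) / 2 * Real.log 2))
  rw [div_lt_iff₀ h3] at hb1
  have h1 := hb0 (b0 + b1) (by omega)
  have h2 := h (b0 + b1)
  have h5 : (b1 : ℝ) ≤ ((b0 + b1 : ℕ) : ℝ) := by
    push_cast; linarith only []
  linarith only [mul_nonneg (le_of_lt (sub_pos.2 h3)) (sub_nonneg.2 h5), h2, h1, hb1]

end Sys

end Vale.Agent.P114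
end
end

section

open scoped Classical

noncomputable section

namespace Vale.Agent.P114

open FinProb Filter

namespace FinProb

variable {Ω : Type*} [Fintype Ω] (P : FinProb Ω) {α β γ : Type*}

lemma sum_mono {X Y : Ω → ℝ} (h : ∀ ω, X ω ≤ Y ω) :
    ∑ ω, P.w ω * X ω ≤ ∑ ω, P.w ω * Y ω :=
  Finset.sum_le_sum fun ω _ => mul_le_mul_of_nonneg_left (h ω) (P.nonneg ω)

lemma sum_const (c : ℝ) : ∑ ω, P.w ω * c = c := by
  rw [← Finset.sum_mul, P.sum_one, one_mul]

/-- Markov inequality. -/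
lemma markov (X : Ω → ℝ) (a : ℝ) (ha : 0 < a) :
    ∑ ω, (if a < |X ω| then P.w ω else 0) ≤ (∑ ω, P.w ω * |X ω|) / a := by
  rw [le_div_iff₀ ha, Finset.sum_mul]
  refine Finset.sum_le_sum fun ω _ => ?_
  split_ifs with h
  · exact mul_le_mul_of_nonneg_left h.le (P.nonneg ω)
  · rw [zero_mul]
    exact mul_nonneg (P.nonneg ω) (abs_nonneg _)

/-- The law of a random variable with values in a finite type. -/
def law {Ω' : Type*} [Fintype Ω'] (φ : Ω → Ω') : FinProb Ω' where
  w := P.p φ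
  nonneg := P.p_nonneg φ
  sum_one := by
    unfold p
    rw [Finset.sum_comm]
    simp only [Finset.sum_ite_eq, Finset.mem_univ, if_true]
    exact P.sum_one

lemma H_law {Ω' : Type*} [Fintype Ω'] (φ : Ω → Ω') (f : Ω' → α) :
    (P.law φ).H f = P.H (fun ω => f (φ ω)) :=
  ((P.law φ).H_comp_of_map P φ (fun _ => rfl) f).symm

lemma sum_law {Ω' : Type*} [Fintype Ω'] (φ : Ω → Ω') (g : Ω' → ℝ) :
    ∑ ω, (P.law φ).w ω * g ω = ∑ ω, P.w ω * g (φ ω) :=
  ((P.law φ).sum_comp_of_map P φ (fun _ => rfl) g).symm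

/-- Entropy of a function of `g` and an independent variable. -/
lemma H_prod_le {Ω' : Type*} [Fintype Ω'] (Q : FinProb Ω') (f : Ω × Ω' → α) (g : Ω → β)
    (hfg : ∀ a a' b, g a = g a' → f (a, b) = f (a', b)) :
    (P.prod Q).H f ≤ P.H g + ∑ a, P.w a * Q.H (fun b => f (a, b)) := by
  have hne : Nonempty Ω := by
    by_contra h
    rw [not_nonempty_iff] at h
    have h1 := P.sum_one
    simp at h1
  set φ : Ω → Ω := fun a => Function.invFun g (g a) with hφ
  have hg : ∀ a, g (φ a) = g a := fun a => Function.invFun_eq ⟨a, rfl⟩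
  have hR : ∀ x, (P.prod Q).p (fun x : Ω × Ω' => (φ x.1, x.2)) x = ((P.law φ).prod Q).w x := by
    intro x
    unfold p
    simp only [prod, law]
    rw [Fintype.sum_prod_type]
    unfold p
    rw [Finset.sum_mul]
    refine Finset.sum_congr rfl fun a _ => ?_
    by_cases h : φ a = x.1
    · simp only [h, if_true]
      rw [Finset.sum_eq_single x.2]
      · simp
      · intro b _ hb
        rw [if_neg]
        intro h2
        exact hb (by rw [← h2])
      · simp only [Finset.mem_univ, not_true_eq_false, Prod.mk.eta, ↓reduceIte, mul_eq_zero, IsEmpty.forall_iff]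
    · simp only [h, if_false, zero_mul]
      refine Finset.sum_eq_zero fun b _ => ?_
      rw [if_neg]
      intro h2
      exact h (by rw [← h2])
  have h1 : (P.prod Q).H f = ((P.law φ).prod Q).H f := by
    rw [← ((P.law φ).prod Q).H_comp_of_map (P.prod Q) _ hR f]
    congr 1
    funext x
    exact hfg _ _ _ (hg x.1).symm
  have h2 : ((P.law φ).prod Q).H f
      ≤ ((P.law φ).sigma fun _ => Q).H (fun x => (f (x.1, x.2), x.1)) := by
    rw [(P.law φ).H_prod_eq_sigma]
    exact H_le_of_det _ (fun x y h => (Prod.mk.inj h).1)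
  rw [H_sigma_pair (P.law φ) (fun _ => Q) (fun x => f (x.1, x.2)), H_law, sum_law] at h2
  have h3 : P.H (fun ω => φ ω) = P.H g := by
    refine P.H_congr_det fun a b => ?_
    constructor
    · intro h; simp only [hφ, h]
    · intro h; rw [← hg a, ← hg b]; rw [h]
  have h4 : ∀ a, Q.H (fun b => f (φ a, b)) = Q.H (fun b => f (a, b)) := by
    intro a
    congr 1
    funext b
    exact hfg _ _ _ (hg a)
  simp only [h4, h3] at h2
  rw [h1]
  exact h2

end FinProb

namespace Sys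

variable {Λ : Type} [Fintype Λ] (S : Sys Λ)

/-- Lyapunov exponent in nats. -/
def χ : ℝ := -∑ i, S.P.w i * Real.log |S.r i|

/-- Bound for the deviations of the log-slopes. -/
def σ : ℝ := -Real.log S.κ

lemma r_abs_pos (i : Λ) : 0 < |S.r i| := S.κ_pos.trans_le (S.κ_le i)

lemma log_r_le (i : Λ) : Real.log |S.r i| ≤ Real.log S.ρ :=
  Real.log_le_log (S.r_abs_pos i) (S.le_ρ i)

lemma le_log_r (i : Λ) : Real.log S.κ ≤ Real.log |S.r i| :=
  Real.log_le_log S.κ_pos (S.κ_le i)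

lemma log_ρ_neg : Real.log S.ρ < 0 := Real.log_neg S.ρ_pos S.ρ_lt

lemma χ_pos : 0 < S.χ := by
  have h : ∑ i, S.P.w i * Real.log |S.r i| ≤ Real.log S.ρ := by
    rw [← S.P.sum_const (Real.log S.ρ)]
    exact S.P.sum_mono S.log_r_le
  have := S.log_ρ_neg
  unfold χ
  linarith

lemma χ_le_σ : S.χ ≤ S.σ := by
  have h : Real.log S.κ ≤ ∑ i, S.P.w i * Real.log |S.r i| := by
    rw [← S.P.sum_const (Real.log S.κ)]
    exact S.P.sum_mono S.le_log_r
  unfold χ σ
  linarith only [h]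

lemma σ_pos : 0 < S.σ := S.χ_pos.trans_le S.χ_le_σ

lemma log_dev (i : Λ) : |Real.log |S.r i| + S.χ| ≤ S.σ := by
  have h1 := S.log_r_le i
  have h2 := S.le_log_r i
  have h3 := S.χ_pos
  have h4 := S.χ_le_σ
  have h5 := S.log_ρ_neg
  rw [abs_le]
  constructor
  · unfold σ at *; (clear * - h2 h3; linarith)
  · linarith

lemma log_sl {N : ℕ} (w : Fin N → Λ) :
    Real.log |sl S.r w| = ∑ k, Real.log |S.r (w k)| := by
  rw [sl_eq_prod, Finset.abs_prod, Real.log_prod]
  intro i _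
  exact (S.r_abs_pos _).ne'

/-- First absolute moment of the deviation of the log-slope. -/
lemma dev_le (N : ℕ) :
    ∑ w, (S.P.pi N).w w * |Real.log |sl S.r w| + S.χ * N| ≤ S.σ * Real.sqrt N := by
  refine (S.P.pi N).abs_moment_le _ _ (mul_nonneg S.σ_pos.le (Real.sqrt_nonneg _)) ?_
  have h1 := S.P.second_moment N (fun _ i => Real.log |S.r i| + S.χ) (by
    intro _
    simp only [mul_add]
    rw [Finset.sum_add_distrib, S.P.sum_const]
    unfold χ
    ring)
  have h2 : ∀ w : Fin N → Λ, Real.log |sl S.r w| + S.χ * N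
      = ∑ k, (Real.log |S.r (w k)| + S.χ) := by
    intro w
    rw [S.log_sl, Finset.sum_add_distrib]
    simp only [Real.log_abs, mul_comm, Finset.sum_const, Finset.card_univ, Fintype.card_fin, nsmul_eq_mul]
  simp only [h2]
  rw [h1, mul_pow, Real.sq_sqrt (Nat.cast_nonneg N)]
  calc ∑ _i : Fin N, ∑ ω, S.P.w ω * (Real.log |S.r ω| + S.χ) ^ 2
      ≤ ∑ _i : Fin N, S.σ ^ 2 := by
        refine Finset.sum_le_sum fun _ _ => ?_
        rw [← S.P.sum_const (S.σ ^ 2)]
        refine S.P.sum_mono fun i => ?_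
        rw [← sq_abs]
        exact pow_le_pow_left₀ (abs_nonneg _) (S.log_dev i) 2
    _ = S.σ ^ 2 * N := by simp only [Finset.sum_const, Finset.card_univ, Fintype.card_fin, nsmul_eq_mul, mul_comm]

/-- Probability of an atypical slope. -/
lemma atyp_le (N : ℕ) (a : ℝ) (ha : 0 < a) :
    ∑ w, (if a < |Real.log |sl S.r w| + S.χ * N| then (S.P.pi N).w w else 0)
      ≤ S.σ * Real.sqrt N / a := by
  refine ((S.P.pi N).markov (fun w => Real.log |sl S.r w| + S.χ * N) a ha).trans ?_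
  exact div_le_div_of_nonneg_right (S.dev_le N) ha.le

lemma log_piece_le (t : Λ → ℝ) (b N : ℕ) (w : Fin N → Λ) :
    Real.log (2 * (|(2 : ℝ) ^ b * sl S.r w| * S.D t) + 3) ≤ Real.log (2 * S.D t + 3)
      + |b * Real.log 2 - S.χ * N| + |Real.log |sl S.r w| + S.χ * N| := by
  have hD := S.one_le_D t
  have hsl := S.abs_sl_pos w
  set a : ℝ := |(2 : ℝ) ^ b * sl S.r w| with ha
  have ha0 : 0 < a := by rw [ha, abs_mul]; positivity
  have hla : Real.log a = b * Real.log 2 + Real.log |sl S.r w| := by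
    rw [ha, abs_mul, Real.log_mul (by positivity) (by positivity), abs_of_pos (by positivity),
      Real.log_pow]
  have h1 : Real.log a ≤ |b * Real.log 2 - S.χ * N| + |Real.log |sl S.r w| + S.χ * N| := by
    have e : Real.log a = (b * Real.log 2 - S.χ * N) + (Real.log |sl S.r w| + S.χ * N) := by
      rw [hla]; ring
    rw [e]
    exact add_le_add (le_abs_self _) (le_abs_self _)
  rcases le_total a 1 with h | h
  · have h2 : Real.log (2 * (a * S.D t) + 3) ≤ Real.log (2 * S.D t + 3) := by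
      refine Real.log_le_log (by (clear * - ha0 hD; positivity)) ?_
      have : a * S.D t ≤ 1 * S.D t := by (clear * - h hD; gcongr)
      linarith only [this]
    have h3 := abs_nonneg (b * Real.log 2 - S.χ * N)
    have h4 := abs_nonneg (Real.log |sl S.r w| + S.χ * N)
    linarith only [h2, h3, h4]
  · have h2 : Real.log (2 * (a * S.D t) + 3) ≤ Real.log ((2 * S.D t + 3) * a) := by
      refine Real.log_le_log (by (clear * - ha0 hD; positivity)) ?_
      nlinarith only [h]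
    rw [Real.log_mul (by positivity) (by (clear * - ha0; positivity))] at h2
    linarith only [h1, h2]

lemma E_log_piece (t : Λ → ℝ) (b N : ℕ) :
    ∑ w, (S.P.pi N).w w * Real.log (2 * (|(2 : ℝ) ^ b * sl S.r w| * S.D t) + 3)
      ≤ Real.log (2 * S.D t + 3) + |b * Real.log 2 - S.χ * N| + S.σ * Real.sqrt N := by
  refine ((S.P.pi N).sum_mono (S.log_piece_le t b N)).trans ?_
  simp only [mul_add, Finset.sum_add_distrib, (S.P.pi N).sum_const]
  have := S.dev_le N
  linarith only [this]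

/-- Entropy of `G_n` in nats. -/
def HG (t : Λ → ℝ) (n : ℕ) : ℝ := (S.P.pi n).H (fun w => (sl S.r w, tr S.r t w))

lemma HG_add_le (t : Λ → ℝ) (m n : ℕ) : S.HG t (m + n) ≤ S.HG t m + S.HG t n := by
  unfold HG
  rw [← H_pi_add, ← H_prod_pair (S.P.pi m) (S.P.pi n)]
  refine H_le_of_det _ fun x y h => ?_
  simp only [Prod.mk.injEq] at h
  simp only [sl_append, tr_append, Prod.mk.injEq]
  obtain ⟨⟨h1, h2⟩, h3, h4⟩ := h
  rw [h1, h2, h3, h4]
  exact ⟨rfl, rfl⟩

lemma HG_zero (t : Λ → ℝ) : S.HG t 0 = 0 := by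
  unfold HG H p
  simp only [Finset.univ_unique, pi_w, Finset.univ_eq_empty, Finset.prod_empty, sl_zero, tr_zero, ↓reduceIte, Finset.sum_const, Finset.card_singleton, one_smul, Real.log_one, neg_zero, mul_zero, Finset.sum_const_zero]

lemma HG_mul_le (t : Λ → ℝ) (m n : ℕ) : S.HG t (m * n) ≤ m * S.HG t n := by
  induction m with
  | zero => simp only [zero_mul, S.HG_zero, CharP.cast_eq_zero, Std.le_refl]
  | succ m ih =>
    rw [Nat.succ_mul]
    have := S.HG_add_le t (m * n) n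
    push_cast
    linarith only [ih, this]

lemma fS_le_HG (t : Λ → ℝ) (b m : ℕ) : S.fS t b ≤ S.HG t m + Real.log (2 * S.D t + 3)
    + |b * Real.log 2 - S.χ * m| + S.σ * Real.sqrt m + Real.log 3 := by
  set N' := S.Nb t b with hN'
  have h1 : S.D t * S.ρ ^ (m + N') * 2 ^ b ≤ 1 := by
    refine le_trans ?_ (S.Nb_spec' t b)
    have h2 : S.ρ ^ (m + N') ≤ S.ρ ^ N' :=
      pow_le_pow_of_le_one S.ρ_pos.le S.ρ_lt.le (by omega)
    have := S.D_nonneg t
    gcongr
  have h2 := S.fS_le_F t b (m + N') h1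
  have e1 : S.F t (m + N') (2 ^ b) = ((S.P.pi m).prod (S.P.pi N')).H
      (fun x => ⌊(2 : ℝ) ^ b * (tr S.r t x.1 + sl S.r x.1 * tr S.r t x.2)⌋) := by
    unfold F
    rw [← H_pi_add]
    simp only [tr_append]
  have h3 := (S.P.pi m).H_prod_le (S.P.pi N')
    (fun x => ⌊(2 : ℝ) ^ b * (tr S.r t x.1 + sl S.r x.1 * tr S.r t x.2)⌋)
    (fun w => (sl S.r w, tr S.r t w)) (by
      intro a a' b' h
      simp only [Prod.mk.injEq] at h
      simp only [h.1, h.2])
  have h4 : ∑ a, (S.P.pi m).w a * (S.P.pi N').H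
        (fun b' => ⌊(2 : ℝ) ^ b * (tr S.r t a + sl S.r a * tr S.r t b')⌋)
      ≤ ∑ a, (S.P.pi m).w a * Real.log (2 * (|(2 : ℝ) ^ b * sl S.r a| * S.D t) + 3) := by
    refine (S.P.pi m).sum_mono fun a => ?_
    have h5 := H_floor_le_log (S.P.pi N') (fun w => tr S.r t w) (S.D t)
      ((2 : ℝ) ^ b * sl S.r a) ((2 : ℝ) ^ b * tr S.r t a) (fun w => S.abs_tr_le t w)
    have e2 : (fun b' : Fin N' → Λ => ⌊(2 : ℝ) ^ b * (tr S.r t a + sl S.r a * tr S.r t b')⌋)
        = (fun b' => ⌊(2 : ℝ) ^ b * sl S.r a * tr S.r t b' + (2 : ℝ) ^ b * tr S.r t a⌋) := by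
      funext b'
      congr 1
      ring
    rw [e2]
    exact h5
  have h5 := S.E_log_piece t b m
  rw [e1] at h2
  simp only at h3
  unfold HG
  linarith only [h2, h4, h5, h3]

lemma exists_sq_gt (A B η : ℝ) (hη : 0 < η) : ∃ K : ℕ, 0 < K ∧ A + B * K < (K : ℝ) ^ 2 * η := by
  obtain ⟨K, hK⟩ := exists_nat_gt ((|A| + |B| + 1) / η)
  have h1 : 0 < (|A| + |B| + 1) / η := by (clear * - hη; positivity)
  have hK0 : (0 : ℝ) < K := h1.trans hK
  have hK1 : (1 : ℝ) ≤ K := by
    have : 0 < K := by exact_mod_cast hK0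
    exact_mod_cast this
  refine ⟨K, by exact_mod_cast hK0, ?_⟩
  rw [div_lt_iff₀ hη] at hK
  have h2 := le_abs_self A
  have h3 : B * K ≤ |B| * K := mul_le_mul_of_nonneg_right (le_abs_self B) hK0.le
  have h4 := abs_nonneg A
  have h5 := abs_nonneg B
  linarith only [mul_nonneg (sub_nonneg.2 hK1) (sub_nonneg.2 h4), mul_nonneg (le_of_lt (sub_pos.2 hK)) (sub_nonneg.2 hK1), hK1, hK, h3, h2]

/-- Upper bound of the entropy dimension by the random walk entropy. -/
theorem alpha_mul_χ_le (t : Λ → ℝ) (n : ℕ) : S.alpha t * (S.χ * n) ≤ S.HG t n := by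
  rcases Nat.eq_zero_or_pos n with hn | hn
  · subst hn
    simp [S.HG_zero]
  by_contra hcon
  push Not at hcon
  have hlog : 0 < Real.log 2 := Real.log_pos (by norm_num)
  have hχ := S.χ_pos
  have hn0 : (0 : ℝ) < n := by exact_mod_cast hn
  have hα0 := S.alpha_nonneg t
  have hα1 := S.alpha_le_one t
  set α := S.alpha t with hα
  set gap : ℝ := α * (S.χ * n) - S.HG t n with hgap
  have hgap0 : 0 < gap := by linarith only [hcon]
  obtain ⟨b0, hb0⟩ := S.alpha_le_fS t (gap / (2 * (S.χ * n))) (by positivity)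
  set C : ℝ := Real.log (2 * S.D t + 3) + 2 * Real.log 2 + Real.log 3 with hC
  have hD := S.one_le_D t
  have hC0 : 0 ≤ Real.log (2 * S.D t + 3) := Real.log_nonneg (by linarith only [hD])
  have hl3 : 0 ≤ Real.log 3 := Real.log_nonneg (by norm_num)
  set m0 : ℝ := (b0 + 1) * Real.log 2 / (S.χ * n) with hm0
  -- choose K with everything large
  obtain ⟨K, hK0, hK⟩ := exists_sq_gt (C + (m0 + 1) * (gap / 2)) (S.σ * Real.sqrt n) (gap / 2)
    (by linarith only [hcon])
  set m : ℕ := K ^ 2 with hm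
  have hmR : (m : ℝ) = (K : ℝ) ^ 2 := by rw [hm]; push_cast; ring
  have hK0' : (0 : ℝ) < K := by exact_mod_cast hK0
  have hmm0 : m0 < m := by
    rw [hmR]
    have h1 : 0 ≤ S.σ * Real.sqrt n * K :=
      mul_nonneg (mul_nonneg S.σ_pos.le (Real.sqrt_nonneg _)) hK0'.le
    have hC' : 0 ≤ C := by rw [hC]; (clear * - hC0; positivity)
    have h2 : (m0 + 1) * (gap / 2) < (K : ℝ) ^ 2 * (gap / 2) := by linarith only [hlog, hC0, hl3, hK, h1]
    have h3 := lt_of_mul_lt_mul_right h2 (by linarith only [hcon])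
    linarith only [h3]
  set x : ℝ := S.χ * ((m * n : ℕ) : ℝ) / Real.log 2 with hx
  have hx0 : 0 ≤ x := by positivity
  set b : ℕ := ⌊x⌋₊ with hb
  have hb1 : (b : ℝ) ≤ x := Nat.floor_le hx0
  have hb2 : x < b + 1 := Nat.lt_floor_add_one x
  have hxl : x * Real.log 2 = S.χ * ((m * n : ℕ) : ℝ) := by rw [hx]; field_simp
  have hbb0 : b0 ≤ b := by
    have h1 : (b0 : ℝ) + 1 ≤ x := by
      rw [hx, le_div_iff₀ hlog]
      push_cast
      rw [hm0, div_lt_iff₀ (by positivity)] at hmm0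
      linarith only [hmm0]
    have h2 : (b0 : ℝ) < b + 1 := by linarith only [hb2, h1]
    have : b0 < b + 1 := by exact_mod_cast h2
    (clear * - this; omega)
  have h1 := hb0 b hbb0
  have h2 := S.fS_le_HG t b (m * n)
  have h3 := S.HG_mul_le t m n
  have h4 : |(b : ℝ) * Real.log 2 - S.χ * ((m * n : ℕ) : ℝ)| ≤ Real.log 2 := by
    rw [← hxl, abs_le]
    constructor
    · linarith only [mul_pos (sub_pos.2 hlog) (sub_pos.2 hb2)]
    · nlinarith only [hlog, hb1]
  have h5 : Real.sqrt ((m * n : ℕ) : ℝ) = K * Real.sqrt n := by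
    push_cast
    rw [hmR, Real.sqrt_mul (by positivity), Real.sqrt_sq hK0'.le]
  rw [h5] at h2
  -- lower bound for b log 2
  have h6 : S.χ * ((m * n : ℕ) : ℝ) - Real.log 2 ≤ b * Real.log 2 := by
    have := (abs_le.1 h4).1
    linarith only [this]
  have h7 : b * Real.log 2 ≤ S.χ * ((m * n : ℕ) : ℝ) := by
    rw [← hxl]; exact mul_le_mul_of_nonneg_right hb1 hlog.le
  have h8 : α * (b * Real.log 2) ≥ α * (S.χ * ((m * n : ℕ) : ℝ)) - Real.log 2 := by
    have : α * (S.χ * ((m * n : ℕ) : ℝ) - Real.log 2) ≤ α * (b * Real.log 2) :=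
      mul_le_mul_of_nonneg_left h6 hα0
    linarith only [mul_nonneg (le_of_lt (sub_pos.2 hlog)) (sub_nonneg.2 hα1), this]
  have h9 : gap / (2 * (S.χ * n)) * (b * Real.log 2) ≤ gap / 2 * m := by
    calc gap / (2 * (S.χ * n)) * (b * Real.log 2)
        ≤ gap / (2 * (S.χ * n)) * (S.χ * ((m * n : ℕ) : ℝ)) :=
          mul_le_mul_of_nonneg_left h7 (by positivity)
      _ = gap / 2 * m := by push_cast; (clear * - hχ hn hgap0; field_simp)
  have h10 : α * (S.χ * ((m * n : ℕ) : ℝ)) = m * (gap + S.HG t n) := by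
    rw [hgap]; push_cast; ring
  have h11 : (m : ℝ) * (gap / 2) ≤ C + S.σ * Real.sqrt n * K := by
    rw [hC]
    have e1 : (α - gap / (2 * (S.χ * n))) * (b * Real.log 2)
        = α * (b * Real.log 2) - gap / (2 * (S.χ * n)) * (b * Real.log 2) := by ring
    have e2 : (m : ℝ) * (gap + S.HG t n) = m * gap + m * S.HG t n := by ring
    have e3 : S.σ * (K * Real.sqrt n) = S.σ * Real.sqrt n * K := by ring
    rw [e1] at h1
    rw [e2] at h10
    rw [e3] at h2
    rw [h10] at h8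
    linarith only [h1, h2, h3, h4, h8, h9]
  have h12 : 0 ≤ (m0 + 1) * (gap / 2) := by
    have : 0 ≤ m0 := by (clear * - hχ hn; positivity)
    positivity
  rw [hmR] at h11
  linarith only [hK, h11, h12]

lemma abs_trL_le' (t : Λ → ℝ) (u : List Λ) : |trL S.r t u| ≤ ‖t‖ / (1 - S.ρ) := by
  have h4 : 0 < 1 - S.ρ := by linarith [S.ρ_lt]
  induction u with
  | nil => simp only [trL, abs_zero]; positivity
  | cons i u ih =>
    simp only [trL]
    have h1 : |t i| ≤ ‖t‖ := norm_le_pi_norm t i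
    have h2 : |S.r i * trL S.r t u| ≤ S.ρ * (‖t‖ / (1 - S.ρ)) := by
      rw [abs_mul]
      exact mul_le_mul (S.le_ρ i) ih (abs_nonneg _) S.ρ_pos.le
    calc _ ≤ |t i| + |S.r i * trL S.r t u| := abs_add_le _ _
      _ ≤ ‖t‖ + S.ρ * (‖t‖ / (1 - S.ρ)) := add_le_add h1 h2
      _ = _ := by field_simp; ring

lemma trL_sub (t t' : Λ → ℝ) (u : List Λ) :
    trL S.r (t - t') u = trL S.r t u - trL S.r t' u := by
  induction u with
  | nil => simp [trL]
  | cons i u ih => simp only [trL, ih, Pi.sub_apply]; ring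

lemma trL_smul (c : ℝ) (t : Λ → ℝ) (u : List Λ) : trL S.r (c • t) u = c * trL S.r t u := by
  induction u with
  | nil => simp [trL]
  | cons i u ih => simp only [trL, ih, Pi.smul_apply, smul_eq_mul]; ring

lemma fS_le_of_close (t t' : Λ → ℝ) (b : ℕ) (h : 2 ^ b * (‖t - t'‖ / (1 - S.ρ)) ≤ 1) :
    S.fS t b ≤ S.fS t' b + 3 * Real.log 3 := by
  set N := max (S.Nb t b) (S.Nb t' b) with hN
  have h1 : S.D t * S.ρ ^ N * 2 ^ b ≤ 1 := by
    refine le_trans ?_ (S.Nb_spec' t b)
    have h2 : S.ρ ^ N ≤ S.ρ ^ (S.Nb t b) :=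
      pow_le_pow_of_le_one S.ρ_pos.le S.ρ_lt.le (le_max_left _ _)
    have := S.D_nonneg t
    gcongr
  have h2 : S.D t' * S.ρ ^ N * 2 ^ b ≤ 1 := by
    refine le_trans ?_ (S.Nb_spec' t' b)
    have h2 : S.ρ ^ N ≤ S.ρ ^ (S.Nb t' b) :=
      pow_le_pow_of_le_one S.ρ_pos.le S.ρ_lt.le (le_max_right _ _)
    have := S.D_nonneg t'
    gcongr
  have h3 := S.fS_le_F t b N h1
  have h4 := S.F_le_fS t' b N h2
  have h5 : S.F t N (2 ^ b) ≤ S.F t' N (2 ^ b) + Real.log 3 := by
    refine H_le_of_near _ _ _ id fun w => ?_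
    refine floor_near ?_
    rw [← mul_sub]
    have e : tr S.r t w - tr S.r t' w = trL S.r (t - t') (List.ofFn w) := by
      rw [S.trL_sub]; rfl
    rw [e, abs_mul, abs_of_pos (by positivity)]
    exact le_trans (mul_le_mul_of_nonneg_left (S.abs_trL_le' _ _) (by positivity)) h
  linarith only [h3, h4, h5]

/-- Sublevel sets of the entropy dimension are closed. -/
theorem isClosed_alpha_le (a : ℝ) : IsClosed {x : Λ → ℝ | S.alpha x ≤ a} := by
  rw [← closure_subset_iff_isClosed]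
  intro x hx
  rw [Metric.mem_closure_iff] at hx
  have h1ρ : 0 < 1 - S.ρ := by linarith only [S.ρ_lt]
  show S.alpha x ≤ a
  set B : ℝ := (‖x‖ + 1) / (1 - S.ρ) + 1 with hB
  set C : ℝ := Real.log (1 / S.κ + 2) + 3 * Real.log 3 + Real.log (2 * B + 3) with hC
  refine S.alpha_le_of_bound x a (C + 3 * Real.log 3) fun b => ?_
  obtain ⟨y, hy, hxy⟩ := hx (min 1 ((1 - S.ρ) / 2 ^ b)) (by positivity)
  have hy' : S.alpha y ≤ a := hy
  rw [dist_eq_norm] at hxy
  have h1 : ‖x - y‖ < 1 := lt_of_lt_of_le hxy (min_le_left _ _)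
  have h2 : ‖x - y‖ < (1 - S.ρ) / 2 ^ b := lt_of_lt_of_le hxy (min_le_right _ _)
  have h3 := S.fS_le_of_close x y b (by
    rw [lt_div_iff₀ (by positivity)] at h2
    rw [← mul_div_assoc, div_le_one h1ρ]
    linarith only [h2])
  have h4 := S.fS_le_alpha y b
  have h5 : ‖y‖ ≤ ‖x‖ + 1 := by
    have : ‖y‖ ≤ ‖x‖ + ‖y - x‖ := by
      have := norm_add_le x (y - x)
      simpa only [ge_iff_le, add_sub_cancel] using this
    rw [norm_sub_rev] at this
    linarith only [h1, this]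
  have h6 : S.D y ≤ B := by
    unfold D
    rw [hB]
    (clear * - h5 h1ρ; gcongr)
  have h7 : S.C5 y ≤ C := by
    unfold C5 C4
    rw [hC]
    have h8 := S.one_le_D y
    have : Real.log (2 * S.D y + 3) ≤ Real.log (2 * B + 3) :=
      Real.log_le_log (by linarith only [h8]) (by linarith only [h6])
    linarith only [this]
  have h8 : S.alpha y * (b * Real.log 2) ≤ a * (b * Real.log 2) :=
    mul_le_mul_of_nonneg_right hy' (by
      have : 0 < Real.log 2 := Real.log_pos (by norm_num)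
      (clear * -; positivity))
  linarith only [h3, h4, h7, h8]

/-- Scaling does not increase the entropy dimension. -/
theorem alpha_smul_le (t : Λ → ℝ) (c : ℝ) : S.alpha (c • t) ≤ S.alpha t := by
  refine S.alpha_le_of_bound (c • t) (S.alpha t)
    (S.C5 t + Real.log (|c| + 2) + 2 * Real.log 3) fun b => ?_
  set N := max (S.Nb t b) (S.Nb (c • t) b) with hN
  have h1 : S.D t * S.ρ ^ N * 2 ^ b ≤ 1 := by
    refine le_trans ?_ (S.Nb_spec' t b)
    have h2 : S.ρ ^ N ≤ S.ρ ^ (S.Nb t b) :=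
      pow_le_pow_of_le_one S.ρ_pos.le S.ρ_lt.le (le_max_left _ _)
    have := S.D_nonneg t
    gcongr
  have h2 : S.D (c • t) * S.ρ ^ N * 2 ^ b ≤ 1 := by
    refine le_trans ?_ (S.Nb_spec' (c • t) b)
    have h2 : S.ρ ^ N ≤ S.ρ ^ (S.Nb (c • t) b) :=
      pow_le_pow_of_le_one S.ρ_pos.le S.ρ_lt.le (le_max_right _ _)
    have := S.D_nonneg (c • t)
    gcongr
  have h3 := S.fS_le_F (c • t) b N h2
  have h4 := S.F_le_fS t b N h1
  have h5 := S.fS_le_alpha t b
  have h6 := S.F_rescale t N (2 ^ b) (2 ^ b * c) 0 (by positivity)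
  have e1 : S.F (c • t) N (2 ^ b) = (S.P.pi N).H (fun w => ⌊(2 : ℝ) ^ b * c * tr S.r t w + 0⌋) := by
    unfold F
    congr 1
    funext w
    congr 1
    have : tr S.r (c • t) w = c * tr S.r t w := S.trL_smul c t _
    rw [this]
    ring
  have e2 : |(2 : ℝ) ^ b * c| / 2 ^ b = |c| := by
    rw [abs_mul, abs_of_pos (by positivity : (0 : ℝ) < 2 ^ b)]
    field_simp
  rw [← e1, e2] at h6
  linarith only [h3, h4, h5, h6]

end Sys

end Vale.Agent.P114
end
end

section

open scoped Classical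

noncomputable section

namespace Vale.Agent.P114

/-- central binomial type bound -/
lemma choose_half_sq_le (m : ℕ) :
    ((m.choose (m / 2) : ℕ) : ℝ) ^ 2 * (m + 1) ≤ 2 * (4 : ℝ) ^ m := by
  -- even case
  have heven : ∀ n : ℕ, ((Nat.centralBinom n : ℕ) : ℝ) ^ 2 * (2 * n + 1) ≤ (4 : ℝ) ^ (2 * n) := by
    intro n
    induction n with
    | zero => simp
    | succ n ih =>
      have h1 : ((n : ℝ) + 1) * (Nat.centralBinom (n + 1) : ℝ)
          = 2 * (2 * n + 1) * (Nat.centralBinom n : ℝ) := by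
        exact_mod_cast Nat.succ_mul_centralBinom_succ n
      have hn : (0 : ℝ) < (n : ℝ) + 1 := by (clear * -; positivity)
      have h2 : (Nat.centralBinom (n + 1) : ℝ)
          = 2 * (2 * n + 1) * (Nat.centralBinom n : ℝ) / (n + 1) := by
        field_simp
        linarith
      rw [h2]
      push_cast
      have h3 : (2 * (2 * (n : ℝ) + 1) * (Nat.centralBinom n : ℝ) / (n + 1)) ^ 2
          * (2 * ((n : ℝ) + 1) + 1)
          = ((Nat.centralBinom n : ℝ) ^ 2 * (2 * n + 1))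
            * (4 * (2 * n + 1) * (2 * n + 3) / (n + 1) ^ 2) := by
        field_simp
        ring
      rw [h3]
      have h4 : 4 * (2 * (n : ℝ) + 1) * (2 * n + 3) / (n + 1) ^ 2 ≤ 16 := by
        rw [div_le_iff₀ (by (clear * -; positivity))]
        linarith only []
      have h5 : (4 : ℝ) ^ (2 * (n + 1)) = (4 : ℝ) ^ (2 * n) * 16 := by
        rw [mul_add, pow_add]; norm_num
      rw [h5]
      exact mul_le_mul ih h4 (by (clear * -; positivity)) (by positivity)
  rcases Nat.even_or_odd' m with ⟨n, hn | hn⟩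
  · subst hn
    have h := heven n
    have h1 : (2 * n) / 2 = n := by (clear * -; omega)
    rw [h1]
    have h2 : (2 * n).choose n = Nat.centralBinom n := rfl
    rw [h2]
    push_cast
    have : (0 : ℝ) < (4 : ℝ) ^ (2 * n) := by positivity
    linarith only [h, this]
  · subst hn
    have h1 : (2 * n + 1) / 2 = n := by omega
    rw [h1]
    have h := heven (n + 1)
    have h2 : (2 * ((2 * n + 1).choose n) : ℕ) = Nat.centralBinom (n + 1) := by
      rw [Nat.centralBinom_eq_two_mul_choose]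
      have : 2 * (n + 1) = (2 * n + 1) + 1 := by ring
      rw [this, Nat.choose_succ_succ' (2 * n + 1) n]
      have h3 : (2 * n + 1).choose (n + 1) = (2 * n + 1).choose n := by
        apply Nat.choose_symm_of_eq_add
        ring
      rw [h3]; ring
    have h4 : ((2 * n + 1).choose n : ℝ) = (Nat.centralBinom (n + 1) : ℝ) / 2 := by
      have : (2 : ℝ) * ((2 * n + 1).choose n : ℝ) = (Nat.centralBinom (n + 1) : ℝ) := by
        exact_mod_cast h2
      linarith only [this]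
    rw [h4]
    push_cast at h ⊢
    have h5 : (4 : ℝ) ^ (2 * (n + 1)) = 4 * (4 : ℝ) ^ (2 * n + 1) := by
      rw [show 2 * (n + 1) = (2 * n + 1) + 1 by ring, pow_succ]; ring
    rw [h5] at h
    have h6 : (0 : ℝ) ≤ (Nat.centralBinom (n + 1) : ℝ) ^ 2 := by (clear * -; positivity)
    nlinarith only [h]

/-- The uniform probability on a finite nonempty type. -/
def unif (Ω : Type*) [Fintype Ω] [Nonempty Ω] : FinProb Ω where
  w _ := 1 / (Fintype.card Ω : ℝ)
  nonneg _ := by positivity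
  sum_one := by
    rw [Finset.sum_const, nsmul_eq_mul, Finset.card_univ]
    have : (Fintype.card Ω : ℝ) ≠ 0 := by exact_mod_cast Fintype.card_ne_zero
    field_simp

/-- The signed selection sum. -/
def sel {k : ℕ} (u v : Fin k → ℤ) (e : Fin k → Bool) : ℤ := ∑ i, if e i then u i else v i

lemma bool_term_le (a b : Bool) (u v : ℤ) (h : (a = true ↔ v < u) → (b = true ↔ v < u)) :
    (if a then u else v) ≤ (if b then u else v) := by
  cases a <;> cases b <;> simp at h ⊢ <;> omega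

lemma bool_term_strict (a b : Bool) (u v R : ℤ) (hR : R ≤ |u - v|) (hR0 : 0 < R)
    (hb : b = true ↔ v < u) (ha : ¬ (a = true ↔ v < u)) :
    (if a then u else v) + R ≤ (if b then u else v) := by
  rcases abs_cases (u - v) with ⟨h1, h2⟩ | ⟨h1, h2⟩ <;>
  cases a <;> cases b <;> simp at ha hb ⊢ <;> omega

lemma bool_eq_of_iff (a b : Bool) (p : Prop) (h : (a = true ↔ p) ↔ (b = true ↔ p)) : a = b := by
  by_cases hp : p <;> cases a <;> cases b <;> simp [hp] at h ⊢

/-- Erdos-Littlewood-Offord counting: number of selections whose sum lies in a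
half-open interval of length `R`. -/
lemma lo_count {k : ℕ} (u v : Fin k → ℤ) (R : ℤ) (hR : 0 < R) (y : ℤ) (m : ℕ)
    (hm : m = (Finset.univ.filter fun i => R ≤ |u i - v i|).card) :
    (Finset.univ.filter fun e : Fin k → Bool => y ≤ sel u v e ∧ sel u v e < y + R).card
      ≤ (m.choose (m / 2)) * 2 ^ (k - m) := by
  set G : Finset (Fin k) := Finset.univ.filter fun i => R ≤ |u i - v i| with hG
  set S := Finset.univ.filter fun e : Fin k → Bool => y ≤ sel u v e ∧ sel u v e < y + R with hS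
  -- restriction to the complement of G
  set ρ : (Fin k → Bool) → ({i // i ∉ G} → Bool) := fun e i => e i with hρ
  have hcardG : Fintype.card {i // i ∈ G} = m := by
    rw [Fintype.card_coe, hm]
  have hcardGc : Fintype.card {i // i ∉ G} = k - m := by
    rw [Fintype.card_subtype_compl, hcardG, Fintype.card_fin]
  have key : ∀ b ∈ S.image ρ, (S.filter fun e => ρ e = b).card ≤ m.choose (m / 2) := by
    intro b _
    set T := S.filter fun e => ρ e = b with hT
    -- high set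
    set hi : (Fin k → Bool) → Finset {i // i ∈ G} :=
      fun e => Finset.univ.filter fun i => (e i = true ↔ v i < u i) with hhi
    have hinj : Set.InjOn hi (T : Set (Fin k → Bool)) := by
      intro e he e' he' heq
      have he1 := (Finset.mem_filter.1 he).2
      have he1' := (Finset.mem_filter.1 he').2
      funext i
      by_cases hi' : i ∈ G
      · have h1 : (⟨i, hi'⟩ : {i // i ∈ G}) ∈ hi e ↔ (⟨i, hi'⟩ : {i // i ∈ G}) ∈ hi e' := by
          rw [heq]
        simp only [hhi, Finset.mem_filter, Finset.mem_univ, true_and] at h1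
        exact bool_eq_of_iff _ _ _ h1
      · have h1 : ρ e ⟨i, hi'⟩ = ρ e' ⟨i, hi'⟩ := by rw [he1, he1']
        exact h1
    have hanti : IsAntichain (fun x1 x2 => x1 ⊆ x2) ((T.image hi : Finset _) : Set (Finset {i // i ∈ G})) := by
      intro s hs s' hs' hne hsub
      rw [Finset.coe_image] at hs hs'
      obtain ⟨e, he, rfl⟩ := hs
      obtain ⟨e', he', rfl⟩ := hs'
      have he1 := (Finset.mem_filter.1 he).2
      have he1' := (Finset.mem_filter.1 he').2
      have heS := (Finset.mem_filter.1 (Finset.mem_filter.1 he).1).2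
      have heS' := (Finset.mem_filter.1 (Finset.mem_filter.1 he').1).2
      -- find an index in hi e' not in hi e
      obtain ⟨j, hj', hj⟩ : ∃ j, j ∈ hi e' ∧ j ∉ hi e := by
        by_contra hcon
        push Not at hcon
        exact hne (Finset.Subset.antisymm hsub fun j hj => hcon j hj)
      -- termwise comparison
      have hterm : ∀ i : Fin k, (if e i then u i else v i) ≤ (if e' i then u i else v i) := by
        intro i
        by_cases hiG : i ∈ G
        · have hs1 : (⟨i, hiG⟩ : {i // i ∈ G}) ∈ hi e → (⟨i, hiG⟩ : {i // i ∈ G}) ∈ hi e' :=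
            fun h => hsub h
          simp only [hhi, Finset.mem_filter, Finset.mem_univ, true_and] at hs1
          exact bool_term_le _ _ _ _ hs1
        · have h1 : ρ e ⟨i, hiG⟩ = ρ e' ⟨i, hiG⟩ := by rw [he1, he1']
          simp only [hρ] at h1
          rw [h1]
      have hstrict : (if e j then u j else v j) + R ≤ (if e' j then u j else v j) := by
        have hjG : R ≤ |u j - v j| := (Finset.mem_filter.1 j.2).2
        simp only [hhi, Finset.mem_filter, Finset.mem_univ, true_and] at hj hj'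
        exact bool_term_strict _ _ _ _ _ hjG hR hj' hj
      have hsum : sel u v e + R ≤ sel u v e' := by
        unfold sel
        rw [← Finset.add_sum_erase _ _ (Finset.mem_univ (j : Fin k)),
          ← Finset.add_sum_erase _ _ (Finset.mem_univ (j : Fin k))]
        have := Finset.sum_le_sum (s := Finset.univ.erase (j : Fin k)) fun i _ => hterm i
        linarith only [hstrict, this]
      linarith only [heS, heS', hsum]
    have h1 := IsAntichain.sperner hanti
    rw [Finset.card_image_of_injOn hinj, hcardG] at h1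
    exact h1
  have h2 := Finset.card_le_mul_card_image (s := S) (f := ρ) (m.choose (m / 2)) key
  refine h2.trans (Nat.mul_le_mul_left _ ?_)
  calc (S.image ρ).card ≤ (Finset.univ : Finset ({i // i ∉ G} → Bool)).card :=
        Finset.card_le_card (Finset.subset_univ _)
    _ = 2 ^ (k - m) := by
        rw [Finset.card_univ, Fintype.card_fun, Fintype.card_bool, hcardGc]

end Vale.Agent.P114
end
end

section

open scoped Classical

noncomputable section

namespace Vale.Agent.P114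

lemma sum_half_pow_le (s : Finset ℤ) (z0 : ℤ) :
    ∑ z ∈ s, (1 / 2 : ℝ) ^ (z - z0).natAbs ≤ 4 := by
  rw [← Finset.sum_filter_add_sum_filter_not s (fun z => z0 ≤ z)]
  have hgeo : ∀ t : Finset ℕ, ∑ n ∈ t, (1 / 2 : ℝ) ^ n ≤ 2 := by
    intro t
    have h1 := summable_geometric_two.sum_le_tsum t (fun i _ => by positivity)
    rw [tsum_geometric_two] at h1
    exact h1
  have h1 : ∑ z ∈ s.filter (fun z => z0 ≤ z), (1 / 2 : ℝ) ^ (z - z0).natAbs ≤ 2 := by
    have hinj : Set.InjOn (fun z : ℤ => (z - z0).natAbs)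
        ((s.filter fun z => z0 ≤ z : Finset ℤ) : Set ℤ) := by
      intro a ha b hb hab
      have ha' := (Finset.mem_filter.1 ha).2
      have hb' := (Finset.mem_filter.1 hb).2
      simp only at hab
      omega
    rw [← Finset.sum_image (f := fun n : ℕ => (1 / 2 : ℝ) ^ n) hinj]
    exact hgeo _
  have h2 : ∑ z ∈ s.filter (fun z => ¬ z0 ≤ z), (1 / 2 : ℝ) ^ (z - z0).natAbs ≤ 2 := by
    have hinj : Set.InjOn (fun z : ℤ => (z - z0).natAbs)
        ((s.filter fun z => ¬ z0 ≤ z : Finset ℤ) : Set ℤ) := by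
      intro a ha b hb hab
      have ha' := (Finset.mem_filter.1 ha).2
      have hb' := (Finset.mem_filter.1 hb).2
      simp only at hab
      omega
    rw [← Finset.sum_image (f := fun n : ℕ => (1 / 2 : ℝ) ^ n) hinj]
    exact hgeo _
  linarith

namespace FinProb

variable {Ω : Type*} [Fintype Ω] (P : FinProb Ω)

/-- Entropy of an integer variable in terms of its first absolute moment about a point. -/
lemma H_le_of_moment (f : Ω → ℤ) (z0 : ℤ) (B : ℝ)
    (hB : ∑ ω, P.w ω * (((f ω - z0).natAbs : ℕ) : ℝ) ≤ B) :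
    P.H f ≤ (2 + B) * Real.log 2 := by
  have h := P.H_le_gibbs f (fun z => (1 / 4 : ℝ) * (1 / 2) ^ (z - z0).natAbs)
    (fun ω _ => by positivity)
    (by
      rw [← Finset.mul_sum]
      have := sum_half_pow_le (Finset.univ.image f) z0
      linarith) (fun a => by positivity)
  refine h.trans ?_
  have h1 : ∀ ω, P.w ω * -Real.log ((1 / 4 : ℝ) * (1 / 2) ^ (f ω - z0).natAbs)
      = P.w ω * (2 * Real.log 2) + (P.w ω * (((f ω - z0).natAbs : ℕ) : ℝ)) * Real.log 2 := by
    intro ω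
    have h4 : Real.log (1 / 4 : ℝ) = -(2 * Real.log 2) := by
      rw [one_div, Real.log_inv, show (4 : ℝ) = 2 ^ 2 by norm_num, Real.log_pow]
      push_cast; ring
    have h5 : Real.log ((1 / 2 : ℝ) ^ (f ω - z0).natAbs)
        = -(((f ω - z0).natAbs : ℕ) : ℝ) * Real.log 2 := by
      rw [Real.log_pow, one_div, Real.log_inv]; ring
    rw [Real.log_mul (by norm_num) (by positivity), h4, h5]
    ring
  rw [Finset.sum_congr rfl fun ω _ => h1 ω, Finset.sum_add_distrib, ← Finset.sum_mul,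
    ← Finset.sum_mul, P.sum_one]
  have hlog : 0 < Real.log 2 := Real.log_pos (by norm_num)
  linarith only [mul_nonneg (sub_nonneg.2 hB) (le_of_lt (sub_pos.2 hlog))]

end FinProb

lemma unif_p {Ω : Type*} [Fintype Ω] [Nonempty Ω] {α : Type*} [DecidableEq α]
    (f : Ω → α) (a : α) :
    (unif Ω).p f a = ((Finset.univ.filter fun ω => f ω = a).card : ℝ) / Fintype.card Ω := by
  unfold FinProb.p unif
  simp only
  rw [← Finset.sum_filter, Finset.sum_const, nsmul_eq_mul, mul_one_div]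

/-- Littlewood-Offord lower bound for the entropy of a random selection sum. -/
lemma lo_entropy {k : ℕ} (u v : Fin k → ℤ) (R : ℤ) (hR : 0 < R) (y : ℤ) (m : ℕ)
    (hm : m = (Finset.univ.filter fun i => R ≤ |u i - v i|).card) :
    1 / 2 * Real.log (((m : ℝ) + 1) / 2)
      ≤ (unif (Fin k → Bool)).H (fun e => (sel u v e + y) / R) := by
  have hmk : m ≤ k := by
    rw [hm]
    exact (Finset.card_le_univ _).trans (by simp only [Fintype.card_fin, Std.le_refl])
  have h1 : ∀ z : ℤ, (unif (Fin k → Bool)).p (fun e => (sel u v e + y) / R) z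
      ≤ Real.sqrt (2 / ((m : ℝ) + 1)) := by
    intro z
    rw [unif_p]
    have hsub : (Finset.univ.filter fun e : Fin k → Bool => (sel u v e + y) / R = z)
        ⊆ (Finset.univ.filter fun e : Fin k → Bool =>
          z * R - y ≤ sel u v e ∧ sel u v e < z * R - y + R) := by
      intro e he
      have he' := (Finset.mem_filter.1 he).2
      refine Finset.mem_filter.2 ⟨Finset.mem_univ _, ?_⟩
      have h2 := Int.ediv_mul_le (sel u v e + y) hR.ne'
      have h3 := Int.lt_ediv_add_one_mul_self (sel u v e + y) hR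
      rw [he'] at h2 h3
      constructor <;> nlinarith only [h2, h3]
    have hc := (Finset.card_le_card hsub).trans (lo_count u v R hR (z * R - y) m hm)
    have hcard : (Fintype.card (Fin k → Bool) : ℝ) = 2 ^ k := by
      rw [Fintype.card_fun, Fintype.card_bool, Fintype.card_fin]
      push_cast
      rfl
    rw [hcard]
    have hc' : ((Finset.univ.filter fun e : Fin k → Bool => (sel u v e + y) / R = z).card : ℝ)
        ≤ (m.choose (m / 2) : ℝ) * 2 ^ (k - m) := by exact_mod_cast hc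
    have h4 : ((Finset.univ.filter fun e : Fin k → Bool => (sel u v e + y) / R = z).card : ℝ)
        / 2 ^ k ≤ (m.choose (m / 2) : ℝ) / 2 ^ m := by
      rw [div_le_div_iff₀ (by positivity) (by positivity)]
      calc _ ≤ (m.choose (m / 2) : ℝ) * 2 ^ (k - m) * 2 ^ m :=
            mul_le_mul_of_nonneg_right hc' (by positivity)
        _ = _ := by
            rw [mul_assoc, ← pow_add, Nat.sub_add_cancel hmk]
    refine h4.trans ?_
    apply Real.le_sqrt_of_sq_le
    rw [div_pow, le_div_iff₀ (by (clear * -; positivity)), div_mul_eq_mul_div, div_le_iff₀ (by positivity)]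
    have h5 := choose_half_sq_le m
    have h6 : ((2 : ℝ) ^ m) ^ 2 = 4 ^ m := by
      rw [← pow_mul, mul_comm, pow_mul]; norm_num
    rw [h6]
    exact h5
  have h2 := (unif (Fin k → Bool)).neg_log_le_H (fun e => (sel u v e + y) / R) _ h1
  refine le_trans (le_of_eq ?_) h2
  rw [Real.log_sqrt (by (clear * -; positivity)), show (2 : ℝ) / ((m : ℝ) + 1) = (((m : ℝ) + 1) / 2)⁻¹ by
    rw [inv_div], Real.log_inv]
  ring

/-- Upper bound for the entropy of a random selection sum at a coarse scale. -/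
lemma var_entropy {k : ℕ} (u v : Fin k → ℤ) (R S : ℤ) (hS : 0 < S) (y : ℤ)
    (hR : ∀ i, |u i - v i| ≤ R) (hkR : (k : ℝ) * (R : ℝ) ^ 2 ≤ (S : ℝ) ^ 2) :
    (unif (Fin k → Bool)).H (fun e => (sel u v e + y) / S) ≤ (7 / 2) * Real.log 2 := by
  have hSr : (0 : ℝ) < S := by exact_mod_cast hS
  set g : Fin k → Bool → ℝ := fun i b => (if b then (1 : ℝ) else -1) * ((u i - v i : ℤ) : ℝ) / 2
    with hg
  set τ : ℝ := ∑ i, ((u i + v i : ℤ) : ℝ) / 2 + y with hτ
  set z0 : ℤ := ⌊τ / S⌋ with hz0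
  -- weights of pi
  have hw : ∀ e : Fin k → Bool, (unif (Fin k → Bool)).w e = ((unif Bool).pi k).w e := by
    intro e
    simp [unif, FinProb.pi_w]
  have hX : ∀ e : Fin k → Bool, ((sel u v e : ℤ) : ℝ) + y = τ + ∑ i, g i (e i) := by
    intro e
    simp only [sel, hτ, hg]
    push_cast
    rw [add_right_comm, ← Finset.sum_add_distrib]
    congr 1
    refine Finset.sum_congr rfl fun i _ => ?_
    cases e i <;> simp <;> ring
  have hm2 := (unif Bool).second_moment k g (by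
    intro i
    simp only [Fintype.univ_bool, unif, Fintype.card_bool, Nat.cast_ofNat, one_div, hg, Int.cast_sub, ite_mul, one_mul, neg_mul, neg_sub, Finset.mem_singleton, Bool.true_eq_false, not_false_eq_true, Finset.sum_insert, ↓reduceIte, Finset.sum_singleton, Bool.false_eq_true]
    ring)
  have hm2' : ∑ e, (unif (Fin k → Bool)).w e * (∑ i, g i (e i)) ^ 2 ≤ ((S : ℝ) / 2) ^ 2 := by
    have : ∑ e, (unif (Fin k → Bool)).w e * (∑ i, g i (e i)) ^ 2
        = ∑ i, ∑ ω, (unif Bool).w ω * (g i ω) ^ 2 := by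
      rw [← hm2]
      exact Finset.sum_congr rfl fun e _ => by rw [hw]
    rw [this]
    have h3 : ∀ i, ∑ ω, (unif Bool).w ω * (g i ω) ^ 2 ≤ (R : ℝ) ^ 2 / 4 := by
      intro i
      have h4 : ∑ ω, (unif Bool).w ω * (g i ω) ^ 2 = (((u i - v i : ℤ) : ℝ)) ^ 2 / 4 := by
        simp only [Fintype.univ_bool, unif, Fintype.card_bool, Nat.cast_ofNat, one_div, hg, Int.cast_sub, ite_mul, one_mul, neg_mul, neg_sub, Finset.mem_singleton, Bool.true_eq_false, not_false_eq_true, Finset.sum_insert, ↓reduceIte, Finset.sum_singleton, Bool.false_eq_true]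
        ring
      rw [h4]
      have h5 : ((|u i - v i| : ℤ) : ℝ) ≤ R := by exact_mod_cast hR i
      have h6 : (((u i - v i : ℤ) : ℝ)) ^ 2 ≤ (R : ℝ) ^ 2 := by
        rw [← sq_abs]
        have h7 : (0 : ℝ) ≤ |((u i - v i : ℤ) : ℝ)| := abs_nonneg _
        have h8 : |((u i - v i : ℤ) : ℝ)| ≤ R := by
          rw [← Int.cast_abs]; exact h5
        linarith only [mul_nonneg (sub_nonneg.2 h8) (sub_nonneg.2 h8), mul_nonneg (sub_nonneg.2 h7) (sub_nonneg.2 h8)]
      linarith only [h6]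
    calc _ ≤ ∑ _i : Fin k, (R : ℝ) ^ 2 / 4 := Finset.sum_le_sum fun i _ => h3 i
      _ = (k : ℝ) * (R : ℝ) ^ 2 / 4 := by
          rw [Finset.sum_const, Finset.card_univ, Fintype.card_fin, nsmul_eq_mul]; ring
      _ ≤ _ := by
          have : ((S : ℝ) / 2) ^ 2 = (S : ℝ) ^ 2 / 4 := by ring
          rw [this]; linarith only [hkR]
  have habs := (unif (Fin k → Bool)).abs_moment_le (fun e => ∑ i, g i (e i)) ((S : ℝ) / 2)
    (by positivity) hm2'
  have hdist : ∀ e : Fin k → Bool, ((((sel u v e + y) / S - z0).natAbs : ℕ) : ℝ)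
      ≤ 1 + |∑ i, g i (e i)| / S := by
    intro e
    have h1 : (sel u v e + y) / S = ⌊(τ + ∑ i, g i (e i)) / S⌋ := by
      rw [← hX e, ← Int.cast_add, Int.floor_div_cast_of_nonneg hS.le, Int.floor_intCast]
    rw [h1, Nat.cast_natAbs, Int.cast_abs, Int.cast_sub]
    have h2 := Int.floor_le ((τ + ∑ i, g i (e i)) / S)
    have h3 := Int.lt_floor_add_one ((τ + ∑ i, g i (e i)) / S)
    have h4 := Int.floor_le (τ / S)
    have h5 := Int.lt_floor_add_one (τ / S)
    have h6 : (τ + ∑ i, g i (e i)) / S = τ / S + (∑ i, g i (e i)) / S := by ring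
    have h7 : |(∑ i, g i (e i)) / S| = |∑ i, g i (e i)| / S := by
      rw [abs_div, abs_of_pos hSr]
    rw [← h7]
    rw [h6] at h2 h3
    rw [h6]
    have h8 := abs_le.1 (le_refl |(∑ i, g i (e i)) / S|)
    rw [abs_le]
    constructor <;> linarith only [h2, h5, h8, h3, h4]
  have := (unif (Fin k → Bool)).H_le_of_moment (fun e => (sel u v e + y) / S) z0 (3 / 2) (by
    calc _ ≤ ∑ e, (unif (Fin k → Bool)).w e * (1 + |∑ i, g i (e i)| / S) :=
          Finset.sum_le_sum fun e _ => mul_le_mul_of_nonneg_left (hdist e)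
            ((unif (Fin k → Bool)).nonneg e)
      _ = 1 + (∑ e, (unif (Fin k → Bool)).w e * |∑ i, g i (e i)|) / S := by
          simp only [mul_add, mul_one, Finset.sum_add_distrib, (unif (Fin k → Bool)).sum_one]
          rw [Finset.sum_div]
          congr 1
          exact Finset.sum_congr rfl fun e _ => by ring
      _ ≤ 3 / 2 := by
          have : (∑ e, (unif (Fin k → Bool)).w e * |∑ i, g i (e i)|) / S ≤ 1 / 2 := by
            rw [div_le_iff₀ hSr]
            linarith only [habs]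
          (clear * - this; linarith))
  linarith only [this]

end Vale.Agent.P114
end
end

section

open scoped Classical

noncomputable section

namespace Vale.Agent.P114

open FinProb Filter

namespace FinProb

variable {Ω : Type*} [Fintype Ω] (P : FinProb Ω) {α β γ : Type*}

lemma H_congr_supp (f g : Ω → α) (h : ∀ ω, 0 < P.w ω → f ω = g ω) : P.H f = P.H g := by
  have hp : ∀ a, P.p f a = P.p g a := by
    intro a
    unfold p
    refine Finset.sum_congr rfl fun ω _ => ?_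
    rcases P.w_zero_or_pos ω with hw | hw
    · simp only [hw, ite_self]
    · rw [h ω hw]
  unfold H
  refine Finset.sum_congr rfl fun ω _ => ?_
  rcases P.w_zero_or_pos ω with hw | hw
  · simp [hw]
  · rw [hp, h ω hw]

lemma H_le_of_near_supp (f : Ω → ℤ) (g : Ω → β) (σ : β → ℤ)
    (h : ∀ ω, 0 < P.w ω → |f ω - σ (g ω)| ≤ 1) : P.H f ≤ P.H g + Real.log 3 := by
  have h1 := P.H_congr_supp f (fun ω => if 0 < P.w ω then f ω else σ (g ω))
    (fun ω hω => by simp [hω])
  rw [h1]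
  refine H_le_of_near P _ g σ fun ω => ?_
  split_ifs with h2
  · exact h ω h2
  · simp only [sub_self, abs_zero, zero_le_one]

lemma exists_w_pos : ∃ ω, 0 < P.w ω := by
  by_contra h
  push Not at h
  have h1 : ∑ ω, P.w ω ≤ 0 := Finset.sum_nonpos fun ω _ => h ω
  rw [P.sum_one] at h1
  linarith only [h1]

lemma H_le_log_card_supp (f : Ω → α) (s : Finset α) (hs : ∀ ω, 0 < P.w ω → f ω ∈ s) :
    P.H f ≤ Real.log s.card := by
  obtain ⟨ω0, hω0⟩ := P.exists_w_pos
  have h1 := P.H_congr_supp f (fun ω => if 0 < P.w ω then f ω else f ω0)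
    (fun ω hω => by simp [hω])
  rw [h1]
  refine P.H_le_log_card _ s fun ω => ?_
  split_ifs with h2
  · exact hs ω h2
  · exact hs ω0 hω0

lemma cond_supp (h : Ω → γ) (ω : Ω) (hω : 0 < P.w ω) (ω' : Ω)
    (h' : 0 < (P.cond h (h ω)).w ω') : h ω' = h ω := by
  by_contra hne
  rw [P.cond_w h _ (P.p_pos hω h), if_neg hne] at h'
  simp at h'

/-- Bound of the entropy by the sizes of conditional supports. -/
lemma H_le_add_E_log_card (f : Ω → α) (g : Ω → β) (S : β → Finset α) (K : β → ℝ)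
    (hS : ∀ ω, f ω ∈ S (g ω)) (hK : ∀ b, ((S b).card : ℝ) ≤ K b) :
    P.H f ≤ P.H g + ∑ ω, P.w ω * Real.log (K (g ω)) := by
  have h1 : P.H f ≤ P.H (fun ω => (f ω, g ω)) :=
    P.H_le_of_det fun x y h => (Prod.mk.inj h).1
  rw [P.H_pair_eq_cond f g] at h1
  refine h1.trans (add_le_add le_rfl ?_)
  refine Finset.sum_le_sum fun ω _ => ?_
  rcases P.w_zero_or_pos ω with hw | hw
  · simp [hw]
  · refine mul_le_mul_of_nonneg_left ?_ hw.le
    have h2 := (P.cond g (g ω)).H_le_log_card_supp f (S (g ω)) (fun ω' hω' => by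
      rw [← P.cond_supp g ω hw ω' hω']
      exact hS ω')
    refine h2.trans (Real.log_le_log ?_ (hK _))
    have : 0 < (S (g ω)).card := Finset.card_pos.2 ⟨_, hS ω⟩
    exact_mod_cast this

/-- Conditioning the first factor of a product. -/
lemma prod_cond_mix {B : Type*} [Fintype B] (Q : FinProb B) (h : Ω → γ) (f : Ω × B → α)
    (g : Ω × B → β) (hfg : ∀ x y, f x = f y → g x = g y) :
    ∑ a, P.w a * (((P.cond h (h a)).prod Q).H f - ((P.cond h (h a)).prod Q).H g)
      ≤ (P.prod Q).H f - (P.prod Q).H g := by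
  have h1 := sigma_cond_le P (fun a => (P.cond h (h a)).prod Q) (fun x => f x.2)
    (fun x => g x.2) (fun x y hxy => hfg _ _ hxy)
  have h2 : ∀ x : Ω × B, (P.sigma (fun a => (P.cond h (h a)).prod Q)).p (fun x => x.2) x
      = (P.prod Q).w x := by
    intro x
    unfold p
    rw [Fintype.sum_sigma]
    have e1 : ∀ a, (∑ y : Ω × B, @ite ℝ (y = x) (Classical.propDecidable _)
        ((P.sigma (fun a => (P.cond h (h a)).prod Q)).w ⟨a, y⟩) 0)
        = P.w a * ∑ ω', (P.cond h (h a)).w ω' * (if ω' = x.1 then Q.w x.2 else 0) := by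
      intro a
      refine (Finset.sum_eq_single x (fun y _ hy => if_neg hy)
        (fun hx => absurd (Finset.mem_univ x) hx)).trans ?_
      rw [if_pos rfl]
      simp only [mul_ite, mul_zero, Finset.sum_ite_eq', Finset.mem_univ, if_true]
      simp only [sigma, prod]
    refine (Finset.sum_congr rfl fun a _ => e1 a).trans ?_
    rw [P.sum_cond_total h (fun ω' => if ω' = x.1 then Q.w x.2 else 0)]
    simp only [mul_ite, mul_zero, Finset.sum_ite_eq', Finset.mem_univ, if_true]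
    simp only [prod]
  rw [(P.prod Q).H_comp_of_map _ (fun x : (_ : Ω) × Ω × B => x.2) h2 f,
    (P.prod Q).H_comp_of_map _ (fun x : (_ : Ω) × Ω × B => x.2) h2 g] at h1
  exact h1

lemma H_le_prod_add {B : Type*} [Fintype B] (Q : FinProb B) (U : Ω → ℤ) (Y : B → ℤ) :
    Q.H Y ≤ (P.prod Q).H (fun x => U x.1 + Y x.2) := by
  have h := P.prod_sections_le Q (fun x => U x.1 + Y x.2)
  have e : ∀ a, Q.H (fun b => U a + Y b) = Q.H Y := fun a =>
    Q.H_congr_det fun x y => by simp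
  simp only [e, P.sum_const] at h
  exact h

end FinProb

namespace Sys

variable {Λ : Type} [Fintype Λ] (S : Sys Λ)

lemma floor_pow_ediv (x : ℝ) (m j : ℕ) (hj : j ≤ m) :
    ⌊(2 : ℝ) ^ m * x⌋ / 2 ^ j = ⌊(2 : ℝ) ^ (m - j) * x⌋ := by
  rw [← floor_mul_ediv ((2 : ℝ) ^ (m - j) * x) j, ← mul_assoc, ← pow_add,
    Nat.add_sub_cancel' hj]

/-- Constant for the increments. -/
def C6 (t : Λ → ℝ) : ℝ := S.C4 t + 3 * Real.log 3

lemma C6_nonneg (t : Λ → ℝ) : 0 ≤ S.C6 t := by
  have := S.C4_nonneg t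
  have h4 : 0 ≤ Real.log 3 := Real.log_nonneg (by norm_num)
  unfold C6; linarith only [this, h4]

/-- Increments of the rescaled self-similar part. -/
lemma incr_lower (t : Λ → ℝ) (N' m j W : ℕ) (s : ℝ) (hs1 : |s| ≤ 1) (hjW : j + W ≤ m)
    (hs : 1 ≤ 2 ^ (m - (j + W)) * |s|) (hN' : S.D t * S.ρ ^ N' * 2 ^ m ≤ S.κ) :
    S.fS t W - S.C6 t ≤ (S.P.pi N').H (fun v => ⌊(2 : ℝ) ^ m * (s * tr S.r t v)⌋ / 2 ^ j)
      - (S.P.pi N').H (fun v => ⌊(2 : ℝ) ^ m * (s * tr S.r t v)⌋ / 2 ^ (j + W)) := by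
  have hs0 : 0 < |s| := by
    by_contra h
    have : |s| = 0 := le_antisymm (not_lt.1 h) (abs_nonneg _)
    rw [this, mul_zero] at hs
    linarith only [hs]
  have e1 : (fun v : Fin N' → Λ => ⌊(2 : ℝ) ^ m * (s * tr S.r t v)⌋ / 2 ^ j)
      = fun v => ⌊((2 : ℝ) ^ (m - j) * s) * tr S.r t v + 0⌋ := by
    funext v
    rw [floor_pow_ediv _ _ _ (by omega)]
    congr 1
    ring
  have e2 : (fun v : Fin N' → Λ => ⌊(2 : ℝ) ^ m * (s * tr S.r t v)⌋ / 2 ^ (j + W))
      = fun v => ⌊((2 : ℝ) ^ (m - (j + W)) * s) * tr S.r t v + 0⌋ := by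
    funext v
    rw [floor_pow_ediv _ _ _ hjW]
    congr 1
    ring
  rw [e1, e2]
  set m' := m - (j + W) with hm'
  have hmj : m - j = W + m' := by omega
  have a1 : |(2 : ℝ) ^ (m - j) * s| = 2 ^ (m - j) * |s| := by
    rw [abs_mul, abs_of_pos (by positivity)]
  have a2 : |(2 : ℝ) ^ m' * s| = 2 ^ m' * |s| := by
    rw [abs_mul, abs_of_pos (by positivity)]
  have h1 := S.F_rescale' t N' (2 ^ (m - j) * |s|) ((2 : ℝ) ^ (m - j) * s) 0 (by
    rw [a1]; positivity)
  have p1 : 0 < (2 : ℝ) ^ (m - j) * |s| := by positivity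
  rw [a1, abs_of_pos p1, div_self p1.ne'] at h1
  have h2 := S.F_rescale t N' (2 ^ m' * |s|) ((2 : ℝ) ^ m' * s) 0 (by positivity)
  rw [a2, div_self (by positivity)] at h2
  have h3 := S.F_superadd t N' (S.Nb t W) W (2 ^ m' * |s|) hs (by
    refine le_trans ?_ hN'
    have h4 : (2 : ℝ) ^ W * (2 ^ m' * |s|) ≤ 2 ^ m := by
      calc (2 : ℝ) ^ W * (2 ^ m' * |s|) = 2 ^ (W + m') * |s| := by rw [pow_add]; ring
        _ ≤ 2 ^ m * 1 := by
            gcongr
            · norm_num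
            · omega
        _ = 2 ^ m := mul_one _
    have := S.D_nonneg t
    have := pow_nonneg S.ρ_pos.le N'
    (clear hN' e1 hs e2 hm' a1 a2 h1 p1 h2; gcongr)) (S.Nb_spec' t W)
  have e3 : (2 : ℝ) ^ W * (2 ^ m' * |s|) = 2 ^ (m - j) * |s| := by
    rw [hmj, pow_add]; ring
  rw [e3] at h3
  have e4 : (1 : ℝ) + 2 = 3 := by norm_num
  rw [e4] at h1 h2
  unfold C6 fS
  linarith only [h1, h2, h3]

section Fibre

variable (t : Λ → ℝ) (n N' b M : ℕ)

/-- Discretized `X`. -/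
def Xt (x : (Fin n → Λ) × (Fin N' → Λ)) : ℤ :=
  ⌊(2 : ℝ) ^ (b + M) * (tr S.r t x.1 + sl S.r x.1 * tr S.r t x.2)⌋

/-- Discretized translation of the word. -/
def τt (w : Fin n → Λ) : ℤ := ⌊(2 : ℝ) ^ (b + M) * tr S.r t w⌋

/-- Conditioning variable: slope and coarse cell. -/
def ht (w : Fin n → Λ) : ℝ × ℤ := (sl S.r w, S.τt t n b M w / 2 ^ M)

/-- Fine part. -/
def Ut (w : Fin n → Λ) : ℤ := S.τt t n b M w % 2 ^ M

/-- Discretized self-similar part with slope `s`. -/
def Yt (s : ℝ) (v : Fin N' → Λ) : ℤ := ⌊(2 : ℝ) ^ (b + M) * (s * tr S.r t v)⌋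

lemma Ut_mem (w : Fin n → Λ) : 0 ≤ S.Ut t n b M w ∧ S.Ut t n b M w < 2 ^ M :=
  ⟨Int.emod_nonneg _ (by (clear * -; positivity)), Int.emod_lt_of_pos _ (by positivity)⟩

lemma Xt_bounds (x : (Fin n → Λ) × (Fin N' → Λ)) :
    S.τt t n b M x.1 + S.Yt t N' b M (sl S.r x.1) x.2 ≤ S.Xt t n N' b M x ∧
    S.Xt t n N' b M x ≤ S.τt t n b M x.1 + S.Yt t N' b M (sl S.r x.1) x.2 + 1 := by
  unfold Xt τt Yt
  rw [mul_add]
  constructor
  · exact Int.le_floor_add _ _
  · have := Int.le_floor_add_floor ((2 : ℝ) ^ (b + M) * tr S.r t x.1)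
      ((2 : ℝ) ^ (b + M) * (sl S.r x.1 * tr S.r t x.2))
    linarith only [this]

end Fibre

end Sys

end Vale.Agent.P114
end
end

section

/-! Subadditivity of the information carried by labels about a noisy sum. -/

open scoped Classical

noncomputable section

namespace Vale.Agent.P114

namespace FinProb

section pairs

variable {Ω : Type*} [Fintype Ω] (P : FinProb Ω) {α β γ : Type*}

lemma H_const {c : α} : P.H (fun _ => c) = 0 := by
  have h1 := P.H_le_log_card (fun _ => c) {c} (fun _ => by simp)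
  rw [Finset.card_singleton, Nat.cast_one, Real.log_one] at h1
  exact le_antisymm h1 (P.H_nonneg _)

lemma H_pair_le' (f : Ω → α) (g : Ω → β) : P.H (fun ω => (f ω, g ω)) ≤ P.H f + P.H g := by
  have h := P.H_submod f g (fun _ => ())
  have e1 : P.H (fun ω => (f ω, g ω, ())) = P.H (fun ω => (f ω, g ω)) :=
    P.H_congr_det fun x y => by simp
  have e2 : P.H (fun ω => (f ω, ())) = P.H f := P.H_congr_det fun x y => by simp
  have e3 : P.H (fun ω => (g ω, ())) = P.H g := P.H_congr_det fun x y => by simp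
  rw [e1, e2, e3, H_const] at h
  linarith

/-- Rearranging a triple product. -/
lemma H_prod_rot {A B C : Type*} [Fintype A] [Fintype B] [Fintype C] (PA : FinProb A)
    (PB : FinProb B) (PC : FinProb C) (f : A × B × C → α) :
    (PA.prod (PB.prod PC)).H f = (PB.prod (PA.prod PC)).H (fun x => f (x.2.1, x.1, x.2.2)) := by
  symm
  refine (PA.prod (PB.prod PC)).H_equiv (PB.prod (PA.prod PC))
    { toFun := fun x => (x.2.1, x.1, x.2.2)
      invFun := fun x => (x.2.1, x.1, x.2.2)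
      left_inv := fun x => rfl
      right_inv := fun x => rfl } ?_ f
  intro x
  simp only [prod_w, Equiv.coe_fn_mk]
  ring

end pairs

variable {G : Type*} [AddCommGroup G] {A A' B τ τ' : Type*} [Fintype A] [Fintype A'] [Fintype B]

/-- Information of the label `T` about the noisy variable `U + Y`. -/
def info (PA : FinProb A) (PB : FinProb B) (U : A → G) (T : A → τ) (Y : B → G) : ℝ :=
  (PA.prod PB).H (fun x => U x.1 + Y x.2) + PA.H T
    - (PA.prod PB).H (fun x => (U x.1 + Y x.2, T x.1))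

lemma info_nonneg (PA : FinProb A) (PB : FinProb B) (U : A → G) (T : A → τ) (Y : B → G) :
    0 ≤ info PA PB U T Y := by
  have h := (PA.prod PB).H_pair_le' (fun x => U x.1 + Y x.2) (fun x => T x.1)
  rw [H_prod_fst PA PB T] at h
  unfold info
  linarith only [h]

/-- Kaimanovich-Vershik inequality with labels. -/
lemma info_prod_le (PA : FinProb A) (PA' : FinProb A') (PB : FinProb B) (U : A → G) (T : A → τ)
    (U' : A' → G) (T' : A' → τ') (Y : B → G) :
    (PA.prod (PA'.prod PB)).H (fun x => U x.1 + (U' x.2.1 + Y x.2.2)) + (PA.H T + PA'.H T')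
      - (PA.prod (PA'.prod PB)).H (fun x => (U x.1 + (U' x.2.1 + Y x.2.2), T x.1, T' x.2.1))
      ≤ info PA PB U T Y + info PA' PB U' T' Y := by
  set R := PA.prod (PA'.prod PB) with hR
  have h1 := R.H_submod (fun x => U x.1) (fun x => T' x.2.1)
    (fun x => U x.1 + (U' x.2.1 + Y x.2.2))
  have e1 : R.H (fun ω => (U ω.1, T' ω.2.1, U ω.1 + (U' ω.2.1 + Y ω.2.2)))
      = PA.H U + (PA'.prod PB).H (fun x => (U' x.1 + Y x.2, T' x.1)) := by
    rw [← H_prod_pair PA (PA'.prod PB) U (fun x => (U' x.1 + Y x.2, T' x.1))]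
    refine R.H_congr_det fun x y => ?_
    simp only [Prod.mk.injEq]
    constructor
    · rintro ⟨h1, h2, h3⟩
      exact ⟨h1, h3, by rw [h1, h2]⟩
    · rintro ⟨h1, h2, h3⟩
      rw [h1] at h3
      exact ⟨h1, add_left_cancel h3, h2⟩
  have e2 : R.H (fun ω => (U ω.1, U ω.1 + (U' ω.2.1 + Y ω.2.2)))
      = PA.H U + (PA'.prod PB).H (fun x => U' x.1 + Y x.2) := by
    rw [← H_prod_pair PA (PA'.prod PB) U (fun x => U' x.1 + Y x.2)]
    refine R.H_congr_det fun x y => ?_
    simp only [Prod.mk.injEq]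
    constructor
    · rintro ⟨h1, h2⟩
      exact ⟨h1, by rw [h1, h2]⟩
    · rintro ⟨h1, h2⟩
      rw [h1] at h2
      exact ⟨h1, add_left_cancel h2⟩
  have h2 := R.H_submod (fun x => U' x.2.1) (fun x => T x.1)
    (fun x => (U x.1 + (U' x.2.1 + Y x.2.2), T' x.2.1))
  have e3 : R.H (fun ω => (U' ω.2.1, T ω.1, U ω.1 + (U' ω.2.1 + Y ω.2.2), T' ω.2.1))
      = PA'.H (fun x => (U' x, T' x)) + (PA.prod PB).H (fun x => (U x.1 + Y x.2, T x.1)) := by
    rw [← H_prod_pair PA' (PA.prod PB) (fun x => (U' x, T' x))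
      (fun x => (U x.1 + Y x.2, T x.1)), H_prod_rot PA' PA PB]
    refine R.H_congr_det fun x y => ?_
    simp only [Prod.mk.injEq]
    constructor
    · rintro ⟨⟨h1, h2⟩, h3, h4⟩
      refine ⟨h1, h4, ?_, h2⟩
      rw [h1, add_left_comm, add_left_comm (U y.1), h3]
    · rintro ⟨h1, h2, h3, h4⟩
      refine ⟨⟨h1, h4⟩, ?_, h2⟩
      rw [h1, add_left_comm, add_left_comm (U y.1)] at h3
      exact add_left_cancel h3
  have e4 : R.H (fun ω => (U' ω.2.1, U ω.1 + (U' ω.2.1 + Y ω.2.2), T' ω.2.1))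
      = PA'.H (fun x => (U' x, T' x)) + (PA.prod PB).H (fun x => U x.1 + Y x.2) := by
    rw [← H_prod_pair PA' (PA.prod PB) (fun x => (U' x, T' x))
      (fun x => U x.1 + Y x.2), H_prod_rot PA' PA PB]
    refine R.H_congr_det fun x y => ?_
    simp only [Prod.mk.injEq]
    constructor
    · rintro ⟨⟨h1, h2⟩, h3⟩
      refine ⟨h1, ?_, h2⟩
      rw [h1, add_left_comm, add_left_comm (U y.1), h3]
    · rintro ⟨h1, h3, h4⟩
      refine ⟨⟨h1, h4⟩, ?_⟩
      rw [h1, add_left_comm, add_left_comm (U y.1)] at h3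
      exact add_left_cancel h3
  have e5 : R.H (fun ω => (T' ω.2.1, U ω.1 + (U' ω.2.1 + Y ω.2.2)))
      = R.H (fun ω => (U ω.1 + (U' ω.2.1 + Y ω.2.2), T' ω.2.1)) :=
    R.H_congr_det fun x y => by simp only [Prod.mk.injEq]; (clear * -; tauto)
  have e6 : R.H (fun ω => (T ω.1, U ω.1 + (U' ω.2.1 + Y ω.2.2), T' ω.2.1))
      = R.H (fun ω => (U ω.1 + (U' ω.2.1 + Y ω.2.2), T ω.1, T' ω.2.1)) :=
    R.H_congr_det fun x y => by simp only [Prod.mk.injEq]; tauto
  rw [e1, e2, e5] at h1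
  rw [e3, e4, e6] at h2
  unfold info
  linarith only [h1, h2]

lemma H_pi_succ_prod {δ : Type*} (PA : FinProb A) (PB : FinProb B) (k : ℕ)
    (φ : (Fin (k + 1) → A) × B → δ) :
    (PA.prod ((PA.pi k).prod PB)).H (fun x => φ (Fin.cons x.1 x.2.1, x.2.2))
      = ((PA.pi (k + 1)).prod PB).H φ :=
  ((PA.pi (k + 1)).prod PB).H_equiv (PA.prod ((PA.pi k).prod PB))
    ((Equiv.prodAssoc A (Fin k → A) B).symm.trans
      ((Fin.consEquiv (fun _ : Fin (k + 1) => A)).prodCongr (Equiv.refl B)))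
    (by
      intro x
      simp only [prod_w, pi_w, Fin.consEquiv, Equiv.trans_apply, Equiv.prodAssoc_symm_apply, Equiv.prodCongr_apply, Equiv.coe_fn_mk, Prod.map_apply, Equiv.refl_apply]
      rw [Fin.prod_univ_succ]
      simp only [Fin.cons_zero, Fin.cons_succ]
      ring) φ

/-- Labels of `k` independent copies. -/
lemma info_pi_le (PA : FinProb A) (PB : FinProb B) (U : A → G) (T : A → τ) (Y : B → G) (k : ℕ) :
    info (PA.pi k) PB (fun x => ∑ i, U (x i)) (fun x => fun i => T (x i)) Y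
      ≤ k * info PA PB U T Y := by
  induction k with
  | zero =>
    unfold info
    have e1 : (PA.pi 0).H (fun x => fun i => T (x i)) = 0 := by
      have : (fun x : Fin 0 → A => fun i => T (x i)) = fun _ => (fun i => i.elim0) := by
        ext x i; exact i.elim0
      rw [this]; exact H_const _
    have e2 : ((PA.pi 0).prod PB).H (fun x => ((∑ i, U (x.1 i)) + Y x.2, fun i => T (x.1 i)))
        = ((PA.pi 0).prod PB).H (fun x => (∑ i, U (x.1 i)) + Y x.2) :=
      H_congr_det _ fun x y => by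
        simp only [Prod.mk.injEq]
        constructor
        · intro h; exact ⟨h, by ext i; exact i.elim0⟩
        · intro h; exact h.1
    rw [e1, e2]
    simp only [Finset.univ_eq_empty, Finset.sum_empty, zero_add, add_zero, sub_self, CharP.cast_eq_zero, zero_mul, Std.le_refl]
  | succ k ih =>
    have h1 := info_prod_le PA (PA.pi k) PB U T (fun x => ∑ i, U (x i))
      (fun x => fun i => T (x i)) Y
    have e1 : (PA.pi (k + 1)).H (fun x => fun i => T (x i))
        = PA.H T + (PA.pi k).H (fun x => fun i => T (x i)) := by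
      rw [← H_prod_pair PA (PA.pi k) T (fun x => fun i => T (x i)), ← PA.H_pi_succ k]
      refine H_congr_det _ fun x y => ?_
      constructor
      · intro h
        simp only [Prod.mk.injEq] at h
        funext i
        refine Fin.cases ?_ (fun i => ?_) i
        · simpa using h.1
        · simpa only [Fin.cons_succ] using congrFun h.2 i
      · intro h
        simp only [Prod.mk.injEq]
        refine ⟨by simpa using congrFun h 0, ?_⟩
        funext i
        simpa using congrFun h i.succ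
    have e2 := H_pi_succ_prod PA PB k (fun x => (∑ i, U (x.1 i)) + Y x.2)
    have e3 := H_pi_succ_prod PA PB k (fun x => ((∑ i, U (x.1 i)) + Y x.2, fun i => T (x.1 i)))
    have e4 : (PA.prod ((PA.pi k).prod PB)).H
        (fun x => (∑ i, U ((Fin.cons x.1 x.2.1 : Fin (k + 1) → A) i)) + Y x.2.2)
        = (PA.prod ((PA.pi k).prod PB)).H
          (fun x => U x.1 + ((∑ i, U (x.2.1 i)) + Y x.2.2)) := by
      congr 1
      ext x
      rw [Fin.sum_univ_succ]
      simp only [Fin.cons_zero, Fin.cons_succ, add_assoc]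
    have e5 : (PA.prod ((PA.pi k).prod PB)).H
        (fun x => ((∑ i, U ((Fin.cons x.1 x.2.1 : Fin (k + 1) → A) i)) + Y x.2.2,
          fun i => T ((Fin.cons x.1 x.2.1 : Fin (k + 1) → A) i)))
        = (PA.prod ((PA.pi k).prod PB)).H
          (fun x => (U x.1 + ((∑ i, U (x.2.1 i)) + Y x.2.2), T x.1, fun i => T (x.2.1 i))) := by
      refine H_congr_det _ fun x y => ?_
      simp only [Prod.mk.injEq, Fin.sum_univ_succ, Fin.cons_zero, Fin.cons_succ, add_assoc]
      constructor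
      · rintro ⟨h1, h2, h3⟩
        refine ⟨h1, ?_⟩
        funext i
        refine Fin.cases ?_ (fun i => ?_) i
        · simpa using h2
        · simpa only [Fin.cons_succ] using congrFun h3 i
      · rintro ⟨h1, h2⟩
        refine ⟨h1, by simpa using congrFun h2 0, ?_⟩
        funext i
        simpa using congrFun h2 i.succ
    rw [e4] at e2
    rw [e5] at e3
    rw [e2, e3] at h1
    have h2 : info (PA.pi (k + 1)) PB (fun x => ∑ i, U (x i)) (fun x => fun i => T (x i)) Y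
        ≤ info PA PB U T Y
          + info (PA.pi k) PB (fun x => ∑ i, U (x i)) (fun x => fun i => T (x i)) Y := by
      refine le_trans (le_of_eq ?_) h1
      rw [← e1]
      rfl
    push_cast
    linarith only [ih, h2]

end FinProb

end Vale.Agent.P114
end
end

section

/-!
Definitions for the Diophantine case (T11): systems such that the quotient of the logarithms of
two contraction ratios is irrational and not a Liouville number.
-/

open scoped Classical

noncomputable section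

namespace Vale.Agent.P114

open FinProb

/-- Test functions: `ℝ → [0,1]`, `K`-Lipschitz. -/
structure LipT (K : ℝ) (f : ℝ → ℝ) : Prop where
  nonneg : ∀ x, 0 ≤ f x
  le_one : ∀ x, f x ≤ 1
  lip : ∀ x y, |f x - f y| ≤ K * |x - y|

/-- Mutual information. -/
def mI {Ω α β : Type*} [Fintype Ω] (P : FinProb Ω) (f : Ω → α) (g : Ω → β) : ℝ :=
  P.H f + P.H g - P.H (fun ω => (f ω, g ω))

/-- `E f(U + Y)` for independent `U`, `Y`. -/
def Ef {A B : Type*} [Fintype A] [Fintype B] (PA : FinProb A) (PB : FinProb B) (U : A → ℤ)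
    (Y : B → ℤ) (f : ℤ → ℝ) : ℝ :=
  ∑ a, PA.w a * ∑ b, PB.w b * f (U a + Y b)

/-- Mass of the annulus `2 ^ m ≤ |U - z| < 2 ^ (m+1)`. -/
def annP {A : Type*} [Fintype A] (PA : FinProb A) (U : A → ℤ) (z : ℤ) (m : ℕ) : ℝ :=
  ∑ a, if 2 ^ m ≤ |U a - z| ∧ |U a - z| < 2 ^ (m + 1) then PA.w a else 0

/-- Mass of the ball `|U - z| < 2 ^ m`. -/
def balP {A : Type*} [Fintype A] (PA : FinProb A) (U : A → ℤ) (z : ℤ) (m : ℕ) : ℝ :=
  ∑ a, if |U a - z| < 2 ^ m then PA.w a else 0

/-- `⌊(1/8) log₂ (1/p)⌋`. -/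
def Wd (p : ℝ) : ℕ := ⌊Real.logb 2 (1 / p) / 8⌋₊

/-- The annulus label: `0` in the ball of radius `2 ^ ms`, `m + 1` in the annulus `m`. -/
def levL {A : Type*} (U : A → ℤ) (z : ℤ) (ms : ℕ) (a : A) : ℕ :=
  if |U a - z| < 2 ^ ms then 0 else Nat.log 2 (U a - z).natAbs + 1

/-- The label: annulus and cell. -/
def labN {A : Type*} [Fintype A] (PA : FinProb A) (U : A → ℤ) (z : ℤ) (ms g : ℕ) (a : A) : ℕ × ℤ :=
  if |U a - z| < 2 ^ ms then (0, U a / 2 ^ (ms - g))
  else (Nat.log 2 (U a - z).natAbs + 1,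
    U a / 2 ^ (Nat.log 2 (U a - z).natAbs
      - 4 * Wd (annP PA U z (Nat.log 2 (U a - z).natAbs))))

variable {Λ : Type} [Fintype Λ]

/-- Average of `g` over the slopes of the words of length `m`. -/
def Sys.cAvg (S : Sys Λ) (m : ℕ) (g : ℝ → ℝ) : ℝ := ∑ v, (S.P.pi m).w v * g (sl S.r v)

/-- Average of `cAvg` over `m ∈ [m0, 2 m0)`. -/
def Sys.cBar (S : Sys Λ) (m0 : ℕ) (g : ℝ → ℝ) : ℝ :=
  (∑ m ∈ Finset.Ico m0 (2 * m0), S.cAvg m g) / m0

/-- Information of the first `m` letters in the cell of `X + τ` of size `2 ^ (-j)`. -/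
def Sys.Im (S : Sys Λ) (t : Λ → ℝ) (m n j : ℕ) (τ : ℝ) : ℝ :=
  mI ((S.P.pi m).prod (S.P.pi n)) (fun x => x.1)
    (fun x => ⌊(2 : ℝ) ^ j * (tr S.r t x.1 + sl S.r x.1 * tr S.r t x.2 + τ)⌋)

end Vale.Agent.P114
end
end

section

/-!
T11-K. Sums over the annuli.
-/

open scoped Classical

noncomputable section

namespace Vale.Agent.P114

/-- Good annuli: not near the end, not at a bad scale, not dominated. -/
def GoodM (p : ℕ → ℝ) (Bad : ℕ → Finset ℕ) (ms m : ℕ) : Prop :=
  0 < p m ∧ ms + 4 * Wd (p m) ≤ m ∧ m ∉ Bad (Wd (p m)) ∧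
    ∀ m', ms ≤ m' → m' < m → m ≤ m' + 4 * Wd (p m) → p m' < (2 : ℝ)⁻¹ ^ (2 * Wd (p m))

/-- Price of the bad scales. -/
def badW (Bad : ℕ → Finset ℕ) (W₁ K' m : ℕ) : ℝ :=
  ∑ k ∈ Finset.Icc W₁ K', if m ∈ Bad k then 8 * ((k : ℝ) + 1) * (2 : ℝ)⁻¹ ^ (8 * k) else 0

lemma Seq_le_iff {p : ℝ} (hp : 0 < p) (n : ℕ) :
    p ≤ (2 : ℝ)⁻¹ ^ n ↔ (n : ℝ) ≤ Real.logb 2 (1 / p) := by
  rw [Real.le_logb_iff_rpow_le (by norm_num) (by positivity), Real.rpow_natCast, inv_pow,
    le_div_iff₀ hp, ← one_div, le_div_iff₀ (by positivity), mul_comm]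

lemma Seq_lt_iff {p : ℝ} (hp : 0 < p) (n : ℕ) :
    (2 : ℝ)⁻¹ ^ n < p ↔ Real.logb 2 (1 / p) < n := by
  rw [← not_le, Seq_le_iff hp, not_le]

lemma Wd_bounds (p : ℝ) (hp : 0 < p) (hp1 : p ≤ 1) :
    (2 : ℝ)⁻¹ ^ (8 * (Wd p + 1)) < p ∧ p ≤ (2 : ℝ)⁻¹ ^ (8 * Wd p) := by
  have h0 : 0 ≤ Real.logb 2 (1 / p) := by
    have := (Seq_le_iff hp 0).1 (by simpa only [pow_zero] using hp1)
    simpa only [one_div, Real.logb_inv, Left.nonneg_neg_iff, ge_iff_le, CharP.cast_eq_zero] using this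
  constructor
  · rw [Seq_lt_iff hp]
    have := Nat.lt_floor_add_one (Real.logb 2 (1 / p) / 8)
    rw [div_lt_iff₀ (by norm_num)] at this
    push_cast
    unfold Wd
    linarith only [this]
  · rw [Seq_le_iff hp]
    have := Nat.floor_le (show 0 ≤ Real.logb 2 (1 / p) / 8 by positivity)
    rw [le_div_iff₀ (by norm_num)] at this
    push_cast
    unfold Wd
    linarith

lemma Wd_ge (p : ℝ) (W₁ : ℕ) (hp : 0 < p) (h : p ≤ (2 : ℝ)⁻¹ ^ (8 * W₁)) : W₁ ≤ Wd p := by
  refine Nat.le_floor ?_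
  have := (Seq_le_iff hp _).1 h
  push_cast at this
  rw [le_div_iff₀ (by norm_num)]
  linarith only [this]

lemma Wd_le (p : ℝ) (K' : ℕ) (h : (2 : ℝ)⁻¹ ^ K' ≤ p) : Wd p ≤ K' := by
  have hp : 0 < p := lt_of_lt_of_le (by positivity) h
  refine Nat.floor_le_of_le ?_
  have h1 : Real.logb 2 (1 / p) ≤ K' := by
    rw [Real.logb_le_iff_le_rpow (by norm_num) (by positivity), Real.rpow_natCast,
      div_le_iff₀ hp]
    have h2 : (2 : ℝ) ^ K' * (2 : ℝ)⁻¹ ^ K' = 1 := by rw [← mul_pow]; norm_num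
    calc (1 : ℝ) = (2 : ℝ) ^ K' * (2 : ℝ)⁻¹ ^ K' := h2.symm
      _ ≤ (2 : ℝ) ^ K' * p := mul_le_mul_of_nonneg_left h (by positivity)
  rw [div_le_iff₀ (by norm_num)]
  have : (0 : ℝ) ≤ K' := Nat.cast_nonneg _
  linarith

lemma negMulLog_le_Wd (p : ℝ) (hp : 0 ≤ p) (hp1 : p ≤ 1) :
    Real.negMulLog p ≤ 8 * ((Wd p : ℝ) + 1) * (2 : ℝ)⁻¹ ^ (8 * Wd p) := by
  rcases hp.eq_or_lt with h | h
  · rw [← h, Real.negMulLog_zero]
    positivity
  · have hb := (Wd_bounds p h hp1).2
    have h1 : -Real.log p = Real.logb 2 (1 / p) * Real.log 2 := by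
      rw [one_div, Real.logb_inv, Real.logb, neg_mul, div_mul_cancel₀]
      exact (Real.log_pos (by norm_num)).ne'
    have h0 : 0 ≤ Real.logb 2 (1 / p) := by
      have := (Seq_le_iff h 0).1 (by simpa using hp1)
      simpa using this
    have h2 : Real.log 2 ≤ 1 := by
      have := Real.log_two_lt_d9
      linarith only [this]
    have h3 : Real.logb 2 (1 / p) ≤ 8 * ((Wd p : ℝ) + 1) := by
      have := Nat.lt_floor_add_one (Real.logb 2 (1 / p) / 8)
      rw [div_lt_iff₀ (by norm_num)] at this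
      unfold Wd
      linarith only [this]
    have h4 : -Real.log p ≤ 8 * ((Wd p : ℝ) + 1) := by
      rw [h1]
      calc _ ≤ Real.logb 2 (1 / p) * 1 := mul_le_mul_of_nonneg_left h2 h0
        _ ≤ _ := by rw [mul_one]; exact h3
    have h5 : 0 ≤ -Real.log p := by
      have := Real.log_nonpos hp hp1
      linarith only [this]
    calc Real.negMulLog p = -Real.log p * p := by unfold Real.negMulLog; ring
      _ ≤ 8 * ((Wd p : ℝ) + 1) * (2 : ℝ)⁻¹ ^ (8 * Wd p) :=
        mul_le_mul h4 hb hp (by (clear * -; positivity))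

lemma Seq_pow_ge (W : ℕ) : W + 1 ≤ 2 ^ W := Nat.lt_two_pow_self

lemma Seq_geom (a M : ℕ) : ∑ m ∈ Finset.Ico a M, (2 : ℝ)⁻¹ ^ (m - a) ≤ 2 := by
  rw [Finset.sum_Ico_eq_sum_range]
  have h1 : ∑ i ∈ Finset.range (M - a), (2 : ℝ)⁻¹ ^ (a + i - a) =
      ∑ i ∈ Finset.range (M - a), (2 : ℝ)⁻¹ ^ i :=
    Finset.sum_congr rfl fun i _ => by rw [Nat.add_sub_cancel_left]
  rw [h1]
  have h2 := Summable.sum_le_tsum (Finset.range (M - a)) (fun i _ => by positivity)
    (summable_geometric_of_lt_one (r := (2 : ℝ)⁻¹) (by norm_num) (by norm_num))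
  rw [tsum_geometric_of_lt_one (by norm_num) (by norm_num)] at h2
  refine h2.trans ?_
  norm_num

/-- Near-end annuli. -/
theorem near_sum (W₁ ms M : ℕ) (hW₁ : 2 ≤ W₁) (p : ℕ → ℝ) (hp0 : ∀ m, 0 ≤ p m)
    (hp1 : ∀ m, p m ≤ (2 : ℝ)⁻¹ ^ (8 * W₁)) :
    ∑ m ∈ Finset.Ico ms M, (if m < ms + 4 * Wd (p m) then Real.negMulLog (p m) else 0) ≤ 2 := by
  refine le_trans (Finset.sum_le_sum fun m hm => ?_) (Seq_geom ms M)
  have hms := (Finset.mem_Ico.1 hm).1
  split_ifs with h
  · rcases (hp0 m).eq_or_lt with h0 | h0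
    · rw [← h0, Real.negMulLog_zero]
      positivity
    · have hpm : p m ≤ 1 := (hp1 m).trans (pow_le_one₀ (by (clear * -; norm_num)) (by norm_num))
      refine (negMulLog_le_Wd (p m) (hp0 m) hpm).trans ?_
      have hW := (Wd_ge (p m) W₁ h0 (hp1 m))
      set W := Wd (p m) with hWdef
      have h1 : (8 : ℝ) * ((W : ℝ) + 1) ≤ 2 ^ (4 * W) := by
        have h2 : 8 * (W + 1) ≤ 2 ^ (4 * W) := by
          have h3 := Seq_pow_ge W
          have h4 : 8 ≤ 2 ^ (3 * W) := by
            calc 8 = 2 ^ 3 := by norm_num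
              _ ≤ 2 ^ (3 * W) := Nat.pow_le_pow_right (by norm_num) (by omega)
          calc 8 * (W + 1) ≤ 2 ^ (3 * W) * 2 ^ W := Nat.mul_le_mul h4 h3
            _ = 2 ^ (4 * W) := by rw [← pow_add]; congr 1; ring
        exact_mod_cast h2
      have h5 : (2 : ℝ)⁻¹ ^ (8 * W) = (2 : ℝ)⁻¹ ^ (4 * W) * (2 : ℝ)⁻¹ ^ (4 * W) := by
        rw [← pow_add]; congr 1; ring
      have h6 : (2 : ℝ) ^ (4 * W) * (2 : ℝ)⁻¹ ^ (4 * W) = 1 := by rw [← mul_pow]; norm_num
      calc 8 * ((W : ℝ) + 1) * (2 : ℝ)⁻¹ ^ (8 * W)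
          ≤ 2 ^ (4 * W) * (2 : ℝ)⁻¹ ^ (8 * W) := mul_le_mul_of_nonneg_right h1 (by positivity)
        _ = (2 : ℝ)⁻¹ ^ (4 * W) := by rw [h5, ← mul_assoc, h6, one_mul]
        _ ≤ (2 : ℝ)⁻¹ ^ (m - ms) :=
          pow_le_pow_of_le_one (by norm_num) (by norm_num) (by (clear * - hms h; omega))
  · positivity

lemma badW_nonneg (Bad : ℕ → Finset ℕ) (W₁ K' m : ℕ) : 0 ≤ badW Bad W₁ K' m :=
  Finset.sum_nonneg fun k _ => by split_ifs <;> positivity

/-- Total sum. Dominated `m` (there is `m' < m ≤ m' + 4 W` with `p m' ≥ 2^{-2W}`, `W = Wd (p m)`):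
`g (p m) ≤ 8 (W+1) 2^{-8W} ≤ p m' * 8 (W+1) 2^{-6W}`, and summing over `m` for fixed `m'`
(`2^{-4W} ≤ 2^{-(m-m')}`) gives at most `p m' / 2 ≤ g (p m') / 2`. -/
theorem seq_sum (W₁ K' ms M : ℕ) (hW₁ : 4 ≤ W₁) (p : ℕ → ℝ) (hp0 : ∀ m, 0 ≤ p m)
    (hp1 : ∀ m, p m ≤ (2 : ℝ)⁻¹ ^ (8 * W₁)) (hpK : ∀ m, 0 < p m → (2 : ℝ)⁻¹ ^ K' ≤ p m)
    (Bad : ℕ → Finset ℕ) :
    ∑ m ∈ Finset.Ico ms M, Real.negMulLog (p m)
      ≤ 2 * ∑ m ∈ Finset.Ico ms M, (if GoodM p Bad ms m then Real.negMulLog (p m) else 0)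
        + 2 * ∑ m ∈ Finset.Ico ms M, badW Bad W₁ K' m
        + 2 * ∑ m ∈ Finset.Ico ms M,
            (if m < ms + 4 * Wd (p m) then Real.negMulLog (p m) else 0) := by
  have hle1 : ∀ m, p m ≤ 1 := fun m =>
    (hp1 m).trans (pow_le_one₀ (by norm_num) (by norm_num))
  have hg0 : ∀ m, 0 ≤ Real.negMulLog (p m) := fun m => Real.negMulLog_nonneg (hp0 m) (hle1 m)
  have hpg : ∀ m, p m ≤ Real.negMulLog (p m) := by
    intro m
    rcases (hp0 m).eq_or_lt with h | h
    · rw [← h, Real.negMulLog_zero]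
    · have h1 : Real.log (p m) ≤ -1 := by
        have h2 : p m ≤ (2 : ℝ)⁻¹ ^ 2 := (hp1 m).trans
          (pow_le_pow_of_le_one (by norm_num) (by norm_num) (by omega))
        have h3 := Real.log_le_log h h2
        rw [Real.log_pow, Real.log_inv] at h3
        have := Real.log_two_gt_d9
        push_cast at h3
        linarith only [h3, this]
      unfold Real.negMulLog
      nlinarith only [h, h1]
  have key : ∀ m ∈ Finset.Ico ms M, Real.negMulLog (p m) ≤
      (if GoodM p Bad ms m then Real.negMulLog (p m) else 0) + badW Bad W₁ K' m +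
        (if m < ms + 4 * Wd (p m) then Real.negMulLog (p m) else 0) +
        ∑ m' ∈ Finset.Ico ms M, (if m' < m then (1 / 2) * ((2 : ℝ)⁻¹ ^ (m - m') * p m') else 0) := by
    intro m hm
    have hms := (Finset.mem_Ico.1 hm).1
    have hmM := (Finset.mem_Ico.1 hm).2
    have hA : 0 ≤ (if GoodM p Bad ms m then Real.negMulLog (p m) else 0) := by
      split_ifs
      · exact hg0 m
      · exact le_rfl
    have hB := badW_nonneg Bad W₁ K' m
    have hC : 0 ≤ (if m < ms + 4 * Wd (p m) then Real.negMulLog (p m) else 0) := by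
      split_ifs
      · exact hg0 m
      · exact le_rfl
    have hD0 : ∀ m' ∈ Finset.Ico ms M,
        0 ≤ (if m' < m then (1 / 2) * ((2 : ℝ)⁻¹ ^ (m - m') * p m') else 0) := by
      intro m' _
      have := hp0 m'
      split_ifs <;> positivity
    have hD := Finset.sum_nonneg hD0
    rcases (hp0 m).eq_or_lt with h0 | h0
    · have hz : Real.negMulLog (p m) = 0 := by rw [← h0, Real.negMulLog_zero]
      have hR := add_nonneg (add_nonneg (add_nonneg hA hB) hC) hD
      exact hz.le.trans hR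
    set W := Wd (p m) with hWdef
    have hW : W₁ ≤ W := Wd_ge (p m) W₁ h0 (hp1 m)
    have hWK : W ≤ K' := Wd_le (p m) K' (hpK m h0)
    have hgW : Real.negMulLog (p m) ≤ 8 * ((W : ℝ) + 1) * (2 : ℝ)⁻¹ ^ (8 * W) :=
      negMulLog_le_Wd (p m) (hp0 m) (hle1 m)
    by_cases hn : m < ms + 4 * W
    · rw [if_pos hn]
      linarith only [hA, hB, hD]
    by_cases hb : m ∈ Bad W
    · have h1 : 8 * ((W : ℝ) + 1) * (2 : ℝ)⁻¹ ^ (8 * W) ≤ badW Bad W₁ K' m := by
        unfold badW
        refine le_trans (le_of_eq ?_) (Finset.single_le_sum (f := fun k => if m ∈ Bad k then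
          8 * ((k : ℝ) + 1) * (2 : ℝ)⁻¹ ^ (8 * k) else 0) (fun k _ => by split_ifs <;> positivity)
          (Finset.mem_Icc.2 ⟨hW, hWK⟩))
        rw [if_pos hb]
      linarith only [hA, hD, hC, hgW, h1]
    by_cases hd : ∀ m', ms ≤ m' → m' < m → m ≤ m' + 4 * W → p m' < (2 : ℝ)⁻¹ ^ (2 * W)
    · have hG : GoodM p Bad ms m := ⟨h0, not_lt.1 hn, hb, hd⟩
      rw [if_pos hG]
      linarith only [hB, hD, hC]
    · push Not at hd
      obtain ⟨m', h1, h2, h3, h4⟩ := hd
      have h5 : Real.negMulLog (p m) ≤ (1 / 2) * ((2 : ℝ)⁻¹ ^ (m - m') * p m') := by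
        have e1 : (2 : ℝ)⁻¹ ^ (8 * W) =
            (2 : ℝ)⁻¹ ^ (2 * W) * ((2 : ℝ)⁻¹ ^ (4 * W) * (2 : ℝ)⁻¹ ^ (2 * W)) := by
          rw [← pow_add, ← pow_add]; congr 1; ring
        have e2 : (2 : ℝ) ^ (2 * W) * (2 : ℝ)⁻¹ ^ (2 * W) = 1 := by rw [← mul_pow]; norm_num
        have e3 : (8 : ℝ) * ((W : ℝ) + 1) ≤ (1 / 2) * 2 ^ (2 * W) := by
          have h6 : 16 * (W + 1) ≤ 2 ^ (2 * W) := by
            have h7 := Seq_pow_ge W
            have h8 : 16 ≤ 2 ^ W := by
              calc 16 = 2 ^ 4 := by norm_num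
                _ ≤ 2 ^ W := Nat.pow_le_pow_right (by norm_num) (by omega)
            calc 16 * (W + 1) ≤ 2 ^ W * 2 ^ W := Nat.mul_le_mul h8 h7
              _ = 2 ^ (2 * W) := by rw [← pow_add]; congr 1; ring
          have h9 : (16 : ℝ) * ((W : ℝ) + 1) ≤ 2 ^ (2 * W) := by exact_mod_cast h6
          linarith only [h9]
        have e4 : (2 : ℝ)⁻¹ ^ (4 * W) ≤ (2 : ℝ)⁻¹ ^ (m - m') :=
          pow_le_pow_of_le_one (by norm_num) (by norm_num) (by omega)
        calc Real.negMulLog (p m) ≤ 8 * ((W : ℝ) + 1) * (2 : ℝ)⁻¹ ^ (8 * W) := hgW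
          _ ≤ (1 / 2) * 2 ^ (2 * W) * (2 : ℝ)⁻¹ ^ (8 * W) :=
            mul_le_mul_of_nonneg_right e3 (by positivity)
          _ = (1 / 2) * ((2 : ℝ)⁻¹ ^ (4 * W) * (2 : ℝ)⁻¹ ^ (2 * W)) := by
            rw [e1, mul_assoc, ← mul_assoc ((2 : ℝ) ^ (2 * W)), e2, one_mul]
          _ ≤ (1 / 2) * ((2 : ℝ)⁻¹ ^ (m - m') * p m') := by
            refine mul_le_mul_of_nonneg_left ?_ (by norm_num)
            exact mul_le_mul e4 h4 (by positivity) (by positivity)
      have h6 := Finset.single_le_sum hD0 (Finset.mem_Ico.2 ⟨h1, h2.trans hmM⟩)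
      rw [if_pos h2] at h6
      linarith only [hA, hB, hC, h5, h6]
  have hsum := Finset.sum_le_sum key
  rw [Finset.sum_add_distrib, Finset.sum_add_distrib, Finset.sum_add_distrib] at hsum
  have hdom : ∑ m ∈ Finset.Ico ms M, ∑ m' ∈ Finset.Ico ms M,
      (if m' < m then (1 / 2) * ((2 : ℝ)⁻¹ ^ (m - m') * p m') else 0) ≤
      (1 / 2) * ∑ m ∈ Finset.Ico ms M, Real.negMulLog (p m) := by
    rw [Finset.sum_comm, Finset.mul_sum]
    refine Finset.sum_le_sum fun m' hm' => ?_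
    have h1 : ∑ m ∈ Finset.Ico ms M,
        (if m' < m then (1 / 2) * ((2 : ℝ)⁻¹ ^ (m - m') * p m') else 0) ≤ (1 / 2) * p m' := by
      have h2 : ∑ m ∈ Finset.Ico ms M,
          (if m' < m then (1 / 2) * ((2 : ℝ)⁻¹ ^ (m - m') * p m') else 0) ≤
          ∑ m ∈ Finset.Ico (m' + 1) M, (1 / 2) * ((2 : ℝ)⁻¹ ^ (m - m') * p m') := by
        rw [← Finset.sum_filter]
        refine Finset.sum_le_sum_of_subset_of_nonneg ?_ ?_
        · intro m hm
          obtain ⟨h3, h4⟩ := Finset.mem_filter.1 hm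
          exact Finset.mem_Ico.2 ⟨h4, (Finset.mem_Ico.1 h3).2⟩
        · intro m _ _
          have := hp0 m'
          (clear * - this; positivity)
      refine h2.trans ?_
      have h3 : ∑ m ∈ Finset.Ico (m' + 1) M, (1 / 2) * ((2 : ℝ)⁻¹ ^ (m - m') * p m') =
          (1 / 4) * p m' * ∑ m ∈ Finset.Ico (m' + 1) M, (2 : ℝ)⁻¹ ^ (m - (m' + 1)) := by
        rw [Finset.mul_sum]
        refine Finset.sum_congr rfl fun m hm => ?_
        have h4 := (Finset.mem_Ico.1 hm).1
        have h5 : m - m' = (m - (m' + 1)) + 1 := by omega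
        rw [h5, pow_succ]
        ring
      rw [h3]
      have h4 := Seq_geom (m' + 1) M
      have h5 : 0 ≤ (1 / 4) * p m' := by have := hp0 m'; (clear * - this; positivity)
      calc _ ≤ (1 / 4) * p m' * 2 := mul_le_mul_of_nonneg_left h4 h5
        _ = (1 / 2) * p m' := by ring
    refine h1.trans ?_
    exact mul_le_mul_of_nonneg_left (hpg m') (by norm_num)
  linarith

end Vale.Agent.P114
end
end

section

/-!
Definitions for the general irrational case (T12, note 5580): systems such that the quotient of the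
logarithms of two contraction ratios is irrational.
-/

open scoped Classical

noncomputable section

namespace Vale.Agent.P114

open FinProb

/-- `E f(X + u) - γ E f(X + u')` for finite laws `Q`, `Q'` of the shifts `u`, `u'`, independent
of `X`. -/
def gapC {Ω C : Type*} [Fintype Ω] [Fintype C] (P : FinProb Ω) (X : Ω → ℝ) (Q Q' : FinProb C)
    (u u' : C → ℝ) (γ : ℝ) (f : ℝ → ℝ) : ℝ :=
  ∑ ω, P.w ω * (∑ c, Q.w c * f (X ω + u c) - γ * ∑ c, Q'.w c * f (X ω + u' c))

/-- The (smoothed) hockey-stick divergence of `X + u` from `X + u'`. -/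
def ovlC {Ω C : Type*} [Fintype Ω] [Fintype C] (P : FinProb Ω) (X : Ω → ℝ) (Q Q' : FinProb C)
    (u u' : C → ℝ) (γ K : ℝ) : ℝ :=
  ⨆ f : {f : ℝ → ℝ // LipT K f}, gapC P X Q Q' u u' γ f

/-- Information on `U` in the cell of `U + Y` of size `2 ^ t`. -/
def JU {A B : Type*} [Fintype A] [Fintype B] (PA : FinProb A) (PB : FinProb B) (U : A → ℤ)
    (Y : B → ℤ) (t : ℕ) : ℝ :=
  (PA.prod PB).H (fun x => (U x.1 + Y x.2) / 2 ^ t)
    - ∑ a, PA.w a * PB.H (fun b => (U a + Y b) / 2 ^ t)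

/-- Information on `U` gained at the scale `2 ^ t`. -/
def xU {A B : Type*} [Fintype A] [Fintype B] (PA : FinProb A) (PB : FinProb B) (U : A → ℤ)
    (Y : B → ℤ) (t : ℕ) : ℝ :=
  JU PA PB U Y t - JU PA PB U Y (t + 1)

/-- Contaminated detection at the scale `2 ^ k`: `U` is `D + z` up to `2 ^ (k - 4 W)`, `U'` is `z`
up to `2 ^ (k - 4 W)`; if the cells of `U + Y` of the sizes between `2 ^ (k - R - W)` and
`2 ^ (k - R)` contain little information on `U` then `U + Y` is separated from `U' + Y`. -/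
def DetC {B : Type*} [Fintype B] (PB : FinProb B) (Y : B → ℤ) (c c7 c' : ℝ) (W k R : ℕ) : Prop :=
  ∀ {A : Type} [Fintype A] (PA PA' : FinProb A) (U : A → ℤ) (z D : ℤ),
    2 ^ k ≤ |D| → |D| < 2 ^ (k + 1) →
    (∀ a, 0 < PA.w a → |U a - z - D| ≤ 2 ^ (k - 4 * W)) →
    (∀ a, 0 < PA'.w a → |U a - z| ≤ 2 ^ (k - 4 * W)) →
    JU PA PB U Y (k - R - W) - JU PA PB U Y (k - R) ≤ c' * W →
    ∃ f : ℤ → ℝ, (∀ x, 0 ≤ f x) ∧ (∀ x, f x ≤ 1) ∧
      c ≤ Ef PA PB U Y f - (2 : ℝ) ^ (c7 * W) * Ef PA' PB U Y f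

/-- The scales charged by an exit at the scale `2 ^ m`. -/
def winC (R : ℕ → ℕ) (W m : ℕ) : Finset ℕ := Finset.Ico (m - R W - W) (m - R W)

/-- The price of the used scale `t` in the annulus `m`. -/
def chg (R : ℕ → ℕ) (W₁ K' t m : ℕ) : ℝ :=
  ∑ W ∈ Finset.Icc W₁ K', if t ∈ winC R W m then (2 : ℝ)⁻¹ ^ (8 * W) else 0

/-- The scales charged by the label of `a`. -/
def TwC {A : Type*} [Fintype A] (PA : FinProb A) (U : A → ℤ) (z : ℤ) (ms : ℕ)
    (Bad : ℕ → Finset ℕ) (R : ℕ → ℕ) (a : A) : Finset ℕ :=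
  if |U a - z| < 2 ^ ms then ∅
  else if GoodM (annP PA U z) Bad ms (Nat.log 2 (U a - z).natAbs) then
    winC R (Wd (annP PA U z (Nat.log 2 (U a - z).natAbs))) (Nat.log 2 (U a - z).natAbs)
  else ∅

/-- Arithmetic progressions `l * β W`, `l < 2 ^ (W - w0)`, in the group generated by `2 L₁`, `2 L₂`,
with small coefficients; `R W` is the depth of the progression. -/
structure Spr (L₁ L₂ : ℝ) (w0 : ℕ) (Cx : ℝ) (R : ℕ → ℕ) (β : ℕ → ℝ) (x y : ℕ → ℕ) : Prop where
  pos : ∀ W, w0 ≤ W → 0 < β W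
  le : ∀ W, w0 ≤ W → ((x W : ℝ) + y W) ≤ Cx * 2 ^ W
  eq : ∀ W, w0 ≤ W → β W = 2 * x W * L₁ - 2 * y W * L₂ ∨ β W = 2 * y W * L₂ - 2 * x W * L₁
  R1 : ∀ W, w0 ≤ W → (2 : ℝ)⁻¹ ^ (R W + 1) < 2 ^ (W - w0) * β W
  R2 : ∀ W, w0 ≤ W → 2 ^ (W - w0) * β W ≤ (2 : ℝ)⁻¹ ^ R W
  growth : ∀ C₀ : ℝ, 0 < C₀ → ∃ C₁ : ℝ, ∀ n₀ : ℕ, ∃ n, n₀ ≤ n ∧
    ∀ W, w0 ≤ W → (W : ℝ) ≤ C₀ * n + C₀ → (R W : ℝ) ≤ C₁ * n

variable {Λ : Type} [Fintype Λ]

/-- Overlap function of the slope. -/
def Sys.gOC {C : Type*} [Fintype C] (S : Sys Λ) (t : Λ → ℝ) (N : ℕ) (Q Q' : FinProb C)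
    (u u' : C → ℝ) (γ K : ℝ) (z : ℝ) : ℝ :=
  ovlC (S.P.pi N) (fun w => tr S.r t w) Q Q' (fun c => u c / z) (fun c => u' c / z) γ (K * |z|)

end Vale.Agent.P114
end
end

section

/-!
T12-I. Sums over the annuli (prices).
-/

open scoped Classical

noncomputable section

namespace Vale.Agent.P114

lemma chg_nonneg (R : ℕ → ℕ) (W₁ K' t m : ℕ) : 0 ≤ chg R W₁ K' t m :=
  Finset.sum_nonneg fun W _ => by split_ifs <;> positivity

/-- `∑ W, W * 2^(-8W)` from `W₁` on: for each `t`, `W` there are at most `W` values of `m` with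
`t ∈ winC R W m` (`t + R W < m ≤ t + R W + W`). -/
theorem chg_sum (R : ℕ → ℕ) (W₁ K' t M : ℕ) :
    ∑ m ∈ Finset.range M, chg R W₁ K' t m ≤ 2 * (2 : ℝ)⁻¹ ^ W₁ := by
  unfold chg
  rw [Finset.sum_comm]
  have h1 : ∀ W ∈ Finset.Icc W₁ K', ∑ m ∈ Finset.range M,
      (if t ∈ winC R W m then (2 : ℝ)⁻¹ ^ (8 * W) else 0) ≤
      (2 : ℝ)⁻¹ ^ W₁ * (2 : ℝ)⁻¹ ^ (W - W₁) := by
    intro W hW
    have hW1 := (Finset.mem_Icc.1 hW).1
    rw [← Finset.sum_filter, Finset.sum_const, nsmul_eq_mul]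
    have h2 : (((Finset.range M).filter (fun m => t ∈ winC R W m)).card : ℝ) ≤ W := by
      have h3 : ((Finset.range M).filter (fun m => t ∈ winC R W m)).card ≤
          (Finset.Ioc (t + R W) (t + R W + W)).card := by
        refine Finset.card_le_card fun m hm => ?_
        have := (Finset.mem_filter.1 hm).2
        rw [winC, Finset.mem_Ico] at this
        rw [Finset.mem_Ioc]
        omega
      rw [Nat.card_Ioc, Nat.add_sub_cancel_left] at h3
      exact_mod_cast h3
    have h4 : (W : ℝ) ≤ 2 ^ W := by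
      have h5 := Seq_pow_ge W
      have : (W : ℕ) ≤ 2 ^ W := by omega
      exact_mod_cast this
    have e1 : (2 : ℝ) ^ W * (2 : ℝ)⁻¹ ^ W = 1 := by rw [← mul_pow]; norm_num
    have e2 : (2 : ℝ)⁻¹ ^ W₁ * (2 : ℝ)⁻¹ ^ (W - W₁) = (2 : ℝ)⁻¹ ^ W := by
      rw [← pow_add]; congr 1; omega
    rw [e2]
    calc _ ≤ (W : ℝ) * (2 : ℝ)⁻¹ ^ (8 * W) := mul_le_mul_of_nonneg_right h2 (by positivity)
      _ ≤ 2 ^ W * (2 : ℝ)⁻¹ ^ (W + W) := by
        refine mul_le_mul h4 ?_ (by positivity) (by positivity)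
        exact pow_le_pow_of_le_one (by norm_num) (by norm_num) (by (clear * -; omega))
      _ = (2 : ℝ)⁻¹ ^ W := by rw [pow_add, ← mul_assoc, e1, one_mul]
  refine (Finset.sum_le_sum h1).trans ?_
  rw [← Finset.mul_sum, mul_comm (2 : ℝ)]
  refine mul_le_mul_of_nonneg_left ?_ (by positivity)
  have e : Finset.Icc W₁ K' = Finset.Ico W₁ (K' + 1) := by
    ext x; simp only [Finset.mem_Icc, Finset.mem_Ico]; omega
  rw [e]
  exact Seq_geom W₁ (K' + 1)

/-- The price of an annulus dominates its probability: `annP m ≤ 2^(-8 Wd)`, `Wd_le`. -/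
lemma annP_le_chg (p : ℝ) (hp : 0 < p) (hp1 : p ≤ 1) (R : ℕ → ℕ) (W₁ K' t m : ℕ)
    (h1 : W₁ ≤ Wd p) (hK : (2 : ℝ)⁻¹ ^ K' ≤ p) :
    (if t ∈ winC R (Wd p) m then p else 0) ≤ chg R W₁ K' t m := by
  split_ifs with h
  · have h2 : Wd p ∈ Finset.Icc W₁ K' := Finset.mem_Icc.2 ⟨h1, Wd_le p K' hK⟩
    refine (Wd_bounds p hp hp1).2.trans ?_
    unfold chg
    have h3 := Finset.single_le_sum (f := fun W => if t ∈ winC R W m then (2 : ℝ)⁻¹ ^ (8 * W) else 0)
      (fun W _ => by split_ifs <;> (clear * -; positivity)) h2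
    simp only [if_pos h] at h3
    exact h3
  · exact chg_nonneg _ _ _ _ _

/-- The total price of the bad scales. -/
theorem badW_sumC (Bad : ℕ → Finset ℕ) (R : ℕ → ℕ) (W₀ W₁ K' M : ℕ) (hW : W₀ ≤ W₁) (Cb : ℝ)
    (hCb : 0 ≤ Cb)
    (h : ∀ W, W₀ ≤ W → W ≤ K' → ((Bad W).card : ℝ) ≤ Cb * ((R W : ℝ) + 1) * 2 ^ (5 * W)) :
    ∑ m ∈ Finset.range M, badW Bad W₁ K' m
      ≤ 8 * Cb * ∑ W ∈ Finset.Icc W₁ K', ((R W : ℝ) + 1) * (2 : ℝ)⁻¹ ^ (2 * W) := by
  unfold badW
  rw [Finset.sum_comm, Finset.mul_sum]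
  refine Finset.sum_le_sum fun k hk => ?_
  obtain ⟨hk1, hk2⟩ := Finset.mem_Icc.1 hk
  rw [← Finset.sum_filter, Finset.sum_const, nsmul_eq_mul]
  have h2 : (((Finset.range M).filter (fun m => m ∈ Bad k)).card : ℝ) ≤
      Cb * ((R k : ℝ) + 1) * 2 ^ (5 * k) := by
    refine le_trans ?_ (h k (hW.trans hk1) hk2)
    exact_mod_cast Finset.card_le_card fun m hm => (Finset.mem_filter.1 hm).2
  have h3 : ((k : ℝ) + 1) ≤ 2 ^ k := by
    have h4 := Seq_pow_ge k
    exact_mod_cast h4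
  have e1 : (2 : ℝ) ^ k * (2 : ℝ)⁻¹ ^ k = 1 := by rw [← mul_pow]; norm_num
  have e2 : (2 : ℝ)⁻¹ ^ (8 * k) = ((2 : ℝ)⁻¹ ^ k) ^ 8 := by rw [mul_comm, pow_mul]
  have e3 : (2 : ℝ) ^ (5 * k) = ((2 : ℝ) ^ k) ^ 5 := by rw [mul_comm, pow_mul]
  have e4 : (2 : ℝ)⁻¹ ^ (2 * k) = ((2 : ℝ)⁻¹ ^ k) ^ 2 := by rw [mul_comm, pow_mul]
  have hR : (0 : ℝ) ≤ (R k : ℝ) + 1 := by (clear * -; positivity)
  calc _ ≤ Cb * ((R k : ℝ) + 1) * 2 ^ (5 * k) * (8 * ((k : ℝ) + 1) * (2 : ℝ)⁻¹ ^ (8 * k)) :=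
        mul_le_mul_of_nonneg_right h2 (by (clear * -; positivity))
    _ ≤ Cb * ((R k : ℝ) + 1) * 2 ^ (5 * k) * (8 * (2 ^ k) * (2 : ℝ)⁻¹ ^ (8 * k)) := by (clear * - h3 hCb; gcongr)
    _ = 8 * Cb * (((R k : ℝ) + 1) * ((((2 : ℝ) ^ k * (2 : ℝ)⁻¹ ^ k) ^ 6) *
          ((2 : ℝ)⁻¹ ^ k) ^ 2)) := by
        rw [e2, e3]; ring
    _ = 8 * Cb * (((R k : ℝ) + 1) * (2 : ℝ)⁻¹ ^ (2 * k)) := by rw [e1, one_pow, one_mul, e4]

end Vale.Agent.P114
end
end

section

/-!
T11-I. Variational lower bound of the mutual information.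
-/

open scoped Classical

noncomputable section

namespace Vale.Agent.P114

open FinProb

/-- If for every label `v` in `G` there is a test function with
`E (f(U+Y) | V = v) ≥ c + γ E f(U+Y)` then `I(V; U+Y) ≥ c log γ P(V ∈ G)`.
Proof: for `O = U + Y`, `h_v = log γ * f_v` (`v ∈ G`), `h_v = 0` otherwise, `Z_v = E e^{h_v(O)}`:
`I(V;O) ≥ ∑ w (h_V(O) - log Z_V)` since
`∑ w (h_V(O) - log Z_V - log (p(O,V)/(p(O)p(V)))) ≤ ∑ w (e^{h_V(O)}/Z_V * p(O) p(V)/p(O,V) - 1) ≤ 0`
(`log x ≤ x - 1`, sum over the pairs as in `H_submod`); `e^{h} = γ^f ≤ 1 + (γ-1) f ≤ 1 + γ f`, so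
`log Z_v ≤ log (1 + γ E f) ≤ γ E f =: x`, and `(c + x) log γ - x ≥ c log γ` as `log γ ≥ 1`. -/
theorem info_ge_test {A B τ : Type*} [Fintype A] [Fintype B] (PA : FinProb A) (PB : FinProb B)
    (U : A → ℤ) (V : A → τ) (Y : B → ℤ) (G : τ → Prop) (γ c : ℝ) (hγ : Real.exp 1 ≤ γ)
    (hc : 0 ≤ c)
    (hG : ∀ a, 0 < PA.w a → G (V a) → ∃ f : ℤ → ℝ, (∀ x, 0 ≤ f x) ∧ (∀ x, f x ≤ 1) ∧
      c ≤ Ef (PA.cond V (V a)) PB U Y f - γ * Ef PA PB U Y f) :
    c * Real.log γ * (∑ a, if G (V a) then PA.w a else 0) ≤ info PA PB U V Y := by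
  have hγ0 : 0 < γ := lt_of_lt_of_le (Real.exp_pos 1) hγ
  have hlog : 1 ≤ Real.log γ := by
    rw [Real.le_log_iff_exp_le hγ0]; exact hγ
  have hγ1 : 1 ≤ γ := by
    have := Real.add_one_le_exp (1 : ℝ)
    linarith only [hγ, this]
  -- test functions
  have hch : ∀ v : τ, ∃ f : ℤ → ℝ, (∀ x, 0 ≤ f x) ∧ (∀ x, f x ≤ 1) ∧
      (∀ a, 0 < PA.w a → V a = v → G v →
        c ≤ Ef (PA.cond V v) PB U Y f - γ * Ef PA PB U Y f) ∧
      (¬ G v → ∀ x, f x = 0) := by
    intro v
    by_cases hv : G v ∧ ∃ a, 0 < PA.w a ∧ V a = v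
    · obtain ⟨hGv, a, ha, hav⟩ := hv
      obtain ⟨f, h0, h1, h2⟩ := hG a ha (by rw [hav]; exact hGv)
      exact ⟨f, h0, h1, fun _ _ _ _ => by rw [← hav]; exact h2, fun h => absurd hGv h⟩
    · refine ⟨fun _ => 0, fun _ => le_rfl, fun _ => zero_le_one, ?_, fun _ _ => rfl⟩
      intro a ha hav hGv
      exact absurd ⟨hGv, a, ha, hav⟩ hv
  choose F hF0 hF1 hF2 hF3 using hch
  set R := PA.prod PB with hR
  set O : A × B → ℤ := fun x => U x.1 + Y x.2 with hO
  set T : A × B → τ := fun x => V x.1 with hT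
  set C : ℤ × τ → ℝ := R.p (fun x => (O x, T x)) with hC
  set D : ℤ → ℝ := R.p O with hD
  set Q : τ → ℝ := R.p T with hQ
  set h : τ → ℤ → ℝ := fun v o => Real.log γ * F v o with hh
  set Z : τ → ℝ := fun v => ∑ x, R.w x * Real.exp (h v (O x)) with hZ
  have hC0 : ∀ x, 0 ≤ C x := fun x => R.p_nonneg _ x
  have hD0 : ∀ x, 0 ≤ D x := fun x => R.p_nonneg _ x
  have hQ0 : ∀ x, 0 ≤ Q x := fun x => R.p_nonneg _ x
  have hZ0 : ∀ v, 0 < Z v := by
    intro v
    have h1 : (1 : ℝ) ≤ Z v := by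
      rw [← R.sum_one]
      refine Finset.sum_le_sum fun x _ => ?_
      have h2 : 1 ≤ Real.exp (h v (O x)) := by
        rw [← Real.exp_zero]
        exact Real.exp_le_exp.2 (mul_nonneg (by linarith only [hlog]) (hF0 v _))
      have := mul_le_mul_of_nonneg_left h2 (R.nonneg x)
      linarith only [this]
    linarith only [h1]
  have key : ∑ x, R.w x * (h (T x) (O x) - Real.log (Z (T x))
      + Real.log (D (O x)) + Real.log (Q (T x)) - Real.log (C (O x, T x))) ≤ 0 := by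
    have h1 : ∀ x, R.w x * (h (T x) (O x) - Real.log (Z (T x))
      + Real.log (D (O x)) + Real.log (Q (T x)) - Real.log (C (O x, T x)))
        ≤ R.w x * (Real.exp (h (T x) (O x)) * D (O x) * Q (T x) / (Z (T x)) / (C (O x, T x))
          - 1) := by
      intro x
      rcases R.w_zero_or_pos x with hw | hw
      · simp only [hw, zero_mul, Std.le_refl]
      · refine mul_le_mul_of_nonneg_left ?_ hw.le
        have c0 : 0 < C (O x, T x) := R.p_pos hw (fun x => (O x, T x))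
        have d0 : 0 < D (O x) := R.p_pos hw O
        have q0 : 0 < Q (T x) := R.p_pos hw T
        have z0 := hZ0 (T x)
        have e0 := Real.exp_pos (h (T x) (O x))
        have : h (T x) (O x) - Real.log (Z (T x))
            + Real.log (D (O x)) + Real.log (Q (T x)) - Real.log (C (O x, T x))
            = Real.log (Real.exp (h (T x) (O x)) * D (O x) * Q (T x) / (Z (T x))
              / (C (O x, T x))) := by
          rw [Real.log_div (by (clear * - d0 q0 z0; positivity)) c0.ne', Real.log_div (by (clear * - d0 q0; positivity)) z0.ne',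
            Real.log_mul (by (clear * - d0; positivity)) q0.ne', Real.log_mul e0.ne' d0.ne', Real.log_exp]
          ring
        rw [this]
        exact Real.log_le_sub_one_of_pos (by (clear * - d0 q0 z0 c0; positivity))
    have h2 : ∑ x, R.w x * (Real.exp (h (T x) (O x)) * D (O x) * Q (T x) / (Z (T x))
        / (C (O x, T x)) - 1)
        = ∑ x, R.w x * (Real.exp (h (T x) (O x)) * D (O x) * Q (T x) / (Z (T x))
        / (C (O x, T x))) - 1 := by
      simp only [mul_sub, mul_one, Finset.sum_sub_distrib, R.sum_one]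
    have h3 : ∑ x, R.w x * (Real.exp (h (T x) (O x)) * D (O x) * Q (T x) / (Z (T x))
        / (C (O x, T x))) ≤ 1 := by
      have e1 := R.sum_fiber (fun x => (O x, T x))
        (fun y : ℤ × τ => Real.exp (h y.2 y.1) * D y.1 * Q y.2 / Z y.2 / C y)
      simp only at e1
      rw [e1]
      have e2 : ∑ y ∈ Finset.univ.image (fun x => (O x, T x)),
          R.p (fun x => (O x, T x)) y * (Real.exp (h y.2 y.1) * D y.1 * Q y.2 / Z y.2 / C y)
          ≤ ∑ y ∈ Finset.univ.image (fun x => (O x, T x)),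
            Real.exp (h y.2 y.1) * D y.1 * Q y.2 / Z y.2 := by
        refine Finset.sum_le_sum fun y _ => ?_
        rw [← hC]
        have hn : 0 ≤ Real.exp (h y.2 y.1) * D y.1 * Q y.2 / Z y.2 :=
          div_nonneg (mul_nonneg (mul_nonneg (Real.exp_pos _).le (hD0 _)) (hQ0 _)) (hZ0 _).le
        rcases (hC0 y).eq_or_lt with hx | hx
        · rw [← hx, zero_mul]; exact hn
        · rw [mul_div_cancel₀ _ hx.ne']
      have e3 : ∑ y ∈ Finset.univ.image (fun x => (O x, T x)),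
            Real.exp (h y.2 y.1) * D y.1 * Q y.2 / Z y.2
          ≤ ∑ y ∈ (Finset.univ.image O) ×ˢ (Finset.univ.image T),
            Real.exp (h y.2 y.1) * D y.1 * Q y.2 / Z y.2 := by
        refine Finset.sum_le_sum_of_subset_of_nonneg ?_ ?_
        · intro y hy
          obtain ⟨x, -, rfl⟩ := Finset.mem_image.1 hy
          simp only [Finset.mem_product, Finset.mem_image, Finset.mem_univ, true_and, exists_apply_eq_apply, and_self]
        · intro y _ _
          exact div_nonneg (mul_nonneg (mul_nonneg (Real.exp_pos _).le (hD0 _)) (hQ0 _))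
            (hZ0 _).le
      have e4 : ∑ y ∈ (Finset.univ.image O) ×ˢ (Finset.univ.image T),
            Real.exp (h y.2 y.1) * D y.1 * Q y.2 / Z y.2
          = ∑ v ∈ Finset.univ.image T, Q v := by
        rw [Finset.sum_product_right]
        refine Finset.sum_congr rfl fun v _ => ?_
        have e5 : Z v = ∑ o ∈ Finset.univ.image O, D o * Real.exp (h v o) :=
          R.sum_fiber O (fun o => Real.exp (h v o))
        have e6 : ∑ o ∈ Finset.univ.image O, Real.exp (h v o) * D o * Q v / Z v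
            = (∑ o ∈ Finset.univ.image O, D o * Real.exp (h v o)) * Q v / Z v := by
          rw [Finset.sum_mul, Finset.sum_div]
          exact Finset.sum_congr rfl fun o _ => by ring
        simp only
        rw [e6, ← e5, mul_div_assoc, mul_div_cancel₀ _ (hZ0 v).ne']
      have e7 : ∑ v ∈ Finset.univ.image T, Q v = 1 := R.sum_p_image T
      linarith only [e2, e3, e4, e7]
    have h4 := Finset.sum_le_sum (s := Finset.univ) fun x _ => h1 x
    linarith only [h2, h3, h4]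
  -- the information
  have hinfo : info PA PB U V Y = ∑ x, R.w x * (Real.log (C (O x, T x)) - Real.log (D (O x))
      - Real.log (Q (T x))) := by
    unfold info
    rw [← H_prod_fst PA PB V]
    unfold H
    rw [← Finset.sum_add_distrib, ← Finset.sum_sub_distrib]
    refine Finset.sum_congr rfl fun x _ => ?_
    simp only [hC, hD, hQ, hR, hO, hT]
    ring
  have hlow : ∑ x, R.w x * (h (T x) (O x) - Real.log (Z (T x))) ≤ info PA PB U V Y := by
    have e : ∑ x, R.w x * (h (T x) (O x) - Real.log (Z (T x)))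
        = ∑ x, R.w x * (h (T x) (O x) - Real.log (Z (T x))
          + Real.log (D (O x)) + Real.log (Q (T x)) - Real.log (C (O x, T x)))
          + ∑ x, R.w x * (Real.log (C (O x, T x)) - Real.log (D (O x))
          - Real.log (Q (T x))) := by
      rw [← Finset.sum_add_distrib]
      exact Finset.sum_congr rfl fun x _ => by ring
    rw [e, hinfo]
    linarith only [key]
  refine le_trans ?_ hlow
  -- split the sum
  have hsplit : ∑ x, R.w x * (h (T x) (O x) - Real.log (Z (T x)))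
      = ∑ a, PA.w a * (Real.log γ * Ef (PA.cond V (V a)) PB U Y (F (V a))
        - Real.log (Z (V a))) := by
    rw [hR, PA.sum_prod_w PB]
    have e1 : ∀ a, ∑ b, PB.w b * (h (T (a, b)) (O (a, b)) - Real.log (Z (T (a, b))))
        = Real.log γ * ∑ b, PB.w b * F (V a) (U a + Y b) - Real.log (Z (V a)) := by
      intro a
      simp only [hh, hO, hT, mul_sub, Finset.sum_sub_distrib, ← Finset.sum_mul, PB.sum_one,
        one_mul]
      rw [Finset.mul_sum]
      congr 1
      exact Finset.sum_congr rfl fun b _ => by ring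
    simp only [e1]
    have e2 : ∑ a, PA.w a * (Real.log γ * ∑ b, PB.w b * F (V a) (U a + Y b)
        - Real.log (Z (V a)))
        = Real.log γ * ∑ a, PA.w a * ∑ b, PB.w b * F (V a) (U a + Y b)
          - ∑ a, PA.w a * Real.log (Z (V a)) := by
      rw [Finset.mul_sum, ← Finset.sum_sub_distrib]
      exact Finset.sum_congr rfl fun a _ => by ring
    have e3 : ∑ a, PA.w a * (Real.log γ * Ef (PA.cond V (V a)) PB U Y (F (V a))
        - Real.log (Z (V a)))
        = Real.log γ * ∑ a, PA.w a * Ef (PA.cond V (V a)) PB U Y (F (V a))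
          - ∑ a, PA.w a * Real.log (Z (V a)) := by
      rw [Finset.mul_sum, ← Finset.sum_sub_distrib]
      exact Finset.sum_congr rfl fun a _ => by ring
    rw [e2, e3]
    congr 2
    rw [← PA.sum_cond_total V (fun a => ∑ b, PB.w b * F (V a) (U a + Y b))]
    refine Finset.sum_congr rfl fun a _ => ?_
    rcases PA.w_zero_or_pos a with hw | hw
    · simp only [hw, zero_mul]
    · congr 1
      unfold Ef
      refine Finset.sum_congr rfl fun a' _ => ?_
      rw [PA.cond_w V _ (PA.p_pos hw V)]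
      by_cases h2 : V a' = V a
      · rw [h2]
      · simp only [h2, ↓reduceIte, zero_div, zero_mul]
  rw [hsplit, Finset.mul_sum]
  refine Finset.sum_le_sum fun a _ => ?_
  rcases PA.w_zero_or_pos a with hw | hw
  · simp [hw]
  by_cases hGa : G (V a)
  · rw [if_pos hGa, mul_comm]
    refine mul_le_mul_of_nonneg_left ?_ hw.le
    have h1 := hF2 (V a) a hw rfl hGa
    set x := γ * Ef PA PB U Y (F (V a)) with hx
    have hEf0 : 0 ≤ Ef PA PB U Y (F (V a)) := by
      unfold Ef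
      exact Finset.sum_nonneg fun a' _ => mul_nonneg (PA.nonneg _)
        (Finset.sum_nonneg fun b _ => mul_nonneg (PB.nonneg _) (hF0 _ _))
    have hx0 : 0 ≤ x := mul_nonneg hγ0.le hEf0
    have hZle : Z (V a) ≤ 1 + x := by
      have e1 : Ef PA PB U Y (F (V a)) = ∑ y, R.w y * F (V a) (O y) := by
        rw [hR, PA.sum_prod_w PB]
        rfl
      have e2 : Z (V a) ≤ ∑ y, R.w y * (1 + (γ - 1) * F (V a) (O y)) := by
        refine Finset.sum_le_sum fun y _ => mul_le_mul_of_nonneg_left ?_ (R.nonneg y)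
        have hc1 := convexOn_exp.2 (Set.mem_univ (Real.log γ)) (Set.mem_univ 0)
          (hF0 (V a) (O y)) (sub_nonneg.2 (hF1 (V a) (O y))) (by ring)
        simp only [smul_eq_mul, mul_zero, add_zero, Real.exp_zero, mul_one,
          Real.exp_log hγ0] at hc1
        simp only [hh]
        rw [mul_comm (Real.log γ)]
        refine hc1.trans (le_of_eq ?_)
        ring
      have e3 : ∑ y, R.w y * (1 + (γ - 1) * F (V a) (O y))
          = 1 + (γ - 1) * Ef PA PB U Y (F (V a)) := by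
        have e5 : ∀ y, R.w y * (1 + (γ - 1) * F (V a) (O y))
            = R.w y + (γ - 1) * (R.w y * F (V a) (O y)) := fun y => by ring
        simp only [e5]
        rw [Finset.sum_add_distrib, R.sum_one, ← Finset.mul_sum, e1]
      have e4 : (γ - 1) * Ef PA PB U Y (F (V a)) ≤ x := by
        rw [hx]
        exact mul_le_mul_of_nonneg_right (by linarith only []) hEf0
      linarith only [hEf0, e2, e3]
    have hlogZ : Real.log (Z (V a)) ≤ x := by
      have := Real.log_le_sub_one_of_pos (hZ0 (V a))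
      linarith only [hZle, this]
    have h5 : c + x ≤ Ef (PA.cond V (V a)) PB U Y (F (V a)) := by linarith only [h1]
    have h6 : Real.log γ * (c + x) ≤ Real.log γ * Ef (PA.cond V (V a)) PB U Y (F (V a)) :=
      mul_le_mul_of_nonneg_left h5 (by linarith only [hlog])
    have h7 : x ≤ Real.log γ * x := by
      have := mul_le_mul_of_nonneg_right hlog hx0
      linarith only [this]
    have h8 : Real.log γ * (c + x) = c * Real.log γ + Real.log γ * x := by ring
    linarith only [hlogZ, h6, h7]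
  · rw [if_neg hGa, mul_zero]
    have h1 := hF3 (V a) hGa
    have h2 : Z (V a) = 1 := by
      simp only [hZ, hh, h1, mul_zero, Real.exp_zero, mul_one]
      exact R.sum_one
    have h3 : Ef (PA.cond V (V a)) PB U Y (F (V a)) = 0 := by
      unfold Ef
      simp only [h1, mul_zero, Finset.sum_const_zero]
    rw [h2, h3]
    simp

end Vale.Agent.P114
end
end

section

/-!
T11-A. Basic properties of `ovl`.
All `f` are bounded (`0 ≤ f ≤ 1`), so every `gapT P X γ D f` is in `[-γ, 1]`; the supremum is over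
the nonempty type of test functions (`f = 0`, needs `0 ≤ K`).
-/

open scoped Classical

noncomputable section

namespace Vale.Agent.P114

open FinProb

variable {Ω : Type*} [Fintype Ω] (P : FinProb Ω) (X : Ω → ℝ)

lemma lipT_zero {K : ℝ} (hK : 0 ≤ K) : LipT K (fun _ => 0) :=
  ⟨fun _ => le_rfl, fun _ => zero_le_one, fun x y => by simpa only [sub_self, abs_zero] using mul_nonneg hK (abs_nonneg _)⟩

lemma lipT_comp_affine {K a : ℝ} (b : ℝ) {f : ℝ → ℝ} (hf : LipT K f) :
    LipT (K * |a|) (fun x => f (a * x + b)) := by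
  refine ⟨fun x => hf.nonneg _, fun x => hf.le_one _, fun x y => ?_⟩
  have h := hf.lip (a * x + b) (a * y + b)
  have e : a * x + b - (a * y + b) = a * (x - y) := by ring
  rw [e, abs_mul, ← mul_assoc] at h
  exact h

/-- The bijection of the test functions given by an affine change of variables. -/
def lipEquiv (K : ℝ) {a : ℝ} (b : ℝ) (ha : a ≠ 0) :
    {f : ℝ → ℝ // LipT K f} ≃ {f : ℝ → ℝ // LipT (K * |a|) f} where
  toFun f := ⟨fun x => f.1 (a * x + b), lipT_comp_affine b f.2⟩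
  invFun f := ⟨fun x => f.1 (a⁻¹ * x + -(a⁻¹ * b)), by
    have h := lipT_comp_affine (a := a⁻¹) (-(a⁻¹ * b)) f.2
    have e : K * |a| * |a⁻¹| = K := by
      rw [mul_assoc, ← abs_mul, mul_inv_cancel₀ ha, abs_one, mul_one]
    rwa [e] at h⟩
  left_inv f := by
    apply Subtype.ext
    funext x
    have e : a * (a⁻¹ * x + -(a⁻¹ * b)) + b = x := by
      rw [mul_add, ← mul_assoc, mul_inv_cancel₀ ha, mul_neg, ← mul_assoc, mul_inv_cancel₀ ha]
      ring
    change f.1 (a * (a⁻¹ * x + -(a⁻¹ * b)) + b) = f.1 x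
    rw [e]
  right_inv f := by
    apply Subtype.ext
    funext x
    have e : a⁻¹ * (a * x + b) + -(a⁻¹ * b) = x := by
      rw [mul_add, ← mul_assoc, inv_mul_cancel₀ ha]
      ring
    change f.1 (a⁻¹ * (a * x + b) + -(a⁻¹ * b)) = f.1 x
    rw [e]

end Vale.Agent.P114
end
end

section

/-!
T12-A. Properties of `ovlC`.
-/

open scoped Classical

noncomputable section

namespace Vale.Agent.P114

open FinProb

variable {Ω C : Type*} [Fintype Ω] [Fintype C] (P : FinProb Ω) (X : Ω → ℝ) (Q Q' : FinProb C)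
  (u u' : C → ℝ)

lemma gapC_le_one {γ K : ℝ} (hγ : 0 ≤ γ) {f : ℝ → ℝ} (hf : LipT K f) :
    gapC P X Q Q' u u' γ f ≤ 1 := by
  unfold gapC
  rw [← P.sum_one]
  refine Finset.sum_le_sum fun ω _ => ?_
  have h1 : ∑ c, Q.w c * f (X ω + u c) ≤ 1 := by
    rw [← Q.sum_one]
    exact Finset.sum_le_sum fun c _ => mul_le_of_le_one_right (Q.nonneg c) (hf.le_one _)
  have h2 : 0 ≤ ∑ c, Q'.w c * f (X ω + u' c) :=
    Finset.sum_nonneg fun c _ => mul_nonneg (Q'.nonneg c) (hf.nonneg _)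
  have h3 := mul_nonneg hγ h2
  exact mul_le_of_le_one_right (P.nonneg ω) (by linarith only [h1, h3])

lemma le_ovlC {γ K : ℝ} (hγ : 0 ≤ γ) {f : ℝ → ℝ} (hf : LipT K f) :
    gapC P X Q Q' u u' γ f ≤ ovlC P X Q Q' u u' γ K := by
  unfold ovlC
  refine le_ciSup (f := fun f : {f : ℝ → ℝ // LipT K f} => gapC P X Q Q' u u' γ f) ?_ ⟨f, hf⟩
  refine ⟨1, ?_⟩
  rintro _ ⟨g, rfl⟩
  exact gapC_le_one P X Q Q' u u' hγ g.2

lemma ovlC_le {γ K c : ℝ} (hK : 0 ≤ K) (h : ∀ f, LipT K f → gapC P X Q Q' u u' γ f ≤ c) :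
    ovlC P X Q Q' u u' γ K ≤ c := by
  have : Nonempty {f : ℝ → ℝ // LipT K f} := ⟨⟨_, lipT_zero hK⟩⟩
  exact ciSup_le fun f => h f.1 f.2

lemma exists_gapC {γ K c : ℝ} (hK : 0 ≤ K) (h : c < ovlC P X Q Q' u u' γ K) :
    ∃ f, LipT K f ∧ c < gapC P X Q Q' u u' γ f := by
  by_contra hcon
  push Not at hcon
  exact absurd (ovlC_le P X Q Q' u u' hK hcon) (not_le.2 h)

lemma ovlC_nonneg {γ K : ℝ} (hγ : 0 ≤ γ) (hK : 0 ≤ K) : 0 ≤ ovlC P X Q Q' u u' γ K := by
  have h := le_ovlC P X Q Q' u u' hγ (lipT_zero hK)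
  simpa only [ge_iff_le, gapC, mul_zero, Finset.sum_const_zero, sub_self] using h

lemma ovlC_le_one {γ K : ℝ} (hγ : 0 ≤ γ) (hK : 0 ≤ K) : ovlC P X Q Q' u u' γ K ≤ 1 :=
  ovlC_le P X Q Q' u u' hK fun _ hf => gapC_le_one P X Q Q' u u' hγ hf

lemma ovlC_mono {γ K K' : ℝ} (hγ : 0 ≤ γ) (hK : 0 ≤ K) (h : K ≤ K') :
    ovlC P X Q Q' u u' γ K ≤ ovlC P X Q Q' u u' γ K' :=
  ovlC_le P X Q Q' u u' hK fun _ hf => le_ovlC P X Q Q' u u' hγ ⟨hf.nonneg, hf.le_one, fun x y =>
    (hf.lip x y).trans (mul_le_mul_of_nonneg_right h (abs_nonneg _))⟩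

/-- Affine change of variables. -/
lemma ovlC_affine {γ K a b : ℝ} (ha : a ≠ 0) :
    ovlC P (fun ω => a * X ω + b) Q Q' u u' γ K
      = ovlC P X Q Q' (fun c => u c / a) (fun c => u' c / a) γ (K * |a|) := by
  unfold ovlC
  refine (lipEquiv K b ha).iSup_congr fun f => ?_
  unfold gapC
  refine Finset.sum_congr rfl fun ω _ => ?_
  have e : ∀ v : ℝ, a * (X ω + v / a) + b = a * X ω + b + v := by
    intro v
    field_simp
    ring
  change P.w ω * (∑ c, Q.w c * f.1 (a * (X ω + u c / a) + b)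
    - γ * ∑ c, Q'.w c * f.1 (a * (X ω + u' c / a) + b)) = _
  simp only [e]

/-- Perturbation of `X`, `u`, `u'`. -/
lemma ovlC_perturb {γ K δ δ' : ℝ} (hγ : 0 ≤ γ) (hK : 0 ≤ K) (X' : Ω → ℝ) (v v' : C → ℝ)
    (h : ∀ ω c, 0 < Q.w c → |X ω + u c - (X' ω + v c)| ≤ δ)
    (h' : ∀ ω c, 0 < Q'.w c → |X ω + u' c - (X' ω + v' c)| ≤ δ') :
    ovlC P X Q Q' u u' γ K ≤ ovlC P X' Q Q' v v' γ K + (K * δ + γ * (K * δ')) := by
  refine ovlC_le P X Q Q' u u' hK fun f hf => ?_
  have h1 := le_ovlC P X' Q Q' v v' hγ hf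
  have h2 : gapC P X Q Q' u u' γ f ≤ gapC P X' Q Q' v v' γ f + (K * δ + γ * (K * δ')) := by
    have e : K * δ + γ * (K * δ') = ∑ ω, P.w ω * (K * δ + γ * (K * δ')) := by
      rw [← Finset.sum_mul, P.sum_one, one_mul]
    rw [e]
    unfold gapC
    rw [← Finset.sum_add_distrib]
    refine Finset.sum_le_sum fun ω _ => ?_
    rw [← mul_add]
    refine mul_le_mul_of_nonneg_left ?_ (P.nonneg ω)
    have h3 : ∑ c, Q.w c * f (X ω + u c) ≤ ∑ c, Q.w c * f (X' ω + v c) + K * δ := by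
      have e1 : K * δ = ∑ c, Q.w c * (K * δ) := by rw [← Finset.sum_mul, Q.sum_one, one_mul]
      rw [e1, ← Finset.sum_add_distrib]
      refine Finset.sum_le_sum fun c _ => ?_
      rcases Q.w_zero_or_pos c with hc | hc
      · simp [hc]
      · rw [← mul_add]
        refine mul_le_mul_of_nonneg_left ?_ hc.le
        have h5 := (hf.lip (X ω + u c) (X' ω + v c)).trans
          (mul_le_mul_of_nonneg_left (h ω c hc) hK)
        have := (abs_le.1 h5).2
        linarith only [this]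
    have h4 : ∑ c, Q'.w c * f (X' ω + v' c) ≤ ∑ c, Q'.w c * f (X ω + u' c) + K * δ' := by
      have e1 : K * δ' = ∑ c, Q'.w c * (K * δ') := by rw [← Finset.sum_mul, Q'.sum_one, one_mul]
      rw [e1, ← Finset.sum_add_distrib]
      refine Finset.sum_le_sum fun c _ => ?_
      rcases Q'.w_zero_or_pos c with hc | hc
      · simp [hc]
      · rw [← mul_add]
        refine mul_le_mul_of_nonneg_left ?_ hc.le
        have h5 := (hf.lip (X ω + u' c) (X' ω + v' c)).trans
          (mul_le_mul_of_nonneg_left (h' ω c hc) hK)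
        have := (abs_le.1 h5).1
        linarith only [this]
    have h6 := mul_le_mul_of_nonneg_left h4 hγ
    rw [mul_add] at h6
    linarith
  linarith only [h1, h2]

/-- Mixtures. -/
lemma ovlC_prod_le {Ω' : Type*} [Fintype Ω'] (R : FinProb Ω') (X : Ω × Ω' → ℝ) {γ K : ℝ}
    (hγ : 0 ≤ γ) (hK : 0 ≤ K) :
    ovlC (P.prod R) X Q Q' u u' γ K
      ≤ ∑ a, P.w a * ovlC R (fun b => X (a, b)) Q Q' u u' γ K := by
  refine ovlC_le _ _ _ _ _ _ hK fun f hf => ?_
  have e := P.sum_prod_w R (fun x => ∑ c, Q.w c * f (X x + u c)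
    - γ * ∑ c, Q'.w c * f (X x + u' c))
  unfold gapC
  rw [e]
  refine Finset.sum_le_sum fun a _ => mul_le_mul_of_nonneg_left ?_ (P.nonneg a)
  exact le_ovlC R (fun b => X (a, b)) Q Q' u u' hγ hf

/-- Enlarging the space. -/
lemma ovlC_prod_fst {Ω' : Type*} [Fintype Ω'] (R : FinProb Ω') {γ K : ℝ} :
    ovlC (P.prod R) (fun x => X x.1) Q Q' u u' γ K = ovlC P X Q Q' u u' γ K := by
  unfold ovlC
  refine iSup_congr fun f => ?_
  have e := P.sum_prod_w R (fun x => ∑ c, Q.w c * f.1 (X x.1 + u c)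
    - γ * ∑ c, Q'.w c * f.1 (X x.1 + u' c))
  unfold gapC
  rw [e]
  refine Finset.sum_congr rfl fun a _ => ?_
  dsimp only
  rw [← Finset.sum_mul, R.sum_one, one_mul]

/-- Splitting a word. -/
lemma ovlC_append {Λ : Type*} [Fintype Λ] (R : FinProb Λ) (m n : ℕ) (X : (Fin (m + n) → Λ) → ℝ)
    {γ K : ℝ} :
    ovlC (R.pi (m + n)) X Q Q' u u' γ K
      = ovlC ((R.pi m).prod (R.pi n)) (fun x => X (Fin.append x.1 x.2)) Q Q' u u' γ K := by
  unfold ovlC
  refine iSup_congr fun f => ?_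
  unfold gapC
  exact ((R.pi (m + n)).sum_comp_of_map ((R.pi m).prod (R.pi n)) (Fin.appendEquiv m n)
    ((R.pi (m + n)).p_equiv ((R.pi m).prod (R.pi n)) (Fin.appendEquiv m n) (by
      rintro ⟨a, b⟩
      simp only [prod, pi, Fin.prod_univ_add, Fin.appendEquiv, Equiv.coe_fn_mk, Fin.append_left, Fin.append_right]))
    (fun x => ∑ c, Q.w c * f.1 (X x + u c) - γ * ∑ c, Q'.w c * f.1 (X x + u' c))).symm

end Vale.Agent.P114
end
end

section

/-!
T11-B1. `L¹` bound by relative entropy, and the replacement of `V` by a conditionally independent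
copy given the coarse cell.
-/

open scoped Classical

noncomputable section

namespace Vale.Agent.P114

open FinProb

/-- The relative entropy bounds the Hellinger distance. -/
lemma swap_hellinger {ι : Type*} (s : Finset ι) (p q : ι → ℝ) (hp : ∀ i ∈ s, 0 ≤ p i)
    (hq : ∀ i ∈ s, 0 ≤ q i) (hp1 : ∑ i ∈ s, p i = 1) (hq1 : ∑ i ∈ s, q i ≤ 1)
    (hpq : ∀ i ∈ s, 0 < p i → 0 < q i) :
    ∑ i ∈ s, (Real.sqrt (p i) - Real.sqrt (q i)) ^ 2 ≤
      ∑ i ∈ s, p i * Real.log (p i / q i) := by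
  have h1 : ∀ i ∈ s, 2 * p i - 2 * (Real.sqrt (p i) * Real.sqrt (q i)) ≤
      p i * Real.log (p i / q i) := by
    intro i hi
    rcases (hp i hi).eq_or_lt with h0 | h0
    · rw [← h0]; simp
    · have hq0 := hpq i hi h0
      have hsp : 0 < Real.sqrt (p i) := Real.sqrt_pos.2 h0
      have hsq : 0 < Real.sqrt (q i) := Real.sqrt_pos.2 hq0
      have ep : Real.sqrt (p i) ^ 2 = p i := Real.sq_sqrt h0.le
      have eq : Real.sqrt (q i) ^ 2 = q i := Real.sq_sqrt hq0.le
      have e1 : Real.log (p i / q i) = 2 * Real.log (Real.sqrt (p i) / Real.sqrt (q i)) := by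
        rw [← ep, ← eq, ← div_pow, Real.log_pow, Real.sqrt_sq hsp.le, Real.sqrt_sq hsq.le]
        norm_num
      have e2 := Real.one_sub_inv_le_log_of_pos (div_pos hsp hsq)
      rw [inv_div] at e2
      rw [e1]
      have e3 := mul_le_mul_of_nonneg_left e2 (mul_nonneg zero_le_two h0.le)
      have e4 : 2 * p i * (1 - Real.sqrt (q i) / Real.sqrt (p i)) =
          2 * p i - 2 * (Real.sqrt (p i) * Real.sqrt (q i)) := by
        have : p i * (Real.sqrt (q i) / Real.sqrt (p i)) = Real.sqrt (p i) * Real.sqrt (q i) := by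
          rw [mul_div_assoc', div_eq_iff hsp.ne']
          nlinarith only [hsq, ep]
        linarith only [this]
      linarith only [e4, e3]
  have h2 : ∑ i ∈ s, (Real.sqrt (p i) - Real.sqrt (q i)) ^ 2 =
      ∑ i ∈ s, p i + ∑ i ∈ s, q i - 2 * ∑ i ∈ s, Real.sqrt (p i) * Real.sqrt (q i) := by
    rw [Finset.mul_sum, ← Finset.sum_add_distrib, ← Finset.sum_sub_distrib]
    refine Finset.sum_congr rfl fun i hi => ?_
    have ep : Real.sqrt (p i) ^ 2 = p i := Real.sq_sqrt (hp i hi)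
    have eq : Real.sqrt (q i) ^ 2 = q i := Real.sq_sqrt (hq i hi)
    linarith
  have h3 := Finset.sum_le_sum h1
  rw [Finset.sum_sub_distrib, ← Finset.mul_sum, ← Finset.mul_sum, hp1] at h3
  rw [h2, hp1]
  linarith

/-- `∑ |p - q| ≤ 2 √ (∑ p log (p / q))` for a probability `p` and a subprobability `q`.
Proof: `log (p/q) = -2 log √(q/p) ≥ 2 (1 - √(q/p))`, so
`KL ≥ ∑ 2 p - 2 √(pq) ≥ ∑ (√p - √q)²` (as `∑ q ≤ 1 = ∑ p`);
`|p - q| = |√p - √q| (√p + √q)` and Cauchy-Schwarz with `∑ (√p + √q)² ≤ 4`. -/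
lemma sum_abs_sub_le {ι : Type*} (s : Finset ι) (p q : ι → ℝ) (hp : ∀ i ∈ s, 0 ≤ p i)
    (hq : ∀ i ∈ s, 0 ≤ q i) (hp1 : ∑ i ∈ s, p i = 1) (hq1 : ∑ i ∈ s, q i ≤ 1)
    (hpq : ∀ i ∈ s, 0 < p i → 0 < q i) :
    ∑ i ∈ s, |p i - q i| ≤ 2 * Real.sqrt (∑ i ∈ s, p i * Real.log (p i / q i)) := by
  have h0 := swap_hellinger s p q hp hq hp1 hq1 hpq
  have h1 : ∑ i ∈ s, |p i - q i| = ∑ i ∈ s, |Real.sqrt (p i) - Real.sqrt (q i)| *
      (Real.sqrt (p i) + Real.sqrt (q i)) := by
    refine Finset.sum_congr rfl fun i hi => ?_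
    have ep : Real.sqrt (p i) ^ 2 = p i := Real.sq_sqrt (hp i hi)
    have eq : Real.sqrt (q i) ^ 2 = q i := Real.sq_sqrt (hq i hi)
    have e1 : p i - q i = (Real.sqrt (p i) - Real.sqrt (q i)) *
        (Real.sqrt (p i) + Real.sqrt (q i)) := by linarith
    have e2 : 0 ≤ Real.sqrt (p i) + Real.sqrt (q i) := by (clear * -; positivity)
    conv_lhs => rw [e1, abs_mul, abs_of_nonneg e2]
  rw [h1]
  refine (Real.sum_mul_le_sqrt_mul_sqrt s _ _).trans ?_
  have h2 : Real.sqrt (∑ i ∈ s, |Real.sqrt (p i) - Real.sqrt (q i)| ^ 2) ≤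
      Real.sqrt (∑ i ∈ s, p i * Real.log (p i / q i)) := by
    refine Real.sqrt_le_sqrt ?_
    simp only [sq_abs]
    exact h0
  have h3 : Real.sqrt (∑ i ∈ s, (Real.sqrt (p i) + Real.sqrt (q i)) ^ 2) ≤ 2 := by
    rw [show (2 : ℝ) = Real.sqrt 4 by
      rw [show (4 : ℝ) = 2 ^ 2 by norm_num, Real.sqrt_sq zero_le_two]]
    refine Real.sqrt_le_sqrt ?_
    have h4 : ∑ i ∈ s, (Real.sqrt (p i) + Real.sqrt (q i)) ^ 2 ≤ ∑ i ∈ s, (2 * p i + 2 * q i) := by
      refine Finset.sum_le_sum fun i hi => ?_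
      have ep : Real.sqrt (p i) ^ 2 = p i := Real.sq_sqrt (hp i hi)
      have eq : Real.sqrt (q i) ^ 2 = q i := Real.sq_sqrt (hq i hi)
      linarith only [sq_nonneg (Real.sqrt (p i) - Real.sqrt (q i)), eq, ep]
    rw [Finset.sum_add_distrib, ← Finset.mul_sum, ← Finset.mul_sum, hp1] at h4
    linarith only [hq1, h4]
  calc _ ≤ Real.sqrt (∑ i ∈ s, p i * Real.log (p i / q i)) * 2 :=
        mul_le_mul h2 h3 (Real.sqrt_nonneg _) (Real.sqrt_nonneg _)
    _ = _ := mul_comm _ _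

section

variable {Ω A β δ : Type*} [Fintype Ω] [Fintype A] (P : FinProb Ω) (V : Ω → A)
    (F : Ω → β) (Z : Ω → δ)

/-- The conditional probability. -/
def swapC (a : A) (ω : Ω) : ℝ := P.p (fun x => (V x, Z x)) (a, Z ω) / P.p Z (Z ω)

/-- The law of the replaced pair. -/
def swapQ (a : A) (c : β) : ℝ := ∑ ω, if F ω = c then P.w ω * swapC P V Z a ω else 0

omit [Fintype A] in
lemma swapC_nonneg (a : A) (ω : Ω) : 0 ≤ swapC P V Z a ω :=
  div_nonneg (P.p_nonneg _ _) (P.p_nonneg _ _)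

omit [Fintype A] in
lemma swapQ_nonneg (a : A) (c : β) : 0 ≤ swapQ P V F Z a c :=
  Finset.sum_nonneg fun ω _ => by
    split_ifs
    exacts [mul_nonneg (P.nonneg ω) (swapC_nonneg P V Z a ω), le_rfl]

lemma swapC_sum {ω : Ω} (hω : 0 < P.w ω) : ∑ a, swapC P V Z a ω = 1 := by
  unfold swapC
  rw [← Finset.sum_div]
  have h1 : ∑ a, P.p (fun x => (V x, Z x)) (a, Z ω) = P.p Z (Z ω) := by
    unfold FinProb.p
    rw [Finset.sum_comm]
    refine Finset.sum_congr rfl fun x _ => ?_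
    by_cases hc : Z x = Z ω
    · rw [Finset.sum_eq_single (V x)]
      · simp [hc]
      · intro b _ hb
        simp [Ne.symm hb]
      · intro hb
        exact absurd (Finset.mem_univ _) hb
    · have : ∀ a, ¬ ((V x, Z x) = (a, Z ω)) := by
        intro a h'; exact hc (Prod.ext_iff.1 h').2
      simp only [this, ↓reduceIte, Finset.sum_const_zero, hc]
  rw [h1, div_self (P.p_pos hω Z).ne']

lemma swap_sum_p (φ : A → β → ℝ) :
    ∑ ω, P.w ω * φ (V ω) (F ω) =
      ∑ x ∈ (Finset.univ : Finset A) ×ˢ (Finset.univ.image F),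
        P.p (fun ω => (V ω, F ω)) x * φ x.1 x.2 := by
  have h1 : ∀ x ∈ (Finset.univ : Finset A) ×ˢ (Finset.univ.image F),
      P.p (fun ω => (V ω, F ω)) x * φ x.1 x.2 =
        ∑ ω, if (V ω, F ω) = x then P.w ω * φ (V ω) (F ω) else 0 := by
    intro x _
    unfold FinProb.p
    rw [Finset.sum_mul]
    refine Finset.sum_congr rfl fun ω _ => ?_
    by_cases h : (V ω, F ω) = x
    · rw [if_pos h, if_pos h, ← h]
    · rw [if_neg h, if_neg h, zero_mul]
  rw [Finset.sum_congr rfl h1, Finset.sum_comm]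
  refine Finset.sum_congr rfl fun ω _ => ?_
  rw [Finset.sum_ite_eq, if_pos]
  simp only [Finset.mem_product, Finset.mem_univ, Finset.mem_image, true_and, exists_apply_eq_apply, and_self]

lemma swap_sum_q (φ : A → β → ℝ) :
    ∑ ω, P.w ω * ∑ a, swapC P V Z a ω * φ a (F ω) =
      ∑ x ∈ (Finset.univ : Finset A) ×ˢ (Finset.univ.image F),
        swapQ P V F Z x.1 x.2 * φ x.1 x.2 := by
  rw [Finset.sum_product]
  have h1 : ∀ a : A, ∑ c ∈ Finset.univ.image F, swapQ P V F Z a c * φ a c =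
      ∑ ω, P.w ω * (swapC P V Z a ω * φ a (F ω)) := by
    intro a
    have h2 : ∀ c ∈ Finset.univ.image F, swapQ P V F Z a c * φ a c =
        ∑ ω, if F ω = c then P.w ω * (swapC P V Z a ω * φ a (F ω)) else 0 := by
      intro c _
      unfold swapQ
      rw [Finset.sum_mul]
      refine Finset.sum_congr rfl fun ω _ => ?_
      by_cases h : F ω = c
      · rw [if_pos h, if_pos h, ← h]; ring
      · rw [if_neg h, if_neg h, zero_mul]
    rw [Finset.sum_congr rfl h2, Finset.sum_comm]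
    refine Finset.sum_congr rfl fun ω _ => ?_
    rw [Finset.sum_ite_eq, if_pos]
    simp only [Finset.mem_image, Finset.mem_univ, true_and, exists_apply_eq_apply]
  rw [Finset.sum_congr rfl fun a _ => h1 a, Finset.sum_comm]
  refine Finset.sum_congr rfl fun ω _ => ?_
  rw [Finset.mul_sum]

omit [Fintype A] in
lemma swapQ_eq (hZ : ∀ x y, F x = F y → Z x = Z y) (a : A) (ω : Ω) :
    swapQ P V F Z a (F ω) = P.p F (F ω) * swapC P V Z a ω := by
  unfold swapQ FinProb.p
  rw [Finset.sum_mul]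
  refine Finset.sum_congr rfl fun x _ => ?_
  by_cases h : F x = F ω
  · rw [if_pos h, if_pos h]
    unfold swapC
    rw [hZ x ω h]
  · rw [if_neg h, if_neg h, zero_mul]

lemma swap_kl (hZ : ∀ x y, F x = F y → Z x = Z y) :
    ∑ x ∈ (Finset.univ : Finset A) ×ˢ (Finset.univ.image F),
      P.p (fun ω => (V ω, F ω)) x * Real.log (P.p (fun ω => (V ω, F ω)) x /
        swapQ P V F Z x.1 x.2) = mI P V F - mI P V Z := by
  have h1 := swap_sum_p P V F (fun a c => Real.log (P.p (fun ω => (V ω, F ω)) (a, c) /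
    swapQ P V F Z a c))
  rw [← h1]
  unfold mI FinProb.H
  have h2 : ∀ ω, P.w ω * Real.log (P.p (fun ω => (V ω, F ω)) (V ω, F ω) /
      swapQ P V F Z (V ω) (F ω)) =
      (P.w ω * (-Real.log (P.p V (V ω))) + P.w ω * (-Real.log (P.p F (F ω))) -
        P.w ω * (-Real.log (P.p (fun ω => (V ω, F ω)) (V ω, F ω)))) -
      (P.w ω * (-Real.log (P.p V (V ω))) + P.w ω * (-Real.log (P.p Z (Z ω))) -
        P.w ω * (-Real.log (P.p (fun ω => (V ω, Z ω)) (V ω, Z ω)))) := by
    intro ω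
    rcases P.w_zero_or_pos ω with hw | hw
    · rw [hw]; ring
    · have a0 : 0 < P.p (fun ω => (V ω, F ω)) (V ω, F ω) := P.p_pos hw (fun ω => (V ω, F ω))
      have b0 : 0 < P.p F (F ω) := P.p_pos hw F
      have c0 : 0 < P.p (fun ω => (V ω, Z ω)) (V ω, Z ω) := P.p_pos hw (fun ω => (V ω, Z ω))
      have d0 : 0 < P.p Z (Z ω) := P.p_pos hw Z
      have e0 : swapC P V Z (V ω) ω =
        P.p (fun ω => (V ω, Z ω)) (V ω, Z ω) / P.p Z (Z ω) := rfl
      rw [swapQ_eq P V F Z hZ, e0, Real.log_div a0.ne' (by (clear * - b0 c0 d0; positivity)),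
        Real.log_mul b0.ne' (by (clear * - c0 d0; positivity)), Real.log_div c0.ne' d0.ne']
      ring
  rw [Finset.sum_congr rfl fun ω _ => h2 ω]
  simp only [Finset.sum_sub_distrib, Finset.sum_add_distrib]

end

/-- Replacing `V` by a copy which is conditionally independent of `F` given `Z = Z(F)`.
`P(V = a | Z = z) = P.p (V, Z) (a, z) / P.p Z z`.
Proof: with `p (a, c) = P(V = a, F = c)` and `q (a, c) = P(F = c) P(V = a | Z = Z(c))` the
left side is `|∑ (p - q) φ| ≤ ∑ |p - q| ≤ 2 √ I ≤ I / η + η`, where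
`I = ∑ p log (p / q) = H(F) - H(V,F) - H(Z) + H(V,Z)`. -/
lemma cond_swap {Ω A β δ : Type*} [Fintype Ω] [Fintype A] (P : FinProb Ω) (V : Ω → A)
    (F : Ω → β) (Z : Ω → δ) (hZ : ∀ x y, F x = F y → Z x = Z y) (φ : A → β → ℝ)
    (h0 : ∀ a b, 0 ≤ φ a b) (h1 : ∀ a b, φ a b ≤ 1) (η : ℝ) (hη : 0 < η) :
    |∑ ω, P.w ω * φ (V ω) (F ω)
      - ∑ ω, P.w ω * ∑ a, P.p (fun x => (V x, Z x)) (a, Z ω) / P.p Z (Z ω) * φ a (F ω)|
      ≤ (mI P V F - mI P V Z) / η + η := by
  set s := (Finset.univ : Finset A) ×ˢ (Finset.univ.image F) with hs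
  set p : A × β → ℝ := P.p (fun ω => (V ω, F ω)) with hp
  set q : A × β → ℝ := fun x => swapQ P V F Z x.1 x.2 with hq
  have hp0 : ∀ i ∈ s, 0 ≤ p i := fun i _ => P.p_nonneg _ _
  have hq0 : ∀ i ∈ s, 0 ≤ q i := fun i _ => swapQ_nonneg P V F Z _ _
  have hp1 : ∑ i ∈ s, p i = 1 := by
    have := swap_sum_p P V F (fun _ _ => 1)
    simp only [mul_one] at this
    rw [hs, hp, ← this, P.sum_one]
  have hq1 : ∑ i ∈ s, q i ≤ 1 := by
    have := swap_sum_q P V F Z (fun _ _ => 1)
    simp only [mul_one] at this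
    rw [hs, hq, ← this, ← P.sum_one]
    refine Finset.sum_le_sum fun ω _ => ?_
    rcases P.w_zero_or_pos ω with hw | hw
    · rw [hw, zero_mul]
    · rw [swapC_sum P V Z hw, mul_one]
  have hpq : ∀ i ∈ s, 0 < p i → 0 < q i := by
    rintro ⟨a, c⟩ _ hpos
    have hex : ∃ ω ∈ (Finset.univ : Finset Ω), 0 < (if (V ω, F ω) = (a, c) then P.w ω else 0) := by
      by_contra hcon
      push Not at hcon
      have : p (a, c) ≤ 0 := Finset.sum_nonpos fun ω hω => by
        have h9 := hcon ω hω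
        by_cases hc : (V ω, F ω) = (a, c)
        · rw [if_pos hc] at h9 ⊢; exact h9
        · rw [if_neg hc]
      linarith only [hpos, this]
    obtain ⟨ω, -, hω⟩ := hex
    have hVF : (V ω, F ω) = (a, c) := by
      by_contra hne
      rw [if_neg hne] at hω
      exact lt_irrefl _ hω
    rw [if_pos hVF] at hω
    have e1 : a = V ω := (Prod.ext_iff.1 hVF).1.symm
    have e2 : c = F ω := (Prod.ext_iff.1 hVF).2.symm
    show 0 < swapQ P V F Z a c
    rw [e1, e2, swapQ_eq P V F Z hZ]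
    have b0 : 0 < P.p F (F ω) := P.p_pos hω F
    have c0 : 0 < P.p (fun ω => (V ω, Z ω)) (V ω, Z ω) := P.p_pos hω (fun ω => (V ω, Z ω))
    have d0 : 0 < P.p Z (Z ω) := P.p_pos hω Z
    exact mul_pos b0 (div_pos c0 d0)
  have hkl : ∑ x ∈ s, p x * Real.log (p x / q x) = mI P V F - mI P V Z := swap_kl P V F Z hZ
  have hL1 := sum_abs_sub_le s p q hp0 hq0 hp1 hq1 hpq
  have hnn := swap_hellinger s p q hp0 hq0 hp1 hq1 hpq
  rw [hkl] at hL1 hnn
  have hI : 0 ≤ mI P V F - mI P V Z := le_trans (Finset.sum_nonneg fun i _ => sq_nonneg _) hnn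
  have e1 := swap_sum_p P V F φ
  have e2 : ∑ ω, P.w ω * ∑ a, P.p (fun x => (V x, Z x)) (a, Z ω) / P.p Z (Z ω) * φ a (F ω) =
      ∑ x ∈ s, q x * φ x.1 x.2 := swap_sum_q P V F Z φ
  rw [e1, e2, ← Finset.sum_sub_distrib]
  have h3 : |∑ x ∈ s, (p x * φ x.1 x.2 - q x * φ x.1 x.2)| ≤ ∑ x ∈ s, |p x - q x| := by
    refine (Finset.abs_sum_le_sum_abs _ _).trans (Finset.sum_le_sum fun x _ => ?_)
    rw [← sub_mul, abs_mul, abs_of_nonneg (h0 _ _)]
    exact mul_le_of_le_one_right (abs_nonneg _) (h1 _ _)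
  refine h3.trans (hL1.trans ?_)
  set I := mI P V F - mI P V Z with hIdef
  have h4 : Real.sqrt I ^ 2 = I := Real.sq_sqrt hI
  have h5 : 2 * Real.sqrt I * η ≤ I + η * η := by linarith only [sq_nonneg (Real.sqrt I - η), h4]
  have h6 : I / η + η = (I + η * η) / η := by (clear * - hI hη; field_simp)
  rw [h6, le_div_iff₀ hη]
  exact h5

end Vale.Agent.P114
end
end

section

set_option linter.all false

/-!
T11-B2. The reverse mixture inequality.
-/

open scoped Classical

noncomputable section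

namespace Vale.Agent.P114

open FinProb

lemma rev_dist_lip (u v : ℝ) : |u - round u| ≤ |v - round v| + |u - v| := by
  calc |u - round u| ≤ |u - (round v : ℤ)| := round_le u _
    _ = |(v - round v) + (u - v)| := by ring_nf
    _ ≤ _ := abs_add_le _ _

lemma rev_dist_cross_aux {u v : ℝ} (h : ⌊u⌋ < ⌊v⌋) :
    |u - round u| + |v - round v| ≤ |u - v| := by
  have h1 : u < (⌊v⌋ : ℤ) := Int.floor_lt.1 h
  have h2 : ((⌊v⌋ : ℤ) : ℝ) ≤ v := Int.floor_le v
  have h3 : |u - round u| ≤ |u - (⌊v⌋ : ℤ)| := round_le u _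
  have h4 : |v - round v| ≤ |v - (⌊v⌋ : ℤ)| := round_le v _
  have h5 : |u - (⌊v⌋ : ℤ)| = -(u - (⌊v⌋ : ℤ)) := abs_of_nonpos (by linarith only [h1])
  have h6 : |v - (⌊v⌋ : ℤ)| = v - (⌊v⌋ : ℤ) := abs_of_nonneg (by linarith only [h2])
  have h7 : |u - v| = -(u - v) := abs_of_nonpos (by linarith only [h1, h2])
  rw [h5] at h3
  rw [h6] at h4
  rw [h7]
  linarith only [h3, h4]

lemma rev_dist_cross {u v : ℝ} (h : ⌊u⌋ ≠ ⌊v⌋) :
    |u - round u| + |v - round v| ≤ |u - v| := by
  rcases lt_or_gt_of_ne h with h | h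
  · exact rev_dist_cross_aux h
  · have := rev_dist_cross_aux h
    rw [abs_sub_comm u v]
    linarith only [this]

/-- the cut-off of a step mixture of Lipschitz functions -/
lemma rev_lip {A : Type*} [Fintype A] (K s τ : ℝ) (hK : 0 < K) (hs : 0 < s)
    (W : A → ℤ → ℝ) (hW0 : ∀ a z, 0 ≤ W a z) (hW1 : ∀ z, ∑ a, W a z ≤ 1) (f : A → ℝ → ℝ)
    (hf : ∀ a, LipT K (f a)) :
    LipT (2 * K) (fun x => min 1 (K * (|s * (x + τ) - round (s * (x + τ))| / s))
      * ∑ a, W a ⌊s * (x + τ)⌋ * f a x) := by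
  have hχ0 : ∀ x, 0 ≤ min 1 (K * (|s * (x + τ) - round (s * (x + τ))| / s)) := fun x =>
    le_min zero_le_one (by (clear * - hK hs; positivity))
  have hχ1 : ∀ x, min 1 (K * (|s * (x + τ) - round (s * (x + τ))| / s)) ≤ 1 := fun x =>
    min_le_left _ _
  have hF0 : ∀ z x, 0 ≤ ∑ a, W a z * f a x := fun z x =>
    Finset.sum_nonneg fun a _ => mul_nonneg (hW0 a z) ((hf a).nonneg x)
  have hF1 : ∀ z x, ∑ a, W a z * f a x ≤ 1 := fun z x =>
    (Finset.sum_le_sum fun a _ =>
      mul_le_of_le_one_right (hW0 a z) ((hf a).le_one x)).trans (hW1 z)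
  refine ⟨fun x => mul_nonneg (hχ0 x) (hF0 _ x), fun x => mul_le_one₀ (hχ1 x) (hF0 _ x) (hF1 _ x),
    fun x y => ?_⟩
  have hdist : s * (x + τ) - s * (y + τ) = s * (x - y) := by ring
  have habs : |s * (x + τ) - s * (y + τ)| / s = |x - y| := by
    rw [hdist, abs_mul, abs_of_pos hs]; field_simp
  by_cases hc : ⌊s * (x + τ)⌋ = ⌊s * (y + τ)⌋
  · -- same cell
    rw [hc]
    have e1 : |min 1 (K * (|s * (x + τ) - round (s * (x + τ))| / s))
        - min 1 (K * (|s * (y + τ) - round (s * (y + τ))| / s))| ≤ K * |x - y| := by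
      have h1 : |(1 : ℝ) ⊓ (K * (|s * (x + τ) - round (s * (x + τ))| / s))
          - 1 ⊓ (K * (|s * (y + τ) - round (s * (y + τ))| / s))|
          ≤ |(K * (|s * (x + τ) - round (s * (x + τ))| / s))
            - (K * (|s * (y + τ) - round (s * (y + τ))| / s))| := by
        rw [inf_comm, inf_comm (1 : ℝ)]
        exact abs_inf_sub_inf_le_abs _ _ _
      refine h1.trans ?_
      rw [← mul_sub, abs_mul, abs_of_pos hK, ← habs, ← sub_div, abs_div, abs_of_pos hs]
      refine mul_le_mul_of_nonneg_left (div_le_div_of_nonneg_right ?_ hs.le) hK.le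
      rw [abs_sub_le_iff]
      constructor
      · have := rev_dist_lip (s * (x + τ)) (s * (y + τ)); linarith only [this]
      · have := rev_dist_lip (s * (y + τ)) (s * (x + τ))
        rw [abs_sub_comm (s * (y + τ)) (s * (x + τ))] at this
        linarith only [this]
    have e2 : |∑ a, W a ⌊s * (y + τ)⌋ * f a x - ∑ a, W a ⌊s * (y + τ)⌋ * f a y|
        ≤ K * |x - y| := by
      rw [← Finset.sum_sub_distrib]
      refine (Finset.abs_sum_le_sum_abs _ _).trans ?_
      calc ∑ a, |W a ⌊s * (y + τ)⌋ * f a x - W a ⌊s * (y + τ)⌋ * f a y|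
          ≤ ∑ a, W a ⌊s * (y + τ)⌋ * (K * |x - y|) := by
            refine Finset.sum_le_sum fun a _ => ?_
            rw [← mul_sub, abs_mul, abs_of_nonneg (hW0 a _)]
            exact mul_le_mul_of_nonneg_left ((hf a).lip x y) (hW0 a _)
        _ = (∑ a, W a ⌊s * (y + τ)⌋) * (K * |x - y|) := by rw [Finset.sum_mul]
        _ ≤ 1 * (K * |x - y|) :=
            mul_le_mul_of_nonneg_right (hW1 _) (by (clear * - hK; positivity))
        _ = _ := one_mul _
    obtain ⟨c, hcd⟩ : ∃ c, c = min 1 (K * (|s * (x + τ) - round (s * (x + τ))| / s)) := ⟨_, rfl⟩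
    obtain ⟨c', hcd'⟩ : ∃ c, c = min 1 (K * (|s * (y + τ) - round (s * (y + τ))| / s)) := ⟨_, rfl⟩
    obtain ⟨F, hFd⟩ : ∃ c, c = ∑ a, W a ⌊s * (y + τ)⌋ * f a x := ⟨_, rfl⟩
    obtain ⟨F', hFd'⟩ : ∃ c, c = ∑ a, W a ⌊s * (y + τ)⌋ * f a y := ⟨_, rfl⟩
    have a1 : 0 ≤ F := by rw [hFd]; exact hF0 _ _
    have a2 : F ≤ 1 := by rw [hFd]; exact hF1 _ _
    have a3 : 0 ≤ c' := by rw [hcd']; exact hχ0 _
    have a4 : c' ≤ 1 := by rw [hcd']; exact hχ1 _
    rw [← hcd, ← hcd'] at e1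
    rw [← hFd, ← hFd'] at e2
    rw [← hcd, ← hcd', ← hFd, ← hFd']
    calc |c * F - c' * F'| = |(c - c') * F + c' * (F - F')| := by ring_nf
      _ ≤ |(c - c') * F| + |c' * (F - F')| := abs_add_le _ _
      _ = |c - c'| * F + c' * |F - F'| := by
          rw [abs_mul, abs_mul, abs_of_nonneg a1, abs_of_nonneg a3]
      _ ≤ (K * |x - y|) * 1 + 1 * (K * |x - y|) :=
          add_le_add (mul_le_mul e1 a2 a1 (by (clear * - hK; positivity)))
            (mul_le_mul a4 e2 (abs_nonneg _) zero_le_one)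
      _ = 2 * K * |x - y| := by ring
  · -- different cells
    have hcr := rev_dist_cross hc
    have hb : ∀ x, min 1 (K * (|s * (x + τ) - round (s * (x + τ))| / s))
        * ∑ a, W a ⌊s * (x + τ)⌋ * f a x ≤ K * (|s * (x + τ) - round (s * (x + τ))| / s) :=
      fun x => (mul_le_of_le_one_right (hχ0 x) (hF1 _ x)).trans (min_le_right _ _)
    have hb0 : ∀ x, 0 ≤ min 1 (K * (|s * (x + τ) - round (s * (x + τ))| / s))
        * ∑ a, W a ⌊s * (x + τ)⌋ * f a x := fun x => mul_nonneg (hχ0 x) (hF0 _ x)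
    have hsum : K * (|s * (x + τ) - round (s * (x + τ))| / s)
        + K * (|s * (y + τ) - round (s * (y + τ))| / s) ≤ K * |x - y| := by
      rw [← mul_add, ← add_div, ← habs]
      exact mul_le_mul_of_nonneg_left (div_le_div_of_nonneg_right hcr hs.le) hK.le
    have p1 : 0 ≤ K * (|s * (x + τ) - round (s * (x + τ))| / s) := by (clear * - hK hs; positivity)
    have p2 : 0 ≤ K * (|s * (y + τ) - round (s * (y + τ))| / s) := by (clear * - hK hs; positivity)
    have p3 : 0 ≤ K * |x - y| := by (clear * - hK; positivity)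
    have h1 := hb x
    have h2 := hb y
    have h3 := hb0 x
    have h4 := hb0 y
    rw [abs_sub_le_iff]
    constructor <;> linarith

end Vale.Agent.P114
end
end

section

/-!
T12-B. The reverse mixture inequality for contaminated shifts.
-/

open scoped Classical

noncomputable section

namespace Vale.Agent.P114

open FinProb

/-- The comparison of a mixture with its version conditioned on the coarse cell. -/
lemma revC_comp {A B : Type*} [Fintype A] [Fintype B] (P : FinProb (A × B))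
    (X : A × B → ℝ) (K s τ η : ℝ) (d : ℕ) (hK : 0 < K) (hs : 0 < s)
    (hη : 0 < η) (f : A → ℝ → ℝ) (hf : ∀ a, LipT K (f a)) (W : A → ℤ → ℝ)
    (hW : W = fun a z =>
      P.p (fun x : A × B => (x.1, ⌊s * (X x + τ)⌋)) (a, z) / P.p (fun x => ⌊s * (X x + τ)⌋) z)
    (hW0 : ∀ a z, 0 ≤ W a z) (hW1 : ∀ z, ∑ a, W a z ≤ 1) (t : ℝ) :
    |∑ x, P.w x * f x.1 (X x + t)
        - ∑ x, P.w x * ∑ a, W a ⌊s * (X x + τ)⌋ * f a (X x + t)| ≤ K / (2 ^ d * s) +
      ((mI P (fun x => x.1) (fun x => ⌊2 ^ d * (s * (X x + τ))⌋)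
            - mI P (fun x => x.1) (fun x => ⌊s * (X x + τ)⌋)) / η + η) := by
  obtain ⟨N, hN⟩ : ∃ N : ℝ, N = 2 ^ d * s := ⟨_, rfl⟩
  have hNpos : 0 < N := by rw [hN]; positivity
  rw [← hN]
  obtain ⟨E, hE⟩ : ∃ E, E = (mI P (fun x => x.1) (fun x => ⌊2 ^ d * (s * (X x + τ))⌋)
            - mI P (fun x => x.1) (fun x => ⌊s * (X x + τ)⌋)) / η + η := ⟨_, rfl⟩
  rw [← hE]
  obtain ⟨cen, hcen⟩ : ∃ cen : ℤ → ℝ, cen = fun m : ℤ => ((m : ℝ) + 1 / 2) / N - τ := ⟨_, rfl⟩
  have hcX : ∀ x, |X x - cen ⌊2 ^ d * (s * (X x + τ))⌋| ≤ 1 / (2 * N) := by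
    intro x
    obtain ⟨m, hm⟩ : ∃ m : ℤ, m = ⌊2 ^ d * (s * (X x + τ))⌋ := ⟨_, rfl⟩
    have h1 : (m : ℝ) ≤ 2 ^ d * (s * (X x + τ)) := by rw [hm]; exact Int.floor_le _
    have h2 : 2 ^ d * (s * (X x + τ)) < m + 1 := by rw [hm]; exact Int.lt_floor_add_one _
    have h3 : 2 ^ d * (s * (X x + τ)) = N * (X x + τ) := by rw [hN]; ring
    rw [h3] at h1 h2
    rw [← hm, hcen]
    have h4 : X x - (((m : ℝ) + 1 / 2) / N - τ) = (N * (X x + τ) - (m + 1 / 2)) / N := by
      field_simp; ring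
    simp only []
    rw [h4, abs_div, abs_of_pos hNpos, div_le_div_iff₀ hNpos (by positivity)]
    have h5 : |N * (X x + τ) - (m + 1 / 2)| ≤ 1 / 2 := by
      rw [abs_le]; constructor <;> linarith only [h1, h2]
    linarith only [mul_nonneg (le_of_lt (sub_pos.2 hNpos)) (sub_nonneg.2 h5)]
  have hZdet : ∀ x y : A × B, ⌊2 ^ d * (s * (X x + τ))⌋ = ⌊2 ^ d * (s * (X y + τ))⌋ →
      ⌊s * (X x + τ)⌋ = ⌊s * (X y + τ)⌋ := by
    intro x y hxy
    have key : ∀ u : ℝ, ⌊u⌋ = ⌊(2 : ℝ) ^ d * u⌋ / ((2 ^ d : ℕ) : ℤ) := by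
      intro u
      have := Int.floor_div_natCast ((2 : ℝ) ^ d * u) (2 ^ d)
      rw [← this]
      congr 1
      push_cast
      (clear * -; field_simp)
    rw [key, hxy, ← key]
  have h1 := cond_swap P (fun x : A × B => x.1) (fun x => ⌊2 ^ d * (s * (X x + τ))⌋)
    (fun x => ⌊s * (X x + τ)⌋) hZdet (fun a m => f a (cen m + t))
    (fun a m => (hf a).nonneg _) (fun a m => (hf a).le_one _) η hη
  rw [← hE] at h1
  have h1' : |∑ x, P.w x * f x.1 (cen ⌊2 ^ d * (s * (X x + τ))⌋ + t)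
      - ∑ x, P.w x * ∑ a, W a ⌊s * (X x + τ)⌋ * f a (cen ⌊2 ^ d * (s * (X x + τ))⌋ + t)|
      ≤ E := by
    rw [hW]; exact h1
  have hl : ∀ a x, |f a (X x + t) - f a (cen ⌊2 ^ d * (s * (X x + τ))⌋ + t)|
      ≤ K / (2 * N) := by
    intro a x
    refine ((hf a).lip _ _).trans ?_
    rw [add_sub_add_right_eq_sub, show K / (2 * N) = K * (1 / (2 * N)) by ring]
    exact mul_le_mul_of_nonneg_left (hcX x) hK.le
  have h2 : |∑ x, P.w x * f x.1 (X x + t)
      - ∑ x, P.w x * f x.1 (cen ⌊2 ^ d * (s * (X x + τ))⌋ + t)| ≤ K / (2 * N) := by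
    rw [← Finset.sum_sub_distrib]
    refine (Finset.abs_sum_le_sum_abs _ _).trans ?_
    calc ∑ x, |P.w x * f x.1 (X x + t)
          - P.w x * f x.1 (cen ⌊2 ^ d * (s * (X x + τ))⌋ + t)|
        ≤ ∑ x, P.w x * (K / (2 * N)) := by
          refine Finset.sum_le_sum fun x _ => ?_
          rw [← mul_sub, abs_mul, abs_of_nonneg (P.nonneg x)]
          exact mul_le_mul_of_nonneg_left (hl _ _) (P.nonneg x)
      _ = K / (2 * N) := by rw [← Finset.sum_mul, P.sum_one, one_mul]
  have h3 : |∑ x, P.w x * ∑ a, W a ⌊s * (X x + τ)⌋ * f a (X x + t)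
      - ∑ x, P.w x * ∑ a, W a ⌊s * (X x + τ)⌋ * f a (cen ⌊2 ^ d * (s * (X x + τ))⌋ + t)|
      ≤ K / (2 * N) := by
    rw [← Finset.sum_sub_distrib]
    refine (Finset.abs_sum_le_sum_abs _ _).trans ?_
    calc ∑ x, |P.w x * ∑ a, W a ⌊s * (X x + τ)⌋ * f a (X x + t)
          - P.w x * ∑ a, W a ⌊s * (X x + τ)⌋ * f a (cen ⌊2 ^ d * (s * (X x + τ))⌋ + t)|
        ≤ ∑ x, P.w x * (K / (2 * N)) := by
          refine Finset.sum_le_sum fun x _ => ?_
          rw [← mul_sub, abs_mul, abs_of_nonneg (P.nonneg x), ← Finset.sum_sub_distrib]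
          refine mul_le_mul_of_nonneg_left ?_ (P.nonneg x)
          refine (Finset.abs_sum_le_sum_abs _ _).trans ?_
          calc ∑ a, |W a ⌊s * (X x + τ)⌋ * f a (X x + t)
                - W a ⌊s * (X x + τ)⌋ * f a (cen ⌊2 ^ d * (s * (X x + τ))⌋ + t)|
              ≤ ∑ a, W a ⌊s * (X x + τ)⌋ * (K / (2 * N)) := by
                refine Finset.sum_le_sum fun a _ => ?_
                rw [← mul_sub, abs_mul, abs_of_nonneg (hW0 a _)]
                exact mul_le_mul_of_nonneg_left (hl _ _) (hW0 a _)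
            _ = (∑ a, W a ⌊s * (X x + τ)⌋) * (K / (2 * N)) := by rw [Finset.sum_mul]
            _ ≤ 1 * (K / (2 * N)) := mul_le_mul_of_nonneg_right (hW1 _) (by positivity)
            _ = _ := one_mul _
      _ = K / (2 * N) := by rw [← Finset.sum_mul, P.sum_one, one_mul]
  have h4 : K / N = K / (2 * N) + K / (2 * N) := by field_simp; ring
  rw [h4]
  rw [abs_le] at h1' h2 h3 ⊢
  constructor <;> linarith only [h1', h2, h3]

/-- The comparison with the cut-off function, for shifts of both signs. -/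
lemma revC_cut {A Ω : Type*} [Fintype A] [Fintype Ω] (P : FinProb Ω)
    (X : Ω → ℝ) (Dm K s τ : ℝ) (hK : 0 < K) (hs : 0 < s)
    (f : A → ℝ → ℝ) (hf : ∀ a, LipT K (f a)) (W : A → ℤ → ℝ)
    (hW0 : ∀ a z, 0 ≤ W a z) (hW1 : ∀ z, ∑ a, W a z ≤ 1) (g : ℝ → ℝ)
    (hg : g = fun x => min 1 (K * (|s * (x + τ) - round (s * (x + τ))| / s)) *
      ∑ a, W a ⌊s * (x + τ)⌋ * f a x) (hgL : LipT (2 * K) g) (t : ℝ) (ht : |t| ≤ Dm) :
    |∑ x, P.w x * ∑ a, W a ⌊s * (X x + τ)⌋ * f a (X x + t) - ∑ x, P.w x * g (X x + t)| ≤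
      ∑ x, P.w x * (if |s * (X x + τ) - round (s * (X x + τ))|
            ≤ s * (Dm + 1 / K) then 1 else 0) := by
  rw [← Finset.sum_sub_distrib]
  refine (Finset.abs_sum_le_sum_abs _ _).trans (Finset.sum_le_sum fun x _ => ?_)
  rw [← mul_sub, abs_mul, abs_of_nonneg (P.nonneg x)]
  refine mul_le_mul_of_nonneg_left ?_ (P.nonneg x)
  split_ifs with hx
  · have h1 : ∑ a, W a ⌊s * (X x + τ)⌋ * f a (X x + t) ≤ 1 :=
      (Finset.sum_le_sum fun a _ =>
        mul_le_of_le_one_right (hW0 a _) ((hf a).le_one _)).trans (hW1 _)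
    have h0 : 0 ≤ ∑ a, W a ⌊s * (X x + τ)⌋ * f a (X x + t) :=
      Finset.sum_nonneg fun a _ => mul_nonneg (hW0 a _) ((hf a).nonneg _)
    have h2 := hgL.nonneg (X x + t)
    have h3 := hgL.le_one (X x + t)
    rw [abs_le]
    constructor <;> linarith only [h0, h3, h1, h2]
  · push Not at hx
    have hd : |s * (X x + τ) - s * (X x + t + τ)| ≤ s * Dm := by
      rw [show s * (X x + τ) - s * (X x + t + τ) = s * (-t) by ring, abs_mul, abs_of_pos hs,
        abs_neg]
      exact mul_le_mul_of_nonneg_left ht hs.le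
    have hcell : ⌊s * (X x + τ)⌋ = ⌊s * (X x + t + τ)⌋ := by
      by_contra hne
      have h3 := rev_dist_cross hne
      have h4 : 0 ≤ |s * (X x + t + τ) - round (s * (X x + t + τ))| := abs_nonneg _
      have h5 : 0 < s * (1 / K) := by positivity
      rw [mul_add] at hx
      linarith
    have hχ : min 1 (K * (|s * (X x + t + τ) - round (s * (X x + t + τ))| / s)) = 1 := by
      refine min_eq_left ?_
      have h3 := rev_dist_lip (s * (X x + τ)) (s * (X x + t + τ))
      rw [mul_add] at hx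
      have h4 : s * (1 / K) ≤ |s * (X x + t + τ) - round (s * (X x + t + τ))| := by linarith
      have h5 : 1 / K ≤ |s * (X x + t + τ) - round (s * (X x + t + τ))| / s := by
        rw [le_div_iff₀ hs]; linarith only [hx, hd, h3]
      calc (1 : ℝ) = K * (1 / K) := by (clear * - hK; field_simp)
        _ ≤ _ := mul_le_mul_of_nonneg_left h5 hK.le
    rw [hg]
    simp only []
    rw [hχ, ← hcell, one_mul, sub_self, abs_zero]

/-- Reverse inequality. Proof of `ovl_reverse` (Dio/Rev.lean) with the same test function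
`g x = χ x * ∑ a, W a ⌊s (x + τ)⌋ * f a x` (`rev_lip`); the comparison `hcomp` holds for every
shift `t`; now also `|∑ w (g (X + t) - ∑ a W a ⌊s (X+τ)⌋ f a (X + t))| ≤ P(near boundary)` for every
`|t| ≤ Dm` (both signs, used for `u` and for `u'`). Average over `Q` and `Q'`. -/
theorem ovlC_reverse {A B C : Type*} [Fintype A] [Fintype B] [Fintype C] (PA : FinProb A)
    (PB : FinProb B) (Q Q' : FinProb C) (X : A × B → ℝ) (u u' : C → ℝ) (γ Dm K s τ η : ℝ) (d : ℕ)
    (hγ : 0 ≤ γ) (hK : 0 < K) (hs : 0 < s) (hη : 0 < η) (hu : ∀ c, 0 < Q.w c → |u c| ≤ Dm)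
    (hu' : ∀ c, 0 < Q'.w c → |u' c| ≤ Dm) :
    ∑ a, PA.w a * ovlC PB (fun b => X (a, b)) Q Q' u u' γ K
      ≤ ovlC (PA.prod PB) X Q Q' u u' γ (2 * K)
        + (1 + γ) * (2 * K / (2 ^ d * s)
          + ((mI (PA.prod PB) (fun x => x.1) (fun x => ⌊2 ^ d * (s * (X x + τ))⌋)
            - mI (PA.prod PB) (fun x => x.1) (fun x => ⌊s * (X x + τ)⌋)) / η + η)
          + ∑ x, (PA.prod PB).w x * (if |s * (X x + τ) - round (s * (X x + τ))|
            ≤ s * (Dm + 1 / K) then 1 else 0)) := by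
  obtain ⟨P, hP⟩ : ∃ P, P = PA.prod PB := ⟨_, rfl⟩
  obtain ⟨E, hE⟩ : ∃ E, E = (mI P (fun x => x.1) (fun x => ⌊2 ^ d * (s * (X x + τ))⌋)
            - mI P (fun x => x.1) (fun x => ⌊s * (X x + τ)⌋)) / η + η := ⟨_, rfl⟩
  obtain ⟨Bd, hBd⟩ : ∃ Bd, Bd = ∑ x, P.w x * (if |s * (X x + τ) - round (s * (X x + τ))|
            ≤ s * (Dm + 1 / K) then (1 : ℝ) else 0) := ⟨_, rfl⟩
  rw [← hP, ← hE, ← hBd]
  refine le_of_forall_pos_le_add fun e he => ?_
  -- nearly optimal functions
  have hex : ∀ a, ∃ f, LipT K f ∧ ovlC PB (fun b => X (a, b)) Q Q' u u' γ K - e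
      < gapC PB (fun b => X (a, b)) Q Q' u u' γ f := fun a =>
    exists_gapC PB (fun b => X (a, b)) Q Q' u u' hK.le (by linarith only [he])
  choose f hf hfg using hex
  -- conditional weights
  obtain ⟨W, hW⟩ : ∃ W : A → ℤ → ℝ, W = fun a z =>
    P.p (fun x : A × B => (x.1, ⌊s * (X x + τ)⌋)) (a, z) / P.p (fun x => ⌊s * (X x + τ)⌋) z :=
      ⟨_, rfl⟩
  have hW0 : ∀ a z, 0 ≤ W a z := fun a z => by
    rw [hW]; exact div_nonneg (P.p_nonneg _ _) (P.p_nonneg _ _)
  have hW1 : ∀ z, ∑ a, W a z ≤ 1 := by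
    intro z
    rw [hW]
    simp only []
    rw [← Finset.sum_div]
    refine div_le_one_of_le₀ ?_ (P.p_nonneg _ _)
    unfold FinProb.p
    rw [Finset.sum_comm]
    refine Finset.sum_le_sum fun x _ => ?_
    by_cases hz : ⌊s * (X x + τ)⌋ = z
    · simp only [hz, Prod.ext_iff, and_true, Finset.sum_ite_eq, Finset.mem_univ, ↓reduceIte, Std.le_refl]
    · simp only [Prod.ext_iff, hz, and_false, ↓reduceIte, Finset.sum_const_zero, Std.le_refl]
  obtain ⟨g, hg⟩ : ∃ g : ℝ → ℝ, g = fun x =>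
    min 1 (K * (|s * (x + τ) - round (s * (x + τ))| / s)) * ∑ a, W a ⌊s * (x + τ)⌋ * f a x :=
      ⟨_, rfl⟩
  have hgL : LipT (2 * K) g := by
    rw [hg]; exact rev_lip K s τ hK hs W hW0 hW1 f hf
  have hgov : gapC P X Q Q' u u' γ g ≤ ovlC P X Q Q' u u' γ (2 * K) :=
    le_ovlC P X Q Q' u u' hγ hgL
  obtain ⟨S, hS⟩ : ∃ S : ℝ → ℝ, S = fun t => ∑ x, P.w x * f x.1 (X x + t) := ⟨_, rfl⟩
  obtain ⟨Gt, hGt⟩ : ∃ Gt : ℝ → ℝ, Gt = fun t => ∑ x, P.w x * g (X x + t) := ⟨_, rfl⟩
  have hcmp : ∀ t, |t| ≤ Dm → |S t - Gt t| ≤ K / (2 ^ d * s) + E + Bd := by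
    intro t ht
    have a1 := revC_comp P X K s τ η d hK hs hη f hf W hW hW0 hW1 t
    have a2 := revC_cut P X Dm K s τ hK hs f hf W hW0 hW1 g hg hgL t ht
    rw [← hE] at a1
    rw [← hBd] at a2
    rw [hS, hGt]
    simp only []
    rw [abs_le] at a1 a2 ⊢
    constructor <;> linarith only [a1, a2]
  -- averages
  have hav : ∀ (R : FinProb C) (v : C → ℝ), (∀ c, 0 < R.w c → |v c| ≤ Dm) →
      |∑ c, R.w c * S (v c) - ∑ c, R.w c * Gt (v c)| ≤ K / (2 ^ d * s) + E + Bd := by
    intro R v hv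
    rw [← Finset.sum_sub_distrib]
    refine (Finset.abs_sum_le_sum_abs _ _).trans ?_
    calc ∑ c, |R.w c * S (v c) - R.w c * Gt (v c)|
        ≤ ∑ c, R.w c * (K / (2 ^ d * s) + E + Bd) := by
          refine Finset.sum_le_sum fun c _ => ?_
          rw [← mul_sub, abs_mul, abs_of_nonneg (R.nonneg c)]
          rcases R.w_zero_or_pos c with hc | hc
          · rw [hc, zero_mul, zero_mul]
          · exact mul_le_mul_of_nonneg_left (hcmp _ (hv c hc)) hc.le
      _ = _ := by rw [← Finset.sum_mul, R.sum_one, one_mul]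
  -- rewriting of the gaps
  have hgap : ∀ (h : A → ℝ → ℝ), ∑ a, PA.w a * gapC PB (fun b => X (a, b)) Q Q' u u' γ (h a) =
      ∑ c, Q.w c * (∑ x, P.w x * h x.1 (X x + u c)) -
        γ * ∑ c, Q'.w c * (∑ x, P.w x * h x.1 (X x + u' c)) := by
    intro h
    have e1 : ∀ (R : FinProb C) (v : C → ℝ), ∑ c, R.w c * (∑ x, P.w x * h x.1 (X x + v c)) =
        ∑ a, PA.w a * ∑ b, PB.w b * ∑ c, R.w c * h a (X (a, b) + v c) := by
      intro R v
      have e2 : ∑ c, R.w c * (∑ x, P.w x * h x.1 (X x + v c)) =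
          ∑ x, P.w x * ∑ c, R.w c * h x.1 (X x + v c) := by
        simp only [Finset.mul_sum]
        rw [Finset.sum_comm]
        refine Finset.sum_congr rfl fun x _ => Finset.sum_congr rfl fun c _ => ?_
        ring
      rw [e2, hP, sum_prod_w]
    rw [e1, e1, Finset.mul_sum, ← Finset.sum_sub_distrib]
    refine Finset.sum_congr rfl fun a _ => ?_
    unfold gapC
    have e3 : γ * (PA.w a * ∑ b, PB.w b * ∑ c, Q'.w c * h a (X (a, b) + u' c)) =
        PA.w a * ∑ b, PB.w b * (γ * ∑ c, Q'.w c * h a (X (a, b) + u' c)) := by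
      rw [Finset.mul_sum, Finset.mul_sum, Finset.mul_sum]
      refine Finset.sum_congr rfl fun b _ => ?_
      ring
    rw [e3, ← mul_sub, ← Finset.sum_sub_distrib]
    congr 1
    refine Finset.sum_congr rfl fun b _ => ?_
    rw [mul_sub]
  have hL : ∑ a, PA.w a * ovlC PB (fun b => X (a, b)) Q Q' u u' γ K
      ≤ ∑ c, Q.w c * S (u c) - γ * ∑ c, Q'.w c * S (u' c) + e := by
    calc ∑ a, PA.w a * ovlC PB (fun b => X (a, b)) Q Q' u u' γ K
        ≤ ∑ a, PA.w a * (gapC PB (fun b => X (a, b)) Q Q' u u' γ (f a) + e) := by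
          refine Finset.sum_le_sum fun a _ => mul_le_mul_of_nonneg_left ?_ (PA.nonneg a)
          linarith only [hfg a]
      _ = ∑ a, PA.w a * gapC PB (fun b => X (a, b)) Q Q' u u' γ (f a) + e := by
          simp only [mul_add, Finset.sum_add_distrib, ← Finset.sum_mul, PA.sum_one, one_mul]
      _ = _ := by rw [hgap f, hS]
  have hG : gapC P X Q Q' u u' γ g = ∑ c, Q.w c * Gt (u c) - γ * ∑ c, Q'.w c * Gt (u' c) := by
    have e1 : ∀ (R : FinProb C) (v : C → ℝ), ∑ c, R.w c * Gt (v c) =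
        ∑ x, P.w x * ∑ c, R.w c * g (X x + v c) := by
      intro R v
      rw [hGt]
      simp only [Finset.mul_sum]
      rw [Finset.sum_comm]
      refine Finset.sum_congr rfl fun x _ => Finset.sum_congr rfl fun c _ => ?_
      ring
    rw [e1, e1, Finset.mul_sum, ← Finset.sum_sub_distrib]
    unfold gapC
    refine Finset.sum_congr rfl fun x _ => ?_
    ring
  rw [hG] at hgov
  have b1 := hav Q u hu
  have b2 := hav Q' u' hu'
  rw [abs_le] at b1 b2
  have hKNnn : 0 ≤ K / (2 ^ d * s) := by positivity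
  have hKN : 2 * K / (2 ^ d * s) = K / (2 ^ d * s) + K / (2 ^ d * s) := by ring
  rw [hKN]
  obtain ⟨k, hk⟩ : ∃ k, k = K / (2 ^ d * s) := ⟨_, rfl⟩
  rw [← hk] at b1 b2 hKNnn ⊢
  have f1 := mul_le_mul_of_nonneg_left b2.1 hγ
  have f2 : 0 ≤ (1 + γ) * k := by (clear * - hγ hKNnn; positivity)
  have f3 : (1 + γ) * (k + k + E + Bd) = (1 + γ) * k + (k + E + Bd) + γ * (k + E + Bd) := by ring
  rw [f3]
  have f4 : γ * (-(k + E + Bd)) = -(γ * (k + E + Bd)) := by ring
  rw [f4, mul_sub] at f1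
  linarith only [hgov, hL, b1, f1, f2]

end Vale.Agent.P114
end
end

section

/-!
T11-G1. Reverse inequality, mixture and change of level for a system.
-/

open scoped Classical

noncomputable section

namespace Vale.Agent.P114

open FinProb

variable {Λ : Type} [Fintype Λ]

/-- Splitting a sum over words. -/
lemma d1_sum_append (R : FinProb Λ) (m n : ℕ) (g : (Fin (m + n) → Λ) → ℝ) :
    ∑ w, (R.pi (m + n)).w w * g w
      = ∑ x, ((R.pi m).prod (R.pi n)).w x * g (Fin.append x.1 x.2) := by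
  refine (Fintype.sum_equiv (Fin.appendEquiv m n) _ _ fun x => ?_).symm
  simp only [prod_w, pi_w, Fin.appendEquiv, Equiv.coe_fn_mk]
  rw [Fin.prod_univ_add]
  simp only [Fin.append_left, Fin.append_right]

namespace Sys
variable (S : Sys Λ)

end Sys

end Vale.Agent.P114
end
end

section

/-!
T11-D. Shifting the content of a random word.
-/

open scoped Classical

noncomputable section

namespace Vale.Agent.P114

open FinProb

variable {Λ : Type} [Fintype Λ]

namespace Sys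
variable (S : Sys Λ)

lemma cAvg_position (i : Λ) (m : ℕ) (k : Fin (m + 1)) (g : ℝ → ℝ) :
    ∑ w, (S.P.pi (m + 1)).w w * (g (sl S.r w) * (if w k = i then 1 else 0))
      = S.P.w i * S.cAvg m (fun x => g (S.r i * x)) := by
  rw [← (Fin.insertNthEquiv (fun _ : Fin (m + 1) => Λ) k).sum_comp, Fintype.sum_prod_type,
    Finset.sum_eq_single i]
  · unfold cAvg
    rw [Finset.mul_sum]
    refine Finset.sum_congr rfl fun v _ => ?_
    simp only [Fin.insertNthEquiv_apply, pi_w, sl_eq_prod, Fin.prod_univ_succAbove _ k,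
      Fin.insertNth_apply_same, Fin.insertNth_apply_succAbove, if_true]
    ring
  · intro a _ ha
    refine Finset.sum_eq_zero fun v _ => ?_
    simp only [Fin.insertNthEquiv_apply, Fin.insertNth_apply_same, if_neg ha, mul_zero]
  · simp only [Finset.mem_univ, not_true_eq_false, pi_w, Fin.insertNthEquiv_apply, Fin.insertNth_apply_same, ↓reduceIte, mul_one, IsEmpty.forall_iff]

lemma cAvg_nonneg (m : ℕ) (g : ℝ → ℝ) (h0 : ∀ x, 0 ≤ g x) : 0 ≤ S.cAvg m g :=
  Finset.sum_nonneg fun _ _ => mul_nonneg ((S.P.pi m).nonneg _) (h0 _)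

lemma cAvg_le_one (m : ℕ) (g : ℝ → ℝ) (h1 : ∀ x, g x ≤ 1) : S.cAvg m g ≤ 1 := by
  unfold cAvg
  calc ∑ v, (S.P.pi m).w v * g (sl S.r v) ≤ ∑ v, (S.P.pi m).w v * 1 :=
        Finset.sum_le_sum fun v _ => mul_le_mul_of_nonneg_left (h1 _) ((S.P.pi m).nonneg _)
    _ = 1 := by simp only [mul_one]; exact (S.P.pi m).sum_one

lemma cAvg_step (i : Λ) (hi : 0 < S.P.w i) (m : ℕ) (g : ℝ → ℝ)
    (h0 : ∀ x, 0 ≤ g x) (h1 : ∀ x, g x ≤ 1) :
    |S.cAvg m (fun x => g (S.r i * x)) - S.cAvg (m + 1) g|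
      ≤ 1 / Real.sqrt ((m + 1 : ℝ) * S.P.w i) := by
  set p := S.P.w i with hp
  have hN : (0 : ℝ) < (m + 1 : ℝ) * p := by positivity
  set c : (Fin (m + 1) → Λ) → ℝ :=
    fun w => (∑ k : Fin (m + 1), ((if w k = i then 1 else 0) - p)) / ((m + 1 : ℝ) * p) with hc
  have hmain : S.cAvg m (fun x => g (S.r i * x)) - S.cAvg (m + 1) g
      = ∑ w, (S.P.pi (m + 1)).w w * (g (sl S.r w) * c w) := by
    have e1 : ∑ k : Fin (m + 1), ∑ w, (S.P.pi (m + 1)).w w *
        (g (sl S.r w) * (if w k = i then (1 : ℝ) else 0))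
        = (m + 1 : ℝ) * (p * S.cAvg m (fun x => g (S.r i * x))) := by
      rw [Finset.sum_congr rfl fun k _ => S.cAvg_position i m k g]
      simp only [Finset.sum_const, Finset.card_univ, Fintype.card_fin, nsmul_eq_mul, Nat.cast_add, Nat.cast_one, hp]
    rw [Finset.sum_comm] at e1
    have e2 : ∀ w : Fin (m + 1) → Λ, (S.P.pi (m + 1)).w w * (g (sl S.r w) * c w)
        = (∑ k : Fin (m + 1), (S.P.pi (m + 1)).w w *
          (g (sl S.r w) * (if w k = i then (1 : ℝ) else 0))) / ((m + 1 : ℝ) * p)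
          - (S.P.pi (m + 1)).w w * g (sl S.r w) := by
      intro w
      rw [hc]
      simp only [Finset.sum_sub_distrib, Finset.sum_const, Finset.card_univ, Fintype.card_fin,
        nsmul_eq_mul, ← Finset.mul_sum]
      push_cast
      (clear * - hi; field_simp)
    rw [Finset.sum_congr rfl fun w _ => e2 w, Finset.sum_sub_distrib, ← Finset.sum_div, e1]
    unfold cAvg
    field_simp
  rw [hmain]
  have hX : ∑ w, (S.P.pi (m + 1)).w w * |c w| ≤ 1 / Real.sqrt ((m + 1 : ℝ) * p) := by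
    refine (S.P.pi (m + 1)).abs_moment_le c _ (by (clear * - hi; positivity)) ?_
    have h2 := S.P.second_moment (m + 1) (fun _ ω => (if ω = i then (1 : ℝ) else 0) - p) (by
      intro k
      simp only [mul_sub, mul_ite, mul_one, mul_zero, Finset.sum_sub_distrib, Finset.sum_ite_eq', Finset.mem_univ, if_true, ← Finset.sum_mul, S.P.sum_one]
      rw [hp]; ring)
    have h3 : ∑ ω, S.P.w ω * ((if ω = i then (1 : ℝ) else 0) - p) ^ 2 ≤ p := by
      have h4 : ∀ ω, S.P.w ω * ((if ω = i then (1 : ℝ) else 0) - p) ^ 2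
          = (if ω = i then S.P.w ω * (1 - 2 * p) else 0) + S.P.w ω * p ^ 2 := by
        intro ω
        split_ifs <;> ring
      rw [Finset.sum_congr rfl fun ω _ => h4 ω, Finset.sum_add_distrib, ← Finset.sum_mul,
        S.P.sum_one]
      simp only [Finset.sum_ite_eq', Finset.mem_univ, if_true, ← hp]
      nlinarith only []
    have h5 : ∀ w : Fin (m + 1) → Λ, (S.P.pi (m + 1)).w w * c w ^ 2
        = (S.P.pi (m + 1)).w w * (∑ k, ((if w k = i then (1 : ℝ) else 0) - p)) ^ 2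
          / ((m + 1 : ℝ) * p) ^ 2 := by
      intro w
      rw [hc]
      simp only [div_pow]
      ring
    rw [Finset.sum_congr rfl fun w _ => h5 w, ← Finset.sum_div, h2]
    simp only [Finset.sum_const, Finset.card_univ, Fintype.card_fin, nsmul_eq_mul]
    rw [div_pow, Real.sq_sqrt hN.le, one_pow, div_le_div_iff₀ (by (clear * - hi; positivity)) hN]
    push_cast
    have h6 : (0 : ℝ) ≤ (m + 1 : ℝ) := by (clear * -; positivity)
    (by_contra nlg; linarith only [nlg, mul_pos (sub_pos.2 (not_le.1 nlg)) (sub_pos.2 hi), mul_nonneg (sq_nonneg ((↑m + 1) * p : ℝ)) (sub_nonneg.2 h3)])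
  refine le_trans (Finset.abs_sum_le_sum_abs _ _) (le_trans (Finset.sum_le_sum fun w _ => ?_) hX)
  rw [abs_mul, abs_of_nonneg ((S.P.pi (m + 1)).nonneg w), abs_mul, abs_of_nonneg (h0 _)]
  exact mul_le_mul_of_nonneg_left
    (by nlinarith only [abs_nonneg (c w), h1 (sl S.r w)]) ((S.P.pi (m + 1)).nonneg w)

/-- Multiplication by the ratio of one letter. Proof: for `v ∈ Λ^m`, exchangeability gives
`E g(r_i r_v) = E_{w ∈ Λ^{m+1}} g(r_w) N_i(w) / ((m+1) p_i)` (`N_i` = number of letters `i`; each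
position has the same expectation: `sl` is a product), so
`|E g(r_i r_v) - E_{Λ^{m+1}} g(r_w)| ≤ E |N_i/((m+1)p_i) - 1| ≤ 1/√((m+1) p_i)`
(Cauchy-Schwarz and `FinProb.second_moment`), and the averages over `[m0,2m0)` and
`[m0+1, 2m0+1)` differ by at most `1/m0`. -/
theorem cBar_shift (i : Λ) (hi : 0 < S.P.w i) (m0 : ℕ) (hm : 1 ≤ m0) (g : ℝ → ℝ)
    (h0 : ∀ x, 0 ≤ g x) (h1 : ∀ x, g x ≤ 1) :
    |S.cBar m0 (fun x => g (S.r i * x)) - S.cBar m0 g|
      ≤ 1 / Real.sqrt (m0 * S.P.w i) + 1 / m0 := by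
  have hm0 : (0 : ℝ) < m0 := by exact_mod_cast hm
  have hB : 0 < Real.sqrt (m0 * S.P.w i) := Real.sqrt_pos.2 (by positivity)
  -- telescoping
  have htel : ∑ m ∈ Finset.Ico m0 (2 * m0), S.cAvg (m + 1) g
      = ∑ m ∈ Finset.Ico m0 (2 * m0), S.cAvg m g + (S.cAvg (2 * m0) g - S.cAvg m0 g) := by
    have hle : m0 ≤ 2 * m0 := by omega
    have := Finset.sum_Ico_sub (fun m => S.cAvg m g) hle
    rw [Finset.sum_sub_distrib] at this
    linarith only [this]
  have hsum : |∑ m ∈ Finset.Ico m0 (2 * m0), S.cAvg m (fun x => g (S.r i * x))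
      - ∑ m ∈ Finset.Ico m0 (2 * m0), S.cAvg (m + 1) g|
      ≤ m0 * (1 / Real.sqrt (m0 * S.P.w i)) := by
    rw [← Finset.sum_sub_distrib]
    refine (Finset.abs_sum_le_sum_abs _ _).trans ?_
    have : ∀ m ∈ Finset.Ico m0 (2 * m0),
        |S.cAvg m (fun x => g (S.r i * x)) - S.cAvg (m + 1) g|
          ≤ 1 / Real.sqrt (m0 * S.P.w i) := by
      intro m hmm
      refine (S.cAvg_step i hi m g h0 h1).trans ?_
      refine one_div_le_one_div_of_le hB (Real.sqrt_le_sqrt ?_)
      refine mul_le_mul_of_nonneg_right ?_ hi.le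
      have : (m0 : ℝ) ≤ m := by exact_mod_cast (Finset.mem_Ico.1 hmm).1
      linarith only [this]
    refine (Finset.sum_le_sum this).trans ?_
    rw [Finset.sum_const, Nat.card_Ico, nsmul_eq_mul]
    have : ((2 * m0 - m0 : ℕ) : ℝ) = m0 := by
      congr 1; omega
    rw [this]
  have hA : |S.cAvg (2 * m0) g - S.cAvg m0 g| ≤ 1 := by
    rw [abs_le]
    constructor <;>
    linarith only [S.cAvg_nonneg (2 * m0) g h0, S.cAvg_le_one m0 g h1, S.cAvg_nonneg m0 g h0, S.cAvg_le_one (2 * m0) g h1]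
  unfold cBar
  rw [← sub_div, abs_div, abs_of_pos hm0, div_le_iff₀ hm0, add_mul, one_div_mul_cancel hm0.ne',
    mul_comm (1 / Real.sqrt (m0 * S.P.w i))]
  rw [htel] at hsum
  have h3 := abs_add_le (∑ m ∈ Finset.Ico m0 (2 * m0), S.cAvg m (fun x => g (S.r i * x))
      - (∑ m ∈ Finset.Ico m0 (2 * m0), S.cAvg m g + (S.cAvg (2 * m0) g - S.cAvg m0 g)))
      (S.cAvg (2 * m0) g - S.cAvg m0 g)
  have h4 : ∑ m ∈ Finset.Ico m0 (2 * m0), S.cAvg m (fun x => g (S.r i * x))
      - (∑ m ∈ Finset.Ico m0 (2 * m0), S.cAvg m g + (S.cAvg (2 * m0) g - S.cAvg m0 g))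
      + (S.cAvg (2 * m0) g - S.cAvg m0 g)
      = ∑ m ∈ Finset.Ico m0 (2 * m0), S.cAvg m (fun x => g (S.r i * x))
      - ∑ m ∈ Finset.Ico m0 (2 * m0), S.cAvg m g := by ring
  rw [h4] at h3
  linarith only [hsum, hA, h3]

lemma cBar_shift' (i : Λ) (p : ℝ) (hp : 0 < p) (hi : p ≤ S.P.w i) (m0 : ℕ) (hm : 1 ≤ m0)
    (g : ℝ → ℝ) (h0 : ∀ x, 0 ≤ g x) (h1 : ∀ x, g x ≤ 1) :
    |S.cBar m0 (fun x => g (S.r i * x)) - S.cBar m0 g|
      ≤ 1 / Real.sqrt (m0 * p) + 1 / m0 := by
  have hm0 : (0 : ℝ) < m0 := by exact_mod_cast hm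
  refine (S.cBar_shift i (hp.trans_le hi) m0 hm g h0 h1).trans ?_
  have : 1 / Real.sqrt (m0 * S.P.w i) ≤ 1 / Real.sqrt (m0 * p) :=
    one_div_le_one_div_of_le (Real.sqrt_pos.2 (by positivity))
      (Real.sqrt_le_sqrt (mul_le_mul_of_nonneg_left hi hm0.le))
  linarith only [this]

/-- Iterated shifts. -/
theorem cBar_shift_pow (i j : Λ) (p : ℝ) (hp : 0 < p) (hi : p ≤ S.P.w i) (hj : p ≤ S.P.w j)
    (m0 : ℕ) (hm : 1 ≤ m0) (x y : ℕ) (g : ℝ → ℝ) (h0 : ∀ x, 0 ≤ g x) (h1 : ∀ x, g x ≤ 1) :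
    |S.cBar m0 (fun z => g (z / (S.r i ^ x / S.r j ^ y))) - S.cBar m0 g|
      ≤ (x + y) * (1 / Real.sqrt (m0 * p) + 1 / m0) := by
  have hr : ∀ l, S.r l ≠ 0 := by
    intro l hl
    have h2 := S.κ_le l
    have h3 := S.κ_pos
    rw [hl, abs_zero] at h2
    linarith only [h2, h3]
  induction x with
  | zero =>
    induction y with
    | zero => simp only [pow_zero, ne_eq, one_ne_zero, not_false_eq_true, div_self, div_one, sub_self, abs_zero, CharP.cast_eq_zero, add_zero, Nat.cast_nonneg, Real.sqrt_mul, one_div, mul_inv_rev, zero_mul, Std.le_refl]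
    | succ y ih =>
      have h2 := S.cBar_shift' j p hp hj m0 hm (fun z => g (z / (S.r i ^ 0 / S.r j ^ y)))
        (fun _ => h0 _) (fun _ => h1 _)
      have h3 : (fun z => g (z / (S.r i ^ 0 / S.r j ^ (y + 1))))
          = fun z => g (S.r j * z / (S.r i ^ 0 / S.r j ^ y)) := by
        funext z
        congr 1
        have := hr j
        field_simp
        ring
      rw [h3]
      have h4 := abs_sub_le (S.cBar m0 (fun z => g (S.r j * z / (S.r i ^ 0 / S.r j ^ y))))
        (S.cBar m0 (fun z => g (z / (S.r i ^ 0 / S.r j ^ y)))) (S.cBar m0 g)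
      push_cast at ih ⊢
      (clear * - h2 h4 ih; linarith only [ih, h4, h2])
  | succ x ih =>
    have h2 := S.cBar_shift' i p hp hi m0 hm (fun z => g (z / (S.r i ^ (x + 1) / S.r j ^ y)))
      (fun _ => h0 _) (fun _ => h1 _)
    have h3 : (fun z => g (S.r i * z / (S.r i ^ (x + 1) / S.r j ^ y)))
        = fun z => g (z / (S.r i ^ x / S.r j ^ y)) := by
      funext z
      congr 1
      have h5 := hr i
      have h6 := hr j
      field_simp
      ring
    rw [h3] at h2
    rw [abs_sub_comm] at h2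
    have h4 := abs_sub_le (S.cBar m0 (fun z => g (z / (S.r i ^ (x + 1) / S.r j ^ y))))
      (S.cBar m0 (fun z => g (z / (S.r i ^ x / S.r j ^ y)))) (S.cBar m0 g)
    push_cast at ih ⊢
    linarith only [h4, h2, ih]

end Sys

end Vale.Agent.P114
end
end

section

open scoped Classical

noncomputable section

namespace Vale.Agent.P114

open FinProb Filter

/-- The conclusion of the entropy growth theorem for given constants. -/
def Growth (α β δ : ℝ) (k W : ℕ) (C : ℝ) : Prop :=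
  ∀ (M : ℕ) (A B : Type) [Fintype A] [Fintype B] (PA : FinProb A) (PB : FinProb B)
    (U : A → ℤ) (Y : B → ℤ), (∀ a, 0 ≤ U a ∧ U a < 2 ^ M) →
    β * (M * Real.log 2) ≤ PA.H U →
    (∀ j, j + W ≤ M → (α - δ) * (W * Real.log 2)
      ≤ PB.H (fun b => Y b / 2 ^ j) - PB.H (fun b => Y b / 2 ^ (j + W))) →
    PB.H Y + (1 / k) * (PB.H (fun b => Y b / 2 ^ M) + (α + δ) * (M * Real.log 2) - PB.H Y) - C
      ≤ (PA.prod PB).H (fun x => U x.1 + Y x.2)

namespace Sys

variable {Λ : Type} [Fintype Λ] (S : Sys Λ)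

/-- Probability of an event. -/
def pr {Ω : Type} [Fintype Ω] (P : FinProb Ω) (A : Ω → Prop) : ℝ :=
  ∑ ω, P.w ω * (if A ω then 1 else 0)

section Fibre

variable (t : Λ → ℝ) (n N' b M : ℕ)

/-- Conditional law of a word in its class. -/
def cw (ω : Fin n → Λ) : FinProb (Fin n → Λ) :=
  (S.P.pi n).cond (S.ht t n b M) (S.ht t n b M ω)

lemma cw_supp (ω : Fin n → Λ) (hω : 0 < (S.P.pi n).w ω) (w : Fin n → Λ)
    (hw : 0 < (S.cw t n b M ω).w w) :
    sl S.r w = sl S.r ω ∧ S.τt t n b M w / 2 ^ M = S.τt t n b M ω / 2 ^ M := by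
  have h := (S.P.pi n).cond_supp (S.ht t n b M) ω hω w hw
  unfold ht at h
  exact ⟨congrArg Prod.fst h, congrArg Prod.snd h⟩

lemma prod_w_pos {A B : Type} [Fintype A] [Fintype B] (PA : FinProb A) (PB : FinProb B)
    (x : A × B) (hx : 0 < (PA.prod PB).w x) : 0 < PA.w x.1 := by
  rcases PA.w_zero_or_pos x.1 with h | h
  · simp [h] at hx
  · exact h

lemma fibre_lower (ω : Fin n → Λ) (hω : 0 < (S.P.pi n).w ω) :
    ((S.cw t n b M ω).prod (S.P.pi N')).H
        (fun x => S.Ut t n b M x.1 + S.Yt t N' b M (sl S.r ω) x.2)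
      ≤ ((S.cw t n b M ω).prod (S.P.pi N')).H (S.Xt t n N' b M) + Real.log 3 := by
  refine FinProb.H_le_of_near_supp _ _ _
    (fun z => z - 2 ^ M * (S.τt t n b M ω / 2 ^ M)) fun x hx => ?_
  obtain ⟨h1, h2⟩ := S.cw_supp t n b M ω hω x.1 (prod_w_pos _ _ x hx)
  obtain ⟨h3, h4⟩ := S.Xt_bounds t n N' b M x
  rw [h1] at h3 h4
  have h5 : S.Ut t n b M x.1 = S.τt t n b M x.1 - 2 ^ M * (S.τt t n b M ω / 2 ^ M) := by
    have h6 := Int.emod_add_mul_ediv (S.τt t n b M x.1) (2 ^ M)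
    rw [h2] at h6
    unfold Ut
    linarith only [h6]
  rw [h5, abs_le]
  constructor <;> linarith only [h3, h4]

lemma fibre_upper (ω : Fin n → Λ) (hω : 0 < (S.P.pi n).w ω) :
    ((S.cw t n b M ω).prod (S.P.pi N')).H (fun x => S.Xt t n N' b M x / 2 ^ M)
      ≤ (S.P.pi N').H (fun v => S.Yt t N' b M (sl S.r ω) v / 2 ^ M) + Real.log 3 := by
  rw [← FinProb.H_prod_snd (S.cw t n b M ω) (S.P.pi N')
    (fun v => S.Yt t N' b M (sl S.r ω) v / 2 ^ M)]
  refine FinProb.H_le_of_near_supp _ _ _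
    (fun z => S.τt t n b M ω / 2 ^ M + z) fun x hx => ?_
  obtain ⟨h1, h2⟩ := S.cw_supp t n b M ω hω x.1 (prod_w_pos _ _ x hx)
  obtain ⟨h3, h4⟩ := S.Xt_bounds t n N' b M x
  rw [h1] at h3 h4
  obtain ⟨h5, h6⟩ := S.Ut_mem t n b M x.1
  have h7 := Int.emod_add_mul_ediv (S.τt t n b M x.1) (2 ^ M)
  rw [h2] at h7
  have h7' : S.Ut t n b M x.1 + 2 ^ M * (S.τt t n b M ω / 2 ^ M) = S.τt t n b M x.1 := h7
  set R : ℤ := 2 ^ M with hR
  have hR0 : 0 < R := by rw [hR]; positivity
  set y := S.Yt t N' b M (sl S.r ω) x.2 with hy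
  have h8 := Int.emod_add_mul_ediv y R
  have h9 := Int.emod_nonneg y hR0.ne'
  have h10 := Int.emod_lt_of_pos y hR0
  set X := S.Xt t n N' b M x with hX
  set c := S.τt t n b M ω / R with hc
  have h11 : c + y / R ≤ X / R := by
    rw [Int.le_ediv_iff_mul_le hR0]
    linarith
  have h12 : X / R < c + y / R + 2 := by
    rw [Int.ediv_lt_iff_lt_mul hR0]
    linarith
  rw [abs_le]
  constructor <;> omega

/-- Difference of entropies in a fibre. -/
def dif (ω : Fin n → Λ) : ℝ :=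
  ((S.cw t n b M ω).prod (S.P.pi N')).H (S.Xt t n N' b M)
    - ((S.cw t n b M ω).prod (S.P.pi N')).H (fun x => S.Xt t n N' b M x / 2 ^ M)

lemma dif_nonneg (ω : Fin n → Λ) : 0 ≤ S.dif t n N' b M ω := by
  unfold dif
  rw [sub_nonneg]
  exact FinProb.H_le_of_det _ fun x y h => by rw [h]

lemma abs_sl_le_one (w : Fin n → Λ) : |sl S.r w| ≤ 1 :=
  (S.abs_sl_le w).trans (pow_le_one₀ S.ρ_pos.le S.ρ_lt.le)

lemma incr_top (ω : Fin n → Λ) (htyp : 1 ≤ 2 ^ b * |sl S.r ω|)
    (hN' : S.D t * S.ρ ^ N' * 2 ^ (b + M) ≤ S.κ) :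
    S.fS t M - S.C6 t ≤ (S.P.pi N').H (S.Yt t N' b M (sl S.r ω))
      - (S.P.pi N').H (fun v => S.Yt t N' b M (sl S.r ω) v / 2 ^ M) := by
  have h := S.incr_lower t N' (b + M) 0 M (sl S.r ω) (S.abs_sl_le_one n ω) (by omega)
    (by simpa only [zero_add, add_tsub_cancel_right] using htyp) hN'
  simp only [pow_zero, Int.ediv_one, zero_add] at h
  exact h

lemma dif_typ (ω : Fin n → Λ) (hω : 0 < (S.P.pi n).w ω) (htyp : 1 ≤ 2 ^ b * |sl S.r ω|)
    (hN' : S.D t * S.ρ ^ N' * 2 ^ (b + M) ≤ S.κ) :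
    S.fS t M - S.C6 t - 2 * Real.log 3 ≤ S.dif t n N' b M ω := by
  have h1 := S.incr_top t n N' b M ω htyp hN'
  have h2 := S.fibre_lower t n N' b M ω hω
  have h3 := S.fibre_upper t n N' b M ω hω
  have h4 := FinProb.H_le_prod_add (S.cw t n b M ω) (S.P.pi N') (S.Ut t n b M)
    (S.Yt t N' b M (sl S.r ω))
  unfold dif
  linarith

lemma dif_good (ω : Fin n → Λ) (hω : 0 < (S.P.pi n).w ω) (htyp : 1 ≤ 2 ^ b * |sl S.r ω|)
    (hN' : S.D t * S.ρ ^ N' * 2 ^ (b + M) ≤ S.κ) (α β δ : ℝ) (k W : ℕ) (C : ℝ)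
    (hk : 0 < k) (hgrow : Growth α β δ k W C)
    (hW : (α - δ) * (W * Real.log 2) ≤ S.fS t W - S.C6 t)
    (hgood : β * (M * Real.log 2) ≤ (S.cw t n b M ω).H (S.Ut t n b M)) :
    (1 - 1 / k) * (S.fS t M - S.C6 t) + 1 / k * ((α + δ) * (M * Real.log 2)) - C
      - 2 * Real.log 3 ≤ S.dif t n N' b M ω := by
  have h1 := S.incr_top t n N' b M ω htyp hN'
  have h2 := S.fibre_lower t n N' b M ω hω
  have h3 := S.fibre_upper t n N' b M ω hω
  have h4 := hgrow M _ _ (S.cw t n b M ω) (S.P.pi N') (S.Ut t n b M)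
    (S.Yt t N' b M (sl S.r ω)) (S.Ut_mem t n b M) hgood (by
      intro j hj
      refine hW.trans ?_
      refine S.incr_lower t N' (b + M) j W (sl S.r ω) (S.abs_sl_le_one n ω) (by omega) ?_ hN'
      refine htyp.trans ?_
      have : (2 : ℝ) ^ b ≤ 2 ^ (b + M - (j + W)) := pow_le_pow_right₀ (by norm_num) (by omega)
      have := abs_nonneg (sl S.r ω)
      gcongr)
  have hk1 : (1 : ℝ) ≤ k := by exact_mod_cast hk
  have hk2 : 0 ≤ 1 - 1 / (k : ℝ) := by
    rw [sub_nonneg, div_le_one (by linarith only [hk1])]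
    exact hk1
  have h5 := mul_le_mul_of_nonneg_left h1 hk2
  unfold dif
  have e1 : (S.P.pi N').H (S.Yt t N' b M (sl S.r ω)) + 1 / (k : ℝ) *
      ((S.P.pi N').H (fun v => S.Yt t N' b M (sl S.r ω) v / 2 ^ M)
        + (α + δ) * (M * Real.log 2) - (S.P.pi N').H (S.Yt t N' b M (sl S.r ω)))
      = (1 - 1 / (k : ℝ)) * ((S.P.pi N').H (S.Yt t N' b M (sl S.r ω))
        - (S.P.pi N').H (fun v => S.Yt t N' b M (sl S.r ω) v / 2 ^ M))
        + 1 / k * ((α + δ) * (M * Real.log 2))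
        + (S.P.pi N').H (fun v => S.Yt t N' b M (sl S.r ω) v / 2 ^ M) := by ring
  rw [e1] at h4
  linarith only [h5, h4, h3, h2]

lemma total_upper (h : S.D t * S.ρ ^ N' * 2 ^ (b + M) ≤ S.κ) :
    ((S.P.pi n).prod (S.P.pi N')).H (S.Xt t n N' b M)
      ≤ S.alpha t * (((b + M : ℕ) : ℝ) * Real.log 2) + S.C5 t + Real.log 3 := by
  have e1 : ((S.P.pi n).prod (S.P.pi N')).H (S.Xt t n N' b M)
      = S.F t (n + N') (2 ^ (b + M)) := by
    unfold F
    rw [← H_pi_add]
    simp only [tr_append]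
    rfl
  have h1 := S.F_le_fS t (b + M) (n + N') (by
    refine le_trans ?_ (h.trans S.κ_le_one)
    have h2 : S.ρ ^ (n + N') ≤ S.ρ ^ N' :=
      pow_le_pow_of_le_one S.ρ_pos.le S.ρ_lt.le (by omega)
    have := S.D_nonneg t
    (clear * - h2 this; gcongr))
  have h2 := S.fS_le_alpha t (b + M)
  rw [e1]
  linarith only [h1, h2]

lemma total_lower (h : S.D t * S.ρ ^ N' * 2 ^ (b + M) ≤ S.κ) :
    S.fS t b - Real.log 3
      ≤ ((S.P.pi n).prod (S.P.pi N')).H (fun x => S.Xt t n N' b M x / 2 ^ M) := by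
  have e1 : ((S.P.pi n).prod (S.P.pi N')).H (fun x => S.Xt t n N' b M x / 2 ^ M)
      = S.F t (n + N') (2 ^ b) := by
    unfold F
    rw [← H_pi_add]
    congr 1
    funext x
    unfold Xt
    rw [floor_pow_ediv _ _ _ (Nat.le_add_left M b), Nat.add_sub_cancel, tr_append]
  have h1 := S.fS_le_F t b (n + N') (by
    refine le_trans ?_ (h.trans S.κ_le_one)
    have h2 : S.ρ ^ (n + N') ≤ S.ρ ^ N' :=
      pow_le_pow_of_le_one S.ρ_pos.le S.ρ_lt.le (by omega)
    have h3 : (2 : ℝ) ^ b ≤ 2 ^ (b + M) := pow_le_pow_right₀ (by norm_num) (by omega)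
    have := S.D_nonneg t
    have := pow_nonneg S.ρ_pos.le N'
    have := pow_nonneg S.ρ_pos.le (n + N')
    (clear h e1 this; gcongr))
  rw [e1]
  linarith only [h1]

/-- Good classes. -/
def Good (β : ℝ) (ω : Fin n → Λ) : Prop :=
  β * (M * Real.log 2) ≤ (S.cw t n b M ω).H (S.Ut t n b M)

/-- Atypical words. -/
def Atyp (ω : Fin n → Λ) : Prop := 2 ^ b * |sl S.r ω| < 1

lemma main_ineq (β δ e1 e2 : ℝ) (k W : ℕ) (C : ℝ) (hk : 0 < k) (hδ : 0 < δ) (hC : 0 ≤ C)
    (he1 : 0 ≤ e1)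
    (hgrow : Growth (S.alpha t) β δ k W C)
    (hW : (S.alpha t - δ) * (W * Real.log 2) ≤ S.fS t W - S.C6 t)
    (hM : (S.alpha t - e1) * (M * Real.log 2) ≤ S.fS t M)
    (hb : (S.alpha t - e2) * (b * Real.log 2) ≤ S.fS t b) :
    pr (S.P.pi n) (S.Good t n b M β) * (δ / k * (M * Real.log 2))
      ≤ (e1 * M + e2 * b) * Real.log 2
        + pr (S.P.pi n) (S.Atyp n b) * ((1 + δ) * (M * Real.log 2))
        + (S.C5 t + S.C6 t + C + 4 * Real.log 3) := by
  set α := S.alpha t with hα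
  have hα0 := S.alpha_nonneg t
  have hα1 := S.alpha_le_one t
  rw [← hα] at hα0 hα1
  have hlog : 0 < Real.log 2 := Real.log_pos (by norm_num)
  have hl3 : 0 < Real.log 3 := Real.log_pos (by norm_num)
  have hC6 := S.C6_nonneg t
  have hC5 := S.C5_nonneg t
  have hk0 : (0 : ℝ) < k := by exact_mod_cast hk
  have hk1 : (1 : ℝ) ≤ k := by exact_mod_cast hk
  set N' := S.Nb t (b + M) with hN'def
  have hN' := S.Nb_spec t (b + M)
  rw [← hN'def] at hN'
  set Ml : ℝ := M * Real.log 2 with hMl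
  have hMl0 : 0 ≤ Ml := by (clear * -; positivity)
  have hδk : 0 < δ / k := by positivity
  have hδk1 : δ / k ≤ δ := div_le_self hδ.le hk1
  have h1 : ∀ ω, 0 < (S.P.pi n).w ω →
      (α - e1) * Ml - (S.C6 t + C + 2 * Real.log 3)
        + (if S.Good t n b M β ω then 1 else 0) * (δ / k * Ml)
        - (if S.Atyp n b ω then 1 else 0) * ((1 + δ) * Ml) ≤ S.dif t n N' b M ω := by
    intro ω hω
    by_cases hA : S.Atyp n b ω
    · rw [if_pos hA]
      have h2 := S.dif_nonneg t n N' b M ω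
      have h3 : (if S.Good t n b M β ω then (1 : ℝ) else 0) * (δ / k * Ml) ≤ δ * Ml := by
        split_ifs
        · rw [one_mul]; exact mul_le_mul_of_nonneg_right hδk1 hMl0
        · rw [zero_mul]; (clear * - hδ; positivity)
      have h4 : (α - e1) * Ml ≤ 1 * Ml := mul_le_mul_of_nonneg_right (by linarith only [he1, hα1]) hMl0
      linarith only [h4, h3, h2, hC6, hl3, hC]
    · rw [if_neg hA]
      have htyp : 1 ≤ 2 ^ b * |sl S.r ω| := not_lt.1 hA
      by_cases hG : S.Good t n b M β ω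
      · rw [if_pos hG]
        have h2 := S.dif_good t n N' b M ω hω htyp hN' α β δ k W C hk hgrow hW hG
        refine le_trans ?_ h2
        rw [← hMl]
        have hk2 : 0 ≤ 1 - 1 / (k : ℝ) := by
          rw [sub_nonneg, div_le_one hk0]
          exact hk1
        have hk3 : 0 ≤ 1 / (k : ℝ) := by positivity
        have h3 : (1 - 1 / (k : ℝ)) * ((α - e1) * Ml - S.C6 t)
            ≤ (1 - 1 / (k : ℝ)) * (S.fS t M - S.C6 t) :=
          mul_le_mul_of_nonneg_left (by linarith only [hM]) hk2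
        have h4 : (1 - 1 / (k : ℝ)) * ((α - e1) * Ml - S.C6 t)
            = (α - e1) * Ml - S.C6 t - 1 / k * ((α - e1) * Ml) + 1 / k * S.C6 t := by ring
        have h5 : 1 / (k : ℝ) * ((α + δ) * Ml)
            = 1 / k * ((α - e1) * Ml) + 1 / k * (e1 * Ml) + δ / k * Ml := by ring
        have h6 : 0 ≤ 1 / (k : ℝ) * S.C6 t := by (clear * - hk hC6; positivity)
        have h7 : 0 ≤ 1 / (k : ℝ) * (e1 * Ml) := by (clear * - hk he1; positivity)
        (clear * - h3 h5 h6 h7; linarith)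
      · rw [if_neg hG]
        have h2 := S.dif_typ t n N' b M ω hω htyp hN'
        linarith only [hC, hM, h2]
  have h2 := (S.P.pi n).prod_cond_mix (S.P.pi N') (S.ht t n b M) (S.Xt t n N' b M)
    (fun x => S.Xt t n N' b M x / 2 ^ M) (fun x y h => by rw [h])
  have h3 : ∑ ω, (S.P.pi n).w ω * ((α - e1) * Ml - (S.C6 t + C + 2 * Real.log 3)
        + (if S.Good t n b M β ω then 1 else 0) * (δ / k * Ml)
        - (if S.Atyp n b ω then 1 else 0) * ((1 + δ) * Ml))
      ≤ ∑ ω, (S.P.pi n).w ω * S.dif t n N' b M ω := by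
    refine Finset.sum_le_sum fun ω _ => ?_
    rcases (S.P.pi n).w_zero_or_pos ω with h | h
    · rw [h, zero_mul, zero_mul]
    · exact mul_le_mul_of_nonneg_left (h1 ω h) h.le
  have h4 : ∑ ω, (S.P.pi n).w ω * ((α - e1) * Ml - (S.C6 t + C + 2 * Real.log 3)
        + (if S.Good t n b M β ω then 1 else 0) * (δ / k * Ml)
        - (if S.Atyp n b ω then 1 else 0) * ((1 + δ) * Ml))
      = (α - e1) * Ml - (S.C6 t + C + 2 * Real.log 3)
        + pr (S.P.pi n) (S.Good t n b M β) * (δ / k * Ml)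
        - pr (S.P.pi n) (S.Atyp n b) * ((1 + δ) * Ml) := by
    unfold pr
    rw [Finset.sum_mul, Finset.sum_mul]
    simp only [mul_sub, mul_add, Finset.sum_sub_distrib, Finset.sum_add_distrib,
      FinProb.sum_const, mul_assoc]
  have h5 := S.total_upper t n N' b M hN'
  have h6 := S.total_lower t n N' b M hN'
  have h7 : ∑ ω, (S.P.pi n).w ω * S.dif t n N' b M ω
      ≤ ((S.P.pi n).prod (S.P.pi N')).H (S.Xt t n N' b M)
        - ((S.P.pi n).prod (S.P.pi N')).H (fun x => S.Xt t n N' b M x / 2 ^ M) := h2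
  rw [h4] at h3
  rw [← hα] at h5
  push_cast at h5
  have e3 : α * (((b : ℝ) + M) * Real.log 2) = α * (b * Real.log 2) + α * Ml := by
    rw [hMl]; ring
  rw [e3] at h5
  have e4 : (e1 * M + e2 * b) * Real.log 2 = e1 * Ml + e2 * (b * Real.log 2) := by
    rw [hMl]; ring
  rw [e4]
  have e5 : (α - e1) * Ml = α * Ml - e1 * Ml := by ring
  have e6 : (α - e2) * (b * Real.log 2) = α * (b * Real.log 2) - e2 * (b * Real.log 2) := by ring
  rw [e5] at h3
  rw [e6] at hb
  linarith only [hb, h3, h6, h7, h5]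

end Fibre

end Sys

end Vale.Agent.P114
end
end

section

open scoped Classical

noncomputable section

namespace Vale.Agent.P114

open FinProb

variable {Λ : Type} [Fintype Λ]

namespace Sys
variable (S : Sys Λ)

/-- Constant for the monotonicity of increments. -/
def C10 : ℝ := Real.log (1 / S.κ + 2) + 4 * Real.log 3

lemma C10_nonneg : 0 ≤ S.C10 := by
  have h1 : 0 < 1 / S.κ := by have := S.κ_pos; positivity
  have h3 : 0 ≤ Real.log (1 / S.κ + 2) := Real.log_nonneg (by linarith only [h1])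
  have h4 : 0 ≤ Real.log 3 := Real.log_nonneg (by norm_num)
  unfold C10
  linarith only [h3, h4]

lemma F_incr_mono (t : Λ → ℝ) (N b W : ℕ) (s : ℝ) (hs : 1 ≤ s)
    (hN : S.D t * S.ρ ^ N * (2 ^ (b + W) * s) ≤ S.κ) :
    S.fS t (b + W) - S.fS t b - S.C10 ≤ S.F t N (2 ^ (b + W) * s) - S.F t N (2 ^ b * s) := by
  have hs0 : 0 < s := by linarith only [hs]
  have hκ := S.κ_pos
  have hκ1 : S.κ ≤ 1 := (S.κ_le_ρ).trans S.ρ_lt.le
  have hD := S.one_le_D t
  have hρ := S.ρ_pos
  have hρN : 0 < S.ρ ^ N := pow_pos hρ N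
  have h2b : (1 : ℝ) ≤ 2 ^ (b + W) := one_le_pow₀ (by norm_num)
  have h2bW : (2 : ℝ) ^ b ≤ 2 ^ (b + W) := pow_le_pow_right₀ (by norm_num) (by omega)
  have hρs : S.ρ ^ N * s ≤ S.κ := by
    refine le_trans ?_ hN
    calc S.ρ ^ N * s = 1 * S.ρ ^ N * (1 * s) := by ring
      _ ≤ S.D t * S.ρ ^ N * (2 ^ (b + W) * s) := by (clear * - hD hρ h2b hs; gcongr)
  obtain ⟨J, _, c, n, b', θ, hG, hb1, hb2, hb3⟩ := S.pieces t s hs0 N 1 0
    (by
      rw [abs_one, div_le_one hs0]
      linarith only [hs, hκ1])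
    (by
      rw [abs_one, mul_one, le_div_iff₀ hs0]
      linarith only [hκ1, hρs])
  set Q := c.sigma (fun j => S.P.pi (n j)) with hQ
  set X : (Σ j, Fin (n j) → Λ) → ℝ := fun x => b' x.1 * tr S.r t x.2 + θ x.1 with hX
  have hlaw : ∀ φ : ℝ → ℤ, Q.H (fun x => φ (X x)) = (S.P.pi N).H (fun w => φ (tr S.r t w)) := by
    intro φ
    refine Q.H_eq_of_law (S.P.pi N) _ _ fun a => ?_
    have h1 := hG (fun x => if φ x = a then 1 else 0)
    simp only [one_mul, add_zero, mul_ite, mul_one, mul_zero] at h1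
    have h2 : (S.P.pi N).p (fun w => φ (tr S.r t w)) a
        = ∑ w, if φ (tr S.r t w) = a then (S.P.pi N).w w else 0 := by
      unfold p
      exact Finset.sum_congr rfl fun w _ => by by_cases h : φ (tr S.r t w) = a <;> simp only [h, ↓reduceIte, pi_w]
    have h3 : Q.p (fun x => φ (X x)) a = ∑ x, if φ (X x) = a then Q.w x else 0 := by
      unfold p
      exact Finset.sum_congr rfl fun w _ => by by_cases h : φ (X w) = a <;> simp [h]
    rw [h2, h3, h1, Fintype.sum_sigma]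
    refine Finset.sum_congr rfl fun j _ => ?_
    rw [Finset.mul_sum]
    refine Finset.sum_congr rfl fun w _ => ?_
    simp only [hX, hQ, sigma]
    split_ifs <;> simp
  have h1 := sigma_cond_le c (fun j => S.P.pi (n j)) (fun x => ⌊(2 : ℝ) ^ (b + W) * s * X x⌋)
    (fun x => ⌊(2 : ℝ) ^ b * s * X x⌋) (by
      intro x y hxy
      have e : ∀ z : ℝ, (2 : ℝ) ^ (b + W) * s * z = 2 ^ W * (2 ^ b * s * z) := by
        intro z; rw [pow_add]; ring
      rw [e, e] at hxy
      rw [← floor_mul_ediv ((2 : ℝ) ^ b * s * X x) W, ← floor_mul_ediv ((2 : ℝ) ^ b * s * X y) W,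
        hxy])
  rw [← hQ, hlaw (fun x => ⌊(2 : ℝ) ^ (b + W) * s * x⌋), hlaw (fun x => ⌊(2 : ℝ) ^ b * s * x⌋)] at h1
  have h2 : ∀ j, S.fS t (b + W) - S.fS t b - S.C10
      ≤ (S.P.pi (n j)).H (fun ω => ⌊(2 : ℝ) ^ (b + W) * s * X ⟨j, ω⟩⌋)
        - (S.P.pi (n j)).H (fun ω => ⌊(2 : ℝ) ^ b * s * X ⟨j, ω⟩⌋) := by
    intro j
    have hbj : 0 < |b' j| := lt_of_lt_of_le (by positivity) (hb2 j)
    have e1 : (fun ω => ⌊(2 : ℝ) ^ (b + W) * s * X ⟨j, ω⟩⌋)
        = (fun ω => ⌊((2 : ℝ) ^ (b + W) * s * b' j) * tr S.r t ω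
          + (2 : ℝ) ^ (b + W) * s * θ j⌋) := by
      funext ω
      simp only [hX]
      congr 1
      ring
    have e2 : (fun ω => ⌊(2 : ℝ) ^ b * s * X ⟨j, ω⟩⌋)
        = (fun ω => ⌊((2 : ℝ) ^ b * s * b' j) * tr S.r t ω + (2 : ℝ) ^ b * s * θ j⌋) := by
      funext ω
      simp only [hX]
      congr 1
      ring
    have h3 := S.F_rescale' t (n j) (2 ^ (b + W)) ((2 : ℝ) ^ (b + W) * s * b' j)
      ((2 : ℝ) ^ (b + W) * s * θ j) (by rw [abs_mul]; (clear * - hs hbj; positivity))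
    rw [← e1] at h3
    have h4 : |(2 : ℝ) ^ (b + W)| / |(2 : ℝ) ^ (b + W) * s * b' j| ≤ 1 / S.κ := by
      rw [abs_mul, abs_mul, abs_of_pos (by positivity : (0 : ℝ) < 2 ^ (b + W)), abs_of_pos hs0,
        div_le_div_iff₀ (by positivity) hκ]
      have h5 := hb2 j
      rw [div_le_iff₀ hs0] at h5
      have h6 : (2 : ℝ) ^ (b + W) * S.κ ≤ 2 ^ (b + W) * (|b' j| * s) := by (clear * - h5; gcongr)
      linarith only [h6]
    have h5 : Real.log (|(2 : ℝ) ^ (b + W)| / |(2 : ℝ) ^ (b + W) * s * b' j| + 2)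
        ≤ Real.log (1 / S.κ + 2) := Real.log_le_log (by (clear * -; positivity)) (by linarith only [h4])
    have h6 := S.F_rescale t (n j) (2 ^ b) ((2 : ℝ) ^ b * s * b' j) ((2 : ℝ) ^ b * s * θ j)
      (by positivity)
    rw [← e2] at h6
    have h7 : |(2 : ℝ) ^ b * s * b' j| / 2 ^ b ≤ 1 := by
      rw [abs_mul, abs_mul, abs_of_pos (by positivity : (0 : ℝ) < 2 ^ b), abs_of_pos hs0,
        div_le_one (by positivity)]
      have := hb1 j
      rw [le_div_iff₀ hs0] at this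
      have h8 : (2 : ℝ) ^ b * (|b' j| * s) ≤ 2 ^ b * 1 := by (clear * - this; gcongr)
      linarith only [h8]
    have h8 : Real.log (|(2 : ℝ) ^ b * s * b' j| / 2 ^ b + 2) ≤ Real.log 3 :=
      Real.log_le_log (by (clear * -; positivity)) (by linarith only [h7])
    have h9 : S.D t * S.ρ ^ (n j) * 2 ^ (b + W) ≤ 1 := by
      have h10 := hb3 j
      rw [abs_one, mul_one] at h10
      have h11 : S.ρ ^ (n j) * (S.κ / s) ≤ S.ρ ^ N :=
        le_trans (mul_le_mul_of_nonneg_left (hb2 j) (pow_nonneg hρ.le _)) h10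
      have h12 : S.ρ ^ (n j) * S.κ ≤ S.ρ ^ N * s := by
        have e3 : S.ρ ^ (n j) * (S.κ / s) = S.ρ ^ (n j) * S.κ / s := by ring
        rw [e3, div_le_iff₀ hs0] at h11
        exact h11
      have h13 : S.D t * S.ρ ^ (n j) * 2 ^ (b + W) * S.κ ≤ S.κ := by
        calc S.D t * S.ρ ^ (n j) * 2 ^ (b + W) * S.κ
            = S.D t * 2 ^ (b + W) * (S.ρ ^ (n j) * S.κ) := by ring
          _ ≤ S.D t * 2 ^ (b + W) * (S.ρ ^ N * s) := by (clear * - h12 hD; gcongr)
          _ = S.D t * S.ρ ^ N * (2 ^ (b + W) * s) := by ring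
          _ ≤ S.κ := hN
      by_contra hcon
      push Not at hcon
      nlinarith only [h13, hκ, hcon]
    have h10 : S.D t * S.ρ ^ (n j) * 2 ^ b ≤ 1 := by
      refine le_trans ?_ h9
      have := pow_nonneg hρ.le (n j)
      gcongr
    have h11 := S.fS_le_F t (b + W) (n j) h9
    have h12 := S.F_le_fS t b (n j) h10
    unfold C10
    linarith only [h3, h5, h6, h8, h11, h12]
  have h3 : S.fS t (b + W) - S.fS t b - S.C10 ≤ ∑ j, c.w j *
      ((S.P.pi (n j)).H (fun ω => ⌊(2 : ℝ) ^ (b + W) * s * X ⟨j, ω⟩⌋)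
        - (S.P.pi (n j)).H (fun ω => ⌊(2 : ℝ) ^ b * s * X ⟨j, ω⟩⌋)) := by
    calc S.fS t (b + W) - S.fS t b - S.C10
        = ∑ j, c.w j * (S.fS t (b + W) - S.fS t b - S.C10) := by
          rw [← Finset.sum_mul, c.sum_one, one_mul]
      _ ≤ _ := Finset.sum_le_sum fun j _ => mul_le_mul_of_nonneg_left (h2 j) (c.nonneg j)
  unfold F
  linarith only [h1, h3]

theorem fS_incr_mono_aux (t : Λ → ℝ) (j b W : ℕ) :
    S.fS t (b + W) - S.fS t b - (S.C10 + 2 * Real.log 3)
      ≤ S.fS t (j + b + W) - S.fS t (j + b) := by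
  set N := S.Nb t (j + b + W) with hN
  have h0 := S.Nb_spec t (j + b + W)
  have h1 := S.F_incr_mono t N b W (2 ^ j) (one_le_pow₀ (by norm_num)) (by
    rw [← pow_add, show b + W + j = j + b + W by omega]
    exact h0)
  rw [← pow_add, ← pow_add, show b + W + j = j + b + W by omega,
    show b + j = j + b by omega] at h1
  have h2 : S.D t * S.ρ ^ N * 2 ^ (j + b + W) ≤ 1 := S.Nb_spec' t (j + b + W)
  have h3 : S.D t * S.ρ ^ N * 2 ^ (j + b) ≤ 1 := by
    refine le_trans ?_ h2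
    have := S.D_nonneg t
    have := pow_nonneg S.ρ_pos.le N
    have h3 : (2 : ℝ) ^ (j + b) ≤ 2 ^ (j + b + W) := pow_le_pow_right₀ (by norm_num) (by omega)
    (clear hN h0 h1 h2; gcongr)
  have h4 := S.F_le_fS t (j + b + W) N h2
  have h5 := S.fS_le_F t (j + b) N h3
  linarith only [h1, h4, h5]

theorem fS_window_aux (t : Λ → ℝ) (b W : ℕ) :
    S.fS t (b + W) - S.fS t b
      ≤ S.alpha t * (W * Real.log 2) + (S.C10 + 2 * Real.log 3) := by
  by_contra hcon
  push Not at hcon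
  set C := S.C10 + 2 * Real.log 3 with hC
  set G : ℝ := S.fS t (b + W) - S.fS t b - C - S.alpha t * (W * Real.log 2) with hG
  have hG0 : 0 < G := by linarith only [hcon]
  have htel : ∀ L : ℕ, L * (S.fS t (b + W) - S.fS t b - C) ≤ S.fS t (b + L * W) - S.fS t b := by
    intro L
    induction L with
    | zero => simp
    | succ L ih =>
      have h1 := S.fS_incr_mono_aux t (L * W) b W
      rw [← hC, show L * W + b + W = b + (L + 1) * W by ring,
        show L * W + b = b + L * W by ring] at h1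
      push_cast
      linarith only [ih, h1]
  obtain ⟨L, hL⟩ := exists_nat_gt ((S.alpha t * (b * Real.log 2) + S.C5 t) / G)
  rw [div_lt_iff₀ hG0] at hL
  have h1 := htel L
  have h2 := S.fS_le_alpha t (b + L * W)
  have h3 := S.fS_nonneg t b
  push_cast at h2
  have h4 : (L : ℝ) * (S.fS t (b + W) - S.fS t b - C)
      = L * G + L * (S.alpha t * (W * Real.log 2)) := by rw [hG]; ring
  rw [h4] at h1
  linarith

end Sys

end Vale.Agent.P114
end
end

section

/-!
T11-N1. Entropy of `Yt` for all slopes.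
-/

open scoped Classical

noncomputable section

namespace Vale.Agent.P114

open FinProb

variable {Λ : Type} [Fintype Λ]

namespace Sys
variable (S : Sys Λ)

/-- The dyadic size of a slope. -/
lemma exists_dyadic_slope (s : ℝ) (h0 : s ≠ 0) (h1 : |s| ≤ 1) :
    ∃ e : ℕ, 2 ^ e * |s| ≤ 1 ∧ 1 ≤ 2 ^ (e + 1) * |s| := by
  have hs : 0 < |s| := abs_pos.2 h0
  have hex : ∃ n : ℕ, 1 ≤ (2 : ℝ) ^ n * |s| := by
    obtain ⟨n, hn⟩ := pow_unbounded_of_one_lt (1 / |s|) (by norm_num : (1 : ℝ) < 2)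
    refine ⟨n, ?_⟩
    rw [div_lt_iff₀ hs] at hn
    exact hn.le
  rcases Nat.eq_zero_or_pos (Nat.find hex) with h | h
  · refine ⟨0, by simpa only [pow_zero, one_mul] using h1, ?_⟩
    have h2 := Nat.find_spec hex
    rw [h, pow_zero, one_mul] at h2
    rw [zero_add, pow_one]
    linarith only [h2]
  · obtain ⟨e, he⟩ := Nat.exists_eq_succ_of_ne_zero h.ne'
    refine ⟨e, ?_, ?_⟩
    · have h2 := Nat.find_min hex (m := e) (by omega)
      exact (not_le.1 h2).le
    · have h2 := Nat.find_spec hex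
      rw [he] at h2
      exact h2

/-- The entropies of the scaled part are near the entropy profile. -/
lemma level_gen (t : Λ → ℝ) (N' m k e : ℕ) (s : ℝ) (he1 : 2 ^ e * |s| ≤ 1)
    (he2 : 1 ≤ 2 ^ (e + 1) * |s|) (hek : e ≤ k) (hkm : k ≤ m)
    (hN' : S.D t * S.ρ ^ N' * 2 ^ m ≤ 1) :
    (S.P.pi N').H (fun v => ⌊(2 : ℝ) ^ k * (s * tr S.r t v)⌋)
      ≤ S.fS t (k - e) + 2 * Real.log 3 ∧
    S.fS t (k - e) ≤ (S.P.pi N').H (fun v => ⌊(2 : ℝ) ^ k * (s * tr S.r t v)⌋)
      + (Real.log 4 + 2 * Real.log 3) := by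
  have hs0 : 0 < |s| := by
    by_contra h
    have : |s| = 0 := le_antisymm (not_lt.1 h) (abs_nonneg _)
    rw [this, mul_zero] at he2
    linarith only [he2]
  have e1 : (fun v : Fin N' → Λ => ⌊(2 : ℝ) ^ k * (s * tr S.r t v)⌋)
      = fun v => ⌊((2 : ℝ) ^ k * s) * tr S.r t v + 0⌋ := by
    funext v
    congr 1
    ring
  have e2 : (2 : ℝ) ^ k = 2 ^ (k - e) * 2 ^ e := by
    rw [← pow_add]
    congr 1
    omega
  have a1 : |(2 : ℝ) ^ k * s| = 2 ^ (k - e) * (2 ^ e * |s|) := by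
    rw [abs_mul, abs_of_pos (by positivity), e2]
    ring
  have hp : (0 : ℝ) < 2 ^ (k - e) := by positivity
  have h2b : (0 : ℝ) < 2 ^ e * |s| := by positivity
  have hle : S.D t * S.ρ ^ N' * 2 ^ (k - e) ≤ 1 := by
    refine le_trans ?_ hN'
    have := S.D_nonneg t
    have := pow_nonneg S.ρ_pos.le N'
    have h3 : (2 : ℝ) ^ (k - e) ≤ 2 ^ m := pow_le_pow_right₀ (by norm_num) (by omega)
    (clear s he1 he2 hN' hs0 e1 e2 a1 hp h2b; gcongr)
  rw [e1]
  constructor
  · have h1 := S.F_rescale t N' (2 ^ (k - e)) ((2 : ℝ) ^ k * s) 0 hp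
    rw [a1, mul_div_cancel_left₀ _ hp.ne'] at h1
    have h2 : Real.log (2 ^ e * |s| + 2) ≤ Real.log 3 :=
      Real.log_le_log (by positivity) (by linarith only [he1])
    have h3 := S.F_le_fS t (k - e) N' hle
    linarith only [h1, h2, h3]
  · have h1 := S.F_rescale' t N' (2 ^ (k - e)) ((2 : ℝ) ^ k * s) 0 (by
      rw [a1]; positivity)
    rw [a1, abs_of_pos hp] at h1
    have h2 : (2 : ℝ) ^ (k - e) / (2 ^ (k - e) * (2 ^ e * |s|)) ≤ 2 := by
      rw [div_le_iff₀ (by positivity)]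
      have h5 : 1 ≤ 2 * (2 ^ e * |s|) := by
        rw [pow_succ] at he2
        linarith only [he2]
      nlinarith only [hp, h5]
    have h3 : Real.log ((2 : ℝ) ^ (k - e) / (2 ^ (k - e) * (2 ^ e * |s|)) + 2) ≤ Real.log 4 :=
      Real.log_le_log (by positivity) (by linarith only [h2])
    have h4 := S.fS_le_F t (k - e) N' hle
    linarith only [h1, h3, h4]

/-- Below the size of the slope the entropy is bounded. -/
lemma low_gen (t : Λ → ℝ) (N' k e : ℕ) (s : ℝ) (he1 : 2 ^ e * |s| ≤ 1) (hek : k ≤ e) :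
    (S.P.pi N').H (fun v => ⌊(2 : ℝ) ^ k * (s * tr S.r t v)⌋) ≤ Real.log (2 * S.D t + 3) := by
  have e1 : (fun v : Fin N' → Λ => ⌊(2 : ℝ) ^ k * (s * tr S.r t v)⌋)
      = fun v => ⌊((2 : ℝ) ^ k * s) * tr S.r t v + 0⌋ := by
    funext v
    congr 1
    ring
  rw [e1]
  have h1 := H_floor_le_log (S.P.pi N') (fun w => tr S.r t w) (S.D t) ((2 : ℝ) ^ k * s) 0
    (fun w => S.abs_tr_le t w)
  refine h1.trans ?_
  have hD := S.D_nonneg t
  have h2 : |(2 : ℝ) ^ k * s| ≤ 1 := by
    rw [abs_mul, abs_of_pos (by positivity)]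
    refine le_trans ?_ he1
    have h3 : (2 : ℝ) ^ k ≤ 2 ^ e := pow_le_pow_right₀ (by norm_num) hek
    exact mul_le_mul_of_nonneg_right h3 (abs_nonneg _)
  refine Real.log_le_log (by (clear * - hD; positivity)) ?_
  have : |(2 : ℝ) ^ k * s| * S.D t ≤ 1 * S.D t := mul_le_mul_of_nonneg_right h2 hD
  linarith only [this]

/-- Constant for `Yt_window_gen`. -/
def C13 (t : Λ → ℝ) : ℝ :=
  S.C10 + S.C5 t + Real.log (2 * S.D t + 3) + (Real.log 4 + 6 * Real.log 3)

/-- Window bound for all slopes. `Yt / 2^j = ⌊2^(b+M-j) s tr⌋` (`j ≤ b+M`); if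
`2^(b+M-j)|s| ≥ 1` its entropy is `fS(⌊log₂ (2^(b+M-j)|s|)⌋)` up to a constant (`F_rescale`,
`F_rescale'`, `fS_le_F`, `F_le_fS`), otherwise it is bounded; `fS_window_aux`, `fS_le_alpha`. -/
theorem Yt_window_gen (t : Λ → ℝ) : ∃ C : ℝ, 0 ≤ C ∧ ∀ (b M N' : ℕ) (s : ℝ), s ≠ 0 → |s| ≤ 1 →
    S.D t * S.ρ ^ N' * 2 ^ (b + M) ≤ 1 → ∀ j W : ℕ,
      (S.P.pi N').H (fun v => S.Yt t N' b M s v / 2 ^ j)
        - (S.P.pi N').H (fun v => S.Yt t N' b M s v / 2 ^ (j + W))
        ≤ S.alpha t * (W * Real.log 2) + C := by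
  have hα0 := S.alpha_nonneg t
  have hlog : 0 < Real.log 2 := Real.log_pos (by norm_num)
  have hl3 : 0 ≤ Real.log 3 := Real.log_nonneg (by norm_num)
  have hl4 : 0 ≤ Real.log 4 := Real.log_nonneg (by norm_num)
  have hC10 := S.C10_nonneg
  have hC5 := S.C5_nonneg t
  have hD := S.D_nonneg t
  have hlD : 0 ≤ Real.log (2 * S.D t + 3) := Real.log_nonneg (by linarith)
  refine ⟨S.C13 t, by unfold C13; positivity, fun b M N' s h0 h1 hN' j W => ?_⟩
  obtain ⟨e, he1, he2⟩ := exists_dyadic_slope s h0 h1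
  have hW0 : 0 ≤ S.alpha t * (W * Real.log 2) := by positivity
  have hnn := H_nonneg (S.P.pi N') (fun v => S.Yt t N' b M s v / 2 ^ (j + W))
  -- scale `j` as a function
  have hfl : ∀ j ≤ b + M, (fun v : Fin N' → Λ => S.Yt t N' b M s v / 2 ^ j)
      = fun v => ⌊(2 : ℝ) ^ (b + M - j) * (s * tr S.r t v)⌋ := by
    intro j hj
    funext v
    unfold Yt
    rw [floor_pow_ediv _ _ _ hj]
  -- upper bound when the scale is low
  have hlow : b + M ≤ j + e → (S.P.pi N').H (fun v => S.Yt t N' b M s v / 2 ^ j)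
      ≤ Real.log (2 * S.D t + 3) := by
    intro h
    rcases le_total j (b + M) with hj | hj
    · rw [hfl j hj]
      exact S.low_gen t N' (b + M - j) e s he1 (by omega)
    · have h2 : (S.P.pi N').H (fun v => S.Yt t N' b M s v / 2 ^ j)
          ≤ (S.P.pi N').H (fun v => S.Yt t N' b M s v / 2 ^ (b + M)) := by
        refine H_le_of_det _ fun v v' hv => ?_
        have e' : ∀ z : ℤ, z / 2 ^ j = z / 2 ^ (b + M) / 2 ^ (j - (b + M)) := by
          intro z
          rw [Int.ediv_ediv_of_nonneg (by positivity), ← pow_add, Nat.add_sub_cancel' hj]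
        rw [e', e', hv]
      refine h2.trans ?_
      rw [hfl (b + M) le_rfl]
      exact S.low_gen t N' (b + M - (b + M)) e s he1 (by omega)
  rcases le_total (b + M) (j + e) with h | h
  · have := hlow h
    unfold C13
    linarith only [this, hnn, hW0, hC5, hC10, hl4, hl3]
  · have hup : (S.P.pi N').H (fun v => S.Yt t N' b M s v / 2 ^ j)
        ≤ S.fS t (b + M - j - e) + 2 * Real.log 3 := by
      rw [hfl j (by omega)]
      exact (S.level_gen t N' (b + M) (b + M - j) e s he1 he2 (by omega) (by omega) hN').1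
    by_cases h2 : j + W + e ≤ b + M
    · have h3 := (S.level_gen t N' (b + M) (b + M - (j + W)) e s he1 he2 (by omega) (by omega)
        hN').2
      rw [← hfl (j + W) (by omega)] at h3
      have h4 := S.fS_window_aux t (b + M - (j + W) - e) W
      rw [show b + M - (j + W) - e + W = b + M - j - e by omega] at h4
      unfold C13
      linarith only [hC5, hlD, hup, h3, h4]
    · have h3 := S.fS_le_alpha t (b + M - j - e)
      have h4 : ((b + M - j - e : ℕ) : ℝ) ≤ W := by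
        have : b + M - j - e ≤ W := by omega
        exact_mod_cast this
      have h5 : S.alpha t * (((b + M - j - e : ℕ) : ℝ) * Real.log 2)
          ≤ S.alpha t * (W * Real.log 2) := by
        (clear * - h4 hα0; gcongr)
      unfold C13
      linarith only [h5, h3, hup, hnn, hlD, hC10, hl4, hl3]

/-- Lower bound of the increment. -/
theorem Yt_incr_gen (t : Λ → ℝ) : ∃ C : ℝ, 0 ≤ C ∧ ∀ (b M N' : ℕ) (s : ℝ), s ≠ 0 → |s| ≤ 1 →
    S.D t * S.ρ ^ N' * 2 ^ (b + M) ≤ 1 →
      S.fS t (b + M) - S.alpha t * Real.log (1 / |s|)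
        - S.alpha t * max 0 (Real.log (2 ^ b * |s|)) - C
        ≤ (S.P.pi N').H (S.Yt t N' b M s)
          - (S.P.pi N').H (fun v => S.Yt t N' b M s v / 2 ^ M) := by
  have hα0 := S.alpha_nonneg t
  have hlog : 0 < Real.log 2 := Real.log_pos (by norm_num)
  have hl3 : 0 ≤ Real.log 3 := Real.log_nonneg (by norm_num)
  have hl4 : 0 ≤ Real.log 4 := Real.log_nonneg (by norm_num)
  have hC10 := S.C10_nonneg
  have hC5 := S.C5_nonneg t
  have hD := S.D_nonneg t
  have hlD : 0 ≤ Real.log (2 * S.D t + 3) := Real.log_nonneg (by linarith only [hD])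
  have hα2 : 0 ≤ S.alpha t * Real.log 2 := by positivity
  refine ⟨S.C13 t + S.alpha t * Real.log 2, by unfold C13; (clear * - hC10 hC5 hlD hα0; positivity),
    fun b M N' s h0 h1 hN' => ?_⟩
  obtain ⟨e, he1, he2⟩ := exists_dyadic_slope s h0 h1
  have hs : 0 < |s| := abs_pos.2 h0
  have hmax0 : 0 ≤ S.alpha t * max 0 (Real.log (2 ^ b * |s|)) :=
    mul_nonneg hα0 (le_max_left _ _)
  have hels : (e : ℝ) * Real.log 2 ≤ Real.log (1 / |s|) := by
    rw [← Real.log_pow]
    refine Real.log_le_log (by positivity) ?_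
    rw [le_div_iff₀ hs]
    exact he1
  have hels' : S.alpha t * ((e : ℝ) * Real.log 2) ≤ S.alpha t * Real.log (1 / |s|) :=
    mul_le_mul_of_nonneg_left hels hα0
  have hdet : (S.P.pi N').H (fun v => S.Yt t N' b M s v / 2 ^ M)
      ≤ (S.P.pi N').H (S.Yt t N' b M s) :=
    H_le_of_det _ fun v v' hv => by rw [hv]
  rcases le_or_gt (b + M) e with h | h
  · have h2 := S.fS_le_alpha t (b + M)
    have h3 : ((b + M : ℕ) : ℝ) ≤ e := by exact_mod_cast h
    have h4 : S.alpha t * (((b + M : ℕ) : ℝ) * Real.log 2)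
        ≤ S.alpha t * ((e : ℝ) * Real.log 2) := by (clear * - h3 hα0; gcongr)
    unfold C13
    linarith only [hl3, hl4, hC10, hlD, hα2, hmax0, hels', hdet, h2, h4]
  · have hlev := (S.level_gen t N' (b + M) (b + M) e s he1 he2 h.le le_rfl hN').2
    have hY : (S.P.pi N').H (S.Yt t N' b M s)
        = (S.P.pi N').H (fun v => ⌊(2 : ℝ) ^ (b + M) * (s * tr S.r t v)⌋) := rfl
    rw [← hY] at hlev
    have hwin := S.fS_window_aux t (b + M - e) e
    rw [Nat.sub_add_cancel h.le] at hwin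
    have hM : (fun v : Fin N' → Λ => S.Yt t N' b M s v / 2 ^ M)
        = fun v => ⌊(2 : ℝ) ^ b * (s * tr S.r t v)⌋ := by
      funext v
      unfold Yt
      rw [floor_pow_ediv _ _ _ (Nat.le_add_left M b), Nat.add_sub_cancel]
    rcases le_total b e with hb | hb
    · have h3 := S.low_gen t N' b e s he1 hb
      rw [← hM] at h3
      unfold C13
      linarith only [hl3, hC5, hα2, hmax0, hels', hlev, hwin, h3]
    · have h3 := (S.level_gen t N' (b + M) b e s he1 he2 hb (Nat.le_add_right b M) hN').1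
      rw [← hM] at h3
      have h4 := S.fS_le_alpha t (b - e)
      have h5 : ((b - e : ℕ) : ℝ) * Real.log 2 ≤ Real.log 2 + Real.log (2 ^ b * |s|) := by
        rw [← Real.log_pow, ← Real.log_mul (by norm_num) (by positivity)]
        refine Real.log_le_log (by positivity) ?_
        have e2 : (2 : ℝ) ^ b = 2 ^ (b - e) * 2 ^ e := by
          rw [← pow_add]
          congr 1
          omega
        rw [e2]
        rw [pow_succ] at he2
        have hp : (0 : ℝ) < 2 ^ (b - e) := by positivity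
        linarith only [mul_nonneg (sub_nonneg.2 he2) (le_of_lt (sub_pos.2 hp))]
      have h6 : S.alpha t * (((b - e : ℕ) : ℝ) * Real.log 2)
          ≤ S.alpha t * Real.log 2 + S.alpha t * max 0 (Real.log (2 ^ b * |s|)) := by
        rw [← mul_add]
        refine mul_le_mul_of_nonneg_left (h5.trans ?_) hα0
        linarith only [le_max_right 0 (Real.log (2 ^ b * |s|))]
      unfold C13
      linarith only [h6, h4, h3, hwin, hlev, hels', hlD]

end Sys

end Vale.Agent.P114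
end
end

section

/-!
T11-E. Equidistribution of `x θ mod 1`.
-/

open scoped Classical

noncomputable section

namespace Vale.Agent.P114

end Vale.Agent.P114
end
end

section

open scoped Classical

noncomputable section

namespace Vale.Agent.P114

open MeasureTheory Matrix

/-- A family of independent rows has a nonzero maximal minor. -/
lemma exists_minor {ι : Type*} [Fintype ι] (k : ℕ) (a : Fin k → ι → ℝ)
    (h : LinearIndependent ℝ a) : ∃ f : Fin k → ι, ((Matrix.of a).submatrix id f).det ≠ 0 := by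
  have hrow : LinearIndependent ℝ (Matrix.of a).row := h
  have hr := hrow.rank_matrix
  rw [Fintype.card_fin, Matrix.rank_eq_finrank_span_cols] at hr
  have key := Submodule.exists_fun_fin_finrank_span_eq ℝ (Set.range (Matrix.of a).col)
  rw [hr] at key
  obtain ⟨f, hf, -, hli⟩ := key
  choose g hg using hf
  refine ⟨g, ?_⟩
  have hcol : LinearIndependent ℝ ((Matrix.of a).submatrix id g).col := by
    have : ((Matrix.of a).submatrix id g).col = f := by
      funext i
      rw [← hg i]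
      rfl
    rw [this]
    exact hli
  rw [Matrix.linearIndependent_cols_iff_isUnit, Matrix.isUnit_iff_isUnit_det] at hcol
  exact hcol.ne_zero

lemma adjugate_le {k : ℕ} (B : Matrix (Fin k) (Fin k) ℝ) (C0 : ℝ) (hC0 : 1 ≤ C0)
    (hB : ∀ i j, |B i j| ≤ C0) (i j : Fin k) :
    |B.adjugate i j| ≤ (k.factorial : ℝ) * C0 ^ k := by
  rw [Matrix.adjugate_apply]
  have h := Matrix.det_le (A := B.updateRow j (Pi.single i 1)) (abv := AbsoluteValue.abs)
    (x := C0) (by
      intro i' j'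
      show |B.updateRow j (Pi.single i 1) i' j'| ≤ C0
      rw [Matrix.updateRow_apply]
      split_ifs with h1
      · by_cases h2 : j' = i
        · subst h2; simpa using hC0
        · rw [Pi.single_eq_of_ne h2]; simp; linarith
      · exact hB i' j')
  rw [Fintype.card_fin, nsmul_eq_mul] at h
  exact h

/-- Correction map: solves `A y = A x` with `y` small. -/
lemma lin_lemma {ι : Type*} [Fintype ι] (k : ℕ) (C0 : ℝ) (hC0 : 1 ≤ C0)
    (a : Fin k → ι → ℝ) (hbd : ∀ j i, |a j i| ≤ C0) (f : Fin k → ι)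
    (hdet : ((Matrix.of a).submatrix id f).det ≠ 0) :
    ∃ Y : (ι → ℝ) →ₗ[ℝ] (ι → ℝ), (∀ x j, a j ⬝ᵥ (x - Y x) = 0) ∧
      ∀ x (τ : ℝ), (∀ j, |a j ⬝ᵥ x| ≤ τ) → 0 ≤ τ →
        ‖Y x‖ ≤ (k * (k * (k.factorial * C0 ^ k))) / |((Matrix.of a).submatrix id f).det| * τ := by
  set A : Matrix (Fin k) ι ℝ := Matrix.of a with hA
  set B : Matrix (Fin k) (Fin k) ℝ := A.submatrix id f with hB
  set E : Matrix ι (Fin k) ℝ := Matrix.of fun i j => if i = f j then 1 else 0 with hE
  have hAE : A * E = B := by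
    ext i j
    rw [Matrix.mul_apply]
    simp only [hA, of_apply, hE, mul_ite, mul_one, mul_zero, Finset.sum_ite_eq', Finset.mem_univ, ↓reduceIte, hB, submatrix_apply, id_eq]
  have hunit : IsUnit B.det := isUnit_iff_ne_zero.2 hdet
  refine ⟨(E * B⁻¹ * A).mulVecLin, ?_, ?_⟩
  · intro x j
    have h1 : A *ᵥ (x - (E * B⁻¹ * A).mulVecLin x) = 0 := by
      rw [Matrix.mulVec_sub, Matrix.mulVecLin_apply, Matrix.mulVec_mulVec]
      have : A * (E * B⁻¹ * A) = A := by
        rw [← Matrix.mul_assoc, ← Matrix.mul_assoc, hAE, Matrix.mul_nonsing_inv _ hunit,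
          Matrix.one_mul]
      rw [this, sub_self]
    exact congrFun h1 j
  · intro x τ hτ hτ0
    have hC00 : 0 ≤ C0 ^ k := by positivity
    have hinv : ∀ i j, |B⁻¹ i j| ≤ (k.factorial * C0 ^ k) / |B.det| := by
      intro i j
      rw [Matrix.inv_def, Matrix.smul_apply, smul_eq_mul, abs_mul, Ring.inverse_eq_inv', abs_inv,
        inv_mul_eq_div]
      have h2 := adjugate_le B C0 hC0 (fun i j => hbd i (f j)) i j
      (clear * - h2 hdet; gcongr)
    have hv : ∀ i, |(B⁻¹ *ᵥ (A *ᵥ x)) i| ≤ k * ((k.factorial * C0 ^ k) / |B.det| * τ) := by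
      intro i
      calc |(B⁻¹ *ᵥ (A *ᵥ x)) i| = |∑ j, B⁻¹ i j * (A *ᵥ x) j| := rfl
        _ ≤ ∑ j, |B⁻¹ i j * (A *ᵥ x) j| := Finset.abs_sum_le_sum_abs _ _
        _ ≤ ∑ _j : Fin k, (k.factorial * C0 ^ k) / |B.det| * τ := by
            refine Finset.sum_le_sum fun j _ => ?_
            rw [abs_mul]
            exact mul_le_mul (hinv i j) (hτ j) (abs_nonneg _) (by (clear * - hC0 hdet; positivity))
        _ = _ := by simp only [Finset.sum_const, Finset.card_univ, Fintype.card_fin, nsmul_eq_mul]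
    have hnn : 0 ≤ (k * (k * (k.factorial * C0 ^ k))) / |B.det| * τ := by (clear * - hC0 hdet hτ0; positivity)
    rw [pi_norm_le_iff_of_nonneg hnn]
    intro i
    have h3 : (E * B⁻¹ * A).mulVecLin x = E *ᵥ (B⁻¹ *ᵥ (A *ᵥ x)) := by
      rw [Matrix.mulVecLin_apply, Matrix.mulVec_mulVec, Matrix.mulVec_mulVec, Matrix.mul_assoc]
    rw [h3, Real.norm_eq_abs]
    calc |(E *ᵥ (B⁻¹ *ᵥ (A *ᵥ x))) i| = |∑ j, E i j * (B⁻¹ *ᵥ (A *ᵥ x)) j| := rfl
      _ ≤ ∑ j, |E i j * (B⁻¹ *ᵥ (A *ᵥ x)) j| := Finset.abs_sum_le_sum_abs _ _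
      _ ≤ ∑ _j : Fin k, k * ((k.factorial * C0 ^ k) / |B.det| * τ) := by
          refine Finset.sum_le_sum fun j _ => ?_
          rw [abs_mul]
          have h4 : |E i j| ≤ 1 := by
            simp only [hE, Matrix.of_apply]
            split_ifs <;> simp
          calc |E i j| * |(B⁻¹ *ᵥ (A *ᵥ x)) j| ≤ 1 * |(B⁻¹ *ᵥ (A *ᵥ x)) j| :=
                mul_le_mul_of_nonneg_right h4 (abs_nonneg _)
            _ ≤ _ := by rw [one_mul]; exact hv j
      _ = _ := by simp only [Finset.sum_const, Finset.card_univ, Fintype.card_fin, nsmul_eq_mul]; ring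

/-- Vectors annihilated by all forms of a set. -/
def ann {ι : Type*} [Fintype ι] (F : Set (ι → ℝ)) : Submodule ℝ (ι → ℝ) where
  carrier := {y | ∀ a ∈ F, a ⬝ᵥ y = 0}
  add_mem' := by
    intro x y hx hy a ha
    rw [dotProduct_add, hx a ha, hy a ha, add_zero]
  zero_mem' := fun a _ => dotProduct_zero a
  smul_mem' := by
    intro c x hx a ha
    rw [dotProduct_smul, hx a ha, smul_zero]

lemma mem_ann {ι : Type*} [Fintype ι] (F : Set (ι → ℝ)) (y : ι → ℝ) :
    y ∈ ann F ↔ ∀ a ∈ F, a ⬝ᵥ y = 0 := Iff.rfl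

lemma ann_span {ι : Type*} [Fintype ι] (F : Set (ι → ℝ)) :
    ann (Submodule.span ℝ F : Set (ι → ℝ)) = ann F := by
  ext y
  rw [mem_ann, mem_ann]
  constructor
  · intro h a ha
    exact h a (Submodule.subset_span ha)
  · intro h a ha
    induction ha using Submodule.span_induction with
    | mem x hx => exact h x hx
    | zero => exact zero_dotProduct y
    | add x z _ _ hx hz => rw [add_dotProduct, hx, hz, add_zero]
    | smul c x _ hx => rw [smul_dotProduct, hx, smul_zero]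

lemma ann_congr {ι : Type*} [Fintype ι] (F G : Set (ι → ℝ))
    (h : Submodule.span ℝ F = Submodule.span ℝ G) : ann F = ann G := by
  rw [← ann_span F, ← ann_span G, h]

/-- Dimension of the annihilator of an independent family. -/
lemma finrank_ann {ι : Type*} [Fintype ι] (k : ℕ) (a : Fin k → ι → ℝ)
    (h : LinearIndependent ℝ a) :
    k + Module.finrank ℝ (ann (Set.range a)) = Fintype.card ι := by
  have hrow : LinearIndependent ℝ (Matrix.of a).row := h
  have hr := hrow.rank_matrix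
  rw [Fintype.card_fin] at hr
  have h1 := LinearMap.finrank_range_add_finrank_ker (Matrix.of a).mulVecLin
  rw [Module.finrank_fintype_fun_eq_card] at h1
  have h2 : LinearMap.ker (Matrix.of a).mulVecLin = ann (Set.range a) := by
    ext y
    rw [LinearMap.mem_ker, mem_ann, Matrix.mulVecLin_apply]
    constructor
    · rintro h3 _ ⟨j, rfl⟩
      exact congrFun h3 j
    · intro h3
      funext j
      exact h3 _ ⟨j, rfl⟩
  rw [h2] at h1
  have h3 : Module.finrank ℝ (LinearMap.range (Matrix.of a).mulVecLin) = k := hr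
  rw [h3] at h1
  exact h1

end Vale.Agent.P114
end
end

section

open scoped Classical

noncomputable section

namespace Vale.Agent.P114

open MeasureTheory Matrix

/-- Measure of the set of bad parameters for one pair. -/
lemma bad_volume (p : ℝ × ℝ) (η : ℝ) (hη0 : 0 < η) (hη : η ≤ 1 / 2) :
    volume ({s : ℝ | |p.1 + s * p.2| < η * max |p.1| |p.2|} ∩ Set.Icc 0 1)
      ≤ ENNReal.ofReal (4 * η) := by
  set m := max |p.1| |p.2| with hm
  have hm1 : |p.1| ≤ m := le_max_left _ _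
  have hm2 : |p.2| ≤ m := le_max_right _ _
  have hm0 : 0 ≤ m := (abs_nonneg _).trans hm1
  rcases hm0.eq_or_lt with h0 | h0
  · have : ({s : ℝ | |p.1 + s * p.2| < η * m} ∩ Set.Icc 0 1) = ∅ := by
      rw [Set.eq_empty_iff_forall_notMem]
      rintro s ⟨hs, -⟩
      simp only [Set.mem_setOf_eq, ← h0, mul_zero] at hs
      exact absurd hs (not_lt.2 (abs_nonneg _))
    rw [this]
    simp only [measure_empty, Nat.ofNat_nonneg, ENNReal.ofReal_mul, ENNReal.ofReal_ofNat, zero_le]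
  · rcases lt_or_ge |p.2| (m / 2) with h1 | h1
    · have h2 : |p.1| = m := by
        rcases max_choice |p.1| |p.2| with h | h
        · exact (hm.trans h).symm
        · have : |p.2| = m := (hm.trans h).symm
          linarith only [h0, h1, h]
      have : ({s : ℝ | |p.1 + s * p.2| < η * m} ∩ Set.Icc 0 1) = ∅ := by
        rw [Set.eq_empty_iff_forall_notMem]
        rintro s ⟨hs, hs0, hs1⟩
        simp only [Set.mem_setOf_eq] at hs
        have h3 : |s * p.2| ≤ m / 2 := by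
          rw [abs_mul, abs_of_nonneg hs0]
          calc s * |p.2| ≤ 1 * |p.2| := mul_le_mul_of_nonneg_right hs1 (abs_nonneg _)
            _ ≤ m / 2 := by linarith only [h1]
        have h4 : |p.1| ≤ |p.1 + s * p.2| + |s * p.2| := by
          have := abs_sub (p.1 + s * p.2) (s * p.2)
          simpa only [abs_mul, ge_iff_le, add_sub_cancel_right] using this
        have h5 : η * m ≤ 1 / 2 * m := mul_le_mul_of_nonneg_right hη h0.le
        linarith only [h5, h4, h3, hs, h2]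
      rw [this]
      simp only [measure_empty, Nat.ofNat_nonneg, ENNReal.ofReal_mul, ENNReal.ofReal_ofNat, zero_le]
    · have hp2 : 0 < |p.2| := by linarith only [h0, h1]
      have hp2' : p.2 ≠ 0 := abs_pos.1 hp2
      have hsub : ({s : ℝ | |p.1 + s * p.2| < η * m} ∩ Set.Icc 0 1)
          ⊆ Metric.closedBall (-p.1 / p.2) (2 * η) := by
        rintro s ⟨hs, -⟩
        simp only [Set.mem_setOf_eq] at hs
        rw [Metric.mem_closedBall, Real.dist_eq]
        have e : s - -p.1 / p.2 = (p.1 + s * p.2) / p.2 := by field_simp; ring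
        rw [e, abs_div, div_le_iff₀ hp2]
        linarith only [mul_nonneg (le_of_lt (sub_pos.2 hη0)) (sub_nonneg.2 h1), hs]
      refine (measure_mono hsub).trans ?_
      rw [Real.volume_closedBall]
      exact ENNReal.ofReal_le_ofReal (by linarith only [])

/-- A good parameter for countably many finite sets of pairs. -/
lemma exists_good_param (A : ℝ) (hA : 1 ≤ A) (T : ℕ → Finset (ℝ × ℝ))
    (hT : ∀ n, ((T n).card : ℝ) ≤ A ^ n) :
    ∃ s c : ℝ, 0 < c ∧ c ≤ 1 ∧ ∀ n ≥ 1, ∀ p ∈ T n,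
      c ^ n * max |p.1| |p.2| ≤ |p.1 + s * p.2| := by
  set c : ℝ := 1 / (16 * A) with hc
  have hA0 : 0 < A := by linarith only [hA]
  have hc0 : 0 < c := by positivity
  have hc1 : c ≤ 1 / 16 := by
    rw [hc]
    exact one_div_le_one_div_of_le (by norm_num) (by linarith only [hA])
  have hAc : A * c = 1 / 16 := by rw [hc]; field_simp
  set bad : ℕ → ℝ × ℝ → Set ℝ := fun n p =>
    {s : ℝ | |p.1 + s * p.2| < c ^ (n + 1) * max |p.1| |p.2|} ∩ Set.Icc 0 1 with hbad
  have hvol : volume (⋃ n : ℕ, ⋃ p ∈ T (n + 1), bad n p) < volume (Set.Icc (0 : ℝ) 1) := by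
    have h1 : ∀ n : ℕ, volume (⋃ p ∈ T (n + 1), bad n p)
        ≤ ENNReal.ofReal (4 * (1 / 16) * (1 / 16) ^ n) := by
      intro n
      refine (measure_biUnion_finset_le _ _).trans ?_
      have hcn : c ^ (n + 1) ≤ 1 / 2 := by
        calc c ^ (n + 1) ≤ c ^ 1 :=
              pow_le_pow_of_le_one hc0.le (by linarith only [hc1]) (by omega)
          _ ≤ 1 / 2 := by rw [pow_one]; linarith
      calc ∑ p ∈ T (n + 1), volume (bad n p)
          ≤ ∑ _p ∈ T (n + 1), ENNReal.ofReal (4 * c ^ (n + 1)) :=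
            Finset.sum_le_sum fun p _ => bad_volume p _ (by positivity) hcn
        _ = ((T (n + 1)).card : ENNReal) * ENNReal.ofReal (4 * c ^ (n + 1)) := by
            rw [Finset.sum_const, nsmul_eq_mul]
        _ = ENNReal.ofReal ((T (n + 1)).card * (4 * c ^ (n + 1))) := by
            rw [ENNReal.ofReal_mul (Nat.cast_nonneg _), ENNReal.ofReal_natCast]
        _ ≤ ENNReal.ofReal (4 * (1 / 16) * (1 / 16) ^ n) := by
            refine ENNReal.ofReal_le_ofReal ?_
            calc ((T (n + 1)).card : ℝ) * (4 * c ^ (n + 1))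
                ≤ A ^ (n + 1) * (4 * c ^ (n + 1)) :=
                  mul_le_mul_of_nonneg_right (hT (n + 1)) (by positivity)
              _ = 4 * (A * c) ^ (n + 1) := by rw [mul_pow]; ring
              _ = _ := by rw [hAc, pow_succ]; ring
    calc volume (⋃ n : ℕ, ⋃ p ∈ T (n + 1), bad n p)
        ≤ ∑' n : ℕ, volume (⋃ p ∈ T (n + 1), bad n p) := measure_iUnion_le _
      _ ≤ ∑' n : ℕ, ENNReal.ofReal (4 * (1 / 16) * (1 / 16) ^ n) :=
          ENNReal.tsum_le_tsum h1
      _ = ENNReal.ofReal (∑' n : ℕ, 4 * (1 / 16) * (1 / 16) ^ n) := by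
          rw [ENNReal.ofReal_tsum_of_nonneg (fun n => by positivity)]
          exact (summable_geometric_of_lt_one (by norm_num) (by norm_num)).mul_left _
      _ < volume (Set.Icc (0 : ℝ) 1) := by
          rw [Real.volume_Icc, tsum_mul_left, tsum_geometric_of_lt_one (by norm_num) (by norm_num)]
          rw [ENNReal.ofReal_lt_ofReal_iff (by norm_num)]
          norm_num
  obtain ⟨s, hs, hs'⟩ : ∃ s ∈ Set.Icc (0 : ℝ) 1, s ∉ ⋃ n : ℕ, ⋃ p ∈ T (n + 1), bad n p := by
    by_contra hcon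
    push Not at hcon
    exact absurd (measure_mono hcon) (not_le.2 hvol)
  refine ⟨s, c, hc0, by linarith only [hc1], fun n hn p hp => ?_⟩
  obtain ⟨m, rfl⟩ := Nat.exists_eq_add_of_le' hn
  by_contra hcon
  push Not at hcon
  refine hs' (Set.mem_iUnion.2 ⟨m, Set.mem_iUnion₂.2 ⟨p, hp, hcon, hs⟩⟩)

/-- Generic vector in a finitely generated subspace. -/
lemma exists_generic_list {ι : Type*} [Fintype ι] (A : ℝ) (hA : 1 ≤ A)
    (L : ℕ → Finset (ι → ℝ)) (hL : ∀ n, ((L n).card : ℝ) ≤ A ^ n) (T : List (ι → ℝ)) :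
    ∃ v ∈ Submodule.span ℝ {x | x ∈ T}, ∃ c : ℝ, 0 < c ∧ c ≤ 1 ∧
      ∀ n ≥ 1, ∀ a ∈ L n, ∀ x ∈ T, c ^ n * |a ⬝ᵥ x| ≤ |a ⬝ᵥ v| := by
  induction T with
  | nil =>
    refine ⟨0, Submodule.zero_mem _, 1, one_pos, le_rfl, ?_⟩
    intro n _ a _ x hx
    simp at hx
  | cons y T ih =>
    obtain ⟨v', hv', c', hc'0, hc'1, h'⟩ := ih
    obtain ⟨s, c, hc0, hc1, h⟩ := exists_good_param A hA
      (fun n => (L n).image fun a => (a ⬝ᵥ y, a ⬝ᵥ v')) (fun n => by
        refine le_trans ?_ (hL n)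
        exact_mod_cast Finset.card_image_le)
    refine ⟨y + s • v', ?_, c * c', by positivity, mul_le_one₀ hc1 hc'0.le hc'1, ?_⟩
    · refine Submodule.add_mem _ (Submodule.subset_span (by simp)) (Submodule.smul_mem _ _ ?_)
      exact Submodule.span_mono (fun x hx => by simp at hx ⊢; exact Or.inr hx) hv'
    · intro n hn a ha x hx
      have h1 := h n hn (a ⬝ᵥ y, a ⬝ᵥ v') (Finset.mem_image_of_mem _ ha)
      simp only at h1
      rw [dotProduct_add, dotProduct_smul, smul_eq_mul]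
      rw [List.mem_cons] at hx
      have hcn : 0 ≤ c ^ n := by positivity
      have hc'n : c' ^ n ≤ 1 := pow_le_one₀ hc'0.le hc'1
      rcases hx with rfl | hx
      · calc (c * c') ^ n * |a ⬝ᵥ x| = c ^ n * (c' ^ n * |a ⬝ᵥ x|) := by rw [mul_pow]; ring
          _ ≤ c ^ n * (1 * |a ⬝ᵥ x|) := by gcongr
          _ ≤ c ^ n * max |a ⬝ᵥ x| |a ⬝ᵥ v'| := by
              rw [one_mul]
              gcongr
              exact le_max_left _ _
          _ ≤ _ := h1
      · have h2 := h' n hn a ha x hx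
        calc (c * c') ^ n * |a ⬝ᵥ x| = c ^ n * (c' ^ n * |a ⬝ᵥ x|) := by rw [mul_pow]; ring
          _ ≤ c ^ n * |a ⬝ᵥ v'| := by (clear * - h2 hc0; gcongr)
          _ ≤ c ^ n * max |a ⬝ᵥ y| |a ⬝ᵥ v'| := by
              gcongr
              exact le_max_right _ _
          _ ≤ _ := h1

/-- Generic vector in a subspace, uniform version. -/
lemma exists_generic {ι : Type*} [Fintype ι] (A : ℝ) (hA : 1 ≤ A)
    (L : ℕ → Finset (ι → ℝ)) (hL : ∀ n, ((L n).card : ℝ) ≤ A ^ n)
    (V : Submodule ℝ (ι → ℝ)) :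
    ∃ v ∈ V, ∃ c C : ℝ, 0 < c ∧ c ≤ 1 ∧ 0 ≤ C ∧
      ∀ n ≥ 1, ∀ a ∈ L n, ∀ x ∈ V, c ^ n * |a ⬝ᵥ x| ≤ C * ‖x‖ * |a ⬝ᵥ v| := by
  set bas := Module.finBasis ℝ V with hbas
  set T : List (ι → ℝ) := List.ofFn fun i => (bas i : ι → ℝ) with hT
  obtain ⟨v, hv, c, hc0, hc1, h⟩ := exists_generic_list A hA L hL T
  have hspan : Submodule.span ℝ {x | x ∈ T} ≤ V := by
    rw [Submodule.span_le]
    intro x hx
    simp only [hT, Set.mem_setOf_eq, List.mem_ofFn] at hx
    obtain ⟨i, rfl⟩ := hx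
    exact (bas i).2
  have hco : ∀ i, ∃ C : ℝ, 0 ≤ C ∧ ∀ x : V, |bas.repr x i| ≤ C * ‖(x : ι → ℝ)‖ := by
    intro i
    refine ⟨‖LinearMap.toContinuousLinearMap (bas.coord i)‖,
      ContinuousLinearMap.opNorm_nonneg _, fun x => ?_⟩
    have := (LinearMap.toContinuousLinearMap (bas.coord i)).le_opNorm x
    simpa only [ge_iff_le, LinearMap.coe_toContinuousLinearMap', Module.Basis.coord_apply, Real.norm_eq_abs,     Submodule.coe_norm] using this
  choose C hC0 hC using hco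
  refine ⟨v, hspan hv, c, ∑ i, C i, hc0, hc1, Finset.sum_nonneg fun i _ => hC0 i, ?_⟩
  intro n hn a ha x hx
  have hcn : 0 ≤ c ^ n := by positivity
  have e1 : x = ∑ i, bas.repr ⟨x, hx⟩ i • (bas i : ι → ℝ) := by
    have := congrArg (Subtype.val) (bas.sum_repr ⟨x, hx⟩)
    simp only [Submodule.coe_sum, Submodule.coe_smul] at this
    exact this.symm
  have e2 : a ⬝ᵥ x = ∑ i, bas.repr ⟨x, hx⟩ i * (a ⬝ᵥ (bas i : ι → ℝ)) := by
    conv_lhs => rw [e1]
    rw [dotProduct_sum]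
    simp only [dotProduct_smul, smul_eq_mul]
  rw [e2]
  calc c ^ n * |∑ i, bas.repr ⟨x, hx⟩ i * (a ⬝ᵥ (bas i : ι → ℝ))|
      ≤ c ^ n * ∑ i, |bas.repr ⟨x, hx⟩ i * (a ⬝ᵥ (bas i : ι → ℝ))| := by
        gcongr
        exact Finset.abs_sum_le_sum_abs _ _
    _ = ∑ i, |bas.repr ⟨x, hx⟩ i| * (c ^ n * |a ⬝ᵥ (bas i : ι → ℝ)|) := by
        rw [Finset.mul_sum]
        refine Finset.sum_congr rfl fun i _ => ?_
        rw [abs_mul]; ring
    _ ≤ ∑ i, (C i * ‖x‖) * |a ⬝ᵥ v| := by
        refine Finset.sum_le_sum fun i _ => ?_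
        refine mul_le_mul (hC i ⟨x, hx⟩) (h n hn a ha _ ?_) (by (clear * - hc0; positivity))
          (mul_nonneg (hC0 i) (norm_nonneg _))
        simp only [hT, List.mem_ofFn]
        exact ⟨i, rfl⟩
    _ = _ := by rw [← Finset.sum_mul, ← Finset.sum_mul]

end Vale.Agent.P114
end
end

section

open scoped Classical

noncomputable section

namespace Vale.Agent.P114

open FinProb Filter Matrix

/-- The determinant bound property for the entries occurring at level `n`. -/
def DetProp {Λ : Type} (r : Λ → ℝ) (k : ℕ) (c : ℝ) : Prop :=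
  ∀ (n : ℕ) (M : Matrix (Fin k) (Fin k) ℝ), (∀ a b, M a b ∈ Ent r n) → M.det ≠ 0 →
    c ^ n ≤ |M.det|

lemma DetProp.mono {Λ : Type} {r : Λ → ℝ} {k : ℕ} {c c' : ℝ} (h : DetProp r k c)
    (hc' : 0 ≤ c') (hcc : c' ≤ c) : DetProp r k c' := fun n M hM hd =>
  (pow_le_pow_left₀ hc' hcc n).trans (h n M hM hd)

lemma exists_uniform_det {Λ : Type} (r : Λ → ℝ) (h : ∀ k, ∃ c : ℝ, 0 < c ∧ DetProp r k c)
    (N : ℕ) : ∃ c : ℝ, 0 < c ∧ c ≤ 1 ∧ ∀ k ≤ N, DetProp r k c := by
  induction N with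
  | zero =>
    obtain ⟨c, hc0, hc⟩ := h 0
    refine ⟨min c 1, lt_min hc0 one_pos, min_le_right _ _, fun k hk => ?_⟩
    have : k = 0 := by omega
    subst this
    exact hc.mono (lt_min hc0 one_pos).le (min_le_left _ _)
  | succ N ih =>
    obtain ⟨c1, h0, h1, h2⟩ := ih
    obtain ⟨c, hc0, hc⟩ := h (N + 1)
    refine ⟨min c c1, lt_min hc0 h0, (min_le_right _ _).trans h1, fun k hk => ?_⟩
    rcases Nat.lt_or_ge k (N + 1) with h3 | h3
    · exact (h2 k (by omega)).mono (lt_min hc0 h0).le (min_le_right _ _)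
    · have : k = N + 1 := by omega
      subst this
      exact hc.mono (lt_min hc0 h0).le (min_le_left _ _)

namespace Sys

variable {Λ : Type} [Fintype Λ] (S : Sys Λ)

/-- Difference form of a pair of words. -/
def dv {n : ℕ} (p : (Fin n → Λ) × (Fin n → Λ)) : Λ → ℝ :=
  fun i => coefL S.r (List.ofFn p.1) i - coefL S.r (List.ofFn p.2) i

lemma dv_dot {n : ℕ} (p : (Fin n → Λ) × (Fin n → Λ)) (x : Λ → ℝ) :
    S.dv p ⬝ᵥ x = tr S.r x p.1 - tr S.r x p.2 := by
  unfold tr
  rw [trL_eq_sum, trL_eq_sum, ← Finset.sum_sub_distrib]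
  unfold dotProduct dv
  exact Finset.sum_congr rfl fun i _ => sub_mul _ _ _

lemma dv_mem {n : ℕ} (p : (Fin n → Λ) × (Fin n → Λ)) (i : Λ) : S.dv p i ∈ Ent S.r n :=
  ⟨List.ofFn p.1, List.ofFn p.2, by simp, by simp, i, rfl⟩

lemma Ent_mono {m n : ℕ} (h : m ≤ n) : Ent S.r m ⊆ Ent S.r n := by
  rintro x ⟨u, v, hu, hv, i, hx⟩
  exact ⟨u, v, hu.trans h, hv.trans h, i, hx⟩

lemma coefL_le (u : List Λ) (i : Λ) : |coefL S.r u i| ≤ 1 / (1 - S.ρ) := by
  have h4 : 0 < 1 - S.ρ := by linarith only [S.ρ_lt]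
  induction u with
  | nil => simp only [coefL, abs_zero]; positivity
  | cons j u ih =>
    simp only [coefL]
    have h1 : |(if j = i then (1 : ℝ) else 0)| ≤ 1 := by split_ifs <;> simp
    have h2 : |S.r j * coefL S.r u i| ≤ S.ρ * (1 / (1 - S.ρ)) := by
      rw [abs_mul]
      exact mul_le_mul (S.le_ρ j) ih (abs_nonneg _) S.ρ_pos.le
    calc _ ≤ |(if j = i then (1 : ℝ) else 0)| + |S.r j * coefL S.r u i| := abs_add_le _ _
      _ ≤ 1 + S.ρ * (1 / (1 - S.ρ)) := add_le_add h1 h2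
      _ = _ := by field_simp; ring

/-- Bound for the coefficients. -/
def C0 : ℝ := 2 / (1 - S.ρ)

lemma one_le_C0 : 1 ≤ S.C0 := by
  have h4 : 0 < 1 - S.ρ := by linarith only [S.ρ_lt]
  unfold C0
  rw [le_div_iff₀ h4]
  linarith [S.ρ_pos]

lemma dv_le {n : ℕ} (p : (Fin n → Λ) × (Fin n → Λ)) (i : Λ) : |S.dv p i| ≤ S.C0 := by
  have h1 := S.coefL_le (List.ofFn p.1) i
  have h2 := S.coefL_le (List.ofFn p.2) i
  have h3 := abs_sub (coefL S.r (List.ofFn p.1) i) (coefL S.r (List.ofFn p.2) i)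
  have e : S.C0 = 1 / (1 - S.ρ) + 1 / (1 - S.ρ) := by unfold C0; ring
  rw [e]
  exact h3.trans (add_le_add h1 h2)

/-- Difference forms of the pairs that are indistinguishable at `v` at scale `2^{-qn}`. -/
def Fs (v : Λ → ℝ) (q n : ℕ) : Set (Λ → ℝ) :=
  {a | ∃ p : (Fin n → Λ) × (Fin n → Λ), sl S.r p.1 = sl S.r p.2 ∧
    ⌊(2 : ℝ) ^ (q * n) * tr S.r v p.1⌋ = ⌊(2 : ℝ) ^ (q * n) * tr S.r v p.2⌋ ∧ a = S.dv p}

lemma HG_le_of_ann (v : Λ → ℝ) (q n : ℕ) (x : Λ → ℝ) (hx : x ∈ ann (S.Fs v q n)) :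
    S.HG x n ≤ (S.P.pi n).H (fun w => (sl S.r w, ⌊(2 : ℝ) ^ (q * n) * tr S.r v w⌋)) := by
  refine FinProb.H_le_of_det _ fun u w h => ?_
  simp only [Prod.mk.injEq] at h ⊢
  refine ⟨h.1, ?_⟩
  have h1 := hx (S.dv (u, w)) ⟨(u, w), h.1, h.2, rfl⟩
  rw [S.dv_dot] at h1
  linarith only [h1]

lemma Fs_small (v : Λ → ℝ) (q n : ℕ) (a : Λ → ℝ) (ha : a ∈ S.Fs v q n) :
    |a ⬝ᵥ v| ≤ (1 / 2) ^ (q * n) := by
  obtain ⟨p, -, h, rfl⟩ := ha
  rw [S.dv_dot]
  have h1 := Int.abs_sub_lt_one_of_floor_eq_floor h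
  rw [← mul_sub, abs_mul, abs_of_pos (by positivity : (0 : ℝ) < 2 ^ (q * n))] at h1
  rw [one_div, inv_pow, ← one_div, le_div_iff₀ (by positivity)]
  linarith only [h1]

/-- Rigidity lemma: independent tiny forms. -/
lemma rigid (V : Submodule ℝ (Λ → ℝ)) (cd : ℝ) (hcd0 : 0 < cd)
    (hdet : ∀ k ≤ Fintype.card Λ, DetProp S.r k cd) (δ0 : ℝ) (hδ0 : 0 < δ0)
    (hδ1 : δ0 ≤ cd / 4) (C1 : ℝ) (hC1 : 0 ≤ C1) :
    ∃ nL : ℕ, ∀ n ≥ nL, ∀ (k : ℕ) (a : Fin k → Λ → ℝ), LinearIndependent ℝ a →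
      (∀ j i, a j i ∈ Ent S.r n) → (∀ j i, |a j i| ≤ S.C0) →
      (∀ j, ∀ x ∈ V, |a j ⬝ᵥ x| ≤ C1 * δ0 ^ n * ‖x‖) →
      k + Module.finrank ℝ V ≤ Fintype.card Λ ∧
      ∀ x ∈ V, ∃ y ∈ ann (Set.range a), ‖x - y‖ ≤ (1 / 2) ^ n * ‖x‖ := by
  have hC0 := S.one_le_C0
  set K : ℝ := ∑ k ∈ Finset.range (Fintype.card Λ + 1),
    ((k : ℝ) * (k * (k.factorial * S.C0 ^ k))) with hK
  have hterm : ∀ k : ℕ, 0 ≤ ((k : ℝ) * (k * (k.factorial * S.C0 ^ k))) := fun k => by
    have : 0 ≤ S.C0 := by linarith only [hC0]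
    (clear * - hC0; positivity)
  have hK0 : 0 ≤ K := Finset.sum_nonneg fun k _ => hterm k
  obtain ⟨n1, hn1⟩ := pow_unbounded_of_one_lt (K * C1) (show (1 : ℝ) < 2 by norm_num)
  refine ⟨n1 + 1, fun n hn k a hli hent hbd hsmall => ?_⟩
  have hk : k ≤ Fintype.card Λ := by
    have := hli.fintype_card_le_finrank
    simpa only [ge_iff_le, Fintype.card_fin, Module.finrank_fintype_fun_eq_card] using this
  have hKk : ((k : ℝ) * (k * (k.factorial * S.C0 ^ k))) ≤ K :=
    Finset.single_le_sum (f := fun k : ℕ => ((k : ℝ) * (k * (k.factorial * S.C0 ^ k))))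
      (fun k _ => hterm k) (Finset.mem_range.2 (by omega))
  obtain ⟨f, hf⟩ := exists_minor k a hli
  obtain ⟨Y, hY1, hY2⟩ := lin_lemma k S.C0 hC0 a hbd f hf
  have hd := hdet k hk n ((Matrix.of a).submatrix id f) (fun i j => hent i (f j)) hf
  have hcn : 0 < cd ^ n := by positivity
  have hpow : K * C1 ≤ 2 ^ n := hn1.le.trans (pow_le_pow_right₀ (by norm_num) (by omega))
  have hYle : ∀ x ∈ V, ‖Y x‖ ≤ (1 / 2) ^ n * ‖x‖ := by
    intro x hx
    have h1 := hY2 x (C1 * δ0 ^ n * ‖x‖) (fun j => hsmall j x hx) (by (clear * - hC1 hδ0; positivity))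
    refine h1.trans ?_
    have h2 : ((k : ℝ) * (k * (k.factorial * S.C0 ^ k)))
        / |((Matrix.of a).submatrix id f).det| ≤ K / cd ^ n := by
      (clear * - hC0 hKk hcd0 hd; gcongr)
    calc _ ≤ K / cd ^ n * (C1 * δ0 ^ n * ‖x‖) :=
          mul_le_mul_of_nonneg_right h2 (by (clear * - hC1 hδ0; positivity))
      _ = K * C1 * ((δ0 / cd) ^ n) * ‖x‖ := by rw [div_pow]; ring
      _ ≤ 2 ^ n * ((1 / 4) ^ n) * ‖x‖ := by
          have h3 : δ0 / cd ≤ 1 / 4 := by
            rw [div_le_iff₀ hcd0]; linarith only [hδ1]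
          (clear * - hpow hδ0 hcd0 h3; gcongr)
      _ = (1 / 2) ^ n * ‖x‖ := by rw [← mul_pow]; norm_num
  have hhalf : ((1 : ℝ) / 2) ^ n ≤ 1 / 2 := by
    calc ((1 : ℝ) / 2) ^ n ≤ (1 / 2) ^ 1 :=
          pow_le_pow_of_le_one (by norm_num) (by norm_num) (by omega)
      _ = 1 / 2 := pow_one _
  have hmem : ∀ x, x - Y x ∈ ann (Set.range a) := by
    rintro x _ ⟨j, rfl⟩
    exact hY1 x j
  refine ⟨?_, fun x hx => ⟨x - Y x, hmem x, ?_⟩⟩
  · have h1 := finrank_ann k a hli
    let Φ : V →ₗ[ℝ] ann (Set.range a) :=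
      LinearMap.codRestrict (ann (Set.range a)) ((LinearMap.id - Y).comp V.subtype)
        (fun x => hmem x)
    have hinj : Function.Injective Φ := by
      rw [← LinearMap.ker_eq_bot, LinearMap.ker_eq_bot']
      intro x hx
      have h2 : (x : Λ → ℝ) - Y x = 0 := congrArg Subtype.val hx
      have h3 : (x : Λ → ℝ) = Y x := sub_eq_zero.1 h2
      have h4 := hYle x x.2
      rw [← h3] at h4
      have h5 : ‖(x : Λ → ℝ)‖ ≤ 1 / 2 * ‖(x : Λ → ℝ)‖ :=
        h4.trans (mul_le_mul_of_nonneg_right hhalf (norm_nonneg _))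
      have h6 : ‖(x : Λ → ℝ)‖ = 0 := by
        have := norm_nonneg (x : Λ → ℝ)
        linarith only [this, h5]
      exact Subtype.ext (norm_eq_zero.1 h6)
    have h2 := LinearMap.finrank_le_finrank_of_injective hinj
    (clear * - h1 h2; omega)
  · have : x - (x - Y x) = Y x := by abel
    rw [this]
    exact hYle x hx

/-- Maximal subspace of vectors with small entropy dimension. -/
lemma exists_maximal_subspace (t0 : Λ → ℝ) : ∃ V : Submodule ℝ (Λ → ℝ), t0 ∈ V ∧
    (∀ x ∈ V, S.alpha x ≤ S.alpha t0) ∧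
    ∀ V' : Submodule ℝ (Λ → ℝ), V < V' → ∃ x ∈ V', S.alpha t0 < S.alpha x := by
  set 𝒮 : Set (Submodule ℝ (Λ → ℝ)) := {V | t0 ∈ V ∧ ∀ x ∈ V, S.alpha x ≤ S.alpha t0} with h𝒮
  have hne : 𝒮.Nonempty := by
    refine ⟨Submodule.span ℝ {t0}, Submodule.mem_span_singleton_self t0, fun x hx => ?_⟩
    obtain ⟨c, rfl⟩ := Submodule.mem_span_singleton.1 hx
    exact S.alpha_smul_le t0 c
  obtain ⟨V, hV, hmax⟩ := (wellFounded_gt (α := Submodule ℝ (Λ → ℝ))).has_min 𝒮 hne
  refine ⟨V, hV.1, hV.2, fun V' hVV' => ?_⟩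
  by_contra hcon
  push Not at hcon
  exact hmax V' ⟨hVV'.le hV.1, hcon⟩ hVV'

end Sys

end Vale.Agent.P114
end
end

section

open scoped Classical

noncomputable section

namespace Vale.Agent.P114

open FinProb Filter MeasureTheory

namespace Sys

variable {Λ : Type} [Fintype Λ] (S : Sys Λ)

lemma simMap_apply (t : Λ → ℝ) (i : Λ) (x : ℝ) : simMap S.r t i x = S.r i * x + t i := rfl

lemma measurable_simMap (t : Λ → ℝ) (i : Λ) : Measurable (simMap S.r t i) := by
  unfold simMap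
  fun_prop

/-- Real form of self-similarity. -/
lemma real_self (t : Λ → ℝ) (μ : Measure ℝ) (hμ : IsSelfSimilar S.r t S.P.w μ) (A : Set ℝ)
    (hA : MeasurableSet A) :
    μ.real A = ∑ i, S.P.w i * μ.real (simMap S.r t i ⁻¹' A) := by
  have := hμ.prob
  have h1 : μ A = ∑ i, ENNReal.ofReal (S.P.w i) * μ (simMap S.r t i ⁻¹' A) := by
    conv_lhs => rw [hμ.eq]
    rw [Measure.finsetSum_apply]
    refine Finset.sum_congr rfl fun i _ => ?_
    rw [Measure.smul_apply, smul_eq_mul, Measure.map_apply (S.measurable_simMap t i) hA]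
  unfold Measure.real
  rw [h1, ENNReal.toReal_sum]
  · refine Finset.sum_congr rfl fun i _ => ?_
    rw [ENNReal.toReal_mul, ENNReal.toReal_ofReal (S.P.nonneg i)]
  · intro i _
    exact ENNReal.mul_ne_top ENNReal.ofReal_ne_top (measure_ne_top _ _)

/-- The self-similar measure lives on `[-D, D]`. -/
lemma real_support (t : Λ → ℝ) (μ : Measure ℝ) (hμ : IsSelfSimilar S.r t S.P.w μ) :
    μ.real {x | S.D t < |x|} = 0 := by
  have := hμ.prob
  have hρ := S.ρ_pos
  have hρ1 : 0 < 1 - S.ρ := by linarith [S.ρ_lt]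
  set η : ℝ := (1 - S.ρ) / S.ρ with hη
  have hη0 : 0 < η := by (clear * - hρ1 hρ; positivity)
  have hmeas : ∀ R : ℝ, MeasurableSet {x : ℝ | R < |x|} := fun R =>
    measurableSet_lt measurable_const (by fun_prop)
  have hstep : ∀ R ≥ S.D t, μ.real {x | R < |x|} ≤ μ.real {x | R + η < |x|} := by
    intro R hR
    rw [S.real_self t μ hμ _ (hmeas R)]
    rw [← S.P.sum_const (μ.real {x | R + η < |x|})]
    refine S.P.sum_mono fun i => ?_
    refine measureReal_mono ?_
    intro x hx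
    simp only [Set.mem_preimage, Set.mem_setOf_eq, simMap_apply] at hx ⊢
    have h1 : |t i| ≤ ‖t‖ := norm_le_pi_norm t i
    have h2 : |S.r i * x + t i| ≤ S.ρ * |x| + ‖t‖ := by
      refine (abs_add_le _ _).trans (add_le_add ?_ h1)
      rw [abs_mul]
      exact mul_le_mul_of_nonneg_right (S.le_ρ i) (abs_nonneg _)
    have h3 : S.D t * (1 - S.ρ) = ‖t‖ + (1 - S.ρ) := by unfold D; (clear * - hρ1; field_simp)
    have h4 : R * (1 - S.ρ) ≥ ‖t‖ + (1 - S.ρ) := by
      rw [← h3]; exact mul_le_mul_of_nonneg_right hR hρ1.le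
    have h5 : S.ρ * (R + η) < S.ρ * |x| := by
      have : S.ρ * (R + η) = S.ρ * R + (1 - S.ρ) := by rw [hη]; (clear * - hρ; field_simp)
      rw [this]
      linarith
    exact lt_of_mul_lt_mul_left h5 hρ.le
  have hiter : ∀ k : ℕ, μ.real {x | S.D t < |x|} ≤ μ.real {x | S.D t + k * η < |x|} := by
    intro k
    induction k with
    | zero => simp
    | succ k ih =>
      refine ih.trans ((hstep _ ?_).trans (le_of_eq ?_))
      · have : 0 ≤ (k : ℝ) * η := by positivity
        linarith only [this]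
      · congr 2
        funext x
        push_cast
        ring_nf
  have hlim : Tendsto (fun k : ℕ => μ {x | S.D t + k * η < |x|}) atTop (nhds 0) := by
    have h1 := tendsto_measure_iInter_atTop (μ := μ) (s := fun k : ℕ => {x | S.D t + k * η < |x|})
      (fun k => (hmeas _).nullMeasurableSet) (by
        intro a b hab x hx
        simp only [Set.mem_setOf_eq] at hx ⊢
        have : (a : ℝ) ≤ b := by exact_mod_cast hab
        linarith only [mul_nonneg (le_of_lt (sub_pos.2 hη0)) (sub_nonneg.2 this), hx]) ⟨0, measure_ne_top _ _⟩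
    have h2 : ⋂ k : ℕ, {x : ℝ | S.D t + k * η < |x|} = ∅ := by
      rw [Set.eq_empty_iff_forall_notMem]
      intro x hx
      rw [Set.mem_iInter] at hx
      obtain ⟨k, hk⟩ := exists_nat_gt (|x| / η)
      have h3 := hx k
      simp only [Set.mem_setOf_eq] at h3
      rw [div_lt_iff₀ hη0] at hk
      have := S.D_nonneg t
      linarith only [hk, h3, this]
    rw [h2, measure_empty] at h1
    exact h1
  have hlim' : Tendsto (fun k : ℕ => μ.real {x | S.D t + k * η < |x|}) atTop (nhds 0) := by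
    have h := (ENNReal.tendsto_toReal ENNReal.zero_ne_top).comp hlim
    rw [ENNReal.toReal_zero] at h
    exact h
  exact le_antisymm (ge_of_tendsto' hlim' hiter) measureReal_nonneg

/-- Decomposition into pieces of size about `1/s`, simultaneously for the finite-level words and
for a self-similar set function. -/
lemma pieces2 (t : Λ → ℝ) (Mf : Set ℝ → ℝ)
    (hM : ∀ A, MeasurableSet A → Mf A = ∑ i, S.P.w i * Mf (simMap S.r t i ⁻¹' A))
    (s : ℝ) (N : ℕ) :
    ∀ (a τ : ℝ), S.κ / s ≤ |a| → S.ρ ^ N * |a| ≤ 1 / s →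
    ∃ (J : Type) (_ : Fintype J) (c : FinProb J) (n : J → ℕ) (b θ : J → ℝ),
      (∀ G : ℝ → ℝ, ∑ w, (S.P.pi N).w w * G (a * tr S.r t w + τ)
        = ∑ j, c.w j * ∑ w, (S.P.pi (n j)).w w * G (b j * tr S.r t w + θ j)) ∧
      (∀ A, MeasurableSet A → Mf ((fun x => a * x + τ) ⁻¹' A)
        = ∑ j, c.w j * Mf ((fun x => b j * x + θ j) ⁻¹' A)) ∧
      (∀ j, |b j| ≤ 1 / s) ∧ (∀ j, S.κ / s ≤ |b j|) := by
  induction N with
  | zero =>
    intro a τ h1 h2
    refine ⟨Unit, inferInstance, ⟨fun _ => 1, fun _ => zero_le_one, by simp⟩,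
      fun _ => 0, fun _ => a, fun _ => τ, ?_, ?_, ?_, fun _ => h1⟩
    · intro G; simp only [Finset.univ_unique, pi_w, Finset.univ_eq_empty, Finset.prod_empty, tr_zero, mul_zero, zero_add, one_mul, Finset.sum_const, Finset.card_singleton, one_smul, PUnit.default_eq_unit]
    · intro A _; simp
    · intro _; simpa only [one_div, pow_zero, one_mul] using h2
  | succ N ih =>
    intro a τ h1 h2
    by_cases ha : |a| ≤ 1 / s
    · refine ⟨Unit, inferInstance, ⟨fun _ => 1, fun _ => zero_le_one, by simp⟩,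
        fun _ => N + 1, fun _ => a, fun _ => τ, ?_, ?_, fun _ => ha, fun _ => h1⟩
      · intro G; simp only [pi_w, Finset.univ_unique, PUnit.default_eq_unit, one_mul, Finset.sum_const, Finset.card_singleton, one_smul]
      · intro A _; simp
    · push Not at ha
      have hrec : ∀ i : Λ, S.κ / s ≤ |a * S.r i| ∧ S.ρ ^ N * |a * S.r i| ≤ 1 / s := by
        intro i
        constructor
        · rw [abs_mul]
          have h3 := S.κ_le i
          calc S.κ / s = 1 / s * S.κ := by ring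
            _ ≤ |a| * |S.r i| := mul_le_mul ha.le h3 S.κ_pos.le (abs_nonneg _)
        · rw [abs_mul]
          have h3 := S.le_ρ i
          calc S.ρ ^ N * (|a| * |S.r i|) ≤ S.ρ ^ N * (|a| * S.ρ) := by
                have := pow_nonneg S.ρ_pos.le N
                (clear * - h3 this; gcongr)
            _ = S.ρ ^ (N + 1) * |a| := by rw [pow_succ]; ring
            _ ≤ 1 / s := h2
      choose J hJ c n b θ hG hMf hb1 hb2 using
        fun i : Λ => ih (a * S.r i) (a * t i + τ) (hrec i).1 (hrec i).2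
      refine ⟨Σ i : Λ, J i, inferInstance, S.P.sigma c, fun x => n x.1 x.2,
        fun x => b x.1 x.2, fun x => θ x.1 x.2, ?_, ?_, fun x => hb1 x.1 x.2,
        fun x => hb2 x.1 x.2⟩
      · intro G
        rw [S.P.sum_pi_succ N (fun w => G (a * tr S.r t w + τ)), Fintype.sum_sigma]
        refine Finset.sum_congr rfl fun i _ => ?_
        have e1 : ∀ w : Fin N → Λ, a * tr S.r t (Fin.cons i w : Fin (N + 1) → Λ) + τ
            = (a * S.r i) * tr S.r t w + (a * t i + τ) := by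
          intro w
          rw [tr_cons]; ring
        simp only [e1]
        rw [hG i G, Finset.mul_sum]
        refine Finset.sum_congr rfl fun j _ => ?_
        simp only [sigma]
        ring
      · intro A hA
        have hmeas : MeasurableSet ((fun x : ℝ => a * x + τ) ⁻¹' A) :=
          (by fun_prop : Measurable fun x : ℝ => a * x + τ) hA
        rw [hM _ hmeas, Fintype.sum_sigma]
        refine Finset.sum_congr rfl fun i _ => ?_
        have e1 : simMap S.r t i ⁻¹' ((fun x : ℝ => a * x + τ) ⁻¹' A)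
            = (fun x : ℝ => (a * S.r i) * x + (a * t i + τ)) ⁻¹' A := by
          ext x
          simp only [Set.mem_preimage, simMap_apply]
          have : a * (S.r i * x + t i) + τ = a * S.r i * x + (a * t i + τ) := by ring
          rw [this]
        rw [e1, hMf i A hA, Finset.mul_sum]
        refine Finset.sum_congr rfl fun j _ => ?_
        simp only [sigma]
        ring

end Sys

end Vale.Agent.P114
end
end

section

open scoped Classical

noncomputable section

namespace Vale.Agent.P114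

open FinProb Filter MeasureTheory

/-- Bound for the `L^{1+s}` sums over disjoint families of small sets. -/
def ZB (μ : Measure ℝ) (s δ B : ℝ) : Prop :=
  ∀ (F : Finset ℤ) (I : ℤ → Set ℝ), (∀ i ∈ F, MeasurableSet (I i)) →
    (∀ i ∈ F, ∀ j ∈ F, i ≠ j → Disjoint (I i) (I j)) →
    (∀ i ∈ F, ∀ x ∈ I i, ∀ y ∈ I i, |x - y| ≤ δ) → ∑ i ∈ F, (μ.real (I i)) ^ (1 + s) ≤ B

lemma ZB_one (μ : Measure ℝ) [IsProbabilityMeasure μ] (s δ : ℝ) (hs : 0 ≤ s) : ZB μ s δ 1 := by
  intro F I hI hdis _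
  have h1 : ∀ i ∈ F, (μ.real (I i)) ^ (1 + s) ≤ μ.real (I i) := by
    intro i _
    have h2 : μ.real (I i) ≤ 1 := measureReal_le_one
    have h0 : 0 ≤ μ.real (I i) := measureReal_nonneg
    rcases h0.eq_or_lt with h3 | h3
    · rw [← h3, Real.zero_rpow (by linarith)]
    · calc (μ.real (I i)) ^ (1 + s) ≤ (μ.real (I i)) ^ (1 : ℝ) :=
            Real.rpow_le_rpow_of_exponent_ge h3 h2 (by linarith)
        _ = μ.real (I i) := Real.rpow_one _
  refine (Finset.sum_le_sum h1).trans ?_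
  rw [← measureReal_biUnion_finset (fun i hi j hj hij => hdis i hi j hj hij) hI]
  exact measureReal_le_one

/-- Jensen inequality with overlap weights. -/
lemma mix_pow {J : Type} [Fintype J] (c : FinProb J) (a Pj : J → ℝ) (s : ℝ) (hs : 0 ≤ s)
    (ha : ∀ j, 0 ≤ a j) (hP0 : ∀ j, 0 ≤ Pj j)
    (hP : ∀ j, 0 < c.w j → 0 < a j →
      ∑ j', (if 0 < c.w j' ∧ 0 < a j' then c.w j' else 0) ≤ Pj j) :
    (∑ j, c.w j * a j) ^ (1 + s) ≤ ∑ j, c.w j * (Pj j ^ s * a j ^ (1 + s)) := by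
  set R : Finset J := Finset.univ.filter fun j => 0 < c.w j ∧ 0 < a j with hR
  have hrhs : ∀ j, 0 ≤ c.w j * (Pj j ^ s * a j ^ (1 + s)) := fun j =>
    mul_nonneg (c.nonneg j) (mul_nonneg (Real.rpow_nonneg (hP0 j) _)
      (Real.rpow_nonneg (ha j) _))
  have hsum : ∑ j, c.w j * a j = ∑ j ∈ R, c.w j * a j := by
    symm
    refine Finset.sum_subset (Finset.subset_univ R) fun j _ hj => ?_
    have h1 : ¬ (0 < c.w j ∧ 0 < a j) := fun h => hj (Finset.mem_filter.2 ⟨Finset.mem_univ _, h⟩)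
    rcases (c.nonneg j).eq_or_lt with h2 | h2
    · rw [← h2, zero_mul]
    · rcases (ha j).eq_or_lt with h3 | h3
      · rw [← h3, mul_zero]
      · exact absurd ⟨h2, h3⟩ h1
  rcases R.eq_empty_or_nonempty with hne | hne
  · rw [hsum, hne, Finset.sum_empty, Real.zero_rpow (by linarith)]
    exact Finset.sum_nonneg fun j _ => hrhs j
  · set π : ℝ := ∑ j ∈ R, c.w j with hπ
    have hπ' : ∑ j', (if 0 < c.w j' ∧ 0 < a j' then c.w j' else 0) = π := by
      rw [hπ, hR, Finset.sum_filter]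
    have hπ0 : 0 < π := Finset.sum_pos (fun j hj => (Finset.mem_filter.1 hj).2.1) hne
    have h1 := Real.rpow_arith_mean_le_arith_mean_rpow R (fun j => c.w j / π) a
      (fun j _ => div_nonneg (c.nonneg j) hπ0.le)
      (by rw [← Finset.sum_div]; exact div_self hπ0.ne') (fun j _ => ha j)
      (show (1 : ℝ) ≤ 1 + s by linarith)
    have e1 : ∑ j ∈ R, c.w j / π * a j = (∑ j ∈ R, c.w j * a j) / π := by
      rw [Finset.sum_div]
      exact Finset.sum_congr rfl fun j _ => by ring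
    have e2 : ∑ j ∈ R, c.w j / π * a j ^ (1 + s) = (∑ j ∈ R, c.w j * a j ^ (1 + s)) / π := by
      rw [Finset.sum_div]
      exact Finset.sum_congr rfl fun j _ => by ring
    have hS0 : 0 ≤ ∑ j ∈ R, c.w j * a j :=
      Finset.sum_nonneg fun j _ => mul_nonneg (c.nonneg j) (ha j)
    rw [e1, e2, Real.div_rpow hS0 hπ0.le, div_le_div_iff₀ (Real.rpow_pos_of_pos hπ0 _) hπ0] at h1
    have e3 : π ^ (1 + s) = π * π ^ s := by rw [Real.rpow_add hπ0, Real.rpow_one]
    rw [e3] at h1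
    have h2 : (∑ j ∈ R, c.w j * a j) ^ (1 + s) ≤ (∑ j ∈ R, c.w j * a j ^ (1 + s)) * π ^ s := by
      have h3 : (∑ j ∈ R, c.w j * a j) ^ (1 + s) * π
          ≤ ((∑ j ∈ R, c.w j * a j ^ (1 + s)) * π ^ s) * π := by linarith only [h1]
      exact le_of_mul_le_mul_right h3 hπ0
    rw [hsum]
    refine h2.trans ?_
    rw [Finset.sum_mul]
    refine le_trans (Finset.sum_le_sum fun j hj => ?_)
      (Finset.sum_le_sum_of_subset_of_nonneg (Finset.subset_univ R) fun j _ _ => hrhs j)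
    obtain ⟨hj1, hj2⟩ := (Finset.mem_filter.1 hj).2
    have h3 : π ≤ Pj j := by rw [← hπ']; exact hP j hj1 hj2
    have h4 : π ^ s ≤ Pj j ^ s := Real.rpow_le_rpow hπ0.le h3 hs
    have h5 : 0 ≤ a j ^ (1 + s) := Real.rpow_nonneg (ha j) _
    calc c.w j * a j ^ (1 + s) * π ^ s = c.w j * (π ^ s * a j ^ (1 + s)) := by ring
      _ ≤ _ := mul_le_mul_of_nonneg_left (mul_le_mul_of_nonneg_right h4 h5) (c.nonneg j)

lemma exp_neg_le_quad (x : ℝ) (hx : 0 ≤ x) : Real.exp (-x) ≤ 1 - x + x ^ 2 / 2 := by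
  have h1 := Real.quadratic_le_exp_of_nonneg hx
  rw [Real.exp_neg]
  have h2 : 0 < 1 + x + x ^ 2 / 2 := by positivity
  have h3 : (Real.exp x)⁻¹ ≤ (1 + x + x ^ 2 / 2)⁻¹ := inv_anti₀ h2 h1
  refine h3.trans ?_
  rw [inv_le_iff_one_le_mul₀ h2]
  nlinarith only []

/-- Small exponents: the factor is close to the exponential of the entropy. -/
lemma exists_small_s {J : Type} [Fintype J] (c : FinProb J) (Pj : J → ℝ)
    (hP : ∀ j, 0 < c.w j → 0 < Pj j ∧ Pj j ≤ 1) :
    ∃ s : ℝ, 0 < s ∧ ∑ j, c.w j * Pj j ^ s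
      ≤ Real.exp (-(s * (∑ j, c.w j * (-Real.log (Pj j)) - 1))) := by
  set L := ∑ j, c.w j * (-Real.log (Pj j)) with hL
  set B := ∑ j, c.w j * (Real.log (Pj j)) ^ 2 with hB
  have hB0 : 0 ≤ B := Finset.sum_nonneg fun j _ => mul_nonneg (c.nonneg j) (sq_nonneg _)
  refine ⟨1 / (B + 1), by (clear * - hB0; positivity), ?_⟩
  set s := 1 / (B + 1) with hs
  have hs0 : 0 < s := by (clear * - hB0; positivity)
  have hsB : s * B ≤ 1 := by
    rw [hs, div_mul_eq_mul_div, one_mul, div_le_one (by (clear * - hB0; positivity))]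
    linarith only []
  have h1 : ∀ j, c.w j * Pj j ^ s
      ≤ c.w j * (1 - s * (-Real.log (Pj j)) + s ^ 2 / 2 * (Real.log (Pj j)) ^ 2) := by
    intro j
    rcases (c.nonneg j).eq_or_lt with h2 | h2
    · rw [← h2, zero_mul, zero_mul]
    · refine mul_le_mul_of_nonneg_left ?_ h2.le
      obtain ⟨h3, h4⟩ := hP j h2
      have h5 : Real.log (Pj j) ≤ 0 := Real.log_nonpos h3.le h4
      have h6 := exp_neg_le_quad (-(s * Real.log (Pj j))) (by linarith only [mul_nonneg (le_of_lt (sub_pos.2 hs0)) (sub_nonneg.2 h5)])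
      rw [Real.rpow_def_of_pos h3]
      have e : Real.log (Pj j) * s = -(-(s * Real.log (Pj j))) := by ring
      rw [e]
      refine h6.trans (le_of_eq (by ring))
  have h2 : ∑ j, c.w j * (1 - s * (-Real.log (Pj j)) + s ^ 2 / 2 * (Real.log (Pj j)) ^ 2)
      = 1 - s * L + s ^ 2 / 2 * B := by
    simp only [mul_add, mul_sub, Finset.sum_add_distrib, Finset.sum_sub_distrib, c.sum_const]
    rw [hL, hB, Finset.mul_sum, Finset.mul_sum]
    congr 1
    · congr 1
      exact Finset.sum_congr rfl fun j _ => by ring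
    · exact Finset.sum_congr rfl fun j _ => by ring
  refine (Finset.sum_le_sum fun j _ => h1 j).trans ?_
  rw [h2]
  have h3 : s ^ 2 / 2 * B ≤ s := by
    have : s ^ 2 / 2 * B = s / 2 * (s * B) := by ring
    rw [this]
    nlinarith only [hs0, hsB]
  have h4 := Real.add_one_le_exp (-(s * (L - 1)))
  linarith only [h4, h3]

/-- Entropy bound by neighbourhood masses. -/
lemma H_le_nbhd {J : Type} [Fintype J] (c : FinProb J) (f : J → ℤ) (Pj : J → ℝ) (R : ℕ)
    (hP0 : ∀ j, 0 < c.w j → 0 < Pj j)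
    (hP : ∀ j, Pj j ≤ ∑ d ∈ Finset.Icc (-(R : ℤ)) R, c.p f (f j + d)) :
    c.H f ≤ ∑ j, c.w j * (-Real.log (Pj j)) + Real.log (2 * R + 1) := by
  set q : ℤ → ℝ := fun z => 1 / (2 * R + 1) * ∑ d ∈ Finset.Icc (-(R : ℤ)) R, c.p f (z + d) with hq
  have hR : (0 : ℝ) < 2 * R + 1 := by (clear * -; positivity)
  have hq0 : ∀ z, 0 ≤ q z := fun z => mul_nonneg (by (clear * -; positivity))
    (Finset.sum_nonneg fun d _ => c.p_nonneg f _)
  have h1 := c.H_le_gibbs f q (fun j hj => by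
      have := (hP0 j hj).trans_le (hP j)
      simp only [hq]
      positivity) (by
      simp only [hq]
      rw [← Finset.mul_sum, Finset.sum_comm]
      have h2 : ∑ d ∈ Finset.Icc (-(R : ℤ)) R, ∑ a ∈ Finset.univ.image f, c.p f (a + d)
          ≤ ∑ _d ∈ Finset.Icc (-(R : ℤ)) R, (1 : ℝ) := by
        refine Finset.sum_le_sum fun d _ => ?_
        have h3 := c.sum_p_le_one f ((Finset.univ.image f).map (addRightEmbedding d))
        rw [Finset.sum_map] at h3
        exact h3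
      rw [Finset.sum_const, Int.card_Icc, nsmul_eq_mul, mul_one] at h2
      have e : ((((R : ℤ) + 1 - -(R : ℤ)).toNat : ℕ) : ℝ) = 2 * R + 1 := by
        have : (R : ℤ) + 1 - -(R : ℤ) = ((2 * R + 1 : ℕ) : ℤ) := by push_cast; ring
        rw [this, Int.toNat_natCast]
        push_cast
        ring
      rw [e] at h2
      rw [one_div, inv_mul_le_iff₀ hR, mul_one]
      exact h2) hq0
  refine h1.trans ?_
  have h2 : ∀ j, c.w j * (-Real.log (q (f j)))
      ≤ c.w j * (-Real.log (Pj j) + Real.log (2 * R + 1)) := by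
    intro j
    rcases (c.nonneg j).eq_or_lt with h2 | h2
    · rw [← h2, zero_mul, zero_mul]
    · refine mul_le_mul_of_nonneg_left ?_ h2.le
      have h3 := hP0 j h2
      have h4 := h3.trans_le (hP j)
      simp only [hq]
      rw [Real.log_mul (by (clear * -; positivity)) h4.ne', one_div, Real.log_inv]
      have h5 := Real.log_le_log h3 (hP j)
      linarith only [h5]
  refine (Finset.sum_le_sum fun j _ => h2 j).trans ?_
  simp only [mul_add, Finset.sum_add_distrib, c.sum_const]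
  exact le_rfl

lemma FinProb.H_sigma_fst {J : Type} [Fintype J] {Θ : J → Type} [∀ j, Fintype (Θ j)]
    (c : FinProb J) (Q : ∀ j, FinProb (Θ j)) {α : Type} (f : J → α) :
    (c.sigma Q).H (fun x => f x.1) = c.H f := by
  refine c.H_comp_of_map (c.sigma Q) Sigma.fst ?_ f
  intro j
  unfold FinProb.p
  rw [Fintype.sum_sigma, Finset.sum_eq_single j]
  · simp only [if_true, FinProb.sigma]
    rw [← Finset.mul_sum, (Q j).sum_one, mul_one]
  · intro b _ hb
    exact Finset.sum_eq_zero fun x _ => if_neg hb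
  · intro h
    exact absurd (Finset.mem_univ j) h

end Vale.Agent.P114
end
end

section

open scoped Classical

noncomputable section

namespace Vale.Agent.P114

open FinProb Filter MeasureTheory

namespace Sys

variable {Λ : Type} [Fintype Λ] (S : Sys Λ)

/-- Neighbourhood mass of a piece. -/
def nb {J : Type} [Fintype J] (c : FinProb J) (θ : J → ℝ) (η : ℝ) (j : J) : ℝ :=
  ∑ j', (if |θ j - θ j'| ≤ η then c.w j' else 0)

lemma nb_nonneg {J : Type} [Fintype J] (c : FinProb J) (θ : J → ℝ) (η : ℝ) (j : J) :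
    0 ≤ nb c θ η j := Finset.sum_nonneg fun j' _ => by
  split_ifs
  · exact c.nonneg j'
  · exact le_rfl

lemma nb_le_one {J : Type} [Fintype J] (c : FinProb J) (θ : J → ℝ) (η : ℝ) (j : J) :
    nb c θ η j ≤ 1 := by
  rw [← c.sum_one]
  refine Finset.sum_le_sum fun j' _ => ?_
  split_ifs
  · exact le_rfl
  · exact c.nonneg j'

lemma nb_pos {J : Type} [Fintype J] (c : FinProb J) (θ : J → ℝ) (η : ℝ) (hη : 0 ≤ η) (j : J)
    (hj : 0 < c.w j) : 0 < nb c θ η j := by
  have h1 : c.w j ≤ nb c θ η j := by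
    have h2 := Finset.single_le_sum (f := fun j' => if |θ j - θ j'| ≤ η then c.w j' else 0)
      (s := Finset.univ) (fun j' _ => by
        show 0 ≤ if |θ j - θ j'| ≤ η then c.w j' else 0
        split_ifs
        · exact c.nonneg j'
        · exact le_rfl) (Finset.mem_univ j)
    simp only [sub_self, abs_zero, hη, if_true] at h2
    exact h2
  linarith only [hj, h1]

/-- One step of the recursion for the `L^{1+s}` sums. -/
lemma ZB_step (t : Λ → ℝ) (μ : Measure ℝ) (hμ : IsSelfSimilar S.r t S.P.w μ) (m : ℕ)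
    {J : Type} [Fintype J] (c : FinProb J) (b θ : J → ℝ)
    (hdec : ∀ A, MeasurableSet A → μ.real A
      = ∑ j, c.w j * μ.real ((fun x => b j * x + θ j) ⁻¹' A))
    (hb1 : ∀ j, |b j| ≤ 1 / 2 ^ m) (hb2 : ∀ j, S.κ / 2 ^ m ≤ |b j|)
    (s δ B : ℝ) (hs : 0 < s) (hδ1 : δ ≤ 1) (hZ : ZB μ s δ B) :
    ZB μ s (δ * (S.κ / 2 ^ m))
      ((∑ j, c.w j * nb c θ (3 * S.D t / 2 ^ m) j ^ s) * B) := by
  intro F I hI hdis hdiam
  have := hμ.prob
  have hD := S.one_le_D t
  have hκ := S.κ_pos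
  have hκ1 := S.κ_le_one
  have h2m : (0 : ℝ) < 2 ^ m := by positivity
  have hbpos : ∀ j, 0 < |b j| := fun j => lt_of_lt_of_le (by positivity) (hb2 j)
  set a : ℤ → J → ℝ := fun i j => μ.real ((fun x => b j * x + θ j) ⁻¹' (I i)) with ha
  have ha0 : ∀ i j, 0 ≤ a i j := fun i j => measureReal_nonneg
  -- points in the support
  have hpt : ∀ i j, 0 < a i j → ∃ y ∈ I i, |y - θ j| ≤ S.D t / 2 ^ m := by
    intro i j hij
    by_contra hcon
    push Not at hcon
    have hsub : (fun x => b j * x + θ j) ⁻¹' (I i) ⊆ {x | S.D t < |x|} := by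
      intro x hx
      have h1 := hcon _ hx
      simp only [add_sub_cancel_right] at h1
      rw [abs_mul] at h1
      show S.D t < |x|
      by_contra h2
      push Not at h2
      have h3 : |b j| * |x| ≤ 1 / 2 ^ m * S.D t :=
        mul_le_mul (hb1 j) h2 (abs_nonneg _) (by positivity)
      have e : 1 / 2 ^ m * S.D t = S.D t / 2 ^ m := by ring
      linarith
    have h2 := measureReal_mono (μ := μ) hsub
    rw [S.real_support t μ hμ] at h2
    exact absurd hij (not_lt.2 h2)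
  have hmain : ∀ i ∈ F, (μ.real (I i)) ^ (1 + s)
      ≤ ∑ j, c.w j * (nb c θ (3 * S.D t / 2 ^ m) j ^ s * a i j ^ (1 + s)) := by
    intro i hi
    rw [hdec (I i) (hI i hi)]
    refine mix_pow c (a i) _ s hs.le (ha0 i) (fun j => nb_nonneg c θ _ j) ?_
    intro j hj haj
    unfold nb
    refine Finset.sum_le_sum fun j' _ => ?_
    by_cases h1 : 0 < c.w j' ∧ 0 < a i j'
    · rw [if_pos h1, if_pos]
      obtain ⟨y, hy, hy'⟩ := hpt i j haj
      obtain ⟨z, hz, hz'⟩ := hpt i j' h1.2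
      have h2 := hdiam i hi y hy z hz
      have h3 : δ * (S.κ / 2 ^ m) ≤ 1 / 2 ^ m := by
        calc δ * (S.κ / 2 ^ m) ≤ 1 * (1 / 2 ^ m) := by
              have : S.κ / 2 ^ m ≤ 1 / 2 ^ m := by (clear * - hκ1; gcongr)
              exact mul_le_mul hδ1 this (by positivity) zero_le_one
          _ = 1 / 2 ^ m := one_mul _
      have h4 : |θ j - θ j'| ≤ |y - θ j| + |y - z| + |z - θ j'| := by
        have e : θ j - θ j' = -(y - θ j) + (y - z) + (z - θ j') := by ring
        rw [e]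
        calc _ ≤ |-(y - θ j) + (y - z)| + |z - θ j'| := abs_add_le _ _
          _ ≤ _ := by
            have := abs_add_le (-(y - θ j)) (y - z)
            rw [abs_neg] at this
            linarith only [this]
      have h5 : S.D t / 2 ^ m + 1 / 2 ^ m + S.D t / 2 ^ m ≤ 3 * S.D t / 2 ^ m := by
        rw [← add_div, ← add_div]
        gcongr
        linarith only [hD]
      linarith only [h5, h4, h3, h2, hz', hy']
    · rw [if_neg h1]
      split_ifs
      · exact c.nonneg j'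
      · exact le_rfl
  have hstep : ∀ j, ∑ i ∈ F, a i j ^ (1 + s) ≤ B := by
    intro j
    refine hZ F (fun i => (fun x => b j * x + θ j) ⁻¹' (I i)) ?_ ?_ ?_
    · intro i hi
      exact (by fun_prop : Measurable fun x : ℝ => b j * x + θ j) (hI i hi)
    · intro i hi i' hi' hne
      exact (hdis i hi i' hi' hne).preimage _
    · intro i hi x hx y hy
      have h1 := hdiam i hi _ hx _ hy
      have e : b j * x + θ j - (b j * y + θ j) = b j * (x - y) := by ring
      rw [e, abs_mul] at h1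
      have h2 : |x - y| * (S.κ / 2 ^ m) ≤ δ * (S.κ / 2 ^ m) := by
        have := mul_le_mul_of_nonneg_right (hb2 j) (abs_nonneg (x - y))
        linarith only [h1, this]
      exact le_of_mul_le_mul_right h2 (by positivity)
  calc ∑ i ∈ F, (μ.real (I i)) ^ (1 + s)
      ≤ ∑ i ∈ F, ∑ j, c.w j * (nb c θ (3 * S.D t / 2 ^ m) j ^ s * a i j ^ (1 + s)) :=
        Finset.sum_le_sum hmain
    _ = ∑ j, (c.w j * nb c θ (3 * S.D t / 2 ^ m) j ^ s) * ∑ i ∈ F, a i j ^ (1 + s) := by
        rw [Finset.sum_comm]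
        refine Finset.sum_congr rfl fun j _ => ?_
        rw [Finset.mul_sum]
        exact Finset.sum_congr rfl fun i _ => by ring
    _ ≤ ∑ j, (c.w j * nb c θ (3 * S.D t / 2 ^ m) j ^ s) * B := by
        refine Finset.sum_le_sum fun j _ => mul_le_mul_of_nonneg_left (hstep j) ?_
        exact mul_nonneg (c.nonneg j) (Real.rpow_nonneg (nb_nonneg c θ _ j) _)
    _ = _ := by rw [Finset.sum_mul]

/-- Number of neighbouring cells. -/
def RD (t : Λ → ℝ) : ℕ := ⌈3 * S.D t⌉₊ + 1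

lemma floor_diff {x y : ℝ} {R : ℕ} (h : |x - y| + 1 ≤ R) :
    ⌊y⌋ - ⌊x⌋ ∈ Finset.Icc (-(R : ℤ)) R := by
  have h1 := Int.floor_le x
  have h2 := Int.lt_floor_add_one x
  have h3 := Int.floor_le y
  have h4 := Int.lt_floor_add_one y
  have h5 := abs_le.1 (show |x - y| ≤ R - 1 by linarith only [h])
  rw [Finset.mem_Icc]
  constructor
  · have : (⌊x⌋ : ℝ) < ⌊y⌋ + R + 1 := by linarith only [h1, h4, h5]
    have : ⌊x⌋ < ⌊y⌋ + R + 1 := by exact_mod_cast this
    omega
  · have : (⌊y⌋ : ℝ) < ⌊x⌋ + R + 1 := by linarith [h5.1, h5.2]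
    have : ⌊y⌋ < ⌊x⌋ + R + 1 := by exact_mod_cast this
    omega

/-- The constant of the entropy comparison. -/
def C9 (t : Λ → ℝ) : ℝ := Real.log 3 + 2 * Real.log (2 * S.RD t + 1) + 1

/-- Exponential decay of the `L^{1+s}` sums. -/
lemma exists_decay (t : Λ → ℝ) (μ : Measure ℝ) (hμ : IsSelfSimilar S.r t S.P.w μ) (m : ℕ) :
    ∃ s A : ℝ, 0 < s ∧ 0 ≤ A ∧ A ≤ Real.exp (-(s * (S.fS t m - S.C9 t))) ∧
      ∀ k : ℕ, ZB μ s ((S.κ / 2 ^ m) ^ k) (A ^ k) := by
  have := hμ.prob
  have hD := S.one_le_D t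
  have hκ := S.κ_pos
  have hκ1 := S.κ_le_one
  have hρ := S.ρ_pos
  have h2m : (0 : ℝ) < 2 ^ m := by positivity
  have h2m1 : (1 : ℝ) ≤ 2 ^ m := one_le_pow₀ (by norm_num)
  set N := S.Nb t m with hN
  have hNs := S.Nb_spec' t m
  rw [← hN] at hNs
  obtain ⟨J, _, c, n, b, θ, hG, hdec, hb1, hb2⟩ := S.pieces2 t (fun A => μ.real A)
    (fun A hA => S.real_self t μ hμ A hA) (2 ^ m) N 1 0
    (by rw [abs_one, div_le_one h2m]; linarith only [hκ1, h2m1])
    (by
      rw [abs_one, mul_one, le_div_iff₀ h2m]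
      have : 0 ≤ S.ρ ^ N * 2 ^ m := by positivity
      (by_contra nlg; linarith only [nlg, mul_nonneg (le_of_lt (sub_pos.2 (not_le.1 nlg))) (sub_nonneg.2 hD), hD, hNs]))
  have hdec' : ∀ A, MeasurableSet A → μ.real A
      = ∑ j, c.w j * μ.real ((fun x => b j * x + θ j) ⁻¹' A) := by
    intro A hA
    have h1 := hdec A hA
    simp only [one_mul, add_zero] at h1
    exact h1
  obtain ⟨s, hs0, hs⟩ := exists_small_s c (nb c θ (3 * S.D t / 2 ^ m)) (fun j hj =>
    ⟨nb_pos c θ _ (by positivity) j hj, nb_le_one c θ _ j⟩)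
  refine ⟨s, ∑ j, c.w j * nb c θ (3 * S.D t / 2 ^ m) j ^ s, hs0, ?_, ?_, ?_⟩
  · exact Finset.sum_nonneg fun j _ => mul_nonneg (c.nonneg j)
      (Real.rpow_nonneg (nb_nonneg c θ _ j) _)
  · refine hs.trans (Real.exp_le_exp.2 ?_)
    -- entropy comparison
    have hR1 : 3 * S.D t + 1 ≤ S.RD t := by
      unfold RD
      push_cast
      have := Nat.le_ceil (3 * S.D t)
      linarith only [this]
    have h1 := H_le_nbhd c (fun j => ⌊(2 : ℝ) ^ m * θ j⌋) (nb c θ (3 * S.D t / 2 ^ m)) (S.RD t)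
      (fun j hj => nb_pos c θ _ (by positivity) j hj) (by
        intro j
        unfold nb FinProb.p
        rw [Finset.sum_comm]
        refine Finset.sum_le_sum fun j' _ => ?_
        by_cases h2 : |θ j - θ j'| ≤ 3 * S.D t / 2 ^ m
        · rw [if_pos h2]
          have h3 : ⌊(2 : ℝ) ^ m * θ j'⌋ - ⌊(2 : ℝ) ^ m * θ j⌋
              ∈ Finset.Icc (-(S.RD t : ℤ)) (S.RD t) := by
            refine floor_diff ?_
            rw [← mul_sub, abs_mul, abs_of_pos h2m]
            rw [le_div_iff₀ h2m] at h2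
            linarith only [hR1, h2]
          have h4 := Finset.single_le_sum (f := fun d : ℤ =>
            if ⌊(2 : ℝ) ^ m * θ j'⌋ = ⌊(2 : ℝ) ^ m * θ j⌋ + d then c.w j' else 0)
            (fun d _ => by
              show 0 ≤ if ⌊(2 : ℝ) ^ m * θ j'⌋ = ⌊(2 : ℝ) ^ m * θ j⌋ + d then c.w j' else 0
              split_ifs
              · exact c.nonneg j'
              · exact le_rfl) h3
          simp only [add_sub_cancel, if_true] at h4
          refine h4.trans (le_of_eq ?_)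
          exact Finset.sum_congr rfl fun d _ => by
            by_cases h5 : ⌊(2 : ℝ) ^ m * θ j'⌋ = ⌊(2 : ℝ) ^ m * θ j⌋ + d <;> simp [h5]
        · rw [if_neg h2]
          exact Finset.sum_nonneg fun d _ => by
            split_ifs
            · exact c.nonneg j'
            · exact le_rfl)
    -- comparison with finite words
    set Q := c.sigma (fun j => S.P.pi (n j)) with hQ
    set X : (Σ j, Fin (n j) → Λ) → ℝ := fun x => b x.1 * tr S.r t x.2 + θ x.1 with hX
    have hlaw : Q.H (fun x => ⌊(2 : ℝ) ^ m * X x⌋)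
        = (S.P.pi N).H (fun w => ⌊(2 : ℝ) ^ m * tr S.r t w⌋) := by
      refine Q.H_eq_of_law (S.P.pi N) _ _ fun a => ?_
      have h1 := hG (fun x => if ⌊(2 : ℝ) ^ m * x⌋ = a then 1 else 0)
      simp only [one_mul, add_zero, mul_ite, mul_one, mul_zero] at h1
      have h2 : (S.P.pi N).p (fun w => ⌊(2 : ℝ) ^ m * tr S.r t w⌋) a
          = ∑ w, if ⌊(2 : ℝ) ^ m * tr S.r t w⌋ = a then (S.P.pi N).w w else 0 := by
        unfold FinProb.p
        exact Finset.sum_congr rfl fun w _ => by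
          by_cases h : ⌊(2 : ℝ) ^ m * tr S.r t w⌋ = a <;> simp only [h, ↓reduceIte, pi_w]
      have h3 : Q.p (fun x => ⌊(2 : ℝ) ^ m * X x⌋) a
          = ∑ x, if ⌊(2 : ℝ) ^ m * X x⌋ = a then Q.w x else 0 := by
        unfold FinProb.p
        exact Finset.sum_congr rfl fun w _ => by
          by_cases h : ⌊(2 : ℝ) ^ m * X w⌋ = a <;> simp [h]
      rw [h2, h3, h1, Fintype.sum_sigma]
      refine Finset.sum_congr rfl fun j _ => ?_
      rw [Finset.mul_sum]
      refine Finset.sum_congr rfl fun w _ => ?_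
      simp only [hX, hQ, sigma]
      split_ifs <;> simp
    have h2 := Q.H_le_add_log_card (fun x => ⌊(2 : ℝ) ^ m * X x⌋)
      (fun x => ⌊(2 : ℝ) ^ m * θ x.1⌋)
      (fun z => Finset.Icc (z - S.RD t) (z + S.RD t)) (2 * S.RD t + 1) (by
        intro x
        have h3 : ⌊(2 : ℝ) ^ m * X x⌋ - ⌊(2 : ℝ) ^ m * θ x.1⌋
            ∈ Finset.Icc (-(S.RD t : ℤ)) (S.RD t) := by
          refine floor_diff ?_
          have h4 : |b x.1| * |tr S.r t x.2| ≤ 1 / 2 ^ m * S.D t :=
            mul_le_mul (hb1 x.1) (S.abs_tr_le t x.2) (abs_nonneg _) (by positivity)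
          have h5 : |(2 : ℝ) ^ m * θ x.1 - (2 : ℝ) ^ m * X x| ≤ S.D t := by
            have e : (2 : ℝ) ^ m * θ x.1 - (2 : ℝ) ^ m * X x
                = -((2 : ℝ) ^ m * (b x.1 * tr S.r t x.2)) := by
              simp only [hX]; ring
            rw [e, abs_neg, abs_mul, abs_mul, abs_of_pos h2m]
            calc (2 : ℝ) ^ m * (|b x.1| * |tr S.r t x.2|) ≤ 2 ^ m * (1 / 2 ^ m * S.D t) := by
                  (clear * - h4; gcongr)
              _ = S.D t := by (clear * - hD; field_simp)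
          linarith only [hD, hR1, h5]
        rw [Finset.mem_Icc] at h3 ⊢
        constructor <;> linarith only [h3])
      (by
        intro z
        rw [Int.card_Icc]
        (clear * -; omega))
    rw [H_sigma_fst c (fun j => S.P.pi (n j)) (fun j => ⌊(2 : ℝ) ^ m * θ j⌋), hlaw] at h2
    have h3 := S.fS_le_F t m N hNs
    unfold F at h3
    push_cast at h2
    have hfin : S.fS t m - S.C9 t
        ≤ ∑ j, c.w j * (-Real.log (nb c θ (3 * S.D t / 2 ^ m) j)) - 1 := by
      unfold C9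
      linarith only [h1, h3, h2]
    have := mul_le_mul_of_nonneg_left hfin hs0.le
    linarith only [this]
  · intro k
    induction k with
    | zero =>
      simp only [pow_zero]
      exact ZB_one μ s 1 hs0.le
    | succ k ih =>
      have hpow1 : (S.κ / 2 ^ m) ^ k ≤ 1 := by
        refine pow_le_one₀ (by positivity) ?_
        rw [div_le_one h2m]
        linarith only [hκ1, h2m1]
      have h1 := S.ZB_step t μ hμ m c b θ hdec' hb1 hb2 s ((S.κ / 2 ^ m) ^ k) _ hs0 hpow1 ih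
      rw [pow_succ, pow_succ, mul_comm (_ ^ k) (∑ j, c.w j * _)]
      exact h1

end Sys

end Vale.Agent.P114
end
end

section

open scoped Classical ENNReal NNReal

noncomputable section

namespace Vale.Agent.P114

open FinProb Filter MeasureTheory

/-- Mass distribution principle along a geometric sequence of scales. -/
lemma mass_dist (ν : Measure ℝ) [IsFiniteMeasure ν] (E : Set ℝ) (hE : ν E ≠ 0) (δ τ : ℝ)
    (hδ0 : 0 < δ) (hδ1 : δ < 1) (hτ0 : 0 < τ) (hτ1 : τ < 1) (d : ℝ≥0) (hd : 0 < d)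
    (hτ : τ ≤ δ ^ (d : ℝ)) (K0 : ℕ) (C : ℝ) (hC : 0 < C)
    (h : ∀ k ≥ K0, ∀ x, ν.real (Set.Icc (x - δ ^ k) (x + δ ^ k)) ≤ C * τ ^ k) :
    (d : ℝ≥0∞) ≤ dimH E := by
  have hd' : (0 : ℝ) < d := by exact_mod_cast hd
  have hCτ : 0 < C / τ := by positivity
  set c : ℝ≥0∞ := ENNReal.ofReal (C / τ) with hc
  have hc0 : c ≠ 0 := by rw [hc]; exact (ENNReal.ofReal_pos.2 hCτ).ne'
  have hct : c ≠ ∞ := ENNReal.ofReal_ne_top
  have key : ∀ U : Set ℝ, Metric.ediam U ≤ ENNReal.ofReal (δ ^ K0) →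
      ν U ≤ c * Metric.ediam U ^ (d : ℝ) := by
    intro U hU
    rcases U.eq_empty_or_nonempty with hne | ⟨x0, hx0⟩
    · rw [hne]; simp only [measure_empty, Metric.ediam_empty, zero_le]
    have hfin : Metric.ediam U ≠ ∞ := ne_top_of_le_ne_top ENNReal.ofReal_ne_top hU
    set r : ℝ := (Metric.ediam U).toReal with hr
    have hr0 : 0 ≤ r := ENNReal.toReal_nonneg
    have hrU : Metric.ediam U = ENNReal.ofReal r := (ENNReal.ofReal_toReal hfin).symm
    have hrK : r ≤ δ ^ K0 := by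
      rw [hr]
      exact ENNReal.toReal_le_of_le_ofReal (by positivity) hU
    have hsub : ∀ R, r ≤ R → U ⊆ Set.Icc (x0 - R) (x0 + R) := by
      intro R hR x hx
      have h1 := Metric.edist_le_ediam_of_mem hx hx0
      rw [edist_dist, hrU] at h1
      have h2 : dist x x0 ≤ r := (ENNReal.ofReal_le_ofReal_iff hr0).1 h1
      rw [Real.dist_eq] at h2
      have h3 := abs_le.1 (h2.trans hR)
      constructor <;> linarith only [h3]
    rcases hr0.eq_or_lt with h0 | h0
    · -- degenerate case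
      have h1 : ∀ k ≥ K0, ν.real U ≤ C * τ ^ k := fun k hk =>
        (measureReal_mono (hsub (δ ^ k) (by rw [← h0]; positivity))).trans (h k hk x0)
      have h2 : Tendsto (fun k : ℕ => C * τ ^ k) atTop (nhds (C * 0)) :=
        (tendsto_pow_atTop_nhds_zero_of_lt_one hτ0.le hτ1).const_mul C
      rw [mul_zero] at h2
      have h3 : ν.real U ≤ 0 := ge_of_tendsto h2 (by
        filter_upwards [eventually_ge_atTop K0] with k hk using h1 k hk)
      have h4 : ν.real U = 0 := le_antisymm h3 measureReal_nonneg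
      have h5 : ν U = 0 := (measureReal_eq_zero_iff).1 h4
      rw [h5]
      exact zero_le
    · have hr1 : r ≤ 1 := hrK.trans (pow_le_one₀ hδ0.le hδ1.le)
      obtain ⟨k, hk1, hk2⟩ := exists_nat_pow_near_of_lt_one h0 hr1 hδ0 hδ1
      have hkK : K0 ≤ k := by
        by_contra hlt
        push Not at hlt
        have : δ ^ K0 ≤ δ ^ (k + 1) := pow_le_pow_of_le_one hδ0.le hδ1.le (by omega)
        linarith only [hrK, hk1, this]
      have h1 : ν.real U ≤ C * τ ^ k := (measureReal_mono (hsub _ hk2)).trans (h k hkK x0)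
      have h2 : τ ^ (k + 1) ≤ r ^ (d : ℝ) := by
        calc τ ^ (k + 1) ≤ (δ ^ (d : ℝ)) ^ (k + 1) := pow_le_pow_left₀ hτ0.le hτ _
          _ = (δ ^ (k + 1)) ^ (d : ℝ) := by
              rw [← Real.rpow_natCast, ← Real.rpow_mul hδ0.le, mul_comm,
                Real.rpow_mul hδ0.le, Real.rpow_natCast]
          _ ≤ r ^ (d : ℝ) := Real.rpow_le_rpow (by positivity) hk1.le hd'.le
      have h3 : ν.real U ≤ C / τ * r ^ (d : ℝ) := by
        refine h1.trans ?_
        have e : C * τ ^ k = C / τ * τ ^ (k + 1) := by rw [pow_succ]; (clear * - hτ0 hC; field_simp)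
        rw [e]
        exact mul_le_mul_of_nonneg_left h2 hCτ.le
      have h4 : ν U = ENNReal.ofReal (ν.real U) := by
        rw [Measure.real, ENNReal.ofReal_toReal (measure_ne_top _ _)]
      rw [h4, hrU, ENNReal.ofReal_rpow_of_pos h0, hc, ← ENNReal.ofReal_mul hCτ.le]
      exact ENNReal.ofReal_le_ofReal h3
  have hle : c⁻¹ • ν ≤ Measure.hausdorffMeasure (d : ℝ) := by
    refine Measure.le_hausdorffMeasure (d : ℝ) _ (ENNReal.ofReal (δ ^ K0))
      (ENNReal.ofReal_pos.2 (by positivity)) fun U hU => ?_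
    rw [Measure.smul_apply, smul_eq_mul]
    calc c⁻¹ * ν U ≤ c⁻¹ * (c * Metric.ediam U ^ (d : ℝ)) := by gcongr; exact key U hU
      _ = Metric.ediam U ^ (d : ℝ) := by
          rw [← mul_assoc, ENNReal.inv_mul_cancel hc0 hct, one_mul]
  refine le_dimH_of_hausdorffMeasure_ne_zero ?_
  have h1 := hle E
  rw [Measure.smul_apply, smul_eq_mul] at h1
  have h2 : c⁻¹ * ν E ≠ 0 := mul_ne_zero (ENNReal.inv_ne_zero.2 hct) hE
  intro h3
  rw [h3] at h1
  exact h2 (le_antisymm h1 zero_le)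

/-- Cell of level `k` in the grid of mesh `δ^k`. -/
def cell (δ : ℝ) (k : ℕ) (z : ℤ) : Set ℝ := {y | ⌊y / δ ^ k⌋ = z}

lemma measurable_cell_floor (δ : ℝ) (k : ℕ) : Measurable fun y : ℝ => ⌊y / δ ^ k⌋ :=
  Int.measurable_floor.comp (by fun_prop)

lemma cell_meas (δ : ℝ) (k : ℕ) (z : ℤ) : MeasurableSet (cell δ k z) :=
  measurable_cell_floor δ k (MeasurableSet.singleton z)

lemma cell_diam (δ : ℝ) (hδ : 0 < δ) (k : ℕ) (z : ℤ) (x y : ℝ) (hx : x ∈ cell δ k z)
    (hy : y ∈ cell δ k z) : |x - y| ≤ δ ^ k := by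
  have hx' : ⌊x / δ ^ k⌋ = z := hx
  have hy' : ⌊y / δ ^ k⌋ = z := hy
  have h1 := Int.abs_sub_lt_one_of_floor_eq_floor (hx'.trans hy'.symm)
  have hp : 0 < δ ^ k := by positivity
  rw [← sub_div, abs_div, abs_of_pos hp, div_lt_one hp] at h1
  exact h1.le

/-- Heavy cells have small total mass. -/
lemma heavy_le (μ : Measure ℝ) [IsProbabilityMeasure μ] (s A δ τ : ℝ) (hs : 0 < s)
    (hδ : 0 < δ) (hτ : 0 < τ) (k : ℕ) (hZ : ZB μ s (δ ^ k) (A ^ k)) :
    μ {x | τ ^ k < μ.real (cell δ k ⌊x / δ ^ k⌋)} ≤ ENNReal.ofReal ((τ ^ (-s) * A) ^ k) := by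
  set Z : Set ℤ := {z | τ ^ k < μ.real (cell δ k z)} with hZdef
  have hsub : {x | τ ^ k < μ.real (cell δ k ⌊x / δ ^ k⌋)}
      ⊆ ⋃ z : ℤ, (if z ∈ Z then cell δ k z else ∅) := by
    intro x hx
    refine Set.mem_iUnion.2 ⟨⌊x / δ ^ k⌋, ?_⟩
    rw [if_pos (show ⌊x / δ ^ k⌋ ∈ Z from hx)]
    rfl
  refine (measure_mono hsub).trans ((measure_iUnion_le _).trans ?_)
  rw [ENNReal.tsum_eq_iSup_sum]
  refine iSup_le fun F => ?_
  have h1 : ∑ z ∈ F, μ (if z ∈ Z then cell δ k z else ∅)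
      = ∑ z ∈ F.filter (· ∈ Z), μ (cell δ k z) := by
    rw [Finset.sum_filter]
    refine Finset.sum_congr rfl fun z _ => ?_
    split_ifs <;> simp
  rw [h1]
  have h2 : ∑ z ∈ F.filter (· ∈ Z), μ (cell δ k z)
      = ENNReal.ofReal (∑ z ∈ F.filter (· ∈ Z), μ.real (cell δ k z)) := by
    rw [ENNReal.ofReal_sum_of_nonneg (fun _ _ => measureReal_nonneg)]
    refine Finset.sum_congr rfl fun z _ => ?_
    rw [Measure.real, ENNReal.ofReal_toReal (measure_ne_top _ _)]
  rw [h2]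
  refine ENNReal.ofReal_le_ofReal ?_
  have h3 := hZ (F.filter (· ∈ Z)) (cell δ k) (fun z _ => cell_meas δ k z)
    (fun z _ z' _ hne => Set.disjoint_left.2 fun x hx hx' => hne (by
      have e1 : ⌊x / δ ^ k⌋ = z := hx
      have e2 : ⌊x / δ ^ k⌋ = z' := hx'
      rw [← e1, e2])) (fun z _ x hx y hy => cell_diam δ hδ k z x y hx hy)
  have hτk : 0 < τ ^ k := by positivity
  have h4 : ∀ z ∈ F.filter (· ∈ Z), μ.real (cell δ k z)
      ≤ (τ ^ (-s)) ^ k * μ.real (cell δ k z) ^ (1 + s) := by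
    intro z hz
    have hz' : τ ^ k < μ.real (cell δ k z) := (Finset.mem_filter.1 hz).2
    have hpos : 0 < μ.real (cell δ k z) := hτk.trans hz'
    rw [Real.rpow_add hpos, Real.rpow_one]
    have h5 : 1 ≤ (τ ^ (-s)) ^ k * μ.real (cell δ k z) ^ s := by
      have h6 : (τ ^ k) ^ s ≤ μ.real (cell δ k z) ^ s :=
        Real.rpow_le_rpow hτk.le hz'.le hs.le
      have h7 : (τ ^ (-s)) ^ k * (τ ^ k) ^ s = 1 := by
        rw [← Real.rpow_natCast (τ ^ (-s)), ← Real.rpow_mul hτ.le, ← Real.rpow_natCast τ k,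
          ← Real.rpow_mul hτ.le, ← Real.rpow_add hτ]
        have : -s * (k : ℝ) + k * s = 0 := by ring
        rw [this, Real.rpow_zero]
      calc (1 : ℝ) = (τ ^ (-s)) ^ k * (τ ^ k) ^ s := h7.symm
        _ ≤ _ := by (clear * - h6 hτ; gcongr)
    calc μ.real (cell δ k z) = μ.real (cell δ k z) * 1 := (mul_one _).symm
      _ ≤ μ.real (cell δ k z) * ((τ ^ (-s)) ^ k * μ.real (cell δ k z) ^ s) :=
          mul_le_mul_of_nonneg_left h5 hpos.le
      _ = _ := by ring
  calc ∑ z ∈ F.filter (· ∈ Z), μ.real (cell δ k z)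
      ≤ ∑ z ∈ F.filter (· ∈ Z), (τ ^ (-s)) ^ k * μ.real (cell δ k z) ^ (1 + s) :=
        Finset.sum_le_sum h4
    _ = (τ ^ (-s)) ^ k * ∑ z ∈ F.filter (· ∈ Z), μ.real (cell δ k z) ^ (1 + s) := by
        rw [Finset.mul_sum]
    _ ≤ (τ ^ (-s)) ^ k * A ^ k := by (clear * - h3 hτ; gcongr)
    _ = _ := by rw [mul_pow]

/-- Frostman type lower bound from exponential decay. -/
lemma dimH_ge_of_decay (μ : Measure ℝ) [IsProbabilityMeasure μ] (s A δ τ : ℝ) (hs : 0 < s)
    (hA : 0 ≤ A) (hδ0 : 0 < δ) (hδ1 : δ < 1) (hτ0 : 0 < τ) (hτ1 : τ < 1) (d : ℝ≥0) (hd : 0 < d)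
    (hτ : τ ≤ δ ^ (d : ℝ)) (hγ : τ ^ (-s) * A < 1)
    (hZ : ∀ k : ℕ, ZB μ s (δ ^ k) (A ^ k)) (E : Set ℝ) (hEm : MeasurableSet E) (hE : 0 < μ E) :
    (d : ℝ≥0∞) ≤ dimH E := by
  set γ := τ ^ (-s) * A with hγdef
  have hγ0 : 0 ≤ γ := mul_nonneg (Real.rpow_nonneg hτ0.le _) hA
  set Pk : ℕ → Set ℝ := fun k => {x | τ ^ k < μ.real (cell δ k ⌊x / δ ^ k⌋)} with hPk
  have hPm : ∀ k, MeasurableSet (Pk k) := fun k =>
    (measurable_cell_floor δ k) (MeasurableSet.of_discrete (s := {z | τ ^ k < μ.real (cell δ k z)}))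
  have hPle : ∀ k, μ (Pk k) ≤ ENNReal.ofReal (γ ^ k) := fun k =>
    heavy_le μ s A δ τ hs hδ0 hτ0 k (hZ k)
  have hsum : Summable fun k : ℕ => γ ^ k := summable_geometric_of_lt_one hγ0 hγ
  -- choose K
  obtain ⟨K, hK⟩ : ∃ K : ℕ, ENNReal.ofReal (γ ^ K * (1 - γ)⁻¹) < μ E := by
    have h1 : Tendsto (fun K : ℕ => ENNReal.ofReal (γ ^ K * (1 - γ)⁻¹)) atTop
        (nhds (ENNReal.ofReal (0 * (1 - γ)⁻¹))) :=
      ENNReal.tendsto_ofReal ((tendsto_pow_atTop_nhds_zero_of_lt_one hγ0 hγ).mul_const _)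
    rw [zero_mul, ENNReal.ofReal_zero] at h1
    exact (h1.eventually_lt_const hE).exists
  have htail : μ (⋃ j : ℕ, Pk (K + j)) < μ E := by
    refine lt_of_le_of_lt ((measure_iUnion_le _).trans ?_) hK
    calc ∑' j : ℕ, μ (Pk (K + j)) ≤ ∑' j : ℕ, ENNReal.ofReal (γ ^ (K + j)) :=
          ENNReal.tsum_le_tsum fun j => hPle (K + j)
      _ = ENNReal.ofReal (∑' j : ℕ, γ ^ (K + j)) := by
          rw [ENNReal.ofReal_tsum_of_nonneg (fun j => by (clear * - hτ0 hA; positivity))]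
          simp only [pow_add]
          exact hsum.mul_left _
      _ = ENNReal.ofReal (γ ^ K * (1 - γ)⁻¹) := by
          simp only [pow_add]
          rw [tsum_mul_left, tsum_geometric_of_lt_one hγ0 hγ]
  set G : Set ℝ := E \ ⋃ j : ℕ, Pk (K + j) with hG
  have hGm : MeasurableSet G := hEm.diff (MeasurableSet.iUnion fun j => hPm _)
  have hGpos : μ G ≠ 0 := by
    intro h0
    have h1 : μ E ≤ μ G + μ (⋃ j : ℕ, Pk (K + j)) := by
      refine (measure_mono ?_).trans (measure_union_le _ _)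
      intro x hx
      by_cases h2 : x ∈ ⋃ j : ℕ, Pk (K + j)
      · exact Or.inr h2
      · exact Or.inl ⟨hx, h2⟩
    rw [h0, zero_add] at h1
    exact absurd htail (not_lt.2 h1)
  have hν : (μ.restrict G) E ≠ 0 := by
    rw [Measure.restrict_apply hEm]
    have : E ∩ G = G := Set.inter_eq_right.2 Set.sdiff_subset
    rw [this]
    exact hGpos
  refine mass_dist (μ.restrict G) E hν δ τ hδ0 hδ1 hτ0 hτ1 d hd hτ K 3 (by norm_num) ?_
  intro k hk x
  have hp : 0 < δ ^ k := by positivity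
  have hcell : ∀ z : ℤ, (μ.restrict G).real (cell δ k z) ≤ τ ^ k := by
    intro z
    rw [measureReal_restrict_apply (cell_meas δ k z)]
    rcases (cell δ k z ∩ G).eq_empty_or_nonempty with h1 | ⟨y, hy1, hy2⟩
    · rw [h1]; simp only [measureReal_empty]; positivity
    · refine (measureReal_mono Set.inter_subset_left).trans ?_
      have hy3 : y ∉ Pk k := by
        intro h2
        obtain ⟨j, rfl⟩ := Nat.exists_eq_add_of_le hk
        exact hy2.2 (Set.mem_iUnion.2 ⟨j, h2⟩)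
      have hy4 : μ.real (cell δ k ⌊y / δ ^ k⌋) ≤ τ ^ k := not_lt.1 hy3
      have hy5 : ⌊y / δ ^ k⌋ = z := hy1
      rwa [hy5] at hy4
  set z := ⌊x / δ ^ k⌋ with hz
  have hsub : Set.Icc (x - δ ^ k) (x + δ ^ k)
      ⊆ cell δ k (z - 1) ∪ (cell δ k z ∪ cell δ k (z + 1)) := by
    rintro y ⟨hy1, hy2⟩
    have h1 : x / δ ^ k - 1 ≤ y / δ ^ k := by
      rw [div_sub_one hp.ne']; (clear * - hy1 hδ0; gcongr)
    have h2 : y / δ ^ k ≤ x / δ ^ k + 1 := by
      rw [div_add_one hp.ne']; (clear * - hy2 hδ0; gcongr)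
    have h3 := Int.floor_le (x / δ ^ k)
    have h4 := Int.lt_floor_add_one (x / δ ^ k)
    have h5 := Int.floor_le (y / δ ^ k)
    have h6 := Int.lt_floor_add_one (y / δ ^ k)
    rw [← hz] at h3 h4
    have h7 : z - 1 ≤ ⌊y / δ ^ k⌋ := by
      have : ((z - 1 : ℤ) : ℝ) < ⌊y / δ ^ k⌋ + 1 := by push_cast; linarith only [h6, h3, h1]
      have : (z - 1 : ℤ) < ⌊y / δ ^ k⌋ + 1 := by exact_mod_cast this
      omega
    have h8 : ⌊y / δ ^ k⌋ ≤ z + 1 := by
      have : (⌊y / δ ^ k⌋ : ℝ) < ((z + 2 : ℤ) : ℝ) := by push_cast; linarith only [h2, h4, h5]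
      have : ⌊y / δ ^ k⌋ < z + 2 := by exact_mod_cast this
      omega
    have h9 : ⌊y / δ ^ k⌋ = z - 1 ∨ ⌊y / δ ^ k⌋ = z ∨ ⌊y / δ ^ k⌋ = z + 1 := by omega
    rcases h9 with h9 | h9 | h9
    · exact Or.inl h9
    · exact Or.inr (Or.inl h9)
    · exact Or.inr (Or.inr h9)
  have h1 := measureReal_mono (μ := μ.restrict G) hsub
  have h2 := measureReal_union_le (μ := μ.restrict G) (cell δ k (z - 1))
    (cell δ k z ∪ cell δ k (z + 1))
  have h3 := measureReal_union_le (μ := μ.restrict G) (cell δ k z) (cell δ k (z + 1))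
  have h4 := hcell (z - 1)
  have h5 := hcell z
  have h6 := hcell (z + 1)
  linarith only [h1, h2, h3, h4, h5, h6]

namespace Sys

variable {Λ : Type} [Fintype Λ] (S : Sys Λ)

/-- The entropy dimension is a lower bound for the lower Hausdorff dimension. -/
theorem le_lowerDimH (t : Λ → ℝ) (μ : Measure ℝ) (hμ : IsSelfSimilar S.r t S.P.w μ) :
    ENNReal.ofReal (S.alpha t) ≤ lowerDimH μ := by
  have := hμ.prob
  have hκ := S.κ_pos
  have hκ1 := S.κ_le_one
  have hlog : 0 < Real.log 2 := Real.log_pos (by norm_num)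
  unfold lowerDimH
  refine le_iInf fun E => le_iInf fun hEm => le_iInf fun hE => ?_
  refine le_of_forall_lt fun d hd => ?_
  -- choose a larger `d`
  obtain ⟨d', hd1, hd2⟩ := ENNReal.lt_iff_exists_nnreal_btwn.1 hd
  refine lt_of_lt_of_le hd1 ?_
  have hd'0 : 0 < d' := by
    have : (0 : ℝ≥0∞) < d' := lt_of_le_of_lt zero_le hd1
    exact_mod_cast this
  have hd'R : (0 : ℝ) < d' := by exact_mod_cast hd'0
  have hdα : (d' : ℝ) < S.alpha t := by
    have h1 : ENNReal.ofReal (d' : ℝ) < ENNReal.ofReal (S.alpha t) := by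
      rw [ENNReal.ofReal_coe_nnreal]; exact hd2
    exact (ENNReal.ofReal_lt_ofReal_iff_of_nonneg d'.coe_nonneg).1 h1
  obtain ⟨ε, hε⟩ : ∃ ε : ℝ, ε = (S.alpha t - d') / 4 := ⟨_, rfl⟩
  have hε0 : 0 < ε := by rw [hε]; linarith only [hdα]
  obtain ⟨b0, hb0⟩ := S.alpha_le_fS t ε hε0
  obtain ⟨b1, hb1⟩ := exists_nat_gt
    ((|S.C9 t| + d' * (-Real.log S.κ) + 1) / (ε * Real.log 2))
  set m := b0 + b1 with hm
  have hlogκ : Real.log S.κ ≤ 0 := Real.log_nonpos hκ.le hκ1
  have hml : |S.C9 t| + d' * (-Real.log S.κ) + 1 ≤ ε * (m * Real.log 2) := by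
    rw [div_lt_iff₀ (by (clear * - hε0; positivity))] at hb1
    have h1 : (b1 : ℝ) ≤ m := by
      rw [hm]; push_cast; linarith only []
    have h2 : (b1 : ℝ) * (ε * Real.log 2) ≤ m * (ε * Real.log 2) :=
      mul_le_mul_of_nonneg_right h1 (by positivity)
    linarith only [hb1, h2]
  have hdκ : 0 ≤ d' * (-Real.log S.κ) := mul_nonneg hd'R.le (by linarith only [hlogκ])
  have hC9 := le_abs_self (S.C9 t)
  have hC9' := abs_nonneg (S.C9 t)
  have hfS := hb0 m (by omega)
  set ml : ℝ := m * Real.log 2 with hmldef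
  have hml0 : 0 < ml := by
    by_contra h
    have : ε * ml ≤ 0 := mul_nonpos_of_nonneg_of_nonpos hε0.le (not_lt.1 h)
    linarith only [hdκ, hC9', hml, this]
  obtain ⟨s, A, hs0, hA0, hA, hZ⟩ := S.exists_decay t μ hμ m
  have hdε : S.alpha t - 3 * ε = d' + ε := by rw [hε]; ring
  obtain ⟨τ, hτ⟩ : ∃ τ : ℝ, τ = Real.exp (-((d' + ε) * ml)) := ⟨_, rfl⟩
  have hτ0 : 0 < τ := by rw [hτ]; exact Real.exp_pos _
  have h2m : (0 : ℝ) < 2 ^ m := by positivity
  have hm1 : 1 ≤ m := by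
    by_contra h
    have : m = 0 := by omega
    rw [hmldef, this] at hml0
    simp at hml0
  refine dimH_ge_of_decay μ s A (S.κ / 2 ^ m) τ hs0 hA0 (by positivity) ?_ hτ0 ?_ d' hd'0 ?_ ?_
    hZ E hEm hE
  · rw [div_lt_one h2m]
    have : (1 : ℝ) < 2 ^ m := one_lt_pow₀ (by norm_num) (by omega)
    linarith only [hκ1, this]
  · rw [hτ]
    have : 0 < (d' + ε) * ml := by (clear * - hd'0 hε0 hm1; positivity)
    exact Real.exp_lt_one_iff.2 (by linarith only [this])
  · rw [hτ, Real.rpow_def_of_pos (by positivity), Real.log_div hκ.ne' h2m.ne', Real.log_pow,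
      ← hmldef]
    refine Real.exp_le_exp.2 ?_
    linarith only [hml, hC9']
  · have h1 : τ ^ (-s) = Real.exp (s * ((d' + ε) * ml)) := by
      rw [hτ, ← Real.exp_mul]
      congr 1
      ring
    calc τ ^ (-s) * A ≤ Real.exp (s * ((d' + ε) * ml)) * Real.exp (-(s * (S.fS t m - S.C9 t))) := by
          rw [h1]; (clear * - hA; gcongr)
      _ = Real.exp (s * ((d' + ε) * ml - (S.fS t m - S.C9 t))) := by
          rw [← Real.exp_add]; congr 1; ring
      _ < 1 := by
          refine Real.exp_lt_one_iff.2 ?_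
          have h2 : (S.alpha t - ε) * ml - S.C9 t > (d' + ε) * ml := by
            have h3 : (S.alpha t - ε) * ml = (d' + ε) * ml + 2 * (ε * ml) := by
              have : S.alpha t = d' + 4 * ε := by rw [hε]; ring
              rw [this]; ring
            rw [h3]
            linarith only [hdκ, hC9, hC9', hml]
          have h4 : (d' + ε) * ml - (S.fS t m - S.C9 t) < 0 := by linarith only [hfS, h2]
          exact mul_neg_of_pos_of_neg hs0 h4

end Sys

end Vale.Agent.P114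
end
end

section

open scoped Classical

namespace Vale.Agent.P114

/-- Liouville type bound: a nonzero algebraic number with a denominator `D` and conjugates bounded
by `B` is not too small. -/
lemma one_le_conj {K : Type*} [Field K] [Algebra ℚ K] [FiniteDimensional ℚ K]
    (σ₀ : K →ₐ[ℚ] ℂ) {x : K} (hx : x ≠ 0) (D : ℤ) (hD : D ≠ 0)
    (hint : IsIntegral ℤ ((D : K) * x)) {B : ℝ} (hB : ∀ σ : K →ₐ[ℚ] ℂ, ‖σ x‖ ≤ B) :
    1 ≤ |(D : ℝ)| ^ (Fintype.card (K →ₐ[ℚ] ℂ)) *
      (‖σ₀ x‖ * B ^ (Fintype.card (K →ₐ[ℚ] ℂ) - 1)) := by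
  have hDK : (D : K) ≠ 0 := by
    have : CharZero K := algebraRat.charZero K
    exact_mod_cast hD
  have hne : (D : K) * x ≠ 0 := mul_ne_zero hDK hx
  have h1 : IsIntegral ℤ (Algebra.norm ℚ ((D : K) * x)) := Algebra.isIntegral_norm ℚ hint
  obtain ⟨z, hz⟩ := IsIntegrallyClosed.isIntegral_iff.1 h1
  have hz0 : z ≠ 0 := by
    rintro rfl
    rw [map_zero] at hz
    exact Algebra.norm_ne_zero_iff.2 hne hz.symm
  have h2 := Algebra.norm_eq_prod_embeddings ℚ ℂ ((D : K) * x)
  rw [← hz] at h2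
  have h3 : (1 : ℝ) ≤ ‖∏ σ : K →ₐ[ℚ] ℂ, σ ((D : K) * x)‖ := by
    rw [← h2]
    simp only [algebraMap_int_eq, eq_intCast, map_intCast]
    rw [Complex.norm_intCast]
    exact_mod_cast Int.one_le_abs hz0
  refine h3.trans ?_
  rw [norm_prod]
  have h4 : ∏ σ : K →ₐ[ℚ] ℂ, ‖σ ((D : K) * x)‖ =
      |(D : ℝ)| ^ (Fintype.card (K →ₐ[ℚ] ℂ)) * ∏ σ : K →ₐ[ℚ] ℂ, ‖σ x‖ := by
    simp only [map_mul, map_intCast, norm_mul, Complex.norm_intCast, Finset.prod_mul_distrib, Finset.prod_const, Finset.card_univ]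
  rw [h4]
  refine mul_le_mul_of_nonneg_left ?_ (by (clear σ₀ x hx hint B hB hDK hne h1 z hz hz0 h2 h3 h4; positivity))
  rw [← Finset.mul_prod_erase Finset.univ _ (Finset.mem_univ σ₀)]
  refine mul_le_mul_of_nonneg_left ?_ (norm_nonneg _)
  calc ∏ σ ∈ Finset.univ.erase σ₀, ‖σ x‖ ≤ ∏ _σ ∈ Finset.univ.erase σ₀, B :=
        Finset.prod_le_prod (fun _ _ => norm_nonneg _) fun σ _ => hB σ
    _ = B ^ (Fintype.card (K →ₐ[ℚ] ℂ) - 1) := by
        rw [Finset.prod_const, Finset.card_erase_of_mem (Finset.mem_univ _), Finset.card_univ]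

/-- coefficients over a general ring -/
noncomputable def coefG {Λ K : Type*} [CommRing K] (r : Λ → K) : List Λ → Λ → K
  | [], _ => 0
  | j :: w, i => (if j = i then 1 else 0) + r j * coefG r w i

lemma coefG_map {Λ K L : Type*} [CommRing K] [CommRing L] (f : K →+* L) (r : Λ → K)
    (u : List Λ) (i : Λ) : f (coefG r u i) = coefG (fun j => f (r j)) u i := by
  induction u with
  | nil => simp only [coefG, map_zero]
  | cons j w ih => simp only [coefG, map_add, apply_ite f, map_one, map_zero, map_mul, ih]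

lemma coefG_eq {Λ : Type*} (r : Λ → ℝ) (u : List Λ) (i : Λ) : coefG r u i = coefL r u i := by
  induction u with
  | nil => simp [coefG, coefL]
  | cons j w ih => simp [coefG, coefL, ih]

lemma coefG_integral {Λ K : Type*} [CommRing K] (r : Λ → K) (D : ℤ)
    (hD : ∀ i, IsIntegral ℤ ((D : K) * r i)) (u : List Λ) (i : Λ) {n : ℕ} (hn : u.length ≤ n) :
    IsIntegral ℤ ((D : K) ^ n * coefG r u i) := by
  have hDi : IsIntegral ℤ (D : K) := by
    have := isIntegral_algebraMap (R := ℤ) (A := K) (x := D)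
    simpa using this
  induction u generalizing n with
  | nil =>
    simp only [coefG, mul_zero]
    exact isIntegral_zero
  | cons j w ih =>
    obtain ⟨m, rfl⟩ : ∃ m, n = m + 1 := by
      rw [List.length_cons] at hn
      exact ⟨n - 1, by omega⟩
    rw [List.length_cons] at hn
    have h1 := ih (n := m) (by omega)
    have h2 : (D : K) ^ (m + 1) * coefG r (j :: w) i =
        (D : K) ^ (m + 1) * (if j = i then 1 else 0) + ((D : K) * r j) *
          ((D : K) ^ m * coefG r w i) := by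
      simp only [coefG]; ring
    rw [h2]
    refine IsIntegral.add ?_ ((hD j).mul h1)
    refine (hDi.pow _).mul ?_
    split_ifs
    · exact isIntegral_one
    · exact isIntegral_zero

lemma coefG_norm_le {Λ : Type*} (r : Λ → ℂ) {R : ℝ} (hR : ∀ i, ‖r i‖ ≤ R) (hR0 : 0 ≤ R)
    (u : List Λ) (i : Λ) : ‖coefG r u i‖ ≤ (1 + R) ^ u.length := by
  induction u with
  | nil => simp only [coefG, norm_zero, List.length_nil, pow_zero, zero_le_one]
  | cons j w ih =>
    simp only [coefG, List.length_cons]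
    have h1 : ‖(if j = i then (1 : ℂ) else 0)‖ ≤ 1 := by
      split_ifs <;> simp
    have h2 : (1 : ℝ) ≤ (1 + R) ^ w.length := one_le_pow₀ (by linarith only [hR0])
    calc ‖(if j = i then (1 : ℂ) else 0) + r j * coefG r w i‖
        ≤ ‖(if j = i then (1 : ℂ) else 0)‖ + ‖r j * coefG r w i‖ := norm_add_le _ _
      _ ≤ 1 + R * (1 + R) ^ w.length := by
          refine add_le_add h1 ?_
          rw [norm_mul]
          exact mul_le_mul (hR j) ih (norm_nonneg _) hR0
      _ ≤ (1 + R) ^ w.length + R * (1 + R) ^ w.length := by linarith only [h2]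
      _ = (1 + R) ^ (w.length + 1) := by ring

theorem det_lower_bound {Λ : Type*} [Fintype Λ] (r : Λ → ℝ) (halg : ∀ i, IsAlgebraic ℚ (r i))
    (k : ℕ) :
    ∃ c : ℝ, 0 < c ∧ ∀ (n : ℕ) (M : Matrix (Fin k) (Fin k) ℝ), (∀ a b, M a b ∈ Ent r n) →
      M.det ≠ 0 → c ^ n ≤ |M.det| := by
  -- the number field
  set K := IntermediateField.adjoin ℚ (Set.range r) with hK
  have hfin : FiniteDimensional ℚ K := by
    have : Finite (Set.range r) := Set.finite_range r
    refine IntermediateField.finiteDimensional_adjoin fun x hx => ?_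
    obtain ⟨i, rfl⟩ := hx
    exact (halg i).isIntegral
  let ρ : Λ → K := fun i => ⟨r i, IntermediateField.subset_adjoin ℚ _ ⟨i, rfl⟩⟩
  have hρ : ∀ i, algebraMap K ℝ (ρ i) = r i := fun i => rfl
  -- a common denominator
  obtain ⟨D, hD0, hD⟩ := exists_integral_multiples ℤ ℚ (Finset.univ.image ρ)
  have hD' : ∀ i, IsIntegral ℤ ((D : K) * ρ i) := by
    intro i
    have := hD (ρ i) (by simp only [Finset.mem_image, Finset.mem_univ, true_and, exists_apply_eq_apply])
    rwa [zsmul_eq_mul] at this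
  -- bounds for conjugates
  obtain ⟨R, hR0, hR⟩ : ∃ R : ℝ, 0 ≤ R ∧ ∀ (σ : K →ₐ[ℚ] ℂ) (i : Λ), ‖σ (ρ i)‖ ≤ R := by
    refine ⟨∑ σ : K →ₐ[ℚ] ℂ, ∑ i, ‖σ (ρ i)‖, by (clear * - hfin; positivity), fun σ i => ?_⟩
    calc ‖σ (ρ i)‖ ≤ ∑ j, ‖σ (ρ j)‖ :=
          Finset.single_le_sum (f := fun j => ‖σ (ρ j)‖) (fun _ _ => norm_nonneg _)
            (Finset.mem_univ i)
      _ ≤ ∑ τ : K →ₐ[ℚ] ℂ, ∑ j, ‖τ (ρ j)‖ :=
          Finset.single_le_sum (f := fun τ : K →ₐ[ℚ] ℂ => ∑ j, ‖τ (ρ j)‖)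
            (fun _ _ => by positivity) (Finset.mem_univ σ)
  let σ₀ : K →ₐ[ℚ] ℂ := (Complex.ofRealAm.restrictScalars ℚ).comp K.val
  have hσ₀ : ∀ x : K, ‖σ₀ x‖ = |(algebraMap K ℝ x)| := by
    intro x
    have : σ₀ x = ((algebraMap K ℝ x : ℝ) : ℂ) := rfl
    rw [this, Complex.norm_real, Real.norm_eq_abs]
  set m := Fintype.card (K →ₐ[ℚ] ℂ) with hm
  have hDabs : (1 : ℝ) ≤ |(D : ℝ)| := by exact_mod_cast Int.one_le_abs hD0
  have hB1 : (1 : ℝ) ≤ 1 + R := by linarith only [hR0]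
  set F : ℝ := (k.factorial : ℝ) * 2 ^ k with hF
  have hF1 : 1 ≤ F := by
    have h1 : (1 : ℝ) ≤ (k.factorial : ℝ) := by exact_mod_cast Nat.factorial_pos k
    have h2 : (1 : ℝ) ≤ 2 ^ k := one_le_pow₀ (by norm_num)
    calc (1 : ℝ) = 1 * 1 := by ring
      _ ≤ _ := mul_le_mul h1 h2 (by norm_num) (by linarith only [])
  have hE1 : 1 ≤ F * (1 + R) ^ k := by
    have h2 : (1 : ℝ) ≤ (1 + R) ^ k := one_le_pow₀ hB1
    calc (1 : ℝ) = 1 * 1 := by ring
      _ ≤ _ := mul_le_mul hF1 h2 (by norm_num) (by linarith only [hF1])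
  set A : ℝ := (|(D : ℝ)| ^ k) ^ m * (F * (1 + R) ^ k) ^ (m - 1) with hA
  have hA1 : 1 ≤ A := by
    have h1 : (1 : ℝ) ≤ (|(D : ℝ)| ^ k) ^ m := one_le_pow₀ (one_le_pow₀ hDabs)
    have h2 : (1 : ℝ) ≤ (F * (1 + R) ^ k) ^ (m - 1) := one_le_pow₀ hE1
    calc (1 : ℝ) = 1 * 1 := by ring
      _ ≤ _ := mul_le_mul h1 h2 (by norm_num) (by linarith only [h1])
  refine ⟨A⁻¹, inv_pos.2 (by linarith only [hA1]), fun n M hM hdet => ?_⟩
  rcases Nat.eq_zero_or_pos n with rfl | hn
  · -- all entries vanish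
    have h0 : ∀ a b, M a b = 0 := by
      intro a b
      obtain ⟨u, v, hu, hv, i, hx⟩ := hM a b
      have hu' : u = [] := List.length_eq_zero_iff.1 (Nat.le_zero.1 hu)
      have hv' : v = [] := List.length_eq_zero_iff.1 (Nat.le_zero.1 hv)
      rw [hx, hu', hv', sub_self]
    rcases Nat.eq_zero_or_pos k with rfl | hk
    · simp
    · exfalso
      apply hdet
      have : Nonempty (Fin k) := ⟨⟨0, hk⟩⟩
      have hM0 : M = 0 := by ext a b; exact h0 a b
      rw [hM0, Matrix.det_zero]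
  -- lift the matrix
  have hex : ∀ a b, ∃ x : K, algebraMap K ℝ x = M a b ∧ IsIntegral ℤ ((D : K) ^ n * x) ∧
      ∀ σ : K →ₐ[ℚ] ℂ, ‖σ x‖ ≤ 2 * (1 + R) ^ n := by
    intro a b
    obtain ⟨u, v, hu, hv, i, hx⟩ := hM a b
    refine ⟨coefG ρ u i - coefG ρ v i, ?_, ?_, fun σ => ?_⟩
    · rw [map_sub, coefG_map, coefG_map, hx, ← coefG_eq, ← coefG_eq]
      rfl
    · rw [mul_sub]
      exact (coefG_integral ρ D hD' u i hu).sub (coefG_integral ρ D hD' v i hv)
    · rw [map_sub]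
      have hb : ∀ w : List Λ, w.length ≤ n → ‖σ (coefG ρ w i)‖ ≤ (1 + R) ^ n := by
        intro w hw
        have h1 := coefG_map (σ : K →+* ℂ) ρ w i
        have h2 : σ (coefG ρ w i) = coefG (fun j => σ (ρ j)) w i := h1
        rw [h2]
        exact (coefG_norm_le _ (hR σ) hR0 w i).trans (pow_le_pow_right₀ hB1 hw)
      calc ‖σ (coefG ρ u i) - σ (coefG ρ v i)‖ ≤ ‖σ (coefG ρ u i)‖ + ‖σ (coefG ρ v i)‖ :=
            norm_sub_le _ _
        _ ≤ 2 * (1 + R) ^ n := by linarith only [hb u hu, hb v hv]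
  choose N hN1 hN2 hN3 using hex
  set N' : Matrix (Fin k) (Fin k) K := Matrix.of N with hN'
  have hdetN : algebraMap K ℝ N'.det = M.det := by
    rw [RingHom.map_det]
    congr 1
    ext a b
    exact hN1 a b
  have hne : N'.det ≠ 0 := by
    intro h
    rw [h, map_zero] at hdetN
    exact hdet hdetN.symm
  have hint : IsIntegral ℤ (((D ^ (n * k) : ℤ) : K) * N'.det) := by
    have h1 : ((D ^ (n * k) : ℤ) : K) * N'.det = (((D : K) ^ n) • N').det := by
      rw [Matrix.det_smul, Fintype.card_fin, ← pow_mul]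
      push_cast
      ring
    rw [h1]
    refine IsIntegral.det fun a b => ?_
    rw [Matrix.smul_apply, smul_eq_mul]
    exact hN2 a b
  have hconj : ∀ σ : K →ₐ[ℚ] ℂ, ‖σ N'.det‖ ≤ F * ((1 + R) ^ n) ^ k := by
    intro σ
    have h1 : σ N'.det = (σ.mapMatrix N').det := AlgHom.map_det σ N'
    rw [h1]
    have h2 := Matrix.det_le (A := σ.mapMatrix N') (abv := NormedField.toAbsoluteValue ℂ)
      (x := 2 * (1 + R) ^ n) (fun a b => hN3 a b σ)
    rw [Fintype.card_fin, nsmul_eq_mul] at h2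
    refine (le_trans (le_of_eq ?_) h2).trans (le_of_eq ?_)
    · rfl
    · rw [hF, mul_pow]; ring
  have key := one_le_conj σ₀ hne (D ^ (n * k)) (pow_ne_zero _ hD0) hint hconj
  rw [hσ₀, hdetN, ← hm] at key
  -- final computation
  have hApow : |((D ^ (n * k) : ℤ) : ℝ)| ^ m * (|M.det| * (F * ((1 + R) ^ n) ^ k) ^ (m - 1)) ≤
      A ^ n * |M.det| := by
    have h1 : |((D ^ (n * k) : ℤ) : ℝ)| ^ m = (((|(D : ℝ)| ^ k) ^ m)) ^ n := by
      push_cast
      rw [abs_pow]
      rw [← pow_mul, ← pow_mul, ← pow_mul]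
      congr 1
      ring
    have h2 : (F * ((1 + R) ^ n) ^ k) ^ (m - 1) ≤ ((F * (1 + R) ^ k) ^ (m - 1)) ^ n := by
      have e : ((F * (1 + R) ^ k) ^ (m - 1)) ^ n = ((F * (1 + R) ^ k) ^ n) ^ (m - 1) := by
        rw [← pow_mul, ← pow_mul, mul_comm (m - 1) n]
      rw [e]
      refine pow_le_pow_left₀ (by (clear * - hR0; positivity)) ?_ _
      rw [mul_pow]
      have h3 : F ≤ F ^ n := le_self_pow₀ hF1 hn.ne'
      have h4 : ((1 + R) ^ n) ^ k = ((1 + R) ^ k) ^ n := by
        rw [← pow_mul, ← pow_mul, mul_comm n k]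
      rw [h4]
      exact mul_le_mul_of_nonneg_right h3 (by positivity)
    have h5 : 0 ≤ ((|(D : ℝ)| ^ k) ^ m) ^ n := by (clear * - hD0; positivity)
    have h6 := mul_le_mul_of_nonneg_left h2 (abs_nonneg M.det)
    have h7 := mul_le_mul_of_nonneg_left h6 h5
    rw [h1]
    refine h7.trans (le_of_eq ?_)
    rw [hA, mul_pow (((|(D : ℝ)| ^ k) ^ m)) ((F * (1 + R) ^ k) ^ (m - 1)) n]
    ring
  have h8 : 1 ≤ A ^ n * |M.det| := key.trans hApow
  rw [inv_pow]
  have hAn : 0 < A ^ n := by (clear * - hD0 hR0; positivity)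
  rw [inv_le_iff_one_le_mul₀ hAn, mul_comm]
  exact h8

end Vale.Agent.P114
end

section

open scoped Classical

noncomputable section

namespace Vale.Agent.P114

universe u v

variable {Λ : Type*}

lemma wordMap_eq (r t : Λ → ℝ) (u : List Λ) (x : ℝ) :
    wordMap r t u x = slL r u * x + trL r t u := by
  induction u with
  | nil => simp only [wordMap, id_eq, slL, one_mul, trL, add_zero]
  | cons i u ih =>
    simp only [wordMap, slL, trL, Function.comp, simMap, ih]
    ring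

lemma wordMap_eq_iff (r t : Λ → ℝ) {n m : ℕ} (w : Fin n → Λ) (w' : Fin m → Λ) :
    wordMap r t (List.ofFn w) = wordMap r t (List.ofFn w')
      ↔ (sl r w, tr r t w) = (sl r w', tr r t w') := by
  constructor
  · intro h
    have h0 := congrFun h 0
    have h1 := congrFun h 1
    simp only [wordMap_eq, mul_zero, zero_add, mul_one] at h0 h1
    have h2 : slL r (List.ofFn w) = slL r (List.ofFn w') := by linarith only [h0, h1]
    exact Prod.ext h2 h0
  · intro h
    have h1 : slL r (List.ofFn w) = slL r (List.ofFn w') := (Prod.mk.inj h).1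
    have h2 : trL r t (List.ofFn w) = trL r t (List.ofFn w') := (Prod.mk.inj h).2
    funext x
    rw [wordMap_eq, wordMap_eq, h1, h2]

/-- The entropy of the `n`-th step of the random walk, as the entropy of the pair
(slope, translation part) of a random word. -/
theorem stepEntropy_eq [Fintype Λ] (r t p : Λ → ℝ) (P : FinProb Λ) (hP : ∀ i, P.w i = p i)
    (n : ℕ) :
    stepEntropy r t p n = (P.pi n).H (fun w => (sl r w, tr r t w)) / Real.log 2 := by
  have h1 : (P.pi n).H (fun w => (sl r w, tr r t w))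
      = (P.pi n).H (fun w => wordMap r t (List.ofFn w)) :=
    (P.pi n).H_congr_det fun w w' => wordMap_eq_iff r t w w'
  rw [h1, (P.pi n).H_eq_sum, Finset.sum_div]
  unfold stepEntropy
  refine Finset.sum_congr rfl fun g _ => ?_
  have h2 : stepProb r t p n g = (P.pi n).p (fun w => wordMap r t (List.ofFn w)) g := by
    unfold stepProb FinProb.p
    refine Finset.sum_congr rfl fun w _ => ?_
    simp only [FinProb.pi_w, hP]
  rw [h2, Real.negMulLog, Real.logb]
  ring

lemma lyap_eq [Fintype Λ] (r p : Λ → ℝ) :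
    lyap r p = (-∑ i, p i * Real.log |r i|) / Real.log 2 := by
  unfold lyap Real.logb
  rw [neg_div, Finset.sum_div]
  congr 1
  refine Finset.sum_congr rfl fun i _ => ?_
  ring

lemma stepEntropy_nonneg [Fintype Λ] (r t p : Λ → ℝ) (hp : ∀ i, 0 ≤ p i) (hp1 : ∑ i, p i = 1)
    (n : ℕ) : 0 ≤ stepEntropy r t p n := by
  rw [stepEntropy_eq r t p ⟨p, hp, hp1⟩ (fun _ => rfl) n]
  exact div_nonneg (FinProb.H_nonneg _ _) (Real.log_nonneg (by norm_num))

lemma bddBelow_step [Fintype Λ] (r t p : Λ → ℝ) (hp : ∀ i, 0 ≤ p i) (hp1 : ∑ i, p i = 1) :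
    BddBelow (Set.range fun n : ℕ => stepEntropy r t p (n + 1) / ((n : ℝ) + 1)) := by
  refine ⟨0, ?_⟩
  rintro _ ⟨n, rfl⟩
  exact div_nonneg (stepEntropy_nonneg r t p hp hp1 _) (by positivity)

lemma hRW_le [Fintype Λ] (r t p : Λ → ℝ) (hp : ∀ i, 0 ≤ p i) (hp1 : ∑ i, p i = 1)
    (n : ℕ) (hn : n ≠ 0) : hRW r t p ≤ stepEntropy r t p n / n := by
  obtain ⟨m, rfl⟩ := Nat.exists_eq_succ_of_ne_zero hn
  have := ciInf_le (bddBelow_step r t p hp hp1) m
  unfold hRW
  simpa only [Nat.succ_eq_add_one, Nat.cast_add, Nat.cast_one, ge_iff_le] using this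

lemma le_hRW [Fintype Λ] (r t p : Λ → ℝ) (c : ℝ)
    (h : ∀ n : ℕ, n ≠ 0 → c ≤ stepEntropy r t p n / n) : c ≤ hRW r t p := by
  unfold hRW
  refine le_ciInf fun n => ?_
  have := h (n + 1) (Nat.succ_ne_zero n)
  simpa only [ge_iff_le, Nat.cast_add, Nat.cast_one] using this

end Vale.Agent.P114
end
end

section

/-! Multi-scale telescoping. -/

noncomputable section

namespace Vale.Agent.P114

open Filter

/-- One step of the growth of the entropy profile. -/
lemma profile_growth (f : ℕ → ℝ) (C : ℝ) (hC : 0 ≤ C) (f0 : ∀ b, 0 ≤ f b)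
    (fsup : ∀ a b, f a + f b - C ≤ f (a + b))
    (fmono : ∀ j b W, f (b + W) - f b - C ≤ f (j + b + W) - f (j + b))
    (b M : ℕ) (hb : 0 < b) (Δ : ℝ) (hΔ0 : 0 ≤ Δ) (hΔ : Δ ≤ f (M + b) - f M - f b) :
    ∃ s : ℕ, M + b ≤ s ∧ s ≤ 2 * (M + b) ∧
      (s : ℝ) * (f b / b) - s / b * C - f b - 2 * C + s / (2 * b) * Δ ≤ f s := by
  have hbR : (0 : ℝ) < b := by exact_mod_cast hb
  have hmul : ∀ k : ℕ, (k : ℝ) * (f b - C) ≤ f (k * b) := by
    intro k
    induction k with
    | zero => simpa using f0 0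
    | succ k ih =>
      have := fsup (k * b) b
      rw [show k * b + b = (k + 1) * b by ring] at this
      push_cast
      linarith only [ih, this]
  have hadd : ∀ k : ℕ, f M + k * (f b + Δ - C) ≤ f (M + k * b) := by
    intro k
    induction k with
    | zero => simp
    | succ k ih =>
      have := fmono (k * b) M b
      rw [show k * b + M + b = M + (k + 1) * b by ring, show k * b + M = M + k * b by ring] at this
      push_cast
      linarith only [hΔ, ih, this]
  set m := M / b with hm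
  have hMm : M = m * b + M % b := by rw [hm, mul_comm]; exact (Nat.div_add_mod M b).symm
  have hr : M % b < b := Nat.mod_lt _ hb
  have hM : (m : ℝ) * (f b - C) - C ≤ f M := by
    have h1 := fsup (m * b) (M % b)
    rw [← hMm] at h1
    have h2 := hmul m
    have h3 := f0 (M % b)
    linarith only [h1, h2, h3]
  set q := m + 1 with hq
  have hs1 := hadd q
  have hMR : (M : ℝ) = m * b + (M % b : ℕ) := by exact_mod_cast hMm
  have hrR : ((M % b : ℕ) : ℝ) < b := by exact_mod_cast hr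
  have hr0 : (0 : ℝ) ≤ ((M % b : ℕ) : ℝ) := Nat.cast_nonneg _
  refine ⟨M + q * b, ?_, ?_, ?_⟩
  · rw [hq]; nlinarith only []
  · have : q * b = m * b + b := by rw [hq]; ring
    omega
  · have hsb : ((M + q * b : ℕ) : ℝ) = (m + q) * b + (M % b : ℕ) := by
      push_cast
      rw [hMR]
      push_cast
      ring
    set s : ℝ := ((M + q * b : ℕ) : ℝ) with hs
    set θ : ℝ := ((M % b : ℕ) : ℝ) / b with hθ
    have hθ0 : 0 ≤ θ := by (clear * - hb; positivity)
    have hθ1 : θ ≤ 1 := by rw [hθ, div_le_one hbR]; exact hrR.le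
    have hsdiv : s / b = m + q + θ := by
      rw [hsb, hθ]; (clear * - hb; field_simp)
    have hq2 : s / (2 * b) ≤ q := by
      rw [div_le_iff₀ (by positivity), hsb]
      have : (q : ℝ) = m + 1 := by rw [hq]; push_cast; ring
      rw [this]
      linarith only [hrR]
    have e1 : s * (f b / b) = (m + q + θ) * f b := by
      rw [← hsdiv]; ring
    have h4 : s / (2 * b) * Δ ≤ q * Δ := mul_le_mul_of_nonneg_right hq2 hΔ0
    have h5 := f0 b
    have h6 : θ * f b ≤ 1 * f b := mul_le_mul_of_nonneg_right hθ1 h5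
    have h7 : 0 ≤ θ * C := by (clear * - hb hC; positivity)
    rw [e1, hsdiv]
    linarith only [h7, h6, h4, hs1, hM, hC]

lemma log_add_two_le (l : ℕ) : Real.log (l + 2) ≤ l + 1 := by
  have := Real.log_le_sub_one_of_pos (show (0 : ℝ) < l + 2 by positivity)
  linarith only [this]

lemma half_lt_log_two' : (1 : ℝ) / 2 < Real.log 2 := by
  have := Real.log_two_gt_d9
  linarith only [this]

lemma half_lt_log_add_two (l : ℕ) : (1 : ℝ) / 2 < Real.log (l + 2) := by
  refine half_lt_log_two'.trans_le (Real.log_le_log (by norm_num) ?_)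
  have : (0 : ℝ) ≤ l := Nat.cast_nonneg l
  linarith only []

lemma eventually_sq_le_two_pow (A : ℝ) : ∀ᶠ l : ℕ in atTop, A * (l : ℝ) ^ 2 ≤ 2 ^ l := by
  have h1 := tendsto_pow_const_div_const_pow_of_one_lt 2 (show (1 : ℝ) < 2 by norm_num)
  have h2 := h1.eventually_lt_const (show (0 : ℝ) < 1 / (|A| + 1) by positivity)
  filter_upwards [h2] with l hl
  rw [div_lt_div_iff₀ (by positivity) (by positivity)] at hl
  have h3 : A * (l : ℝ) ^ 2 ≤ |A| * (l : ℝ) ^ 2 :=
    mul_le_mul_of_nonneg_right (le_abs_self A) (by (clear * -; positivity))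
  have h4 : 0 ≤ (l : ℝ) ^ 2 := by (clear * -; positivity)
  linarith only [hl, h3, h4]

lemma two_pow_log_le' (n : ℕ) (hn : 1 ≤ n) : (2 : ℝ) ^ (Nat.log 2 n) ≤ n := by
  exact_mod_cast Nat.pow_log_le_self 2 (by omega)

lemma step_arith (C B κ₁ n l u b s b' x fb fs c Δ' : ℝ) (hB : 0 < B) (hC : 0 ≤ C) (hκ : 0 < κ₁)
    (hc : c = κ₁ / (8 * B)) (hu2 : 1 / 2 < u) (hul : u ≤ 2 * l) (hn : 1 ≤ n) (hb : 0 < b)
    (hb1 : b ≤ n * B) (hb3 : n * B / 2 ≤ b) (hΔ' : Δ' = κ₁ * n / u - C)
    (hCu2 : 24 * C * u ≤ κ₁ * n) (hKc : B + 4 * C + B * (1 + C) + 2 * B * c ≤ c * l)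
    (hsN : n * l ^ 2 ≤ s) (hs : 0 < s) (hb' : b' ≤ s + B) (hx0 : 0 ≤ x) (hx1 : x ≤ 1 + C)
    (hfb : fb ≤ n * B + C) (hs3 : s * x - s / b * C - fb - 2 * C + s / (2 * b) * Δ' ≤ fs) :
    (x + c / u) * b' ≤ fs - C := by
  have hu0 : 0 < u := by linarith only [hu2]
  have hc0 : 0 < c := by rw [hc]; positivity
  have hl0 : 0 ≤ l := by linarith only [hu2, hul]
  have hcu0 : 0 ≤ c / u := by positivity
  have hcu : c / u ≤ 2 * c := by
    rw [div_le_iff₀ hu0]
    nlinarith only [hu2, hc0]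
  have h1 : (x + c / u) * b' ≤ (x + c / u) * (s + B) :=
    mul_le_mul_of_nonneg_left hb' (by positivity)
  refine h1.trans ?_
  have h2 : κ₁ / (2 * B * u) ≤ κ₁ * n / u / (2 * b) := by
    rw [div_div, div_le_div_iff₀ (by positivity) (by positivity)]
    have h3 : κ₁ * u * b ≤ κ₁ * u * (n * B) := mul_le_mul_of_nonneg_left hb1 (by positivity)
    linarith only [h3]
  have h3 : 3 * C / (2 * b) ≤ κ₁ / (8 * B * u) := by
    rw [div_le_div_iff₀ (by positivity) (by positivity)]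
    have h4 : 24 * C * u * B ≤ κ₁ * n * B := mul_le_mul_of_nonneg_right hCu2 hB.le
    have h5 : κ₁ * (n * B / 2) ≤ κ₁ * b := mul_le_mul_of_nonneg_left hb3 hκ.le
    linarith only [h4, h5]
  have e2 : c / u = κ₁ / (8 * B * u) := by rw [hc, div_div]
  have e3 : κ₁ / (2 * B * u) = 4 * (κ₁ / (8 * B * u)) := by field_simp; norm_num
  have e1 : (Δ' - 2 * C) / (2 * b) = κ₁ * n / u / (2 * b) - 3 * C / (2 * b) := by
    rw [hΔ']; ring
  have h5 : 3 * (c / u) ≤ (Δ' - 2 * C) / (2 * b) := by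
    rw [e1, e2]
    linarith only [h2, h3, e3]
  have h4 : s * (3 * (c / u)) ≤ s * ((Δ' - 2 * C) / (2 * b)) :=
    mul_le_mul_of_nonneg_left h5 hs.le
  set K : ℝ := B + 4 * C + B * (1 + C) + 2 * B * c with hK
  have hK0 : 0 ≤ K := by rw [hK]; (clear * - hB hC hc0; positivity)
  have h6 : n * B + 4 * C + B * (1 + C + c / u) ≤ n * K := by
    have h7 : B * (c / u) ≤ B * (2 * c) := mul_le_mul_of_nonneg_left hcu hB.le
    have h8 : 1 * (4 * C + B * (1 + C) + 2 * B * c) ≤ n * (4 * C + B * (1 + C) + 2 * B * c) :=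
      mul_le_mul_of_nonneg_right hn (by (clear * - hC hB hc0; positivity))
    have e4 : n * K = n * B + n * (4 * C + B * (1 + C) + 2 * B * c) := by rw [hK]; ring
    rw [e4]
    linarith only [h7, h8]
  have h7 : K * u ≤ l ^ 2 * (2 * c) := by
    have h8 : K * u ≤ K * (2 * l) := mul_le_mul_of_nonneg_left hul hK0
    have h9 : K * (2 * l) ≤ c * l * (2 * l) := mul_le_mul_of_nonneg_right hKc (by (clear * - hl0; positivity))
    have e4 : c * l * (2 * l) = l ^ 2 * (2 * c) := by ring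
    linarith only [h8, h9]
  have h8 : n * K ≤ n * l ^ 2 * (2 * (c / u)) := by
    have h9 : K ≤ l ^ 2 * (2 * c) / u := by
      rw [le_div_iff₀ hu0]; exact h7
    have e4 : n * l ^ 2 * (2 * (c / u)) = n * (l ^ 2 * (2 * c) / u) := by ring
    rw [e4]
    exact mul_le_mul_of_nonneg_left h9 (by linarith only [hn])
  have h9 : n * l ^ 2 * (2 * (c / u)) ≤ s * (2 * (c / u)) :=
    mul_le_mul_of_nonneg_right hsN (by positivity)
  have e5 : s / b * C = s * (2 * C / (2 * b)) := by (clear * - hb hs; field_simp)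
  have e6 : s / (2 * b) * Δ' = s * (Δ' / (2 * b)) := by ring
  have e7 : s * ((Δ' - 2 * C) / (2 * b)) = s * (Δ' / (2 * b)) - s * (2 * C / (2 * b)) := by
    ring
  have h10 : x * B ≤ (1 + C) * B := mul_le_mul_of_nonneg_right hx1 hB.le
  rw [e5, e6] at hs3
  rw [e7] at h4
  have e8 : (x + c / u) * (s + B) = s * x + s * (c / u) + x * B + B * (c / u) := by ring
  have e9 : B * (1 + C + c / u) = (1 + C) * B + B * (c / u) := by ring
  have e10 : s * (3 * (c / u)) = s * (2 * (c / u)) + s * (c / u) := by ring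
  rw [e8]
  rw [e9] at h6
  rw [e10] at h4
  linarith only [hfb, hs3, h4, h6, h8, h9, h10]

lemma step_ratio (C b fb : ℝ) (hC : 0 ≤ C) (hb : 1 ≤ b) (h : fb ≤ b + C) :
    fb / b ≤ 1 + C := by
  rw [div_le_iff₀ (by linarith)]
  linarith only [mul_nonneg (sub_nonneg.2 hC) (sub_nonneg.2 hb), h]

lemma step_log (n n' : ℕ) (B s : ℝ) (hB : 0 < B) (hn1 : 1 ≤ n) (hn' : (n' : ℝ) ≤ s / B + 1)
    (hs : s ≤ 2 * (n * (Nat.log 2 n : ℝ) ^ 2))
    (h3 : (2 / B + 1) * (Nat.log 2 n : ℝ) ^ 2 ≤ n) (h4 : (1 : ℝ) ≤ (Nat.log 2 n : ℝ) ^ 2) :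
    Real.log (Nat.log 2 n' + 2) ≤ Real.log (Nat.log 2 n + 2) + Real.log 2 := by
  set l := Nat.log 2 n with hl
  have hnR : (1 : ℝ) ≤ n := by exact_mod_cast hn1
  have h1 : (n' : ℝ) ≤ n ^ 2 := by
    have h2 : s / B ≤ 2 / B * (l : ℝ) ^ 2 * n := by
      rw [div_le_iff₀ hB]
      calc s ≤ 2 * (n * (l : ℝ) ^ 2) := hs
        _ = 2 / B * (l : ℝ) ^ 2 * n * B := by (clear * - hB hn1; field_simp)
    have h5 : (2 / B + 1) * (l : ℝ) ^ 2 * n ≤ n * n :=
      mul_le_mul_of_nonneg_right h3 (by linarith only [])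
    have h6 : (1 : ℝ) * 1 ≤ (l : ℝ) ^ 2 * n := mul_le_mul h4 hnR (by norm_num) (by linarith only [h4])
    calc (n' : ℝ) ≤ 2 / B * (l : ℝ) ^ 2 * n + (l : ℝ) ^ 2 * n := by linarith only [hn', h2, h6]
      _ = (2 / B + 1) * (l : ℝ) ^ 2 * n := by ring
      _ ≤ n * n := h5
      _ = n ^ 2 := by ring
  have h2 : n' ≤ n ^ 2 := by exact_mod_cast h1
  have h3 : n < 2 ^ (l + 1) := Nat.lt_pow_succ_log_self (by norm_num) n
  have h4 : n' < 2 ^ (2 * l + 2) := by
    calc n' ≤ n ^ 2 := h2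
      _ < (2 ^ (l + 1)) ^ 2 := Nat.pow_lt_pow_left h3 (by norm_num)
      _ = 2 ^ (2 * l + 2) := by rw [← pow_mul]; congr 1; ring
  have h5 : Nat.log 2 n' < 2 * l + 2 := Nat.log_lt_of_lt_pow' (by omega) h4
  have h6 : (Nat.log 2 n' : ℝ) + 2 ≤ (l + 2) * 2 := by
    have : Nat.log 2 n' + 2 ≤ (l + 2) * 2 := by omega
    exact_mod_cast this
  rw [← Real.log_mul (by (clear * -; positivity)) (by norm_num)]
  exact Real.log_le_log (by (clear * -; positivity)) h6

lemma profile_step (f : ℕ → ℝ) (C B κ₁ : ℝ) (hB : 0 < B) (hC : 0 ≤ C) (hκ : 0 < κ₁)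
    (f0 : ∀ b, 0 ≤ f b) (fub : ∀ b : ℕ, f b ≤ b + C)
    (fsup : ∀ a b, f a + f b - C ≤ f (a + b))
    (fmono : ∀ j b W, f (b + W) - f b - C ≤ f (j + b + W) - f (j + b)) (n0 : ℕ)
    (hΔ : ∀ n : ℕ, n0 ≤ n → ⌊(n : ℝ) * B⌋₊ ≤ n * (Nat.log 2 n) ^ 2 →
      κ₁ * n / Real.log (Nat.log 2 n + 2) - C
      ≤ f (n * (Nat.log 2 n) ^ 2) - f (n * (Nat.log 2 n) ^ 2 - ⌊(n : ℝ) * B⌋₊)
        - f ⌊(n : ℝ) * B⌋₊) :
    ∃ (n1 : ℕ) (c : ℝ), 0 < c ∧ ∀ n ≥ n1, 0 < ⌊(n : ℝ) * B⌋₊ ∧ ∃ n' ≥ n1,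
      Real.log (Nat.log 2 n' + 2) ≤ Real.log (Nat.log 2 n + 2) + Real.log 2 ∧
      f ⌊(n : ℝ) * B⌋₊ / ⌊(n : ℝ) * B⌋₊ + c / Real.log (Nat.log 2 n + 2)
        ≤ f ⌊(n' : ℝ) * B⌋₊ / ⌊(n' : ℝ) * B⌋₊ := by
  set c : ℝ := κ₁ / (8 * B) with hc
  have hc0 : 0 < c := by positivity
  set K : ℝ := B + 4 * C + B * (1 + C) + 2 * B * c with hK
  have hK0 : 0 < K := by (clear * - hB hC hκ; positivity)
  have hev : ∀ᶠ l : ℕ in atTop, B ≤ l ∧ (1 : ℝ) ≤ l ∧ K / c ≤ l ∧ (2 / B) * (l : ℝ) ^ 2 ≤ 2 ^ l ∧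
      (48 * C / κ₁) * (l : ℝ) ^ 2 ≤ 2 ^ l ∧ (2 / B + 1) * (l : ℝ) ^ 2 ≤ 2 ^ l := by
    have ht := tendsto_natCast_atTop_atTop (R := ℝ)
    filter_upwards [ht.eventually_ge_atTop B, ht.eventually_ge_atTop 1,
      ht.eventually_ge_atTop (K / c), eventually_sq_le_two_pow (2 / B),
      eventually_sq_le_two_pow (48 * C / κ₁), eventually_sq_le_two_pow (2 / B + 1)]
      with l h1 h2 h3 h4 h5 h6
    exact ⟨h1, h2, h3, h4, h5, h6⟩
  obtain ⟨l0, hl0⟩ := eventually_atTop.1 hev
  refine ⟨max n0 (2 ^ l0), c, hc0, fun n hn => ?_⟩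
  have hn0 : n0 ≤ n := (le_max_left _ _).trans hn
  have hnl : 2 ^ l0 ≤ n := (le_max_right _ _).trans hn
  have hn1 : 1 ≤ n := (Nat.one_le_two_pow).trans hnl
  set l := Nat.log 2 n with hl
  have hll : l0 ≤ l := by
    rw [hl]; exact (Nat.le_log_iff_pow_le (by norm_num) (by omega)).2 hnl
  obtain ⟨a1, a2, a3, a4, a5, a6⟩ := hl0 l hll
  have hnR : (1 : ℝ) ≤ n := by exact_mod_cast hn1
  have h2l : (2 : ℝ) ^ l ≤ n := two_pow_log_le' n hn1
  set u : ℝ := Real.log (l + 2) with hu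
  have hu1 : u ≤ l + 1 := log_add_two_le l
  have hu2 : 1 / 2 < u := half_lt_log_add_two l
  have hu0 : 0 < u := by linarith only [hu2]
  have hlsq : (l : ℝ) ≤ (l : ℝ) ^ 2 := by nlinarith only [a2]
  have hBl : B ≤ (l : ℝ) ^ 2 := a1.trans hlsq
  have hul : u ≤ 2 * (l : ℝ) ^ 2 := by nlinarith only [a2, hu1]
  set b := ⌊(n : ℝ) * B⌋₊ with hb
  have hnB : 0 ≤ (n : ℝ) * B := by (clear * - hn1 hB; positivity)
  have hb1 : (b : ℝ) ≤ n * B := Nat.floor_le hnB
  have hb2 : n * B < b + 1 := Nat.lt_floor_add_one _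
  have hnB2 : 2 ≤ (n : ℝ) * B := by
    have h1 : 2 / B ≤ (n : ℝ) := by
      have h2 : 2 / B * 1 ≤ 2 / B * (l : ℝ) ^ 2 := by
        have : (1 : ℝ) ≤ (l : ℝ) ^ 2 := a2.trans hlsq
        (clear * - this hB; gcongr)
      (clear * - hB a1 a6 h2l hlsq h2; linarith)
    rw [div_le_iff₀ hB] at h1
    exact h1
  have hb3 : n * B / 2 ≤ b := by linarith only [hb2, hnB2]
  have hb0 : 0 < b := by
    have : (0 : ℝ) < b := by linarith only [hb2, hnB2]
    exact_mod_cast this
  have hbR : (0 : ℝ) < b := by exact_mod_cast hb0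
  have hbN : b ≤ n * l ^ 2 := by
    have : (b : ℝ) ≤ n * (l : ℝ) ^ 2 := hb1.trans (by (clear * - hBl hn1; gcongr))
    exact_mod_cast this
  refine ⟨hb0, ?_⟩
  have hΔn := hΔ n hn0 hbN
  set M := n * l ^ 2 - b with hM
  have hMb : M + b = n * l ^ 2 := by omega
  set Δ' : ℝ := κ₁ * n / u - C with hΔ'
  have hCu : 48 * C * (l : ℝ) ^ 2 ≤ κ₁ * n := by
    have h1 : 48 * C / κ₁ * (l : ℝ) ^ 2 ≤ n := a5.trans h2l
    rw [div_mul_eq_mul_div, div_le_iff₀ hκ] at h1
    linarith only [h1]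
  have hCu2 : 24 * C * u ≤ κ₁ * n := by
    have : 24 * C * u ≤ 24 * C * (2 * (l : ℝ) ^ 2) := by (clear * - hul hC; gcongr)
    linarith only [hCu, this]
  have hΔ'0 : 0 ≤ Δ' := by
    rw [hΔ', sub_nonneg, le_div_iff₀ hu0]
    have : 0 ≤ C * u := by (clear * - hC hu2; positivity)
    linarith only [hCu2, this]
  obtain ⟨s, hs1, hs2, hs3⟩ := profile_growth f C hC f0 fsup fmono b M hb0 Δ' hΔ'0 (by
    rw [hMb]; exact hΔn)
  rw [hMb] at hs1 hs2
  have hsN : (n : ℝ) * (l : ℝ) ^ 2 ≤ s := by exact_mod_cast hs1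
  have hsN2 : (s : ℝ) ≤ 2 * (n * (l : ℝ) ^ 2) := by exact_mod_cast hs2
  have hsR : (0 : ℝ) < s := by
    have : (0 : ℝ) < n * (l : ℝ) ^ 2 := by (clear * - hn1 a2; positivity)
    linarith only [hsN, this]
  set n' := ⌈(s : ℝ) / B⌉₊ with hn'
  have hn'1 : (s : ℝ) / B ≤ n' := Nat.le_ceil _
  have hn'2 : (n' : ℝ) < s / B + 1 := Nat.ceil_lt_add_one (by (clear * - hsR hB; positivity))
  have hn'B : (s : ℝ) ≤ n' * B := by
    rw [div_le_iff₀ hB] at hn'1
    exact hn'1
  have hn'B2 : (n' : ℝ) * B ≤ s + B := by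
    have h1 : (n' : ℝ) * B ≤ (s / B + 1) * B := by (clear * - hn'2 hB; gcongr)
    have h2 : ((s : ℝ) / B + 1) * B = s + B := by (clear * - hB hsR; field_simp)
    linarith only [h1, h2]
  have hnn' : n ≤ n' := by
    have h1 : (n : ℝ) ≤ s / B := by
      rw [le_div_iff₀ hB]
      calc (n : ℝ) * B ≤ n * (l : ℝ) ^ 2 := by (clear * - hBl hn1; gcongr)
        _ ≤ s := hsN
    have : (n : ℝ) ≤ n' := h1.trans hn'1
    exact_mod_cast this
  refine ⟨n', hn.trans hnn', ?_, ?_⟩
  · -- logarithms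
    exact step_log n n' B s hB hn1 hn'2.le hsN2 (by
      have h3 : (2 / B + 1) * (l : ℝ) ^ 2 ≤ n := a6.trans h2l
      exact h3) (a2.trans hlsq)
  · set b' := ⌊(n' : ℝ) * B⌋₊ with hb'
    have hb'1 : s ≤ b' := Nat.le_floor hn'B
    have hb'2 : (b' : ℝ) ≤ s + B := (Nat.floor_le (by (clear * - hsR hB; positivity))).trans hn'B2
    have hb'R : (0 : ℝ) < b' := by
      have : (s : ℝ) ≤ b' := by exact_mod_cast hb'1
      linarith only [hsR, this]
    have hfb' : f s - C ≤ f b' := by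
      have h1 := fsup s (b' - s)
      rw [Nat.add_sub_cancel' hb'1] at h1
      have h2 := f0 (b' - s)
      linarith only [h1, h2]
    set x : ℝ := f b / b with hx
    have hx0 : 0 ≤ x := div_nonneg (f0 b) hbR.le
    have hfb : f b ≤ n * B + C := (fub b).trans (by linarith only [hb1])
    have hb1' : (1 : ℝ) ≤ b := by exact_mod_cast hb0
    have hx1 : x ≤ 1 + C := step_ratio C b (f b) hC hb1' (fub b)
    rw [le_div_iff₀ hb'R]
    refine le_trans ?_ hfb'
    have hKc : K ≤ c * l := by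
      rw [div_le_iff₀ hc0] at a3
      linarith only [a3]
    exact step_arith C B κ₁ n l u b s b' x (f b) (f s) c Δ' hB hC hκ hc hu2
      (by linarith only [a2, hu1]) hnR hbR hb1 hb3 hΔ' hCu2 (by rw [← hK]; exact hKc) hsN hsR hb'2 hx0 hx1 hfb hs3

/-- The profile cannot grow at all scales. -/
theorem multiscale (f : ℕ → ℝ) (C B κ₁ : ℝ) (hB : 0 < B) (hC : 0 ≤ C) (hκ : 0 < κ₁)
    (f0 : ∀ b, 0 ≤ f b) (fub : ∀ b : ℕ, f b ≤ b + C)
    (fsup : ∀ a b, f a + f b - C ≤ f (a + b))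
    (fmono : ∀ j b W, f (b + W) - f b - C ≤ f (j + b + W) - f (j + b)) (n0 : ℕ)
    (hΔ : ∀ n : ℕ, n0 ≤ n → ⌊(n : ℝ) * B⌋₊ ≤ n * (Nat.log 2 n) ^ 2 →
      κ₁ * n / Real.log (Nat.log 2 n + 2) - C
      ≤ f (n * (Nat.log 2 n) ^ 2) - f (n * (Nat.log 2 n) ^ 2 - ⌊(n : ℝ) * B⌋₊)
        - f ⌊(n : ℝ) * B⌋₊) : False := by
  obtain ⟨n1, c, hc, hstep⟩ := profile_step f C B κ₁ hB hC hκ f0 fub fsup fmono n0 hΔ
  choose! nx hnx1 hnx2 hnx3 using fun n hn => (hstep n hn).2
  set g : ℕ → ℝ := fun n => f ⌊(n : ℝ) * B⌋₊ / ⌊(n : ℝ) * B⌋₊ with hg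
  set u : ℕ → ℝ := fun n => Real.log (Nat.log 2 n + 2) with hu
  set x : ℕ → ℕ := fun j => nx^[j] n1 with hx
  have hxs : ∀ j, x (j + 1) = nx (x j) := fun j => by
    simp only [hx, Function.iterate_succ', Function.comp_apply]
  have hx1 : ∀ j, n1 ≤ x j := by
    intro j
    induction j with
    | zero => exact le_rfl
    | succ j ih => rw [hxs]; exact hnx1 _ ih
  have hl2 : 0 < Real.log 2 := Real.log_pos (by norm_num)
  have hl21 : Real.log 2 ≤ 1 := by
    have := Real.log_two_lt_d9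
    linarith only [this, hl2]
  have hu1 : ∀ j : ℕ, u (x j) ≤ u n1 + j * Real.log 2 := by
    intro j
    induction j with
    | zero => simp [hx]
    | succ j ih =>
      rw [hxs]
      have := hnx2 _ (hx1 j)
      push_cast
      simp only [hu] at *
      linarith only [this, ih]
  have hu0 : ∀ n, 0 < u n := fun n => by
    have := half_lt_log_add_two (Nat.log 2 n)
    simp only [hu]; linarith only [this]
  set A : ℝ := u n1 + 1 with hA
  have hA0 : 0 < A := by have := hu0 n1; linarith only [this]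
  have hg1 : ∀ j : ℕ, g n1 + c / A * ∑ i ∈ Finset.range j, 1 / ((i : ℝ) + 1) ≤ g (x j) := by
    intro j
    induction j with
    | zero => simp [hx]
    | succ j ih =>
      rw [hxs, Finset.sum_range_succ]
      have h1 := hnx3 _ (hx1 j)
      have h2 : c / A * (1 / ((j : ℝ) + 1)) ≤ c / u (x j) := by
        rw [div_mul_div_comm, mul_one]
        refine div_le_div_of_nonneg_left hc.le (hu0 _) ?_
        refine (hu1 j).trans ?_
        have h3 : (j : ℝ) * Real.log 2 ≤ j * 1 := by (clear * - hl21; gcongr)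
        have h4 := hu0 n1
        have h5 : (0 : ℝ) ≤ j := Nat.cast_nonneg j
        rw [hA]
        nlinarith only [h3, h4]
      simp only [hg, hu] at *
      linarith
  have hg2 : ∀ j, g (x j) ≤ 1 + C := by
    intro j
    have hb := (hstep _ (hx1 j)).1
    have hbR : (0 : ℝ) < (⌊((x j : ℕ) : ℝ) * B⌋₊ : ℝ) := by exact_mod_cast hb
    have hb1 : (1 : ℝ) ≤ (⌊((x j : ℕ) : ℝ) * B⌋₊ : ℝ) := by exact_mod_cast hb
    simp only [hg]
    rw [div_le_iff₀ hbR]
    have := fub ⌊((x j : ℕ) : ℝ) * B⌋₊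
    linarith only [mul_nonneg (sub_nonneg.2 hC) (sub_nonneg.2 hb1), this]
  have hinf := Real.tendsto_sum_range_one_div_nat_succ_atTop
  obtain ⟨j, hj⟩ := (hinf.eventually_gt_atTop ((1 + C - g n1) / (c / A))).exists
  have hcA : 0 < c / A := by (clear * - hc hA0; positivity)
  rw [div_lt_iff₀ hcA] at hj
  have h1 := hg1 j
  have h2 := hg2 j
  linarith only [h2, h1, hj]

end Vale.Agent.P114
end
end

section

/-! Definitions for the homogeneous case (all ratios equal to `lam`). -/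

open scoped Classical
open Polynomial

noncomputable section

namespace Vale.Agent.P114

variable {Λ : Type} [Fintype Λ]

/-- Coefficient polynomial of a word. -/
def cpoly : List Λ → Λ → ℤ[X]
  | [], _ => 0
  | j :: w, i => (if j = i then 1 else 0) + X * cpoly w i

/-- Difference of the coefficient polynomials of a pair of words. -/
def dpoly (x : List Λ × List Λ) (i : Λ) : ℤ[X] := cpoly x.1 i - cpoly x.2 i

/-- A level: a length `n` and a class function on the words of length `n`. -/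
structure Lev (Λ : Type) where
  n : ℕ
  β : Type
  c : (Fin n → Λ) → β

namespace Lev

/-- Pairs of tails of words of the same class with a common prefix. -/
def Tails (X : Lev Λ) : Set (List Λ × List Λ) :=
  {x | ∃ (w w' : Fin X.n → Λ) (j : ℕ), X.c w = X.c w' ∧
    (List.ofFn w).take j = (List.ofFn w').take j ∧
    x = ((List.ofFn w).drop j, (List.ofFn w').drop j)}

/-- Class and prefix of length `j`. -/
def h (X : Lev Λ) (j : ℕ) (w : Fin X.n → Λ) : X.β × List Λ := (X.c w, (List.ofFn w).take j)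

/-- The block of length `L` at place `j`. -/
def blk {n : ℕ} (j L : ℕ) (w : Fin n → Λ) : List Λ := ((List.ofFn w).drop j).take L

/-- Average probability (over the place `j`) of the pair of blocks `(b, b')` of length `L`,
for pairs of words which are conditionally independent given the class and the prefix. -/
def nu (X : Lev Λ) (P : FinProb Λ) (L : ℕ) (b b' : List Λ) : ℝ :=
  (∑ j ∈ Finset.range (X.n + 1 - L),
    ((P.pi X.n).couple (X.h j)).p (fun x => (blk j L x.1, blk j L x.2)) (b, b'))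
    / ((X.n + 1 - L : ℕ) : ℝ)

end Lev

/-- A pair of blocks which keeps a positive probability along the ultrafilter. -/
def Node (U : Ultrafilter ℕ) (P : FinProb Λ) (X : ℕ → Lev Λ) (b b' : List Λ) : Prop :=
  b.length = b'.length ∧ ∃ δ > 0, ∀ᶠ i in (U : Filter ℕ), δ ≤ (X i).nu P b.length b b'

/-- The first `L` letters of an infinite word. -/
def pre (u : ℕ → Λ) (L : ℕ) : List Λ := List.ofFn fun l : Fin L => u l

/-- An infinite branch of the tree of nodes. -/
def Branch (U : Ultrafilter ℕ) (P : FinProb Λ) (X : ℕ → Lev Λ) (u u' : ℕ → Λ) : Prop :=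
  ∀ L, Node U P X (pre u L) (pre u' L)

/-- Value of a power series with integer coefficients at a real point. -/
def evS (lam : ℝ) (f : PowerSeries ℤ) : ℝ := ∑' l, ((PowerSeries.coeff l f : ℤ) : ℝ) * lam ^ l

/-- `n i` tends to infinity along the ultrafilter. -/
def LargeLev (U : Ultrafilter ℕ) (X : ℕ → Lev Λ) : Prop :=
  ∀ N, ∀ᶠ i in (U : Filter ℕ), N ≤ (X i).n

/-- Entropy of the class functions. -/
def EntLev (U : Ultrafilter ℕ) (P : FinProb Λ) (X : ℕ → Lev Λ) (a : ℝ) : Prop :=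
  ∀ ε > 0, ∀ᶠ i in (U : Filter ℕ), (P.pi (X i).n).H (X i).c ≤ (a + ε) * (X i).n

/-- truncation of a sequence -/
def tru {G : Type} [Zero G] (s : ℕ) (y : ℕ → G) : ℕ → G := fun m => if m < s then y m else 0

/-- Degree and coefficient bounds. -/
def Nice (k n : ℕ) (p : ℤ[X]) : Prop :=
  p.natDegree ≤ (k + 1) * n ∧ ∀ m, |((p.coeff m : ℤ) : ℝ)| ≤ (k + 1).factorial * ((m : ℝ) + 1) ^ k

end Vale.Agent.P114
end
end

section

/-! Linear algebra for the degenerate case. -/

open scoped Classical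

noncomputable section

namespace Vale.Agent.P114.DG

open Matrix

/-- A family of independent rows over a field has a nonzero maximal minor. -/
theorem dg_exists_minor {K : Type*} [Field K] {ι : Type*} [Fintype ι] (k : ℕ) (a : Fin k → ι → K)
    (h : LinearIndependent K a) :
    ∃ f : Fin k → ι, (Matrix.of fun r s => a r (f s)).det ≠ 0 := by
  have hrow : LinearIndependent K (Matrix.of a).row := h
  have hr := hrow.rank_matrix
  rw [Fintype.card_fin, Matrix.rank_eq_finrank_span_cols] at hr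
  have key := Submodule.exists_fun_fin_finrank_span_eq K (Set.range (Matrix.of a).col)
  rw [hr] at key
  obtain ⟨f, hf, -, hli⟩ := key
  choose g hg using hf
  refine ⟨g, ?_⟩
  have hcol : LinearIndependent K (Matrix.of fun r s => a r (g s)).col := by
    have : (Matrix.of fun r s => a r (g s)).col = f := by
      funext i
      rw [← hg i]
      rfl
    rw [this]
    exact hli
  rw [Matrix.linearIndependent_cols_iff_isUnit, Matrix.isUnit_iff_isUnit_det] at hcol
  exact hcol.ne_zero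

theorem dg_indep_of_minor {K : Type*} [Field K] {ι : Type*} (k : ℕ) (a : Fin k → ι → K)
    (f : Fin k → ι) (h : (Matrix.of fun r s => a r (f s)).det ≠ 0) : LinearIndependent K a := by
  have h1 := Matrix.linearIndependent_rows_of_det_ne_zero h
  exact LinearIndependent.of_comp (LinearMap.funLeft K K f) h1

theorem dg_finrank_le {K : Type*} [Field K] {ι : Type*} [Fintype ι] (k : ℕ) (T : Set (ι → K))
    (h : ∀ y : Fin (k + 1) → ι → K, (∀ r, y r ∈ T) → ∀ f : Fin (k + 1) → ι,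
      (Matrix.of fun r s => y r (f s)).det = 0) :
    Module.finrank K (Submodule.span K T) ≤ k := by
  by_contra hcon
  rw [not_le] at hcon
  obtain ⟨f, hf, -, hli⟩ := Submodule.exists_fun_fin_finrank_span_eq K T
  have h1 : LinearIndependent K (fun i : Fin (k + 1) => f (Fin.castLE hcon i)) :=
    hli.comp _ (Fin.castLE_injective _)
  obtain ⟨g, hg⟩ := dg_exists_minor (k + 1) _ h1
  exact hg (h _ (fun r => hf _) g)

section cramer

variable {R : Type*} [CommRing R] {Λ : Type*} {k : ℕ}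

/-- the matrix of a family at the chosen columns -/
def crm (F : Fin k → Λ → R) (ι0 : Fin k → Λ) : Matrix (Fin k) (Fin k) R :=
  Matrix.of fun r s => F r (ι0 s)

/-- The Cramer form: `det * y - (combination of the F)` -/
def crL (F : Fin k → Λ → R) (ι0 : Fin k → Λ) : (Λ → R) →ₗ[R] (Λ → R) where
  toFun y a := (crm F ι0).det * y a
    - ∑ r, (∑ s, y (ι0 s) * (crm F ι0).adjugate s r) * F r a
  map_add' x y := by
    funext a
    simp only [Pi.add_apply, add_mul, Finset.sum_add_distrib]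
    ring
  map_smul' c x := by
    funext a
    simp only [Pi.smul_apply, smul_eq_mul, RingHom.id_apply, mul_sub, Finset.mul_sum,
      Finset.sum_mul]
    congr 1
    · ring
    · refine Finset.sum_congr rfl fun r _ => Finset.sum_congr rfl fun s _ => by ring

theorem crL_apply (F : Fin k → Λ → R) (ι0 : Fin k → Λ) (y : Λ → R) (a : Λ) :
    crL F ι0 y a = (crm F ι0).det * y a
      - ∑ r, (∑ s, y (ι0 s) * (crm F ι0).adjugate s r) * F r a := rfl

theorem crL_self (F : Fin k → Λ → R) (ι0 : Fin k → Λ) (i : Fin k) : crL F ι0 (F i) = 0 := by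
  funext a
  rw [crL_apply]
  have h1 : ∀ r, (∑ s, F i (ι0 s) * (crm F ι0).adjugate s r)
      = if i = r then (crm F ι0).det else 0 := by
    intro r
    have h2 : (crm F ι0 * (crm F ι0).adjugate) i r = ((crm F ι0).det • (1 : Matrix _ _ R)) i r := by
      rw [Matrix.mul_adjugate]
    rw [Matrix.mul_apply, Matrix.smul_apply, Matrix.one_apply, smul_eq_mul, mul_ite, mul_one,
      mul_zero] at h2
    exact h2
  simp only [h1, ite_mul, zero_mul, Finset.sum_ite_eq, Finset.mem_univ, ↓reduceIte, sub_self, Pi.zero_apply]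

theorem crL_zero_of_span (F : Fin k → Λ → R) (ι0 : Fin k → Λ) (y : Λ → R)
    (h : y ∈ Submodule.span R (Set.range F)) : crL F ι0 y = 0 := by
  have h1 : Submodule.span R (Set.range F) ≤ LinearMap.ker (crL F ι0) := by
    rw [Submodule.span_le]
    rintro _ ⟨i, rfl⟩
    exact crL_self F ι0 i
  exact h1 h

/-- compatibility with ring homomorphisms -/
theorem map_crL {R' : Type*} [CommRing R'] (φ : R →+* R') (F : Fin k → Λ → R) (ι0 : Fin k → Λ)
    (y : Λ → R) (a : Λ) :
    φ (crL F ι0 y a) = crL (fun r b => φ (F r b)) ι0 (fun b => φ (y b)) a := by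
  have h1 : crm (fun r b => φ (F r b)) ι0 = φ.mapMatrix (crm F ι0) := by
    ext r s
    rfl
  rw [crL_apply, crL_apply, h1, ← RingHom.map_det, ← RingHom.map_adjugate]
  simp only [map_sub, map_mul, map_sum, RingHom.mapMatrix_apply, Matrix.map_apply]

theorem crL_zero_of_span_map {K : Type*} [Field K] (φ : R →+* K) (hφ : Function.Injective φ)
    (F : Fin k → Λ → R) (ι0 : Fin k → Λ) (y : Λ → R)
    (h : (fun b => φ (y b)) ∈ Submodule.span K (Set.range fun r b => φ (F r b))) :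
    crL F ι0 y = 0 := by
  funext a
  apply hφ
  rw [map_crL, crL_zero_of_span _ _ _ h]
  simp

/-- if all `(k+1)`-minors of `F, y` vanish, the Cramer form of `y` is zero. -/
theorem crL_zero_of_minors [Fintype Λ] {K : Type*} [Field K] (φ : R →+* K)
    (hφ : Function.Injective φ) (F : Fin k → Λ → R) (ι0 : Fin k → Λ) (hdet : (crm F ι0).det ≠ 0)
    (y : Λ → R)
    (h : ∀ f : Fin (k + 1) → Λ,
      (Matrix.of fun r s => (Fin.snoc F y : Fin (k + 1) → Λ → R) r (f s)).det = 0) :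
    crL F ι0 y = 0 := by
  apply crL_zero_of_span_map φ hφ
  by_contra hcon
  have h1 : LinearIndependent K (fun r b => φ (F r b)) := by
    apply dg_indep_of_minor k _ ι0
    have e : (Matrix.of fun r s => φ (F r (ι0 s))) = φ.mapMatrix (crm F ι0) := by
      ext r s
      rfl
    rw [e, ← RingHom.map_det]
    intro h0
    exact hdet (hφ (by rw [h0, map_zero]))
  have h2 := linearIndependent_finSnoc.2 ⟨h1, hcon⟩
  obtain ⟨g, hg⟩ := dg_exists_minor (k + 1) _ h2
  apply hg
  have e : (Matrix.of fun r s =>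
      (Fin.snoc (fun r b => φ (F r b)) (fun b => φ (y b)) : Fin (k + 1) → Λ → K) r (g s))
      = φ.mapMatrix (Matrix.of fun r s => (Fin.snoc F y : Fin (k + 1) → Λ → R) r (g s)) := by
    ext r s
    refine Fin.lastCases ?_ (fun i => ?_) r
    · simp
    · simp only [of_apply, Fin.snoc_castSucc, RingHom.mapMatrix_apply, map_apply]
  rw [e, ← RingHom.map_det, h g, map_zero]

theorem dg_det_mul_eq_zero (P : Matrix (Fin (k + 1)) (Fin k) R) (Q : Matrix (Fin k) (Fin (k + 1)) R) :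
    (P * Q).det = 0 := by
  set P' : Matrix (Fin (k + 1)) (Fin (k + 1)) R :=
    Matrix.of fun i j => (Fin.snoc (P i) 0 : Fin (k + 1) → R) j with hP'
  set Q' : Matrix (Fin (k + 1)) (Fin (k + 1)) R :=
    Matrix.of fun i j => (Fin.snoc (fun r => Q r j) 0 : Fin (k + 1) → R) i with hQ'
  have h1 : P * Q = P' * Q' := by
    ext i j
    rw [Matrix.mul_apply, Matrix.mul_apply, Fin.sum_univ_castSucc]
    simp only [hP', of_apply, Fin.snoc_castSucc, hQ', Fin.snoc_last, mul_zero, add_zero]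
  rw [h1, Matrix.det_mul, Matrix.det_eq_zero_of_column_eq_zero (Fin.last k), zero_mul]
  intro i
  simp [hP']

/-- The determinant of a family whose Cramer forms are divisible by `q`. -/
theorem dg_pow_dvd (F : Fin k → Λ → R) (ι0 : Fin k → Λ) (Y : Fin (k + 1) → Λ → R) (q : R)
    (h : ∀ r a, q ∣ crL F ι0 (Y r) a) (f : Fin (k + 1) → Λ) :
    q ∣ (crm F ι0).det ^ (k + 1) * (Matrix.of fun r s => Y r (f s)).det := by
  set D := (crm F ι0).det with hD
  rw [← Ideal.mem_span_singleton, ← Ideal.Quotient.eq_zero_iff_mem]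
  have h1 : D ^ (k + 1) * (Matrix.of fun r s => Y r (f s)).det
      = (D • (Matrix.of fun r s => Y r (f s))).det := by
    rw [Matrix.det_smul, Fintype.card_fin]
  rw [h1]
  set φ := Ideal.Quotient.mk (Ideal.span {q}) with hφ
  rw [RingHom.map_det]
  set P : Matrix (Fin (k + 1)) (Fin k) R :=
    Matrix.of fun r r' => ∑ s, Y r (ι0 s) * (crm F ι0).adjugate s r' with hP
  set Q : Matrix (Fin k) (Fin (k + 1)) R := Matrix.of fun r' s => F r' (f s) with hQ
  have h2 : φ.mapMatrix (D • (Matrix.of fun r s => Y r (f s))) = φ.mapMatrix (P * Q) := by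
    ext r s
    simp only [RingHom.mapMatrix_apply, Matrix.map_apply, Matrix.smul_apply, Matrix.of_apply,
      smul_eq_mul]
    rw [hφ, Ideal.Quotient.mk_eq_mk_iff_sub_mem, Ideal.mem_span_singleton]
    have h3 := h r (f s)
    rw [crL_apply] at h3
    rw [Matrix.mul_apply]
    simpa only [hD, hP, of_apply, hQ] using h3
  rw [h2, ← RingHom.map_det, dg_det_mul_eq_zero, map_zero]

/-- transfer of divisibility along Cramer's rule -/
theorem dg_cramer_dvd {k' : ℕ} (F : Fin k → Λ → R) (ι0 : Fin k → Λ) (Y' : Fin k' → Λ → R)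
    (ι' : Fin k' → Λ) (Y : Λ → R) (hY : crL Y' ι' Y = 0) (q : R)
    (h : ∀ r a, q ∣ crL F ι0 (Y' r) a) (a : Λ) :
    q ∣ (crm Y' ι').det * crL F ι0 Y a := by
  have h1 : (crm Y' ι').det • Y
      = ∑ r, (∑ s, Y (ι' s) * (crm Y' ι').adjugate s r) • Y' r := by
    funext b
    have h2 := congrFun hY b
    rw [crL_apply] at h2
    simp only [Pi.smul_apply, Finset.sum_apply, smul_eq_mul]
    simpa only [Pi.zero_apply, sub_eq_zero] using h2
  have h2 := congrArg (fun v => crL F ι0 v a) h1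
  simp only [map_smul, Pi.smul_apply, smul_eq_mul, map_sum, Finset.sum_apply] at h2
  rw [h2]
  exact Finset.dvd_sum fun r _ => Dvd.dvd.mul_left (h r a) _

end cramer

/-- order of a factor -/
theorem dg_order {D p : PowerSeries ℤ} {o N : ℕ} (hD : PowerSeries.coeff o D ≠ 0)
    (h : (PowerSeries.X : PowerSeries ℤ) ^ N ∣ D * p) : ∀ m, m + o < N →
      PowerSeries.coeff m p = 0 := by
  intro m hm
  by_contra hne
  have h1 := PowerSeries.order_le o hD
  have h2 := PowerSeries.order_le m hne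
  have h3 : (N : ℕ∞) ≤ (D * p).order :=
    PowerSeries.nat_le_order _ _ (PowerSeries.X_pow_dvd_iff.mp h)
  rw [PowerSeries.order_mul] at h3
  have h4 : (N : ℕ∞) ≤ ((o + m : ℕ) : ℕ∞) := by
    push_cast
    exact h3.trans (add_le_add h1 h2)
  have h5 : N ≤ o + m := by exact_mod_cast h4
  omega

end Vale.Agent.P114.DG
end
end

section

open scoped Classical
open Polynomial

noncomputable section

namespace Vale.Agent.P114

/-- Reflected inverse of a root: `conj β` inside the disc, `β⁻¹` outside. -/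
def bkGam (β : ℂ) : ℂ := if ‖β‖ < 1 then (starRingEnd ℂ) β else β⁻¹

/-- The weight of a root: `1` inside the disc, `‖β‖` outside. -/
def bkKap (β : ℂ) : ℝ := if ‖β‖ < 1 then 1 else ‖β‖

theorem bkGam_norm_le (β : ℂ) : ‖bkGam β‖ ≤ 1 := by
  unfold bkGam
  split_ifs with h
  · rw [RCLike.norm_conj]; exact h.le
  · rw [norm_inv]
    exact inv_le_one_of_one_le₀ (not_lt.mp h)

theorem bkKap_nonneg (β : ℂ) : 0 ≤ bkKap β := by
  unfold bkKap
  split_ifs <;> positivity

theorem bk_circle (β w : ℂ) (hw : ‖w‖ = 1) : ‖w - β‖ = bkKap β * ‖1 - bkGam β * w‖ := by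
  unfold bkGam bkKap
  split_ifs with h
  · have h1 : (starRingEnd ℂ) w * w = 1 := by
      rw [mul_comm, Complex.mul_conj, Complex.normSq_eq_norm_sq, hw]; norm_num
    have h2 : (1 : ℂ) - (starRingEnd ℂ) β * w = (starRingEnd ℂ) (w - β) * w := by
      rw [map_sub, sub_mul, h1]
    rw [h2, norm_mul, RCLike.norm_conj, hw]; ring
  · have hβ : β ≠ 0 := by
      rintro rfl
      apply h; simp
    have h2 : w - β = -(β * (1 - β⁻¹ * w)) := by
      field_simp
      ring
    rw [h2, norm_neg, norm_mul]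

/-- the Blaschke modulus (only for roots in the disc) -/
def bkB (z β : ℂ) : ℝ := if ‖β‖ < 1 then ‖(z - β) / (1 - (starRingEnd ℂ) β * z)‖ else 1

theorem bk_one_sub_ne {β z : ℂ} (hβ : ‖β‖ < 1) (hz : ‖z‖ ≤ 1) :
    (1 : ℂ) - (starRingEnd ℂ) β * z ≠ 0 := by
  intro h0
  have h1 : (starRingEnd ℂ) β * z = 1 := by linear_combination -h0
  have h2 : ‖(starRingEnd ℂ) β * z‖ = 1 := by rw [h1]; simp
  rw [norm_mul, RCLike.norm_conj] at h2
  nlinarith only [hβ, h2, hz, norm_nonneg β]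

theorem bk_inside (β z : ℂ) (hz : ‖z‖ ≤ 1) :
    ‖z - β‖ = bkKap β * ‖1 - bkGam β * z‖ * bkB z β := by
  unfold bkGam bkKap bkB
  split_ifs with h
  · have h1 := bk_one_sub_ne h hz
    rw [norm_div, one_mul, mul_div_cancel₀ _ (by simpa only [ne_eq, norm_eq_zero] using h1)]
  · have hβ : β ≠ 0 := by
      rintro rfl
      apply h; simp only [norm_zero, zero_lt_one]
    have h2 : z - β = -(β * (1 - β⁻¹ * z)) := by
      field_simp
      ring
    rw [h2, norm_neg, norm_mul, mul_one]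

theorem bkB_nonneg (z β : ℂ) : 0 ≤ bkB z β := by
  unfold bkB
  split_ifs <;> positivity

theorem bkB_le_one (z β : ℂ) (hz : ‖z‖ ≤ 1) : bkB z β ≤ 1 := by
  unfold bkB
  split_ifs with h
  · rw [norm_div, div_le_one (by
      rw [norm_pos_iff]; exact bk_one_sub_ne h hz)]
    have h1 : ‖z - β‖ ^ 2 ≤ ‖1 - (starRingEnd ℂ) β * z‖ ^ 2 := by
      rw [← Complex.normSq_eq_norm_sq, ← Complex.normSq_eq_norm_sq, Complex.normSq_sub,
        Complex.normSq_sub]
      have e1 : ((1 : ℂ) * (starRingEnd ℂ) ((starRingEnd ℂ) β * z)).re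
          = (z * (starRingEnd ℂ) β).re := by
        simp only [map_mul, RingHomCompTriple.comp_apply, RingHom.id_apply, one_mul, Complex.mul_re, Complex.conj_re, Complex.conj_im, mul_neg, sub_neg_eq_add]
        ring
      rw [e1]
      simp only [map_one, map_mul, Complex.normSq_conj]
      rw [Complex.normSq_eq_norm_sq, Complex.normSq_eq_norm_sq]
      have a1 : 0 ≤ 1 - ‖z‖ ^ 2 := by nlinarith only [hz, norm_nonneg z]
      have a2 : 0 ≤ 1 - ‖β‖ ^ 2 := by nlinarith only [h, norm_nonneg β]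
      linarith only [mul_nonneg a1 a2]
    exact le_of_sq_le_sq h1 (norm_nonneg _)
  · exact le_rfl

theorem bkB_eq (z β : ℂ) (h : ‖β‖ < 1) :
    bkB z β = ‖(z - β) / (1 - (starRingEnd ℂ) β * z)‖ := by
  unfold bkB
  rw [if_pos h]

/-- modulus of the root product on the circle -/
theorem bk_prod_circle (S : Multiset ℂ) (w : ℂ) (hw : ‖w‖ = 1) :
    (S.map (fun β => ‖w - β‖)).prod
      = (S.map bkKap).prod * (S.map (fun β => ‖1 - bkGam β * w‖)).prod := by
  rw [← Multiset.prod_map_mul]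
  congr 1
  apply Multiset.map_congr rfl
  intro β _
  exact bk_circle β w hw

theorem bk_prod_inside (S : Multiset ℂ) (z : ℂ) (hz : ‖z‖ ≤ 1) :
    (S.map (fun β => ‖z - β‖)).prod
      = (S.map bkKap).prod * (S.map (fun β => ‖1 - bkGam β * z‖)).prod
        * (S.map (bkB z)).prod := by
  rw [← Multiset.prod_map_mul, ← Multiset.prod_map_mul]
  congr 1
  apply Multiset.map_congr rfl
  intro β _
  exact bk_inside β z hz

theorem bk_prod_nonneg (S : Multiset ℂ) (f : ℂ → ℝ) (hf : ∀ β, 0 ≤ f β) :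
    0 ≤ (S.map f).prod := by
  induction S using Multiset.induction_on with
  | empty => simp
  | cons a S ih =>
    rw [Multiset.map_cons, Multiset.prod_cons]
    exact mul_nonneg (hf a) ih

theorem bk_prod_le_one (S : Multiset ℂ) (f : ℂ → ℝ) (hf : ∀ β, 0 ≤ f β) (hf1 : ∀ β, f β ≤ 1) :
    (S.map f).prod ≤ 1 := by
  induction S using Multiset.induction_on with
  | empty => simp
  | cons a S ih =>
    rw [Multiset.map_cons, Multiset.prod_cons]
    exact mul_le_one₀ (hf1 a) (bk_prod_nonneg S f hf) ih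

theorem bk_prod_sub (S : Multiset ℂ) (s : Finset ℂ) (hs : s.val ≤ S) (z : ℂ) (hz : ‖z‖ ≤ 1)
    (hs1 : ∀ α ∈ s, ‖α‖ < 1) :
    (S.map (bkB z)).prod ≤ ∏ α ∈ s, ‖(z - α) / (1 - (starRingEnd ℂ) α * z)‖ := by
  obtain ⟨T, rfl⟩ := Multiset.le_iff_exists_add.mp hs
  rw [Multiset.map_add, Multiset.prod_add]
  have h1 : (s.val.map (bkB z)).prod = ∏ α ∈ s, ‖(z - α) / (1 - (starRingEnd ℂ) α * z)‖ := by
    change ∏ α ∈ s, bkB z α = _
    apply Finset.prod_congr rfl
    intro α hα
    exact bkB_eq z α (hs1 α hα)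
  rw [h1]
  have h2 := bk_prod_le_one T (bkB z) (bkB_nonneg z) (fun β => bkB_le_one z β hz)
  exact mul_le_of_le_one_right (Finset.prod_nonneg (fun _ _ => norm_nonneg _)) h2

/-- the fractional power of the outer factor -/
def bkG (m : ℕ) (S : Multiset ℂ) (z : ℂ) : ℂ :=
  (S.map (fun β => (1 - bkGam β * z) ^ ((1 / (m : ℝ) : ℝ) : ℂ))).prod

theorem bk_norm_pow (m : ℕ) (hm : 0 < m) (u : ℂ) :
    ‖u ^ ((1 / (m : ℝ) : ℝ) : ℂ)‖ ^ m = ‖u‖ := by
  rw [Complex.norm_cpow_real, ← Real.rpow_natCast, ← Real.rpow_mul (norm_nonneg _),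
    one_div_mul_cancel (by positivity), Real.rpow_one]

theorem bkG_norm_pow (m : ℕ) (hm : 0 < m) (S : Multiset ℂ) (z : ℂ) :
    ‖bkG m S z‖ ^ m = (S.map (fun β => ‖1 - bkGam β * z‖)).prod := by
  unfold bkG
  induction S using Multiset.induction_on with
  | empty => simp only [one_div, Complex.ofReal_inv, Complex.ofReal_natCast, Multiset.map_zero, Multiset.prod_zero, norm_one, one_pow]
  | cons a S ih =>
    rw [Multiset.map_cons, Multiset.prod_cons, Multiset.map_cons, Multiset.prod_cons, norm_mul,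
      mul_pow, ih, bk_norm_pow m hm]

theorem bk_factor_diffContOnCl (m : ℕ) (hm : 0 < m) (γ : ℂ) (hγ : ‖γ‖ ≤ 1) :
    DiffContOnCl ℂ (fun z : ℂ => (1 - γ * z) ^ ((1 / (m : ℝ) : ℝ) : ℂ)) (Metric.ball 0 1) := by
  have key : ∀ z : ℂ, ‖z‖ ≤ 1 → (0 < (1 - γ * z).re ∨ 1 - γ * z = 0) := by
    intro z hz
    have h1 : ‖γ * z‖ ≤ 1 := by
      rw [norm_mul]
      exact mul_le_one₀ hγ (norm_nonneg _) hz
    have h2 : (γ * z).re ≤ ‖γ * z‖ := Complex.re_le_norm _
    rcases lt_or_eq_of_le (h2.trans h1) with h3 | h3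
    · left
      rw [Complex.sub_re, Complex.one_re]; linarith only [h3]
    · right
      have h4 : ‖γ * z‖ = 1 := le_antisymm h1 (h3 ▸ h2)
      have h5 : (γ * z).re ^ 2 + (γ * z).im ^ 2 = 1 := by
        have := Complex.normSq_eq_norm_sq (γ * z)
        rw [h4, Complex.normSq_apply] at this
        linarith
      have h6 : (γ * z).im = 0 := by
        rw [h3] at h5
        have : (γ * z).im ^ 2 = 0 := by linarith only [h5]
        exact pow_eq_zero_iff (two_ne_zero) |>.mp this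
      have h7 : γ * z = 1 := Complex.ext (by simpa using h3) (by simpa only [Complex.mul_im, Complex.one_im] using h6)
      rw [h7, sub_self]
  constructor
  · intro z hz
    rw [Metric.mem_ball, dist_zero_right] at hz
    have h1 : ‖γ * z‖ < 1 := by
      rw [norm_mul]
      nlinarith only [hz, hγ, norm_nonneg z]
    have h2 : 0 < (1 - γ * z).re := by
      have := Complex.re_le_norm (γ * z)
      rw [Complex.sub_re, Complex.one_re]; linarith
    apply DifferentiableAt.differentiableWithinAt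
    apply DifferentiableAt.cpow (by fun_prop) (by fun_prop)
    exact Or.inl h2
  · rw [closure_ball (0 : ℂ) one_ne_zero]
    intro z hz
    rw [Metric.mem_closedBall, dist_zero_right] at hz
    apply ContinuousAt.continuousWithinAt
    rcases key z hz with h | h
    · apply ContinuousAt.cpow (by (clear * -; fun_prop)) (by fun_prop)
      exact Or.inl h
    · have hcont := Complex.continuousAt_cpow_zero_of_re_pos (z := ((1 / (m : ℝ) : ℝ) : ℂ)) (by
        rw [Complex.ofReal_re]; positivity)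
      have h2 : ContinuousAt (fun z : ℂ => ((1 - γ * z, ((1 / (m : ℝ) : ℝ) : ℂ)) : ℂ × ℂ)) z := by
        fun_prop
      have h3 : ((1 - γ * z, ((1 / (m : ℝ) : ℝ) : ℂ)) : ℂ × ℂ) = (0, ((1 / (m : ℝ) : ℝ) : ℂ)) := by
        rw [h]
      rw [← h3] at hcont
      exact ContinuousAt.comp (f := fun z : ℂ => ((1 - γ * z, ((1 / (m : ℝ) : ℝ) : ℂ)) : ℂ × ℂ))
        (g := fun x : ℂ × ℂ => x.1 ^ x.2) hcont h2

theorem bkG_diffContOnCl (m : ℕ) (hm : 0 < m) (S : Multiset ℂ) :
    DiffContOnCl ℂ (bkG m S) (Metric.ball 0 1) := by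
  induction S using Multiset.induction_on with
  | empty =>
    have : bkG m 0 = fun _ => (1 : ℂ) := by
      funext z; simp [bkG]
    rw [this]
    exact diffContOnCl_const
  | cons a S ih =>
    have : bkG m (a ::ₘ S)
        = fun z => ((1 - bkGam a * z) ^ ((1 / (m : ℝ) : ℝ) : ℂ)) • bkG m S z := by
      funext z
      unfold bkG
      rw [Multiset.map_cons, Multiset.prod_cons, smul_eq_mul]
    rw [this]
    exact (bk_factor_diffContOnCl m hm _ (bkGam_norm_le a)).smul ih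

theorem bk_norm_circleAverage_le (f : ℂ → ℂ) :
    ‖Real.circleAverage f 0 1‖ ≤ Real.circleAverage (fun w => ‖f w‖) 0 1 := by
  rw [Real.circleAverage, Real.circleAverage, norm_smul, smul_eq_mul, Real.norm_eq_abs,
    abs_of_pos (inv_pos.2 Real.two_pi_pos), mul_le_mul_iff_of_pos_left (inv_pos.2 Real.two_pi_pos)]
  exact intervalIntegral.norm_integral_le_integral_norm (le_of_lt Real.two_pi_pos)

theorem bk_poisson (G : ℂ → ℂ) (hG : DiffContOnCl ℂ G (Metric.ball 0 1)) (z : ℂ)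
    (hz : ‖z‖ ≤ 1 / 2) :
    ‖G z‖ ^ 2 ≤ 3 * Real.circleAverage (fun w => ‖G w‖ ^ 2) 0 1 := by
  have hzb : z ∈ Metric.ball (0 : ℂ) 1 := by
    rw [Metric.mem_ball, dist_zero_right]; linarith only [hz]
  have hG2 : DiffContOnCl ℂ (fun w => G w • G w) (Metric.ball 0 1) := hG.smul hG
  have h1 := hG2.circleAverage_re_herglotzRieszKernel_smul hzb
  have hcont : ContinuousOn G (Metric.sphere 0 1) := by
    apply hG.2.mono
    rw [closure_ball (0 : ℂ) one_ne_zero]
    exact Metric.sphere_subset_closedBall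
  have hker := continuousOn_herglotzRieszKernel_sphere hzb
  rw [abs_one] at hker
  have h2 : ‖G z‖ ^ 2 = ‖Real.circleAverage
      ((Complex.re ∘ herglotzRieszKernel 0 z) • fun w => G w • G w) 0 1‖ := by
    rw [h1, norm_smul]; ring
  rw [h2]
  refine (bk_norm_circleAverage_le _).trans ?_
  have h3 : 3 * Real.circleAverage (fun w => ‖G w‖ ^ 2) 0 1
      = Real.circleAverage (fun w => (3 : ℝ) • ‖G w‖ ^ 2) 0 1 := by
    rw [Real.circleAverage_fun_smul, smul_eq_mul]
  rw [h3]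
  apply Real.circleAverage_mono
  · apply ContinuousOn.circleIntegrable zero_le_one
    apply ContinuousOn.norm
    apply ContinuousOn.smul
    · exact Complex.continuous_re.comp_continuousOn hker
    · exact hcont.smul hcont
  · apply ContinuousOn.circleIntegrable zero_le_one
    exact ContinuousOn.mul (f := fun _ => (3 : ℝ)) continuousOn_const ((hcont.norm).pow 2)
  · intro x hx
    rw [abs_one] at hx
    have e1 := re_herglotzRieszKernel_le hx hzb
    have e2 := le_re_herglotzRieszKernel hx hzb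
    simp only [sub_zero] at e1 e2
    have e3 : (1 + ‖z‖) / (1 - ‖z‖) ≤ 3 := by
      rw [div_le_iff₀ (by linarith only [hz])]; linarith only [hz]
    have e4 : 0 ≤ (1 - ‖z‖) / (1 + ‖z‖) :=
      div_nonneg (by linarith only [hz]) (by linarith only [norm_nonneg z])
    have e5 : (herglotzRieszKernel 0 z x) = (x + z) / (x - z) := by
      rw [herglotzRieszKernel_def]; simp
    simp only [Pi.smul_apply', Function.comp_apply, e5]
    rw [norm_smul, norm_smul, Real.norm_eq_abs, abs_of_nonneg (e4.trans e2), smul_eq_mul]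
    calc ((x + z) / (x - z)).re * (‖G x‖ * ‖G x‖) ≤ 3 * (‖G x‖ * ‖G x‖) := by
          apply mul_le_mul_of_nonneg_right (e1.trans e3)
          (clear * -; positivity)
      _ = 3 * ‖G x‖ ^ 2 := by ring

/-- crude determinant bound -/
theorem bk_det_le (m : ℕ) (M : Matrix (Fin m) (Fin m) ℂ) :
    ‖M.det‖ ≤ m.factorial * ∏ r, Real.sqrt (∑ a, ‖M r a‖ ^ 2) := by
  rw [Matrix.det_apply]
  refine (norm_sum_le _ _).trans ?_
  have h1 : ∀ σ ∈ (Finset.univ : Finset (Equiv.Perm (Fin m))),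
      ‖Equiv.Perm.sign σ • ∏ i, M (σ i) i‖ ≤ ∏ r, Real.sqrt (∑ a, ‖M r a‖ ^ 2) := by
    intro σ _
    have e0 : ‖Equiv.Perm.sign σ • ∏ i, M (σ i) i‖ = ∏ i, ‖M (σ i) i‖ := by
      rcases Int.units_eq_one_or (Equiv.Perm.sign σ) with h | h <;> rw [h] <;> simp
    rw [e0]
    calc ∏ i, ‖M (σ i) i‖ ≤ ∏ i, Real.sqrt (∑ a, ‖M (σ i) a‖ ^ 2) := by
          apply Finset.prod_le_prod (fun _ _ => norm_nonneg _)
          intro i _
          apply Real.le_sqrt_of_sq_le
          exact Finset.single_le_sum (f := fun a => ‖M (σ i) a‖ ^ 2) (fun _ _ => by positivity)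
            (Finset.mem_univ i)
      _ = ∏ r, Real.sqrt (∑ a, ‖M r a‖ ^ 2) :=
          Equiv.prod_comp σ (fun r => Real.sqrt (∑ a, ‖M r a‖ ^ 2))
  refine (Finset.sum_le_sum h1).trans ?_
  rw [Finset.sum_const, Finset.card_univ, Fintype.card_perm, Fintype.card_fin, nsmul_eq_mul]

theorem bk_norm_prod (S : Multiset ℂ) (x : ℂ) :
    ‖(S.map (fun β => x - β)).prod‖ = (S.map (fun β => ‖x - β‖)).prod := by
  induction S using Multiset.induction_on with
  | empty => simp
  | cons a S ih =>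
    rw [Multiset.map_cons, Multiset.prod_cons, Multiset.map_cons, Multiset.prod_cons, norm_mul, ih]

/-- AM-GM in the form used here -/
theorem bk_amgm (k : ℕ) (x : ℝ) (hx : 0 ≤ x) (y : Fin (k + 1) → ℝ) (hy : ∀ r, 0 ≤ y r)
    (h : x ^ (k + 1) ≤ ∏ r, y r) : x ≤ ∑ r, (1 / ((k + 1 : ℕ) : ℝ)) * y r := by
  have hm : (0 : ℝ) < ((k + 1 : ℕ) : ℝ) := by positivity
  have h1 := Real.geom_mean_le_arith_mean_weighted (Finset.univ : Finset (Fin (k + 1)))
    (fun _ => 1 / ((k + 1 : ℕ) : ℝ)) y (fun _ _ => by positivity) (by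
      rw [Finset.sum_const, Finset.card_univ, Fintype.card_fin, nsmul_eq_mul]
      field_simp) (fun i _ => hy i)
  refine le_trans ?_ h1
  rw [Real.finsetProd_rpow _ _ (fun i _ => hy i)]
  calc x = (x ^ (k + 1)) ^ (1 / ((k + 1 : ℕ) : ℝ)) := by
        rw [← Real.rpow_natCast, ← Real.rpow_mul hx, mul_one_div_cancel hm.ne', Real.rpow_one]
    _ ≤ _ := Real.rpow_le_rpow (by positivity) h (by positivity)

/-- Poisson–Jensen estimate -/
theorem blaschke_det (k : ℕ) (δ : Fin (k + 1) → Fin (k + 1) → ℂ[X]) (s : Finset ℂ)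
    (hs : ∀ α ∈ s, ‖α‖ < 1) (hroot : ∀ α ∈ s, ((Matrix.of δ).det).eval α = 0)
    (z : ℂ) (hz : ‖z‖ ≤ 1 / 2) :
    ‖((Matrix.of δ).det).eval z‖ ≤ (k + 1).factorial
      * (∏ r, Real.sqrt (3 * ∑ a, ∑ i ∈ ((δ r a).support), ‖(δ r a).coeff i‖ ^ 2))
      * ∏ α ∈ s, ‖(z - α) / (1 - (starRingEnd ℂ) α * z)‖ := by
  have hRHS : 0 ≤ ((k + 1).factorial : ℝ)
      * (∏ r, Real.sqrt (3 * ∑ a, ∑ i ∈ ((δ r a).support), ‖(δ r a).coeff i‖ ^ 2))
      * ∏ α ∈ s, ‖(z - α) / (1 - (starRingEnd ℂ) α * z)‖ := by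
    have h1 : 0 ≤ ∏ r, Real.sqrt (3 * ∑ a, ∑ i ∈ ((δ r a).support), ‖(δ r a).coeff i‖ ^ 2) :=
      Finset.prod_nonneg (fun _ _ => Real.sqrt_nonneg _)
    have h2 : 0 ≤ ∏ α ∈ s, ‖(z - α) / (1 - (starRingEnd ℂ) α * z)‖ :=
      Finset.prod_nonneg (fun _ _ => norm_nonneg _)
    (clear * -; positivity)
  set P : ℂ[X] := (Matrix.of δ).det with hP
  by_cases hP0 : P = 0
  · rw [hP0]
    simpa only [eval_zero, norm_zero, Nat.ofNat_nonneg, Real.sqrt_mul, Complex.norm_div, Finset.prod_div_distrib,     ge_iff_le] using hRHS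
  -- rows are nonzero
  set κ : Fin (k + 1) → ℝ := fun r => ∑ a, ∑ i ∈ ((δ r a).support), ‖(δ r a).coeff i‖ ^ 2 with hκ
  have hκpos : ∀ r, 0 < κ r := by
    intro r
    by_contra hcon
    apply hP0
    have hnn : ∀ a, 0 ≤ ∑ i ∈ ((δ r a).support), ‖(δ r a).coeff i‖ ^ 2 := fun a =>
      Finset.sum_nonneg (fun _ _ => by positivity)
    have h0 : κ r = 0 := le_antisymm (not_lt.mp hcon) (Finset.sum_nonneg (fun a _ => hnn a))
    rw [hP]
    apply Matrix.det_eq_zero_of_row_eq_zero r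
    intro a
    rw [Matrix.of_apply]
    have h1 : ∑ i ∈ ((δ r a).support), ‖(δ r a).coeff i‖ ^ 2 = 0 :=
      (Finset.sum_eq_zero_iff_of_nonneg (fun a _ => hnn a)).mp h0 a (Finset.mem_univ a)
    by_contra hne
    obtain ⟨i, hi⟩ := (Polynomial.support_nonempty.mpr hne)
    have h2 := (Finset.sum_eq_zero_iff_of_nonneg (fun _ _ => by (clear * -; positivity))).mp h1 i hi
    have h3 : ‖(δ r a).coeff i‖ = 0 := by
      exact pow_eq_zero_iff two_ne_zero |>.mp h2
    exact (Polynomial.mem_support_iff.mp hi) (norm_eq_zero.mp h3)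
  have hsplit := IsAlgClosed.splits P
  have heval : ∀ x : ℂ, ‖P.eval x‖
      = ‖P.leadingCoeff‖ * (P.roots.map (fun β => ‖x - β‖)).prod := by
    intro x
    rw [hsplit.eval_eq_prod_roots x, norm_mul, bk_norm_prod]
  have hz1 : ‖z‖ ≤ 1 := by linarith only [hz]
  set c0 : ℝ := ‖P.leadingCoeff‖ * (P.roots.map bkKap).prod with hc0
  have hc0nn : 0 ≤ c0 := mul_nonneg (norm_nonneg _) (bk_prod_nonneg _ _ bkKap_nonneg)
  set G : ℂ → ℂ := bkG (k + 1) P.roots with hG
  have hGpow : ∀ x, ‖G x‖ ^ (k + 1) = (P.roots.map (fun β => ‖1 - bkGam β * x‖)).prod :=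
    fun x => bkG_norm_pow (k + 1) (Nat.succ_pos k) P.roots x
  have hGdiff : DiffContOnCl ℂ G (Metric.ball 0 1) :=
    bkG_diffContOnCl (k + 1) (Nat.succ_pos k) P.roots
  have hcirc : ∀ w : ℂ, ‖w‖ = 1 → ‖P.eval w‖ = c0 * ‖G w‖ ^ (k + 1) := by
    intro w hw
    rw [heval, bk_prod_circle _ w hw, hGpow, hc0]; ring
  have hsle : s.val ≤ P.roots := by
    apply (Multiset.le_iff_subset s.nodup).mpr
    intro α hα
    exact (Polynomial.mem_roots hP0).mpr (hroot α hα)
  have hin : ‖P.eval z‖ ≤ (c0 * ‖G z‖ ^ (k + 1))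
      * ∏ α ∈ s, ‖(z - α) / (1 - (starRingEnd ℂ) α * z)‖ := by
    have h1 : ‖P.eval z‖ = (c0 * ‖G z‖ ^ (k + 1)) * (P.roots.map (bkB z)).prod := by
      rw [heval, bk_prod_inside _ z hz1, hGpow, hc0]; ring
    rw [h1]
    apply mul_le_mul_of_nonneg_left (bk_prod_sub P.roots s hsle z hz1 hs)
    (clear * - hc0nn; positivity)
  refine hin.trans ?_
  apply mul_le_mul_of_nonneg_right _ (Finset.prod_nonneg (fun _ _ => norm_nonneg _))
  -- it remains to bound `c0 * ‖G z‖ ^ (k+1)`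
  set D : ℝ := ((k + 1).factorial : ℝ) * ∏ r, Real.sqrt (3 * κ r) with hD
  have hDpos : 0 < D := by
    apply mul_pos (by positivity)
    apply Finset.prod_pos
    intro r _
    exact Real.sqrt_pos.mpr (by have := hκpos r; linarith only [this])
  set sr : Fin (k + 1) → ℂ → ℝ := fun r w => ∑ a, ‖(δ r a).eval w‖ ^ 2 with hsr
  have hsrnn : ∀ r w, 0 ≤ sr r w := fun r w => Finset.sum_nonneg (fun _ _ => by (clear * -; positivity))
  have hdet : ∀ w : ℂ, ‖P.eval w‖ ≤ ((k + 1).factorial : ℝ) * ∏ r, Real.sqrt (sr r w) := by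
    intro w
    have h1 : P.eval w = ((Matrix.of δ).map (Polynomial.eval w)).det := by
      rw [hP]
      exact RingHom.map_det (Polynomial.evalRingHom w) (Matrix.of δ)
    rw [h1]
    exact bk_det_le (k + 1) _
  -- the normalising constant
  set a : ℝ := (c0 / D) ^ (1 / ((k + 1 : ℕ) : ℝ)) with ha
  have hann : 0 ≤ a := Real.rpow_nonneg (by (clear * - hc0nn hDpos; positivity)) _
  have hapow : a ^ (k + 1) = c0 / D := by
    rw [ha, ← Real.rpow_natCast, ← Real.rpow_mul (by (clear * - hc0nn hDpos; positivity)), one_div_mul_cancel (by positivity),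
      Real.rpow_one]
  have hmain : ∀ w : ℂ, ‖w‖ = 1 →
      a ^ 2 * ‖G w‖ ^ 2 ≤ ∑ r, (1 / ((k + 1 : ℕ) : ℝ)) * (sr r w / (3 * κ r)) := by
    intro w hw
    apply bk_amgm k
    · (clear * -; positivity)
    · intro r
      have := hκpos r
      exact div_nonneg (hsrnn r w) (by linarith only [this])
    · have h1 : (a * ‖G w‖) ^ (k + 1) ≤ ∏ r, Real.sqrt (sr r w / (3 * κ r)) := by
        rw [mul_pow, hapow]
        have h2 : ∏ r, Real.sqrt (sr r w / (3 * κ r))
            = (∏ r, Real.sqrt (sr r w)) / (∏ r, Real.sqrt (3 * κ r)) := by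
          rw [← Finset.prod_div_distrib]
          apply Finset.prod_congr rfl
          intro r _
          rw [Real.sqrt_div (hsrnn r w)]
        rw [h2, div_mul_eq_mul_div, ← hcirc w hw, hD]
        have h3 : (0 : ℝ) < ∏ r, Real.sqrt (3 * κ r) := by
          apply Finset.prod_pos
          intro r _
          exact Real.sqrt_pos.mpr (by have := hκpos r; linarith only [this])
        rw [div_le_div_iff₀ (by (clear * - h3; positivity)) h3]
        calc ‖P.eval w‖ * ∏ r, Real.sqrt (3 * κ r)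
            ≤ (((k + 1).factorial : ℝ) * ∏ r, Real.sqrt (sr r w)) * ∏ r, Real.sqrt (3 * κ r) :=
              mul_le_mul_of_nonneg_right (hdet w) h3.le
          _ = _ := by ring
      have h4 : (a ^ 2 * ‖G w‖ ^ 2) ^ (k + 1) = ((a * ‖G w‖) ^ (k + 1)) ^ 2 := by ring
      rw [h4]
      have h5 : ∏ r, (sr r w / (3 * κ r)) = (∏ r, Real.sqrt (sr r w / (3 * κ r))) ^ 2 := by
        rw [← Finset.prod_pow]
        apply Finset.prod_congr rfl
        intro r _
        have := hκpos r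
        rw [Real.sq_sqrt (div_nonneg (hsrnn r w) (by linarith only [this]))]
      rw [h5]
      exact pow_le_pow_left₀ (by (clear * - hc0nn hDpos; positivity)) h1 2
  have havg : Real.circleAverage (fun w => a ^ 2 * ‖G w‖ ^ 2) 0 1
      ≤ 1 / 3 := by
    have hcont : ContinuousOn G (Metric.sphere 0 1) := by
      apply hGdiff.2.mono
      rw [closure_ball (0 : ℂ) one_ne_zero]
      exact Metric.sphere_subset_closedBall
    have hcd : ∀ r b, Continuous (fun w : ℂ => ‖(δ r b).eval w‖ ^ 2) := by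
      intro r b
      exact ((Polynomial.continuous _).norm).pow 2
    have hcs : ∀ r, Continuous (fun w : ℂ => sr r w) := by
      intro r
      exact continuous_finsetSum _ (fun b _ => hcd r b)
    have h1 : Real.circleAverage (fun w => a ^ 2 * ‖G w‖ ^ 2) 0 1
        ≤ Real.circleAverage
          (fun w => ∑ r, (1 / ((k + 1 : ℕ) : ℝ)) * (sr r w / (3 * κ r))) 0 1 := by
      apply Real.circleAverage_mono
      · apply ContinuousOn.circleIntegrable zero_le_one
        exact continuousOn_const.mul ((hcont.norm).pow 2)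
      · apply ContinuousOn.circleIntegrable zero_le_one
        apply Continuous.continuousOn
        exact continuous_finsetSum _
          (fun r _ => continuous_const.mul ((hcs r).div_const _))
      · intro x hx
        rw [abs_one, Metric.mem_sphere, dist_zero_right] at hx
        exact hmain x hx
    refine h1.trans (le_of_eq ?_)
    rw [Real.circleAverage_fun_sum]
    · have h2 : ∀ r ∈ (Finset.univ : Finset (Fin (k + 1))),
          Real.circleAverage (fun w => (1 / ((k + 1 : ℕ) : ℝ)) * (sr r w / (3 * κ r))) 0 1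
            = (1 / ((k + 1 : ℕ) : ℝ)) * (1 / 3) := by
        intro r _
        have h3 : (fun w => (1 / ((k + 1 : ℕ) : ℝ)) * (sr r w / (3 * κ r)))
            = fun w => (1 / ((k + 1 : ℕ) : ℝ) / (3 * κ r)) • sr r w := by
          funext w
          rw [smul_eq_mul]; ring
        rw [h3, Real.circleAverage_fun_smul]
        have h4 : Real.circleAverage (sr r) 0 1 = κ r := by
          rw [hsr, hκ]
          simp only
          rw [Real.circleAverage_fun_sum]
          · apply Finset.sum_congr rfl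
            intro b _
            rw [Polynomial.sum_sq_norm_coeff_eq_circleAverage]
          · intro b _
            apply ContinuousOn.circleIntegrable zero_le_one
            exact (hcd r b).continuousOn
        have h5 := hκpos r
        change _ • Real.circleAverage (sr r) 0 1 = _
        rw [h4, smul_eq_mul]
        (clear * - h5; field_simp)
      rw [Finset.sum_congr rfl h2, Finset.sum_const, Finset.card_univ, Fintype.card_fin,
        nsmul_eq_mul]
      field_simp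
    · intro r _
      apply ContinuousOn.circleIntegrable zero_le_one
      apply Continuous.continuousOn
      exact continuous_const.mul ((hcs r).div_const _)
  have hfin : (a * ‖G z‖) ^ 2 ≤ 1 := by
    have h1 := bk_poisson G hGdiff z hz
    have h2 : Real.circleAverage (fun w => a ^ 2 * ‖G w‖ ^ 2) 0 1
        = a ^ 2 * Real.circleAverage (fun w => ‖G w‖ ^ 2) 0 1 := by
      have := Real.circleAverage_fun_smul (a := a ^ 2) (f := fun w => ‖G w‖ ^ 2) (c := 0) (R := 1)
      simpa [smul_eq_mul] using this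
    rw [h2] at havg
    have h3 : a ^ 2 * ‖G z‖ ^ 2
        ≤ a ^ 2 * (3 * Real.circleAverage (fun w => ‖G w‖ ^ 2) 0 1) :=
      mul_le_mul_of_nonneg_left h1 (by (clear * -; positivity))
    rw [mul_pow]
    linarith only [havg, h3]
  have hfin2 : a * ‖G z‖ ≤ 1 := by
    have := abs_le_of_sq_le_sq' (a := a * ‖G z‖) (b := 1) (by linarith only [hfin]) zero_le_one
    exact this.2
  have hfin3 : (a * ‖G z‖) ^ (k + 1) ≤ 1 := pow_le_one₀ (by (clear * - hc0nn hDpos; positivity)) hfin2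
  rw [mul_pow, hapow, div_mul_eq_mul_div, div_le_one hDpos] at hfin3
  exact hfin3


end Vale.Agent.P114
end
end

section

open scoped Classical
open Polynomial

noncomputable section

namespace Vale.Agent.P114

open FinProb

namespace MB

section cexp
variable {Ω : Type*} [Fintype Ω] (P : FinProb Ω) {γ γ' : Type*}

/-- conditional expectation -/
def ce (h : Ω → γ) (F : Ω → ℝ) (ω : Ω) : ℝ := ∑ ω', (P.cond h (h ω)).w ω' * F ω'

lemma ce_same (h : Ω → γ) (F : Ω → ℝ) {ω ω' : Ω} (e : h ω = h ω') : ce P h F ω = ce P h F ω' := by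
  unfold ce; rw [e]

lemma sum_ce_mul (h : Ω → γ) (F G : Ω → ℝ) :
    ∑ ω, P.w ω * (ce P h F ω * G ω) = ∑ ω, P.w ω * (F ω * ce P h G ω) := by
  have e := P.sum_cond h (fun ω ω' => F ω' * G ω)
  have e1 : ∀ ω, ce P h F ω * G ω = ∑ ω', (P.cond h (h ω)).w ω' * (F ω' * G ω) := by
    intro ω; unfold ce; rw [Finset.sum_mul]
    exact Finset.sum_congr rfl fun _ _ => by ring
  have e2 : ∀ ω', F ω' * ce P h G ω' = ∑ ω, (P.cond h (h ω')).w ω * (F ω' * G ω) := by
    intro ω; unfold ce; rw [Finset.mul_sum]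
    exact Finset.sum_congr rfl fun _ _ => by ring
  simp only [e1, e2]
  exact e

lemma ce_of_meas (h : Ω → γ) (G : Ω → ℝ) (hG : ∀ ω ω', h ω = h ω' → G ω = G ω') {ω : Ω}
    (hw : 0 < P.w ω) : ce P h G ω = G ω := by
  unfold ce
  have h1 : ∀ ω', (P.cond h (h ω)).w ω' * G ω' = (P.cond h (h ω)).w ω' * G ω := by
    intro ω'
    rw [P.cond_w h _ (P.p_pos hw h)]
    by_cases h2 : h ω' = h ω
    · rw [hG _ _ h2]
    · simp [h2]
  rw [Finset.sum_congr rfl fun ω' _ => h1 ω', ← Finset.sum_mul, (P.cond h _).sum_one, one_mul]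

lemma sum_ce_mul_meas (h : Ω → γ) (F G : Ω → ℝ) (hG : ∀ ω ω', h ω = h ω' → G ω = G ω') :
    ∑ ω, P.w ω * (ce P h F ω * G ω) = ∑ ω, P.w ω * (F ω * G ω) := by
  rw [sum_ce_mul]
  refine Finset.sum_congr rfl fun ω _ => ?_
  rcases P.w_zero_or_pos ω with hw | hw
  · simp [hw]
  · rw [ce_of_meas P h G hG hw]

/-- Pythagoras for nested conditional expectations. -/
lemma sum_sq_diff (h : Ω → γ) (h' : Ω → γ') (hh : ∀ ω ω', h' ω = h' ω' → h ω = h ω') (F : Ω → ℝ) :
    ∑ ω, P.w ω * (ce P h' F ω - ce P h F ω) ^ 2 =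
      ∑ ω, P.w ω * (ce P h' F ω) ^ 2 - ∑ ω, P.w ω * (ce P h F ω) ^ 2 := by
  have m : ∀ ω ω', h' ω = h' ω' → ce P h F ω = ce P h F ω' := fun ω ω' e => ce_same P h F (hh _ _ e)
  have m' : ∀ ω ω', h ω = h ω' → ce P h F ω = ce P h F ω' := fun ω ω' e => ce_same P h F e
  have e1 := sum_ce_mul_meas P h' F (ce P h F) m
  have e2 := sum_ce_mul_meas P h F (ce P h F) m'
  have e3 : ∑ ω, P.w ω * (ce P h' F ω - ce P h F ω) ^ 2 =
      ∑ ω, P.w ω * (ce P h' F ω) ^ 2 - 2 * ∑ ω, P.w ω * (ce P h' F ω * ce P h F ω) +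
        ∑ ω, P.w ω * (ce P h F ω * ce P h F ω) := by
    rw [Finset.mul_sum, ← Finset.sum_sub_distrib, ← Finset.sum_add_distrib]
    exact Finset.sum_congr rfl fun _ _ => by ring
  have e4 : ∑ ω, P.w ω * (ce P h F ω) ^ 2 = ∑ ω, P.w ω * (ce P h F ω * ce P h F ω) :=
    Finset.sum_congr rfl fun _ _ => by ring
  rw [e3, e4, e1, e2]; ring

lemma sum_ce_sq_le (h : Ω → γ) (F : Ω → ℝ) :
    ∑ ω, P.w ω * (ce P h F ω) ^ 2 ≤ ∑ ω, P.w ω * (F ω) ^ 2 := by
  have e2 := sum_ce_mul_meas P h F (ce P h F) (fun ω ω' e => ce_same P h F e)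
  have e4 : ∑ ω, P.w ω * (ce P h F ω) ^ 2 = ∑ ω, P.w ω * (ce P h F ω * ce P h F ω) :=
    Finset.sum_congr rfl fun _ _ => by ring
  have e5 : 0 ≤ ∑ ω, P.w ω * (F ω - ce P h F ω) ^ 2 :=
    Finset.sum_nonneg fun ω _ => mul_nonneg (P.nonneg ω) (sq_nonneg _)
  have e6 : ∑ ω, P.w ω * (F ω - ce P h F ω) ^ 2 = ∑ ω, P.w ω * (F ω) ^ 2 -
      2 * ∑ ω, P.w ω * (F ω * ce P h F ω) + ∑ ω, P.w ω * (ce P h F ω) ^ 2 := by
    rw [Finset.mul_sum, ← Finset.sum_sub_distrib, ← Finset.sum_add_distrib]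
    exact Finset.sum_congr rfl fun _ _ => by ring
  rw [← e2, ← e4] at e6
  linarith only [e5, e6]

end cexp

variable {Λ : Type} [Fintype Λ]

section lev
variable (P : FinProb Λ) (X : Lev Λ)

lemma h_mono (j j' : ℕ) (hj : j ≤ j') {w w' : Fin X.n → Λ} (e : X.h j' w = X.h j' w') :
    X.h j w = X.h j w' := by
  unfold Lev.h at *
  simp only [Prod.mk.injEq] at e ⊢
  refine ⟨e.1, ?_⟩
  have := congrArg (List.take j) e.2
  simpa only [List.take_take, min_eq_left hj] using this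

end lev

end MB

end Vale.Agent.P114
end
end

section

open scoped Classical
open Polynomial

noncomputable section

namespace Vale.Agent.P114

open FinProb

namespace MB

lemma iteratedDeriv_eval (p : ℂ[X]) (m : ℕ) :
    iteratedDeriv m (fun z => p.eval z) = fun z => (Polynomial.derivative^[m] p).eval z := by
  induction m with
  | zero => simp
  | succ m ih =>
    rw [iteratedDeriv_succ, ih, Function.iterate_succ_apply']
    funext z
    exact Polynomial.deriv _

lemma cauchy_coeff (p : ℂ[X]) (C : ℝ) (hC : ∀ z : ℂ, ‖z‖ ≤ 1 / 2 → ‖p.eval z‖ ≤ C) (m : ℕ) :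
    ‖p.coeff m‖ ≤ 2 ^ m * C := by
  have h1 := Complex.norm_iteratedDeriv_le_of_forall_mem_sphere_norm_le (c := 0) (R := 1 / 2)
    (C := C) (f := fun z => p.eval z) m (by norm_num)
    (Differentiable.diffContOnCl p.differentiable)
    (fun z hz => hC z (by
      rw [mem_sphere_iff_norm, sub_zero] at hz; rw [hz]))
  rw [iteratedDeriv_eval] at h1
  have h2 : (Polynomial.derivative^[m] p).eval 0 = (m.factorial : ℂ) * p.coeff m := by
    rw [← Polynomial.coeff_zero_eq_eval_zero, Polynomial.coeff_iterate_derivative]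
    simp [Nat.descFactorial_self]
  simp only [h2] at h1
  rw [norm_mul, Complex.norm_natCast] at h1
  have h3 : (0 : ℝ) < m.factorial := by exact_mod_cast Nat.factorial_pos m
  have h4 : (m.factorial : ℝ) * C / (1 / 2) ^ m = m.factorial * (2 ^ m * C) := by
    rw [one_div, inv_pow, div_inv_eq_mul]; ring
  rw [h4] at h1
  exact le_of_mul_le_mul_left h1 h3

/-- one Blaschke factor -/
lemma blaschke_factor (z α : ℂ) (hz : ‖z‖ ≤ 1 / 2) (ρ : ℝ) (hρ : 0 < ρ) (h1 : ρ ≤ ‖α‖)
    (h2 : ‖α‖ < 1) :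
    ‖(z - α) / (1 - (starRingEnd ℂ) α * z)‖ ≤ ‖α‖ ^ (ρ ^ 2 / 3) := by
  have hα : 0 < ‖α‖ := hρ.trans_le h1
  -- identity
  have hid : ‖1 - (starRingEnd ℂ) α * z‖ ^ 2 - ‖z - α‖ ^ 2 = (1 - ‖z‖ ^ 2) * (1 - ‖α‖ ^ 2) := by
    rw [← Complex.normSq_eq_norm_sq, ← Complex.normSq_eq_norm_sq, ← Complex.normSq_eq_norm_sq,
      ← Complex.normSq_eq_norm_sq]
    simp only [Complex.normSq_apply, Complex.sub_re, Complex.sub_im, Complex.mul_re, Complex.mul_im,
      Complex.conj_re, Complex.conj_im, Complex.one_re, Complex.one_im]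
    ring
  have hlow : 1 / 2 ≤ ‖1 - (starRingEnd ℂ) α * z‖ := by
    have := norm_sub_norm_le (1 : ℂ) ((starRingEnd ℂ) α * z)
    rw [norm_mul, RCLike.norm_conj, norm_one] at this
    nlinarith only [h2, this, hz, hρ, h1]
  have hup : ‖1 - (starRingEnd ℂ) α * z‖ ≤ 3 / 2 := by
    have := norm_sub_le (1 : ℂ) ((starRingEnd ℂ) α * z)
    rw [norm_mul, RCLike.norm_conj, norm_one] at this
    nlinarith only [h2, this, hz, hρ, h1]
  set D := ‖1 - (starRingEnd ℂ) α * z‖ with hD
  have hD0 : 0 < D := by linarith only [hlow]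
  have hsq : ‖(z - α) / (1 - (starRingEnd ℂ) α * z)‖ ^ 2 ≤ 1 - (1 - ‖α‖ ^ 2) / 3 := by
    rw [norm_div, div_pow, div_le_iff₀ (by positivity)]
    have e1 : ‖z - α‖ ^ 2 = D ^ 2 - (1 - ‖z‖ ^ 2) * (1 - ‖α‖ ^ 2) := by linarith only [hid]
    rw [e1]
    have e2 : 0 ≤ 1 - ‖α‖ ^ 2 := by nlinarith only [h2, hρ, h1]
    have e3 : ‖z‖ ^ 2 ≤ 1 / 4 := by nlinarith only [hz, norm_nonneg z]
    have e4 : D ^ 2 ≤ 9 / 4 := by nlinarith only [hup, hlow]
    nlinarith only [e4, e2, e3]
  have h3 : 1 - (1 - ‖α‖ ^ 2) / 3 ≤ Real.exp (-((1 - ‖α‖ ^ 2) / 3)) := by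
    have := Real.add_one_le_exp (-((1 - ‖α‖ ^ 2) / 3))
    linarith only [this]
  have h4 : Real.exp (-((1 - ‖α‖ ^ 2) / 3)) ≤ (‖α‖ ^ (ρ ^ 2 / 3)) ^ 2 := by
    have e0 : (‖α‖ ^ (ρ ^ 2 / 3)) ^ 2 = Real.exp (Real.log ‖α‖ * (ρ ^ 2 / 3) * 2) := by
      rw [Real.rpow_def_of_pos hα, ← Real.exp_nat_mul]
      congr 1; push_cast; ring
    rw [e0]
    apply Real.exp_le_exp.2
    have h5 : -Real.log (‖α‖ ^ 2) ≤ (1 - ‖α‖ ^ 2) / ‖α‖ ^ 2 := by
      have := Real.log_le_sub_one_of_pos (x := (‖α‖ ^ 2)⁻¹) (by positivity)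
      rw [Real.log_inv] at this
      have e : (‖α‖ ^ 2)⁻¹ - 1 = (1 - ‖α‖ ^ 2) / ‖α‖ ^ 2 := by (clear * - hα; field_simp)
      linarith only [this, e]
    rw [Real.log_pow] at h5
    have h6 : (1 - ‖α‖ ^ 2) / ‖α‖ ^ 2 * ρ ^ 2 ≤ 1 - ‖α‖ ^ 2 := by
      have e2 : 0 ≤ 1 - ‖α‖ ^ 2 := by nlinarith only [h2, hρ, h1]
      rw [div_mul_eq_mul_div, div_le_iff₀ (by positivity)]
      have : ρ ^ 2 ≤ ‖α‖ ^ 2 := by nlinarith only [hρ, h1]
      nlinarith only [e2, this]
    have h7 : -(2 * Real.log ‖α‖) * ρ ^ 2 ≤ (1 - ‖α‖ ^ 2) := by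
      refine le_trans (mul_le_mul_of_nonneg_right ?_ (sq_nonneg ρ)) h6
      simpa using h5
    nlinarith only [h7]
  have h5 := hsq.trans (h3.trans h4)
  exact (sq_le_sq₀ (norm_nonneg _) (by positivity)).1 h5

/-- roots in the open disc -/
def rts (f : ℤ[X]) : Finset ℂ :=
  ((f.map (Int.castRingHom ℂ)).roots.toFinset).filter fun α => ‖α‖ < 1

lemma mem_rts {f : ℤ[X]} {α : ℂ} (h : α ∈ rts f) : ‖α‖ < 1 ∧ aeval α f = 0 := by
  unfold rts at h
  rw [Finset.mem_filter, Multiset.mem_toFinset] at h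
  refine ⟨h.2, ?_⟩
  have := Polynomial.isRoot_of_mem_roots h.1
  rw [Polynomial.IsRoot, Polynomial.eval_map] at this
  rw [Polynomial.aeval_def]
  exact this

lemma irr_roots_nodup {f : ℤ[X]} (hf : Irreducible f) :
    (f.map (Int.castRingHom ℂ)).roots.Nodup := by
  by_cases h0 : f.natDegree = 0
  · have h1 : (f.map (Int.castRingHom ℂ)).natDegree = 0 :=
      Nat.le_zero.1 (Polynomial.natDegree_map_le.trans h0.le)
    rw [Polynomial.eq_C_of_natDegree_eq_zero h1, Polynomial.roots_C]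
    exact Multiset.nodup_zero
  · have h1 : f.IsPrimitive := hf.isPrimitive h0
    have h2 : Irreducible (f.map (Int.castRingHom ℚ)) :=
      (Polynomial.IsPrimitive.Int.irreducible_iff_irreducible_map_cast h1).1 hf
    have h3 : (f.map (Int.castRingHom ℚ)).Separable := h2.separable
    have h4 : ((f.map (Int.castRingHom ℚ)).map (algebraMap ℚ ℂ)).Separable := h3.map
    have h5 : (f.map (Int.castRingHom ℚ)).map (algebraMap ℚ ℂ) = f.map (Int.castRingHom ℂ) := by
      rw [Polynomial.map_map]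
      congr 1
    rw [h5] at h4
    exact Polynomial.nodup_roots h4

lemma prod_rts {f : ℤ[X]} (hf : Irreducible f) :
    (f.map (Int.castRingHom ℂ)).mahlerMeasure * ∏ α ∈ rts f, ‖α‖ = |((f.coeff 0 : ℤ) : ℝ)| := by
  set g := f.map (Int.castRingHom ℂ) with hg
  have hnd : g.roots.Nodup := irr_roots_nodup hf
  have h1 : g.coeff 0 = (-1) ^ g.natDegree * g.leadingCoeff * g.roots.prod :=
    (IsAlgClosed.splits g).coeff_zero_eq_leadingCoeff_mul_prod_roots
  have h2 : |((f.coeff 0 : ℤ) : ℝ)| = ‖g.coeff 0‖ := by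
    rw [hg, Polynomial.coeff_map]
    simp
  rw [h2, h1, Polynomial.mahlerMeasure_eq_leadingCoeff_mul_prod_roots]
  rw [norm_mul, norm_mul, norm_pow, norm_neg, norm_one, one_pow, one_mul]
  have h3 : g.roots = g.roots.toFinset.val := by
    rw [Multiset.toFinset_val, hnd.dedup]
  have h4 : (g.roots.map (fun a ↦ max 1 ‖a‖)).prod = ∏ a ∈ g.roots.toFinset, max 1 ‖a‖ := by
    rw [Finset.prod, ← h3]
  have h5 : ‖g.roots.prod‖ = ∏ a ∈ g.roots.toFinset, ‖a‖ := by
    conv_lhs => rw [h3]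
    have := Finset.prod_eq_multiset_prod g.roots.toFinset (fun a : ℂ => a)
    simp only [Multiset.map_id'] at this
    rw [← this, norm_prod]
  rw [h4, h5, mul_assoc]
  congr 1
  have h6 : ∏ α ∈ rts f, ‖α‖ = ∏ a ∈ g.roots.toFinset, if ‖a‖ < 1 then ‖a‖ else 1 := by
    unfold rts
    rw [Finset.prod_filter]
  rw [h6, ← Finset.prod_mul_distrib]
  refine Finset.prod_congr rfl fun a _ => ?_
  split_ifs with h
  · rw [max_eq_left h.le, one_mul]
  · rw [max_eq_right (not_lt.1 h), mul_one]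

lemma eta_bound {f : ℤ[X]} (hf : Irreducible f) (B ρ : ℝ) (hρ : 0 < ρ)
    (hB : |((f.coeff 0 : ℤ) : ℝ)| ≤ B)
    (hroot : ∀ α : ℂ, aeval α f = 0 → ρ ≤ ‖α‖) (K : ℝ) (hK : 0 < K)
    (hM : K < (f.map (Int.castRingHom ℂ)).mahlerMeasure) (z : ℂ) (hz : ‖z‖ ≤ 1 / 2) :
    ∏ α ∈ rts f, ‖(z - α) / (1 - (starRingEnd ℂ) α * z)‖ ≤ (B / K) ^ (ρ ^ 2 / 3) := by
  have h1 : ∏ α ∈ rts f, ‖(z - α) / (1 - (starRingEnd ℂ) α * z)‖ ≤
      ∏ α ∈ rts f, ‖α‖ ^ (ρ ^ 2 / 3) :=
    Finset.prod_le_prod (fun _ _ => norm_nonneg _) fun α hα =>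
      blaschke_factor z α hz ρ hρ (hroot α (mem_rts hα).2) (mem_rts hα).1
  rw [Real.finsetProd_rpow _ _ (fun _ _ => norm_nonneg _)] at h1
  refine h1.trans ?_
  refine Real.rpow_le_rpow (Finset.prod_nonneg fun _ _ => norm_nonneg _) ?_ (by positivity)
  rw [le_div_iff₀ hK]
  have h2 := prod_rts hf
  have h3 : 0 ≤ ∏ α ∈ rts f, ‖α‖ := Finset.prod_nonneg fun _ _ => norm_nonneg _
  linarith only [mul_nonneg (le_of_lt (sub_pos.2 hM)) (sub_nonneg.2 h3), h2, hB]

end MB

end Vale.Agent.P114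
end
end

section

/-!
T10, weighted z-adic entropy: growth of sequences with superharmonic increments.
-/

open scoped Classical

noncomputable section

namespace Vale.Agent.P114

open FinProb

theorem rg_sum (g : ℕ → ℝ) (g0 : g 0 = 0) (w M : ℕ) :
    ∑ m ∈ Finset.range M, (g m - g (m - w)) = ∑ i ∈ Finset.range w, g (M - (i + 1)) := by
  induction w with
  | zero => simp only [tsub_zero, sub_self, Finset.sum_const_zero, Finset.range_zero, Finset.sum_empty]
  | succ w ih =>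
    rw [Finset.sum_range_succ, ← ih]
    have h : ∑ m ∈ Finset.range M, (g (m - w) - g (m - (w + 1))) = g (M - (w + 1)) := by
      have := Finset.sum_range_sub (fun m => g (m - (w + 1))) M
      simp only [Nat.add_sub_add_right, Nat.zero_sub, g0, sub_zero] at this
      exact this
    rw [← h, ← Finset.sum_add_distrib]
    exact Finset.sum_congr rfl fun m _ => by ring

/-- the smoothed increment -/
def rgU {Λ : Type} [Fintype Λ] (P : FinProb Λ) (wt : Λ → ℕ) (g : ℕ → ℝ) (m : ℕ) : ℝ :=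
  g m - ∑ a, P.w a * g (m - wt a)

section

variable {Λ : Type} [Fintype Λ] (P : FinProb Λ) (wt : Λ → ℕ) (g : ℕ → ℝ)

theorem rgU_eq (m : ℕ) : rgU P wt g m = ∑ a, P.w a * (g m - g (m - wt a)) := by
  unfold rgU
  simp only [mul_sub, Finset.sum_sub_distrib, ← Finset.sum_mul, P.sum_one, one_mul]

theorem rgU_mono
    (hsup : ∀ s : ℕ, ∑ a, P.w a * (g (s + 1 - wt a) - g (s - wt a)) ≤ g (s + 1) - g s) :
    Monotone (rgU P wt g) := by
  refine monotone_nat_of_le_succ fun m => ?_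
  have h := hsup m
  simp only [mul_sub, Finset.sum_sub_distrib] at h
  unfold rgU
  linarith only [h]

theorem rgU_sum_le (g0 : g 0 = 0) (gmono : Monotone g) (M : ℕ) :
    ∑ m ∈ Finset.range M, rgU P wt g m ≤ (∑ a, P.w a * wt a) * g M := by
  simp only [rgU_eq]
  rw [Finset.sum_comm, Finset.sum_mul]
  refine Finset.sum_le_sum fun a _ => ?_
  rw [← Finset.mul_sum, rg_sum g g0, mul_assoc]
  refine mul_le_mul_of_nonneg_left ?_ (P.nonneg a)
  refine (Finset.sum_le_sum (fun i _ => gmono (Nat.sub_le M (i + 1)))).trans ?_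
  simp

theorem rgU_le_sum (g0 : g 0 = 0) (gmono : Monotone g) {A : ℕ} (hA : ∀ a, wt a ≤ A) (M : ℕ) :
    (∑ a, P.w a * wt a) * g (M - A) ≤ ∑ m ∈ Finset.range M, rgU P wt g m := by
  simp only [rgU_eq]
  rw [Finset.sum_comm, Finset.sum_mul]
  refine Finset.sum_le_sum fun a _ => ?_
  rw [← Finset.mul_sum, rg_sum g g0, mul_assoc]
  refine mul_le_mul_of_nonneg_left ?_ (P.nonneg a)
  have h : ∀ i ∈ Finset.range (wt a), g (M - A) ≤ g (M - (i + 1)) := by
    intro i hi
    have h1 := Finset.mem_range.1 hi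
    have h2 := hA a
    exact gmono (by omega)
  refine le_trans ?_ (Finset.sum_le_sum h)
  simp only [Finset.sum_const, Finset.card_range, nsmul_eq_mul, Std.le_refl]

theorem rgU_bdd (g0 : g 0 = 0) (gmono : Monotone g) (C : ℝ) (gC : ∀ m : ℕ, g m ≤ C * m)
    (hU : Monotone (rgU P wt g)) (hU0 : ∀ m, 0 ≤ rgU P wt g m) (m : ℕ) :
    rgU P wt g m ≤ 2 * ((∑ a, P.w a * wt a) * C) := by
  have habar : 0 ≤ ∑ a, P.w a * (wt a : ℝ) :=
    Finset.sum_nonneg fun a _ => mul_nonneg (P.nonneg a) (Nat.cast_nonneg _)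
  refine (hU (Nat.le_succ m)).trans ?_
  set n := m + 1 with hn
  have hn0 : (0 : ℝ) < n := by
    rw [hn]
    exact_mod_cast Nat.succ_pos m
  have h1 : (n : ℝ) * rgU P wt g n ≤ ∑ k ∈ Finset.range (n + n), rgU P wt g k := by
    rw [Finset.sum_range_add]
    have h2 : ∀ i ∈ Finset.range n, rgU P wt g n ≤ rgU P wt g (n + i) :=
      fun i _ => hU (Nat.le_add_right n i)
    have h3 := Finset.sum_le_sum h2
    rw [Finset.sum_const, Finset.card_range, nsmul_eq_mul] at h3
    have h4 : 0 ≤ ∑ k ∈ Finset.range n, rgU P wt g k := Finset.sum_nonneg fun k _ => hU0 k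
    linarith only [h3, h4]
  have h5 := rgU_sum_le P wt g g0 gmono (n + n)
  have h6 := mul_le_mul_of_nonneg_left (gC (n + n)) habar
  have h7 : (n : ℝ) * rgU P wt g n ≤ n * (2 * ((∑ a, P.w a * wt a) * C)) := by
    refine (h1.trans (h5.trans h6)).trans_eq ?_
    push_cast
    ring
  exact le_of_mul_le_mul_left h7 hn0

end

/-- Renewal argument. Let `d s = g (s+1) - g s ≥ 0` (`d = 0` for negative arguments), so that
`d s ≥ ∑ P(a) d (s - wt a)`. Let `A = max wt` and `q i = P(wt > i)` (`q 0 = 1`, `∑_{i<A} q i =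
abar = ∑ P(a) wt a`), `V s = ∑_{i<A} q i d (s-i)`. Then
`V (s+1) - V s = d (s+1) - ∑_a P(a) d (s+1-wt a) ≥ 0`, so `V` is nondecreasing, `d s ≤ V s`,
`V s ≤ g (s+1) - g (s+1-A)`, and `∑_{s<m} V s = ∑_{i<A} q i g (m-i)` lies between
`abar g (m-A)` and `abar g m`. Hence `V` is bounded (by `A C`: `L V(s) ≤ ∑_{s≤s'<s+L} V s' ≤
abar g (s+L) ≤ abar C (s+L)`, `L → ∞`), converges to some `b`, and `g m / m → az = b / abar`. -/
theorem renewal_growth {Λ : Type} [Fintype Λ] (P : FinProb Λ) (wt : Λ → ℕ) (hwt : ∀ i, 1 ≤ wt i)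
    (g : ℕ → ℝ) (g0 : g 0 = 0) (gmono : Monotone g) (C : ℝ) (gC : ∀ m : ℕ, g m ≤ C * m)
    (hsup : ∀ s : ℕ, ∑ a, P.w a * (g (s + 1 - wt a) - g (s - wt a)) ≤ g (s + 1) - g s) :
    ∃ az a' : ℝ, 0 ≤ az ∧ 0 ≤ a' ∧ (∀ s, g (s + 1) - g s ≤ a') ∧
      (∀ ε > 0, ∃ C' : ℝ, ∀ m : ℕ, |g m - az * m| ≤ ε * m + C') := by
  have hU := rgU_mono P wt g hsup
  have hU0 : ∀ m, 0 ≤ rgU P wt g m := by
    intro m
    have h0 : rgU P wt g 0 = 0 := by
      unfold rgU
      simp only [g0, zero_tsub, mul_zero, Finset.sum_const_zero, sub_self]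
    rw [← h0]
    exact hU (Nat.zero_le m)
  have hb := rgU_bdd P wt g g0 gmono C gC hU hU0
  have habar : 1 ≤ ∑ a, P.w a * (wt a : ℝ) := by
    rw [← P.sum_one]
    refine Finset.sum_le_sum fun a _ => ?_
    have h1 : (1 : ℝ) ≤ wt a := by exact_mod_cast hwt a
    have h2 := P.nonneg a
    nlinarith only [h1, h2]
  have hbdd : BddAbove (Set.range (rgU P wt g)) := ⟨_, by
    rintro _ ⟨m, rfl⟩
    exact hb m⟩
  obtain ⟨A, hA⟩ : ∃ A : ℕ, ∀ a, wt a ≤ A :=
    ⟨Finset.univ.sup wt, fun a => Finset.le_sup (Finset.mem_univ a)⟩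
  set abar := ∑ a, P.w a * (wt a : ℝ) with habar_def
  have habar0 : 0 < abar := by linarith
  set b := ⨆ m, rgU P wt g m with hb_def
  have hb1 : ∀ m, rgU P wt g m ≤ b := fun m => le_ciSup hbdd m
  have hb0 : 0 ≤ b := (hU0 0).trans (hb1 0)
  refine ⟨b / abar, 2 * (abar * C), by (clear * - hb0 habar; positivity), (hU0 0).trans (hb 0), ?_, ?_⟩
  · intro s
    refine le_trans ?_ (hb (s + 1))
    unfold rgU
    have h1 : ∑ a, P.w a * g (s + 1 - wt a) ≤ ∑ a, P.w a * g s :=
      Finset.sum_le_sum fun a _ => mul_le_mul_of_nonneg_left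
        (gmono (by have := hwt a; omega)) (P.nonneg a)
    rw [← Finset.sum_mul, P.sum_one, one_mul] at h1
    linarith only [h1]
  · intro ε hε
    obtain ⟨N, hN⟩ := exists_lt_of_lt_ciSup (show b - ε < ⨆ m, rgU P wt g m by
      rw [← hb_def]
      linarith)
    refine ⟨b / abar * A + (ε + b * N), fun m => ?_⟩
    have hup : g m ≤ b / abar * (m + A) := by
      have h1 := rgU_le_sum P wt g g0 gmono hA (m + A)
      rw [Nat.add_sub_cancel] at h1
      have h2 : ∑ k ∈ Finset.range (m + A), rgU P wt g k ≤ (m + A) * b := by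
        refine (Finset.sum_le_sum fun k _ => hb1 k).trans ?_
        simp only [Finset.sum_const, Finset.card_range, nsmul_eq_mul, Nat.cast_add, Std.le_refl]
      rw [div_mul_eq_mul_div, le_div_iff₀ habar0]
      linarith
    have hlow : b * m - ε * m - b * N ≤ abar * g m := by
      refine le_trans ?_ (rgU_sum_le P wt g g0 gmono m)
      have h3 : ∀ k ∈ Finset.range m, b - ε - (if k < N then b else 0) ≤ rgU P wt g k := by
        intro k _
        split_ifs with hk
        · have := hU0 k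
          linarith only [hε, this]
        · have := hU (not_lt.1 hk)
          linarith only [hN, this]
      refine le_trans ?_ (Finset.sum_le_sum h3)
      rw [Finset.sum_sub_distrib, Finset.sum_const, Finset.card_range, nsmul_eq_mul,
        ← Finset.sum_filter, Finset.sum_const, nsmul_eq_mul]
      have h4 : ((Finset.range m).filter (fun k => k < N)).card ≤ N := by
        have : (Finset.range m).filter (fun k => k < N) ⊆ Finset.range N := by
          intro k hk
          exact Finset.mem_range.2 (Finset.mem_filter.1 hk).2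
        simpa only [ge_iff_le, Finset.card_range] using Finset.card_le_card this
      have h5 : (((Finset.range m).filter (fun k => k < N)).card : ℝ) ≤ N := by
        exact_mod_cast h4
      linarith only [mul_nonneg (sub_nonneg.2 hb0) (sub_nonneg.2 h5)]
    have hm0 : (0 : ℝ) ≤ m := Nat.cast_nonneg m
    have hA0 : (0 : ℝ) ≤ A := Nat.cast_nonneg A
    have hN0 : (0 : ℝ) ≤ N := Nat.cast_nonneg N
    have hba : 0 ≤ b / abar := by (clear * - hb0 habar; positivity)
    rw [abs_le]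
    constructor
    · have h6 : b / abar * m - ε * m - b * N ≤ g m := by
        have h7 : abar * (b / abar * m - ε * m - b * N) ≤ abar * g m := by
          refine le_trans ?_ hlow
          have h8 : abar * (b / abar) = b := mul_div_cancel₀ b habar0.ne'
          have h9 : ε * m ≤ abar * (ε * m) := le_mul_of_one_le_left (by (clear * - hε; positivity)) habar
          have h10 : b * N ≤ abar * (b * N) := le_mul_of_one_le_left (by (clear * - hb0; positivity)) habar
          have h11 : abar * (b / abar * m - ε * m - b * N) =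
              abar * (b / abar) * m - abar * (ε * m) - abar * (b * N) := by ring
          rw [h11, h8]
          linarith only [h9, h10]
        exact le_of_mul_le_mul_left h7 habar0
      have h12 : 0 ≤ b / abar * A := by (clear * - hb0 habar; positivity)
      linarith only [hε, h6, h12]
    · have h13 : 0 ≤ ε * m := by (clear * - hε; positivity)
      have h14 : 0 ≤ b * N := by (clear * - hb0; positivity)
      rw [mul_add] at hup
      linarith only [hε, hup, h13, h14]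

end Vale.Agent.P114
end
end
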