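import Vale.Agent.P114.MathlibUsed
import Vale.Agent.P114.Bdl.B1
import Vale.Agent.P114.Defs

set_option linter.all false

section

open scoped Classical

noncomputable section

namespace Vale.Agent.P114

open FinProb

/-- Expected log of one plus the number of good coordinates. -/
lemma expected_log_count {D : Type*} [Fintype D] (PD : FinProb D) (G : D → Prop)
    [DecidablePred G] (k : ℕ)
    (hk : 0 < k) (θ : ℝ) (hθ : θ = ∑ d, if G d then PD.w d else 0) (hθ0 : 0 < θ) :
    Real.log (k * θ / 6)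
      ≤ ∑ x, (PD.pi k).w x *
        Real.log (((Finset.univ.filter fun i => G (x i)).card : ℝ) + 1) := by
  set μ : ℝ := k * θ with hμ
  have hkr : (0 : ℝ) < k := by exact_mod_cast hk
  have hμ0 : 0 < μ := mul_pos hkr hθ0
  set g : Fin k → D → ℝ := fun _ d => (if G d then 1 else 0) - θ with hg
  have hθ1 : θ ≤ 1 := by
    rw [hθ, ← PD.sum_one]
    exact Finset.sum_le_sum fun d _ => by split_ifs; exacts [le_rfl, PD.nonneg d]
  have hsum1 : ∑ d, PD.w d * (if G d then (1 : ℝ) else 0) = θ := by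
    rw [hθ]; exact Finset.sum_congr rfl fun d _ => by split_ifs <;> simp
  have h2 := PD.second_moment k g (by
    intro i
    simp only [hg, mul_sub, Finset.sum_sub_distrib]
    rw [← Finset.sum_mul, PD.sum_one, hsum1]; ring)
  have hcount : ∀ x : Fin k → D, ∑ i, g i (x i)
      = ((Finset.univ.filter fun i => G (x i)).card : ℝ) - μ := by
    intro x
    simp only [hg, Finset.sum_sub_distrib]
    rw [Finset.sum_const, Finset.card_univ, Fintype.card_fin, nsmul_eq_mul]
    congr 1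
    rw [Finset.sum_ite, Finset.sum_const_zero, add_zero, Finset.sum_const, nsmul_eq_mul, mul_one]
  have h3 : ∑ i : Fin k, ∑ d, PD.w d * (g i d) ^ 2 ≤ μ := by
    have h4 : ∀ i : Fin k, ∑ d, PD.w d * (g i d) ^ 2 ≤ θ := by
      intro i
      have h5 : ∀ d, PD.w d * (g i d) ^ 2
          = PD.w d * (if G d then (1 : ℝ) else 0) * (1 - 2 * θ) + PD.w d * θ ^ 2 := by
        intro d
        simp only [hg]
        split_ifs <;> ring
      rw [Finset.sum_congr rfl fun d _ => h5 d, Finset.sum_add_distrib, ← Finset.sum_mul,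
        ← Finset.sum_mul, hsum1, PD.sum_one]
      nlinarith only []
    calc _ ≤ ∑ _i : Fin k, θ := Finset.sum_le_sum fun i _ => h4 i
      _ = μ := by rw [Finset.sum_const, Finset.card_univ, Fintype.card_fin, nsmul_eq_mul]
  simp only [hcount] at h2
  have h6 : ∀ m : ℝ, 0 ≤ m → 1 - (1 / 3 + (2 / 3) * ((m - μ) ^ 2 / μ)) ≤ Real.log ((m + 1) / (μ / 6)) := by
    intro m hm
    have h7 : 1 - (μ / 6) / (m + 1) ≤ Real.log ((m + 1) / (μ / 6)) := by
      have := Real.add_one_le_exp (-Real.log ((m + 1) / (μ / 6)))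
      rw [Real.exp_neg, Real.exp_log (by positivity), inv_div] at this
      linarith only [this]
    refine le_trans ?_ h7
    have h8 : (μ / 6) / (m + 1) ≤ 1 / 3 + (2 / 3) * ((m - μ) ^ 2 / μ) := by
      rw [div_le_iff₀ (by positivity)]
      rcases le_or_gt (μ / 2) m with hc | hc
      · have : 0 ≤ (2 / 3) * ((m - μ) ^ 2 / μ) := by (clear * - hk hθ0; positivity)
        nlinarith only [hc, this, hm]
      · have h9 : μ / 4 ≤ (m - μ) ^ 2 / μ := by
          rw [le_div_iff₀ hμ0]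
          nlinarith only [hμ0, hc]
        nlinarith only [hm, h9, hμ0]
    linarith only [h8]
  have h7 : ∀ x : Fin k → D, (PD.pi k).w x *
      (1 - (1 / 3 + (2 / 3) * ((((Finset.univ.filter fun i => G (x i)).card : ℝ) - μ) ^ 2 / μ)))
      ≤ (PD.pi k).w x * Real.log (((Finset.univ.filter fun i => G (x i)).card : ℝ) + 1)
        - (PD.pi k).w x * Real.log (μ / 6) := by
    intro x
    have h8 := h6 ((Finset.univ.filter fun i => G (x i)).card : ℝ) (by (clear * -; positivity))
    rw [Real.log_div (by (clear * -; positivity)) (by positivity)] at h8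
    rw [← mul_sub]
    exact mul_le_mul_of_nonneg_left h8 ((PD.pi k).nonneg x)
  have h8 := Finset.sum_le_sum (s := Finset.univ) fun x _ => h7 x
  rw [Finset.sum_sub_distrib, ← Finset.sum_mul, (PD.pi k).sum_one, one_mul] at h8
  have h9 : ∑ x : Fin k → D, (PD.pi k).w x *
      (1 - (1 / 3 + (2 / 3) * ((((Finset.univ.filter fun i => G (x i)).card : ℝ) - μ) ^ 2 / μ)))
      = 2 / 3 - (2 / 3) / μ * ∑ x : Fin k → D, (PD.pi k).w x *
        (((Finset.univ.filter fun i => G (x i)).card : ℝ) - μ) ^ 2 := by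
    have : ∀ x : Fin k → D, (PD.pi k).w x *
      (1 - (1 / 3 + (2 / 3) * ((((Finset.univ.filter fun i => G (x i)).card : ℝ) - μ) ^ 2 / μ)))
        = (PD.pi k).w x * (2 / 3) - (2 / 3) / μ * ((PD.pi k).w x *
        (((Finset.univ.filter fun i => G (x i)).card : ℝ) - μ) ^ 2) := by
      intro x; field_simp; ring
    rw [Finset.sum_congr rfl fun x _ => this x, Finset.sum_sub_distrib, ← Finset.sum_mul,
      (PD.pi k).sum_one, ← Finset.mul_sum]
    ring
  rw [h9, h2] at h8
  have h10 : (2 / 3) / μ * (∑ i : Fin k, ∑ d, PD.w d * (g i d) ^ 2) ≤ 2 / 3 := by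
    calc _ ≤ (2 / 3) / μ * μ := mul_le_mul_of_nonneg_left h3 (by positivity)
      _ = 2 / 3 := by field_simp
  linarith only [h8, h10]

/-- Full entropy on a window from random selections in pairs. -/
lemma window_pairs {D B : Type*} [Fintype D] [Fintype B] (PD : FinProb D) (PB : FinProb B)
    (u v : D → ℤ) (Y : B → ℤ) (j c L : ℕ)
    (huv : ∀ d, 0 < PD.w d → |u d - v d| ≤ 2 ^ (j + c))
    (θ : ℝ) (hθ : θ = ∑ d, if (2 : ℤ) ^ j ≤ |u d - v d| then PD.w d else 0) (hθ0 : 0 < θ) :
    L * Real.log 2 + 1 / 2 * Real.log (θ / 12) - 7 / 2 * Real.log 2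
      ≤ (((PD.pi (4 ^ L)).prod PB).prod (unif (Fin (4 ^ L) → Bool))).H
          (fun x => (sel (fun i => u (x.1.1 i)) (fun i => v (x.1.1 i)) x.2 + Y x.1.2) / 2 ^ j)
        - (((PD.pi (4 ^ L)).prod PB).prod (unif (Fin (4 ^ L) → Bool))).H
          (fun x => (sel (fun i => u (x.1.1 i)) (fun i => v (x.1.1 i)) x.2 + Y x.1.2)
            / 2 ^ (j + c + L)) := by
  set k : ℕ := 4 ^ L with hk
  have hk0 : 0 < k := by positivity
  have h1 := ((PD.pi k).prod PB).prod_cond_le (unif (Fin k → Bool))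
    (fun x => (sel (fun i => u (x.1.1 i)) (fun i => v (x.1.1 i)) x.2 + Y x.1.2) / 2 ^ j)
    (fun x => (sel (fun i => u (x.1.1 i)) (fun i => v (x.1.1 i)) x.2 + Y x.1.2)
            / 2 ^ (j + c + L)) (by
      intro x y hxy
      have e : ∀ z : ℤ, z / 2 ^ (j + c + L) = z / 2 ^ j / 2 ^ (c + L) := by
        intro z
        rw [Int.ediv_ediv_of_nonneg (by positivity), ← pow_add, add_assoc]
      rw [e, e, hxy])
  refine le_trans ?_ h1
  -- lower bound each section
  have h2 : ∀ a : (Fin k → D) × B, ((PD.pi k).prod PB).w a *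
      (1 / 2 * Real.log (((Finset.univ.filter fun i =>
        (2 : ℤ) ^ j ≤ |u (a.1 i) - v (a.1 i)|).card : ℝ) + 1) - 1 / 2 * Real.log 2
        - 7 / 2 * Real.log 2)
      ≤ ((PD.pi k).prod PB).w a * ((unif (Fin k → Bool)).H
          (fun b => (sel (fun i => u (a.1 i)) (fun i => v (a.1 i)) b + Y a.2) / 2 ^ j)
        - (unif (Fin k → Bool)).H
          (fun b => (sel (fun i => u (a.1 i)) (fun i => v (a.1 i)) b + Y a.2)
            / 2 ^ (j + c + L))) := by
    intro a
    rcases ((PD.pi k).prod PB).w_zero_or_pos a with ha | ha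
    · rw [ha, zero_mul, zero_mul]
    · refine mul_le_mul_of_nonneg_left ?_ ha.le
      have h3 := lo_entropy (fun i => u (a.1 i)) (fun i => v (a.1 i)) (2 ^ j) (by positivity)
        (Y a.2) _ rfl
      have hpos : ∀ i, 0 < PD.w (a.1 i) := by
        intro i
        rcases PD.w_zero_or_pos (a.1 i) with h4 | h4
        · exfalso
          have h5 : (PD.pi k).w a.1 = 0 := by
            simp only [pi_w]
            exact Finset.prod_eq_zero (Finset.mem_univ i) h4
          rw [prod_w, h5, zero_mul] at ha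
          exact lt_irrefl _ ha
        · exact h4
      have h4 := var_entropy (fun i => u (a.1 i)) (fun i => v (a.1 i)) (2 ^ (j + c))
        (2 ^ (j + c + L)) (by positivity) (Y a.2) (fun i => huv _ (hpos i)) (by
          push_cast
          rw [hk]
          push_cast
          rw [← pow_mul, ← pow_mul, show (4 : ℝ) = 2 ^ 2 by norm_num, ← pow_mul, ← pow_add]
          apply le_of_eq
          congr 1
          ring)
      rw [Real.log_div (by (clear * -; positivity)) (by norm_num)] at h3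
      linarith only [h3, h4]
  refine le_trans ?_ (Finset.sum_le_sum fun a _ => h2 a)
  have h3 := expected_log_count PD (fun d => (2 : ℤ) ^ j ≤ |u d - v d|) k hk0 θ hθ hθ0
  have h4 : ∑ a : (Fin k → D) × B, ((PD.pi k).prod PB).w a *
      (1 / 2 * Real.log (((Finset.univ.filter fun i =>
        (2 : ℤ) ^ j ≤ |u (a.1 i) - v (a.1 i)|).card : ℝ) + 1) - 1 / 2 * Real.log 2
        - 7 / 2 * Real.log 2)
      = 1 / 2 * (∑ x, (PD.pi k).w x * Real.log (((Finset.univ.filter fun i =>
        (2 : ℤ) ^ j ≤ |u (x i) - v (x i)|).card : ℝ) + 1)) - 4 * Real.log 2 := by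
    rw [(PD.pi k).sum_prod_w PB (fun a => (1 / 2 * Real.log (((Finset.univ.filter fun i =>
        (2 : ℤ) ^ j ≤ |u (a.1 i) - v (a.1 i)|).card : ℝ) + 1) - 1 / 2 * Real.log 2
        - 7 / 2 * Real.log 2))]
    simp only
    have h5 : ∀ x : Fin k → D, (PD.pi k).w x * ∑ b, PB.w b *
        (1 / 2 * Real.log (((Finset.univ.filter fun i =>
        (2 : ℤ) ^ j ≤ |u (x i) - v (x i)|).card : ℝ) + 1) - 1 / 2 * Real.log 2
        - 7 / 2 * Real.log 2)
        = 1 / 2 * ((PD.pi k).w x * Real.log (((Finset.univ.filter fun i =>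
        (2 : ℤ) ^ j ≤ |u (x i) - v (x i)|).card : ℝ) + 1))
          - (PD.pi k).w x * (4 * Real.log 2) := by
      intro x
      rw [← Finset.sum_mul, PB.sum_one]
      ring
    rw [Finset.sum_congr rfl fun x _ => h5 x, Finset.sum_sub_distrib, ← Finset.mul_sum,
      ← Finset.sum_mul, (PD.pi k).sum_one, one_mul]
  rw [h4]
  have h5 : Real.log (k * θ / 6) = 2 * L * Real.log 2 + Real.log (θ / 12) + Real.log 2 := by
    rw [hk]
    push_cast
    rw [show (4 : ℝ) ^ L * θ / 6 = (2 : ℝ) ^ (2 * L) * ((θ / 12) * 2) by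
      rw [pow_mul]; norm_num; ring]
    rw [Real.log_mul (by positivity) (by positivity), Real.log_pow,
      Real.log_mul (by positivity) (by norm_num)]
    push_cast
    ring
  rw [h5] at h3
  linarith only [h3]

end Vale.Agent.P114
end
end

section

open scoped Classical

noncomputable section

namespace Vale.Agent.P114

open FinProb

lemma ediv_pow_add (z : ℤ) (a b : ℕ) : z / 2 ^ (a + b) = z / 2 ^ a / 2 ^ b := by
  rw [Int.ediv_ediv_of_nonneg (by positivity), ← pow_add]

lemma abs_sub_le_one_of_lt {x y : ℤ} {j : ℕ} (h : |x - y| < 2 ^ j) :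
    |x / 2 ^ j - y / 2 ^ j| ≤ 1 := by
  have hR : (0 : ℤ) < 2 ^ j := by positivity
  have h1 := Int.ediv_mul_le x hR.ne'
  have h2 := Int.lt_ediv_add_one_mul_self x hR
  have h3 := Int.ediv_mul_le y hR.ne'
  have h4 := Int.lt_ediv_add_one_mul_self y hR
  rw [abs_lt] at h
  rw [abs_le]
  constructor
  · by_contra hc
    push Not at hc
    have : x / 2 ^ j + 1 + 1 ≤ y / 2 ^ j := by omega
    nlinarith only [h, h2, h3, hc]
  · by_contra hc
    push Not at hc
    have : y / 2 ^ j + 1 + 1 ≤ x / 2 ^ j := by omega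
    nlinarith only [h, h1, h4, hc]

lemma abs_sub_lt_of_same_cell {x y : ℤ} {j : ℕ} (h : x / 2 ^ j = y / 2 ^ j) :
    |x - y| < 2 ^ j := by
  have hR : (0 : ℤ) < 2 ^ j := by positivity
  have h1 := Int.ediv_mul_le x hR.ne'
  have h2 := Int.lt_ediv_add_one_mul_self x hR
  have h3 := Int.ediv_mul_le y hR.ne'
  have h4 := Int.lt_ediv_add_one_mul_self y hR
  rw [h] at h1 h2
  rw [abs_lt]
  constructor <;> linarith

/-- Conditional entropy in a cell is controlled by the probability that two conditionally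
independent copies are far apart. -/
lemma cell_entropy_le {A : Type*} [Fintype A] (PA : FinProb A) (U : A → ℤ) (j c : ℕ) :
    PA.H (fun a => U a / 2 ^ j) - PA.H (fun a => U a / 2 ^ (j + c))
      ≤ Real.log 6 + (∑ x, if (2 : ℤ) ^ j ≤ |U x.1 - U x.2| then
          (PA.couple fun a => U a / 2 ^ (j + c)).w x else 0) * (c * Real.log 2) := by
  set h : A → ℤ := fun a => U a / 2 ^ (j + c) with hh
  set V : A → ℤ := fun a => U a / 2 ^ j with hV
  have hVh : ∀ a, h a = V a / 2 ^ c := fun a => ediv_pow_add _ _ _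
  have hc0 : (0 : ℝ) ≤ c * Real.log 2 := by positivity
  have e1 : PA.H (fun a => (V a, h a)) = PA.H V := PA.H_congr_det fun x y => by
    constructor
    · intro hxy; simp [hVh, hxy]
    · intro hxy; exact (Prod.ext_iff.1 hxy).1
  have e2 := PA.H_pair_eq_cond V h
  have e3 : PA.H V - PA.H h = ∑ ω, PA.w ω * (PA.cond h (h ω)).H V := by linarith only [e1, e2]
  rw [e3]
  have key : ∀ ω, PA.w ω * (PA.cond h (h ω)).H V ≤ PA.w ω * ∑ ω', (PA.cond h (h ω)).w ω' *
      (Real.log 6 + if (2 : ℤ) ^ j ≤ |U ω - U ω'| then c * Real.log 2 else 0) := by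
    intro ω
    rcases PA.w_zero_or_pos ω with hw | hw
    · rw [hw, zero_mul, zero_mul]
    refine mul_le_mul_of_nonneg_left ?_ hw.le
    set q : ℤ → ℝ := fun z => (1 / 6 : ℝ) * (if |z - V ω| ≤ 1 then 1 else 0)
      + (1 / 2) * (1 / 2) ^ c * (if z / 2 ^ c = h ω then 1 else 0) with hq
    have hsupp : ∀ ω', 0 < (PA.cond h (h ω)).w ω' → h ω' = h ω := by
      intro ω' h1
      by_contra h2
      rw [PA.cond_w h _ (PA.p_pos hw h), if_neg h2] at h1
      simp at h1
    have hg := (PA.cond h (h ω)).H_le_gibbs V q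
      (by
        intro ω' h1
        have h2 := hsupp ω' h1
        have h3 : V ω' / 2 ^ c = h ω := by rw [← hVh, h2]
        simp only [hq, h3, if_true, mul_one]
        have : (0 : ℝ) ≤ (1 / 6 : ℝ) * (if |V ω' - V ω| ≤ 1 then 1 else 0) := by
          split_ifs <;> norm_num
        (clear * -; positivity))
      (by
        simp only [hq, Finset.sum_add_distrib, ← Finset.mul_sum]
        have h1 : ∑ z ∈ Finset.univ.image V, (if |z - V ω| ≤ 1 then (1 : ℝ) else 0) ≤ 3 := by
          rw [← Finset.sum_filter, Finset.sum_const, nsmul_eq_mul, mul_one]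
          have : ((Finset.univ.image V).filter fun z => |z - V ω| ≤ 1)
              ⊆ Finset.Icc (V ω - 1) (V ω + 1) := by
            intro z hz
            have := (Finset.mem_filter.1 hz).2
            rw [abs_le] at this
            rw [Finset.mem_Icc]
            constructor <;> linarith only [this]
          have h2 := Finset.card_le_card this
          rw [Int.card_Icc] at h2
          have h3 : (V ω + 1 + 1 - (V ω - 1)).toNat = 3 := by
            have : V ω + 1 + 1 - (V ω - 1) = 3 := by ring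
            rw [this]; rfl
          rw [h3] at h2
          exact_mod_cast h2
        have h2 : ∑ z ∈ Finset.univ.image V, (if z / 2 ^ c = h ω then (1 : ℝ) else 0)
            ≤ 2 ^ c := by
          rw [← Finset.sum_filter, Finset.sum_const, nsmul_eq_mul, mul_one]
          have hR : (0 : ℤ) < 2 ^ c := by positivity
          have : ((Finset.univ.image V).filter fun z => z / 2 ^ c = h ω)
              ⊆ Finset.Ico (h ω * 2 ^ c) (h ω * 2 ^ c + 2 ^ c) := by
            intro z hz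
            have hz' := (Finset.mem_filter.1 hz).2
            have h1 := Int.ediv_mul_le z hR.ne'
            have h2 := Int.lt_ediv_add_one_mul_self z hR
            rw [hz'] at h1 h2
            rw [Finset.mem_Ico]
            constructor <;> linarith only [h1, h2]
          have h2 := Finset.card_le_card this
          rw [Int.card_Ico, add_sub_cancel_left] at h2
          have h3 : ((2 : ℤ) ^ c).toNat = 2 ^ c := by
            have : ((2 : ℤ) ^ c) = ((2 ^ c : ℕ) : ℤ) := by push_cast; rfl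
            rw [this, Int.toNat_natCast]
          rw [h3] at h2
          exact_mod_cast h2
        have h3 : (1 / 2 : ℝ) * (1 / 2) ^ c
            * (∑ z ∈ Finset.univ.image V, (if z / 2 ^ c = h ω then (1 : ℝ) else 0)) ≤ 1 / 2 := by
          calc _ ≤ (1 / 2 : ℝ) * (1 / 2) ^ c * 2 ^ c :=
                mul_le_mul_of_nonneg_left h2 (by positivity)
            _ = 1 / 2 := by
                rw [mul_assoc, ← mul_pow]; norm_num
        linarith only [h3, h1])
      (by
        intro z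
        simp only [hq]
        split_ifs <;> positivity)
    refine hg.trans (Finset.sum_le_sum fun ω' _ => ?_)
    rcases (PA.cond h (h ω)).w_zero_or_pos ω' with hw' | hw'
    · rw [hw', zero_mul, zero_mul]
    refine mul_le_mul_of_nonneg_left ?_ hw'.le
    have h2 := hsupp ω' hw'
    have h3 : V ω' / 2 ^ c = h ω := by rw [← hVh, h2]
    by_cases h4 : (2 : ℤ) ^ j ≤ |U ω - U ω'|
    · rw [if_pos h4]
      have h5 : (1 / 2 : ℝ) * (1 / 2) ^ c ≤ q (V ω') := by
        simp only [hq, h3, if_true, mul_one]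
        have : (0 : ℝ) ≤ (1 / 6 : ℝ) * (if |V ω' - V ω| ≤ 1 then 1 else 0) := by
          split_ifs <;> norm_num
        linarith only [this]
      have h6 := Real.log_le_log (by positivity) h5
      rw [Real.log_mul (by norm_num) (by positivity), Real.log_pow, one_div, Real.log_inv] at h6
      have h7 : Real.log 2 ≤ Real.log 6 := Real.log_le_log (by norm_num) (by norm_num)
      linarith only [h6, h7]
    · rw [if_neg h4]
      have h5 : (1 / 6 : ℝ) ≤ q (V ω') := by
        have h6 : |V ω' - V ω| ≤ 1 := by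
          apply abs_sub_le_one_of_lt
          rw [abs_sub_comm]
          exact lt_of_not_ge h4
        simp only [hq, h6, if_true, mul_one]
        have : (0 : ℝ) ≤ (1 / 2 : ℝ) * (1 / 2) ^ c * (if V ω' / 2 ^ c = h ω then 1 else 0) := by
          split_ifs <;> positivity
        linarith only [this]
      have h6 := Real.log_le_log (by norm_num) h5
      rw [one_div, Real.log_inv] at h6
      linarith only [h6]
  refine (Finset.sum_le_sum fun ω _ => key ω).trans ?_
  have e4 := PA.sum_couple h (fun ω ω' =>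
    (Real.log 6 + if (2 : ℤ) ^ j ≤ |U ω - U ω'| then c * Real.log 2 else 0))
  rw [← e4]
  have e5 : ∀ x : A × A, (PA.couple h).w x *
      (Real.log 6 + if (2 : ℤ) ^ j ≤ |U x.1 - U x.2| then c * Real.log 2 else 0)
      = (PA.couple h).w x * Real.log 6
        + (if (2 : ℤ) ^ j ≤ |U x.1 - U x.2| then (PA.couple h).w x else 0) * (c * Real.log 2) := by
    intro x
    split_ifs <;> ring
  rw [Finset.sum_congr rfl fun x _ => e5 x, Finset.sum_add_distrib, ← Finset.sum_mul,
    ← Finset.sum_mul, (PA.couple h).sum_one, one_mul]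

/-- Marginals of the coupling. -/
lemma couple_fst {A : Type*} [Fintype A] {γ : Type*} (PA : FinProb A) (h : A → γ) (a : A) :
    ∑ d : A × A, (if d.1 = a then (PA.couple h).w d else 0) = PA.w a := by
  have := PA.sum_couple h (fun ω _ => if ω = a then (1 : ℝ) else 0)
  have e1 : ∀ d : A × A, (if d.1 = a then (PA.couple h).w d else 0)
      = (PA.couple h).w d * (if d.1 = a then (1 : ℝ) else 0) := by
    intro d; split_ifs <;> simp
  rw [Finset.sum_congr rfl fun d _ => e1 d, this]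
  simp_rw [← Finset.sum_mul, (PA.cond h _).sum_one, one_mul]
  simp only [mul_ite, mul_one, mul_zero, Finset.sum_ite_eq', Finset.mem_univ, ↓reduceIte]

lemma couple_snd {A : Type*} [Fintype A] {γ : Type*} (PA : FinProb A) (h : A → γ) (a : A) :
    ∑ d : A × A, (if d.2 = a then (PA.couple h).w d else 0) = PA.w a := by
  have := PA.sum_couple h (fun _ ω' => if ω' = a then (1 : ℝ) else 0)
  have e1 : ∀ d : A × A, (if d.2 = a then (PA.couple h).w d else 0)
      = (PA.couple h).w d * (if d.2 = a then (1 : ℝ) else 0) := by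
    intro d; split_ifs <;> simp
  rw [Finset.sum_congr rfl fun d _ => e1 d, this,
    PA.sum_cond_total h (fun ω' => if ω' = a then (1 : ℝ) else 0)]
  simp only [mul_ite, mul_one, mul_zero, Finset.sum_ite_eq', Finset.mem_univ, ↓reduceIte]

/-- The law of the selected sum is the law of the sum of independent copies. -/
lemma H_sel_eq {A B : Type*} [Fintype A] [Fintype B] {γ α : Type*} (PA : FinProb A)
    (PB : FinProb B) (h : A → γ) (U : A → ℤ) (Y : B → ℤ) (k : ℕ) (φ : ℤ → α) :
    ((((PA.couple h).pi k).prod PB).prod (unif (Fin k → Bool))).H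
        (fun x => φ (sel (fun i => U (x.1.1 i).1) (fun i => U (x.1.1 i).2) x.2 + Y x.1.2))
      = ((PA.pi k).prod PB).H (fun x => φ (∑ i, U (x.1 i) + Y x.2)) := by
  have := ((PA.pi k).prod PB).H_comp_of_map
    ((((PA.couple h).pi k).prod PB).prod (unif (Fin k → Bool)))
    (fun x => (fun i => if x.2 i then (x.1.1 i).1 else (x.1.1 i).2, x.1.2)) ?_
    (fun x => φ (∑ i, U (x.1 i) + Y x.2))
  · rw [← this]
    congr 1
    ext x
    congr 2
    unfold sel
    refine Finset.sum_congr rfl fun i _ => ?_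
    by_cases hx : x.2 i = true
    · simp only [hx, if_true]
    · simp only [hx, if_false, Bool.false_eq_true]
  · rintro ⟨y, b0⟩
    unfold p
    -- factor the sum
    trans ∑ x : ((Fin k → A × A) × B) × (Fin k → Bool),
        (if x.1.2 = b0 then PB.w x.1.2 else 0) *
          ∏ i, (if (if x.2 i then (x.1.1 i).1 else (x.1.1 i).2) = y i then
            (PA.couple h).w (x.1.1 i) * (1 / 2) else 0)
    · refine Finset.sum_congr rfl fun x _ => ?_
      by_cases hb : x.1.2 = b0
      · by_cases hy : ∀ i, (if x.2 i then (x.1.1 i).1 else (x.1.1 i).2) = y i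
        · have hy' : (fun i => if x.2 i then (x.1.1 i).1 else (x.1.1 i).2) = y := funext hy
          rw [if_pos (by beta_reduce; rw [hy', hb]), if_pos hb,
            Finset.prod_congr rfl fun i _ => if_pos (hy i), Finset.prod_mul_distrib]
          simp only [prod_w, pi_w, unif, Finset.prod_const, Finset.card_univ, Fintype.card_fin,
            Fintype.card_fun, Fintype.card_bool]
          push_cast
          rw [one_div_pow]
          ring
        · push Not at hy
          obtain ⟨i, hi⟩ := hy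
          rw [if_neg, Finset.prod_eq_zero (Finset.mem_univ i) (if_neg hi), mul_zero]
          intro hcon
          exact hi (congrFun (Prod.ext_iff.1 hcon).1 i)
      · rw [if_neg, if_neg hb, zero_mul]
        intro hcon
        exact hb (Prod.ext_iff.1 hcon).2
    rw [Fintype.sum_prod_type, Fintype.sum_prod_type]
    have e2 : ∀ d : Fin k → A × A, ∑ b : B, ∑ e : Fin k → Bool,
        (if b = b0 then PB.w b else 0) *
          ∏ i, (if (if e i then (d i).1 else (d i).2) = y i then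
            (PA.couple h).w (d i) * (1 / 2) else 0)
        = PB.w b0 * ∏ i, ∑ e : Bool, (if (if e then (d i).1 else (d i).2) = y i then
            (PA.couple h).w (d i) * (1 / 2) else 0) := by
      intro d
      rw [Finset.sum_eq_single b0]
      · rw [if_pos rfl, ← Finset.mul_sum]
        congr 1
        have := Finset.prod_univ_sum (fun _ : Fin k => (Finset.univ : Finset Bool))
          (fun i e => (if (if e then (d i).1 else (d i).2) = y i then
            (PA.couple h).w (d i) * (1 / 2) else 0))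
        rw [Fintype.piFinset_univ] at this
        exact this.symm
      · intro b _ hb
        rw [if_neg hb]
        simp only [one_div, zero_mul, Finset.sum_const_zero]
      · simp only [Finset.mem_univ, not_true_eq_false, ↓reduceIte, one_div, IsEmpty.forall_iff]
    rw [Finset.sum_congr rfl fun d _ => e2 d, ← Finset.mul_sum]
    have e3 : ∑ d : Fin k → A × A, ∏ i, ∑ e : Bool,
        (if (if e then (d i).1 else (d i).2) = y i then
            (PA.couple h).w (d i) * (1 / 2) else 0)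
        = ∏ i, ∑ d : A × A, ∑ e : Bool, (if (if e then d.1 else d.2) = y i then
            (PA.couple h).w d * (1 / 2) else 0) := by
      have := Finset.prod_univ_sum (fun _ : Fin k => (Finset.univ : Finset (A × A)))
          (fun i d => ∑ e : Bool, (if (if e then d.1 else d.2) = y i then
            (PA.couple h).w d * (1 / 2) else 0))
      rw [Fintype.piFinset_univ] at this
      exact this.symm
    rw [e3]
    have e4 : ∀ i, ∑ d : A × A, ∑ e : Bool, (if (if e then d.1 else d.2) = y i then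
            (PA.couple h).w d * (1 / 2) else 0) = PA.w (y i) := by
      intro i
      have e5 : ∀ d : A × A, ∑ e : Bool, (if (if e then d.1 else d.2) = y i then
            (PA.couple h).w d * (1 / 2) else 0)
          = (if d.1 = y i then (PA.couple h).w d else 0) * (1 / 2)
            + (if d.2 = y i then (PA.couple h).w d else 0) * (1 / 2) := by
        intro d
        rw [Fintype.sum_bool]
        simp only [if_true, Bool.false_eq_true, if_false]
        congr 1 <;> split_ifs <;> simp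
      rw [Finset.sum_congr rfl fun d _ => e5 d, Finset.sum_add_distrib, ← Finset.sum_mul,
        ← Finset.sum_mul, couple_fst, couple_snd]
      ring
    rw [Finset.prod_congr rfl fun i _ => e4 i]
    simp only [prod_w, pi_w]
    ring

/-- Full entropy on a branching window. -/
lemma branch_window {A B : Type*} [Fintype A] [Fintype B] (PA : FinProb A) (PB : FinProb B)
    (U : A → ℤ) (Y : B → ℤ) (j c L : ℕ) (hc : 0 < c) (θ : ℝ) (hθ0 : 0 < θ)
    (hU : Real.log 6 + θ * (c * Real.log 2)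
      ≤ PA.H (fun a => U a / 2 ^ j) - PA.H (fun a => U a / 2 ^ (j + c))) :
    L * Real.log 2 + 1 / 2 * Real.log (θ / 12) - 7 / 2 * Real.log 2
      ≤ ((PA.pi (4 ^ L)).prod PB).H (fun x => (∑ i, U (x.1 i) + Y x.2) / 2 ^ j)
        - ((PA.pi (4 ^ L)).prod PB).H
          (fun x => (∑ i, U (x.1 i) + Y x.2) / 2 ^ (j + c + L)) := by
  set h : A → ℤ := fun a => U a / 2 ^ (j + c) with hh
  set θ' : ℝ := ∑ x : A × A, if (2 : ℤ) ^ j ≤ |U x.1 - U x.2| then (PA.couple h).w x else 0
    with hθ'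
  have h1 := cell_entropy_le PA U j c
  rw [← hh, ← hθ'] at h1
  have hclog : 0 < (c : ℝ) * Real.log 2 := by
    have : (0 : ℝ) < c := by exact_mod_cast hc
    have := Real.log_pos (show (1 : ℝ) < 2 by norm_num)
    positivity
  have h2 : θ ≤ θ' := by
    have : θ * (c * Real.log 2) ≤ θ' * (c * Real.log 2) := by linarith only [hU, h1]
    exact le_of_mul_le_mul_right this hclog
  have h3 : 0 < θ' := lt_of_lt_of_le hθ0 h2
  have h4 := window_pairs (PA.couple h) PB (fun x => U x.1) (fun x => U x.2) Y j c L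
    (by
      intro d hd
      exact (abs_sub_lt_of_same_cell (PA.couple_same h d hd)).le) θ' (by rw [hθ']) h3
  have e1 := H_sel_eq PA PB h U Y (4 ^ L) (fun z => z / 2 ^ j)
  have e2 := H_sel_eq PA PB h U Y (4 ^ L) (fun z => z / 2 ^ (j + c + L))
  rw [e1, e2] at h4
  refine le_trans ?_ h4
  have h5 : Real.log (θ / 12) ≤ Real.log (θ' / 12) :=
    Real.log_le_log (by positivity) (by linarith only [h2])
  linarith only [h5]

end Vale.Agent.P114
end
end

section

open scoped Classical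

noncomputable section

namespace Vale.Agent.P114

open FinProb

/-- Averaged telescoping for an antitone sequence. -/
lemma telescope_avg (g : ℕ → ℝ) (hg : Antitone g) (W M : ℕ) (hWM : W ≤ M) :
    ∑ j ∈ Finset.range (M - W + 1), (g j - g (j + W)) ≤ W * (g 0 - g M) := by
  have h1 : ∀ n, ∑ j ∈ Finset.range n, (g j - g (j + W))
      = ∑ j ∈ Finset.range W, (g j - g (n + j)) := by
    intro n
    induction n with
    | zero => simp
    | succ n ih =>
      rw [Finset.sum_range_succ, ih]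
      have e1 : ∑ j ∈ Finset.range W, (g j - g (n + 1 + j))
          = ∑ j ∈ Finset.range W, (g j - g (n + j))
            + ∑ j ∈ Finset.range W, (g (n + j) - g (n + (j + 1))) := by
        rw [← Finset.sum_add_distrib]
        refine Finset.sum_congr rfl fun j _ => ?_
        rw [show n + 1 + j = n + (j + 1) by ring]
        ring
      rw [e1, Finset.sum_range_sub' (fun j => g (n + j))]
      simp
  rw [h1]
  calc _ ≤ ∑ _j ∈ Finset.range W, (g 0 - g M) := by
        refine Finset.sum_le_sum fun j hj => ?_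
        have hj' := Finset.mem_range.1 hj
        have e1 : g j ≤ g 0 := hg (Nat.zero_le _)
        have e2 : g M ≤ g (M - W + 1 + j) := hg (by omega)
        linarith only [e1, e2]
    _ = _ := by rw [Finset.sum_const, Finset.card_range, nsmul_eq_mul]

lemma shift_H {B : Type*} [Fintype B] (PB : FinProb B) (Y : B → ℤ) (s : ℤ) (j : ℕ) :
    PB.H (fun b => (s + Y b) / 2 ^ j) ≤ PB.H (fun b => Y b / 2 ^ j) + Real.log 2 := by
  have h := PB.H_le_add_log_card (fun b => (s + Y b) / 2 ^ j) (fun b => Y b / 2 ^ j)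
    (fun z => {z + s / 2 ^ j, z + s / 2 ^ j + 1}) 2 (by
      intro b
      have hR : (0 : ℤ) < 2 ^ j := by positivity
      have h1 := Int.ediv_mul_le s hR.ne'
      have h2 := Int.lt_ediv_add_one_mul_self s hR
      have h3 := Int.ediv_mul_le (Y b) hR.ne'
      have h4 := Int.lt_ediv_add_one_mul_self (Y b) hR
      have h5 := Int.ediv_mul_le (s + Y b) hR.ne'
      have h6 := Int.lt_ediv_add_one_mul_self (s + Y b) hR
      have h7 : Y b / 2 ^ j + s / 2 ^ j < (s + Y b) / 2 ^ j + 1 := by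
        by_contra hc
        push Not at hc
        linarith only [mul_nonneg (sub_nonneg.2 hc) (le_of_lt (sub_pos.2 hR)), hc, h6, h3, h1]
      have h8 : (s + Y b) / 2 ^ j < Y b / 2 ^ j + s / 2 ^ j + 2 := by
        by_contra hc
        push Not at hc
        linarith only [mul_nonneg (sub_nonneg.2 hc) (le_of_lt (sub_pos.2 hR)), hc, h5, h4, h2]
      simp only [Finset.mem_insert, Finset.mem_singleton]
      omega)
    (by intro b; exact Finset.card_le_two)
  simpa using h

lemma shift_H' {B : Type*} [Fintype B] (PB : FinProb B) (Y : B → ℤ) (s : ℤ) (j : ℕ) :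
    PB.H (fun b => Y b / 2 ^ j) ≤ PB.H (fun b => (s + Y b) / 2 ^ j) + Real.log 2 := by
  have h := shift_H PB (fun b => s + Y b) (-s) j
  simpa only [ge_iff_le, neg_add_cancel_left] using h

lemma H_level_antitone {B : Type*} [Fintype B] (PB : FinProb B) (Y : B → ℤ) :
    Antitone (fun j : ℕ => PB.H (fun b => Y b / 2 ^ j)) := by
  intro i j hij
  obtain ⟨c, rfl⟩ := Nat.exists_eq_add_of_le hij
  refine PB.H_le_of_det fun x y hxy => ?_
  rw [ediv_pow_add, ediv_pow_add, hxy]

/-- Entropy is Lipschitz in the scale. -/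
lemma H_level_lip {B : Type*} [Fintype B] (PB : FinProb B) (Y : B → ℤ) (i c : ℕ) :
    PB.H (fun b => Y b / 2 ^ i) ≤ PB.H (fun b => Y b / 2 ^ (i + c)) + c * Real.log 2 := by
  have h := PB.H_le_add_log_card (fun b => Y b / 2 ^ i) (fun b => Y b / 2 ^ (i + c))
    (fun z => Finset.Ico (z * 2 ^ c) (z * 2 ^ c + 2 ^ c)) (2 ^ c) (by
      intro b
      rw [ediv_pow_add]
      have hR : (0 : ℤ) < 2 ^ c := by positivity
      have h1 := Int.ediv_mul_le (Y b / 2 ^ i) hR.ne'
      have h2 := Int.lt_ediv_add_one_mul_self (Y b / 2 ^ i) hR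
      rw [Finset.mem_Ico]
      constructor <;> linarith)
    (by
      intro b
      rw [Int.card_Ico, add_sub_cancel_left]
      have : ((2 : ℤ) ^ c) = ((2 ^ c : ℕ) : ℤ) := by push_cast; rfl
      rw [this, Int.toNat_natCast])
  push_cast at h
  rw [Real.log_pow] at h
  exact h

/-- The number of branching levels is large. -/
lemma branch_count {A : Type*} [Fintype A] (PA : FinProb A) (U : A → ℤ) (M W c : ℕ)
    (hcW : c ≤ W) (hWM : W ≤ M) (hU0 : ∀ a, 0 ≤ U a ∧ U a < 2 ^ M) (β : ℝ) (hβ0 : 0 < β)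
    (hβ1 : β ≤ 1) (hc : 0 < c) (hU : β * (M * Real.log 2) ≤ PA.H U) :
    β / 2 * M - 2 * W - 1 ≤ (((Finset.range (M - W + 1)).filter fun j =>
      β / 2 * (c * Real.log 2) ≤ PA.H (fun a => U a / 2 ^ j)
        - PA.H (fun a => U a / 2 ^ (j + c))).card : ℝ) := by
  set u : ℕ → ℝ := fun j => PA.H (fun a => U a / 2 ^ j) with hu
  set S := (Finset.range (M - W + 1)).filter fun j =>
      β / 2 * (c * Real.log 2) ≤ u j - u (j + c) with hS
  have hlog : 0 < Real.log 2 := Real.log_pos (by norm_num)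
  have hcr : (0 : ℝ) < c := by exact_mod_cast hc
  have hanti : Antitone u := H_level_antitone PA U
  have hlip : ∀ i d, u i ≤ u (i + d) + d * Real.log 2 := fun i d => H_level_lip PA U i d
  have hu0 : u 0 = PA.H U := by simp [hu]
  have huM : u M = 0 := by
    have : (fun a => U a / 2 ^ M) = fun _ => (0 : ℤ) := by
      funext a
      exact Int.ediv_eq_zero_of_lt (hU0 a).1 (hU0 a).2
    simp only [hu, this]
    have h := PA.H_le_log_card (fun _ : A => (0 : ℤ)) {0} (by simp)
    simp at h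
    exact le_antisymm h (PA.H_nonneg _)
  -- telescoping lower bound
  have h1 : ∀ n, ∑ j ∈ Finset.range n, (u j - u (j + c))
      = ∑ j ∈ Finset.range c, (u j - u (n + j)) := by
    intro n
    induction n with
    | zero => simp
    | succ n ih =>
      rw [Finset.sum_range_succ, ih]
      have e1 : ∑ j ∈ Finset.range c, (u j - u (n + 1 + j))
          = ∑ j ∈ Finset.range c, (u j - u (n + j))
            + ∑ j ∈ Finset.range c, (u (n + j) - u (n + (j + 1))) := by
        rw [← Finset.sum_add_distrib]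
        refine Finset.sum_congr rfl fun j _ => ?_
        rw [show n + 1 + j = n + (j + 1) by ring]
        ring
      rw [e1, Finset.sum_range_sub' (fun j => u (n + j))]
      simp
  have h2 : (c : ℝ) * (β * (M * Real.log 2) - 2 * W * Real.log 2)
      ≤ ∑ j ∈ Finset.range (M - W + 1), (u j - u (j + c)) := by
    rw [h1]
    calc _ = ∑ _j ∈ Finset.range c, (β * (M * Real.log 2) - 2 * W * Real.log 2) := by
          rw [Finset.sum_const, Finset.card_range, nsmul_eq_mul]
      _ ≤ _ := by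
          refine Finset.sum_le_sum fun j hj => ?_
          have hj' := Finset.mem_range.1 hj
          have e1 := hlip 0 j
          rw [zero_add, hu0] at e1
          have e2 : u (M - W + 1 + j) ≤ W * Real.log 2 := by
            rcases le_or_gt M (M - W + 1 + j) with h3 | h3
            · have := hanti h3
              rw [huM] at this
              have : (0 : ℝ) ≤ W * Real.log 2 := by (clear * -; positivity)
              (clear c hcW hWM hU0 β hβ0 hβ1 hc hU hu S hS hlog hcr hanti hlip hu0 huM h1 hj hj' e1 h3; linarith)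
            · obtain ⟨d, hd⟩ := Nat.exists_eq_add_of_le h3.le
              have e3 := hlip (M - W + 1 + j) d
              rw [← hd, huM] at e3
              have e4 : (d : ℝ) ≤ W := by
                have : d ≤ W := by omega
                exact_mod_cast this
              linarith only [mul_nonneg (le_of_lt (sub_pos.2 hlog)) (sub_nonneg.2 e4), e3]
          have e5 : (j : ℝ) ≤ W := by
            have : j ≤ W := by omega
            exact_mod_cast this
          linarith only [mul_nonneg (le_of_lt (sub_pos.2 hlog)) (sub_nonneg.2 e5), e2, e1, hU]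
  -- upper bound
  have h3 : ∑ j ∈ Finset.range (M - W + 1), (u j - u (j + c))
      ≤ (S.card : ℝ) * (c * Real.log 2) + (M - W + 1 : ℕ) * (β / 2 * (c * Real.log 2)) := by
    rw [← Finset.sum_filter_add_sum_filter_not (Finset.range (M - W + 1))
      (fun j => β / 2 * (c * Real.log 2) ≤ u j - u (j + c))]
    refine add_le_add ?_ ?_
    · calc _ ≤ ∑ _j ∈ S, (c : ℝ) * Real.log 2 := by
            refine Finset.sum_le_sum fun j _ => ?_
            have := hlip j c
            linarith only [this]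
        _ = _ := by rw [Finset.sum_const, nsmul_eq_mul]
    · calc _ ≤ ∑ _j ∈ (Finset.range (M - W + 1)).filter (fun j =>
            ¬ β / 2 * (c * Real.log 2) ≤ u j - u (j + c)), β / 2 * (c * Real.log 2) := by
            refine Finset.sum_le_sum fun j hj => ?_
            have := (Finset.mem_filter.1 hj).2
            exact (lt_of_not_ge this).le
        _ ≤ _ := by
            rw [Finset.sum_const, nsmul_eq_mul]
            refine mul_le_mul_of_nonneg_right ?_ (by positivity)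
            have := Finset.card_filter_le (Finset.range (M - W + 1))
              (fun j => ¬ β / 2 * (c * Real.log 2) ≤ u j - u (j + c))
            rw [Finset.card_range] at this
            exact_mod_cast this
  have h4 : ((M - W + 1 : ℕ) : ℝ) ≤ M + 1 := by
    have : M - W + 1 ≤ M + 1 := by omega
    exact_mod_cast this
  have h5 : (c : ℝ) * Real.log 2 * (β * M - 2 * W)
      ≤ c * Real.log 2 * (S.card + (M + 1) * (β / 2)) := by
    have h6 : ((M - W + 1 : ℕ) : ℝ) * (β / 2 * (c * Real.log 2))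
        ≤ (M + 1) * (β / 2 * (c * Real.log 2)) :=
      mul_le_mul_of_nonneg_right h4 (by positivity)
    linarith only [h6, h3, h2]
  have h6 := le_of_mul_le_mul_left h5 (by positivity)
  linarith only [h6, hβ1]

/-- Arithmetic core of the growth theorem. -/
lemma growth_arith (α β δ W M nb gain C' G S l : ℝ) (hl : 0 < l) (hα1 : α < 1)
    (hβ0 : 0 < β) (hδ0 : 0 < δ) (hδ : δ = β * (1 - α) / 16) (hα0 : 0 ≤ α)
    (hnb : nb = (α - δ) * (W * l) - 2 * l) (hgain0 : (1 - α) / 2 * (W * l) ≤ gain)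
    (hW1 : 2 ≤ δ * W) (hWM : W ≤ M) (hW : 1 ≤ W)
    (hC' : C' = W * l + gain * (2 * W + 1) / W)
    (h4 : (M - W + 1) * nb + S * gain ≤ W * G) (h2 : β / 2 * M - 2 * W - 1 ≤ S) :
    (α + δ) * (M * l) - C' - 2 * W * l ≤ G := by
  have hW0 : 0 < W := by linarith only [hW]
  have h1α : 0 < 1 - α := by linarith only [hα1]
  have hgain1 : 0 ≤ gain := le_trans (by positivity) hgain0
  have h7 : (M - W + 1) * nb + (β / 2 * M - 2 * W - 1) * gain ≤ W * G := by
    have : (β / 2 * M - 2 * W - 1) * gain ≤ S * gain :=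
      mul_le_mul_of_nonneg_right h2 hgain1
    linarith only [h4, this]
  have hnbW : nb ≤ W * l := by
    rw [hnb]
    have : (α - δ) * (W * l) ≤ 1 * (W * l) :=
      mul_le_mul_of_nonneg_right (by linarith only [hα1, hδ0]) (by positivity)
    linarith only [hl, this]
  have h8 : W * ((α + δ) * (M * l)) ≤ M * nb + β / 2 * M * gain := by
    have e1 : 2 * l ≤ δ * (W * l) := by nlinarith only [hl, hW1]
    have e2 : β / 2 * ((1 - α) / 2 * (W * l)) ≤ β / 2 * gain :=
      mul_le_mul_of_nonneg_left hgain0 (by positivity)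
    have e3 : β / 2 * ((1 - α) / 2 * (W * l)) = 4 * (δ * (W * l)) := by
      rw [hδ]; ring
    have e4 : W * ((α + δ) * l) ≤ nb + β / 2 * gain := by
      rw [hnb]
      have : 0 ≤ δ * (W * l) := by positivity
      linarith only [e3, e2, e1, hl]
    have hM0 : (0 : ℝ) ≤ M := by linarith only [hWM, hW]
    nlinarith only [hl, hnb, e1, e2, e3, hWM, hW]
  have h9 : W * ((α + δ) * (M * l) - C' - 2 * W * l) ≤ W * G := by
    refine le_trans ?_ h7
    have e1 : W * C' = W * (W * l) + gain * (2 * W + 1) := by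
      rw [hC']; (clear * - hW hl hgain1; field_simp)
    have e2 : (W - 1) * nb ≤ W * (W * l) := by
      rcases le_or_gt nb 0 with h10 | h10
      · have : (W - 1) * nb ≤ 0 := mul_nonpos_of_nonneg_of_nonpos (by linarith only [hW]) h10
        have : 0 ≤ W * (W * l) := by positivity
        (clear α β δ M gain C' G S hα1 hβ0 hδ0 hδ hα0 hnb hgain0 hW1 hWM hC' h4 h2 hW0 h1α hgain1 h7 hnbW h8 e1; linarith)
      · nlinarith only [hW1, hnbW, h10, hδ0]
    have e3 : (0 : ℝ) ≤ W * (2 * W * l) := by positivity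
    linarith only [e3, e2, e1, h8]
  exact le_of_mul_le_mul_left h9 hW0

/-- Top level: convolving with a sum of variables in `[0, 2^M)`. -/
lemma top_level_le {A B : Type*} [Fintype A] [Fintype B] (PA : FinProb A) (PB : FinProb B)
    (U : A → ℤ) (Y : B → ℤ) (M k : ℕ) (hU0 : ∀ a, 0 ≤ U a ∧ U a < 2 ^ M) :
    PB.H (fun b => Y b / 2 ^ M)
      ≤ ((PA.pi k).prod PB).H (fun x => (∑ i, U (x.1 i) + Y x.2) / 2 ^ M)
        + Real.log (k + 1) := by
  have h1 := ((PA.pi k).prod PB).H_le_add_log_card (fun x => Y x.2 / 2 ^ M)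
    (fun x => (∑ i, U (x.1 i) + Y x.2) / 2 ^ M) (fun z => Finset.Icc (z - k) z) (k + 1) (by
      intro x
      have hS0 : 0 ≤ ∑ i, U (x.1 i) := Finset.sum_nonneg fun i _ => (hU0 _).1
      have hS1 : ∑ i, U (x.1 i) ≤ k * 2 ^ M := by
        calc _ ≤ ∑ _i : Fin k, (2 : ℤ) ^ M := Finset.sum_le_sum fun i _ => (hU0 _).2.le
          _ = _ := by rw [Finset.sum_const, Finset.card_univ, Fintype.card_fin, nsmul_eq_mul]
      have hRp : (0 : ℤ) < 2 ^ M := by positivity
      rw [Finset.mem_Icc]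
      constructor
      · have e1 : (∑ i, U (x.1 i) + Y x.2) / 2 ^ M ≤ (k * 2 ^ M + Y x.2) / 2 ^ M :=
          Int.ediv_le_ediv hRp (by linarith)
        rw [add_comm ((k : ℤ) * 2 ^ M), Int.add_mul_ediv_right _ _ hRp.ne'] at e1
        linarith only [e1]
      · exact Int.ediv_le_ediv hRp (by linarith))
    (by
      intro b
      rw [Int.card_Icc]
      have : (b + 1 - (b - (k : ℤ))) = ((k + 1 : ℕ) : ℤ) := by push_cast; ring
      rw [this, Int.toNat_natCast])
  rw [H_prod_snd (PA.pi k) PB (fun b => Y b / 2 ^ M)] at h1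
  push_cast at h1
  exact h1

/-- Increment on an arbitrary window. -/
lemma nonbranch_window {A B : Type*} [Fintype A] [Fintype B] (PA : FinProb A) (PB : FinProb B)
    (U : A → ℤ) (Y : B → ℤ) (k j W : ℕ) (x0 : ℝ)
    (hx : x0 ≤ PB.H (fun b => Y b / 2 ^ j) - PB.H (fun b => Y b / 2 ^ (j + W))) :
    x0 - 2 * Real.log 2
      ≤ ((PA.pi k).prod PB).H (fun x => (∑ i, U (x.1 i) + Y x.2) / 2 ^ j)
        - ((PA.pi k).prod PB).H (fun x => (∑ i, U (x.1 i) + Y x.2) / 2 ^ (j + W)) := by
  have h1 := (PA.pi k).prod_cond_le PB (fun x => (∑ i, U (x.1 i) + Y x.2) / 2 ^ j)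
    (fun x => (∑ i, U (x.1 i) + Y x.2) / 2 ^ (j + W)) (by
      intro x y hxy
      rw [ediv_pow_add, ediv_pow_add, hxy])
  refine le_trans ?_ h1
  have h2 : ∀ a : Fin k → A, (PA.pi k).w a * (x0 - 2 * Real.log 2) ≤ (PA.pi k).w a *
      (PB.H (fun b => (∑ i, U (a i) + Y b) / 2 ^ j)
        - PB.H (fun b => (∑ i, U (a i) + Y b) / 2 ^ (j + W))) := by
    intro a
    refine mul_le_mul_of_nonneg_left ?_ ((PA.pi k).nonneg a)
    have e1 := shift_H' PB Y (∑ i, U (a i)) j
    have e2 := shift_H PB Y (∑ i, U (a i)) (j + W)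
    linarith only [hx, e1, e2]
  calc x0 - 2 * Real.log 2 = ∑ a, (PA.pi k).w a * (x0 - 2 * Real.log 2) := by
        rw [← Finset.sum_mul, (PA.pi k).sum_one, one_mul]
    _ ≤ _ := Finset.sum_le_sum fun a _ => h2 a

/-- Entropy growth under convolution. -/
theorem entropy_growth (α β : ℝ) (hα0 : 0 ≤ α) (hα1 : α < 1) (hβ0 : 0 < β) (hβ1 : β ≤ 1) :
    ∃ δ : ℝ, 0 < δ ∧ ∀ W0 : ℕ, ∃ (k W : ℕ) (C : ℝ), 0 < k ∧ 0 < W ∧ W0 ≤ W ∧ 0 ≤ C ∧
      ∀ (M : ℕ) (A B : Type) [Fintype A] [Fintype B] (PA : FinProb A) (PB : FinProb B)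
        (U : A → ℤ) (Y : B → ℤ), (∀ a, 0 ≤ U a ∧ U a < 2 ^ M) →
        β * (M * Real.log 2) ≤ PA.H U →
        (∀ j, j + W ≤ M → (α - δ) * (W * Real.log 2)
          ≤ PB.H (fun b => Y b / 2 ^ j) - PB.H (fun b => Y b / 2 ^ (j + W))) →
        PB.H Y + (1 / k) * (PB.H (fun b => Y b / 2 ^ M) + (α + δ) * (M * Real.log 2) - PB.H Y) - C
          ≤ (PA.prod PB).H (fun x => U x.1 + Y x.2) := by
  have hlog : 0 < Real.log 2 := Real.log_pos (by norm_num)
  obtain ⟨δ, hδ⟩ : ∃ δ : ℝ, δ = β * (1 - α) / 16 := ⟨_, rfl⟩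
  have h1α : 0 < 1 - α := by linarith only [hα1]
  have hδ0 : 0 < δ := by rw [hδ]; positivity
  refine ⟨δ, hδ0, fun W0 => ?_⟩
  -- choose c
  obtain ⟨c, hc⟩ := exists_nat_gt (Real.log 6 / (β / 4 * Real.log 2))
  have hc' : Real.log 6 ≤ β / 4 * (c * Real.log 2) := by
    rw [div_lt_iff₀ (by positivity)] at hc
    linarith only [hc]
  have hcpos : 0 < c := by
    rcases Nat.eq_zero_or_pos c with h | h
    · subst h
      have : 0 < Real.log 6 := Real.log_pos (by norm_num)
      simp at hc'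
      linarith only [this, hc']
    · exact h
  obtain ⟨θ, hθ⟩ : ∃ θ : ℝ, θ = β / 4 := ⟨_, rfl⟩
  have hθ0 : 0 < θ := by rw [hθ]; positivity
  obtain ⟨C2, hC2⟩ : ∃ C2 : ℝ, C2 = 7 / 2 * Real.log 2 - 1 / 2 * Real.log (θ / 12) := ⟨_, rfl⟩
  have hC20 : 0 ≤ C2 := by
    have : Real.log (θ / 12) ≤ 0 := Real.log_nonpos (by positivity) (by linarith only [hβ1, hθ])
    rw [hC2]; linarith only [this, hlog]
  -- choose L
  obtain ⟨L, hL⟩ := exists_nat_gt (2 / δ + 2 * (c + C2 / Real.log 2) / (1 - α) + W0)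
  obtain ⟨W, hW⟩ : ∃ W : ℕ, W = c + L := ⟨_, rfl⟩
  obtain ⟨k, hk⟩ : ∃ k : ℕ, k = 4 ^ L := ⟨_, rfl⟩
  have hkpos : 0 < k := by rw [hk]; positivity
  have hWpos : 0 < W := by omega
  have hWr : (0 : ℝ) < W := by exact_mod_cast hWpos
  have hLW : (L : ℝ) ≤ W := by rw [hW]; push_cast; linarith only []
  have hW00 : (0 : ℝ) ≤ W0 := Nat.cast_nonneg _
  have hWW0 : W0 ≤ W := by
    have h1 : (W0 : ℝ) ≤ W := by
      have : 0 ≤ 2 * (c + C2 / Real.log 2) / (1 - α) := by (clear * - hcpos hC20 hα1; positivity)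
      have : 0 ≤ 2 / δ := by positivity
      (clear hα0 h1α k hk hkpos hWpos hWr hW00; linarith)
    exact_mod_cast h1
  have hW1 : 2 ≤ δ * W := by
    have h1 : 2 / δ ≤ W := by
      have : 0 ≤ 2 * (c + C2 / Real.log 2) / (1 - α) := by positivity
      linarith only [hL, hLW, this]
    rw [div_le_iff₀ hδ0] at h1
    linarith only [h1]
  have hW2 : c * Real.log 2 + C2 ≤ (1 - α) / 2 * (W * Real.log 2) := by
    have h1 : 2 * (c + C2 / Real.log 2) / (1 - α) ≤ W := by
      have : 0 ≤ 2 / δ := by positivity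
      linarith only [hL, hLW, this]
    rw [div_le_iff₀ h1α] at h1
    have h2 : c * Real.log 2 + C2 = (c + C2 / Real.log 2) * Real.log 2 := by
      (clear * - hcpos hC20; field_simp)
    rw [h2]
    linarith only [mul_nonneg (le_of_lt (sub_pos.2 hlog)) (sub_nonneg.2 h1)]
  obtain ⟨nb, hnb⟩ : ∃ nb : ℝ, nb = (α - δ) * (W * Real.log 2) - 2 * Real.log 2 := ⟨_, rfl⟩
  obtain ⟨gain, hgain⟩ : ∃ gain : ℝ, gain = L * Real.log 2 - C2 - nb := ⟨_, rfl⟩
  have hgain0 : (1 - α) / 2 * (W * Real.log 2) ≤ gain := by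
    have hLc : (L : ℝ) = W - c := by rw [hW]; push_cast; ring
    rw [hgain, hnb, hLc]
    have : 0 ≤ δ * (W * Real.log 2) := by positivity
    linarith only [this, hW2, hlog]
  have hgain1 : 0 ≤ gain := le_trans (by positivity) hgain0
  obtain ⟨C', hC'⟩ : ∃ C' : ℝ, C' = W * Real.log 2 + gain * (2 * W + 1) / W := ⟨_, rfl⟩
  have hC'0 : 0 ≤ C' := by rw [hC']; (clear * - hWpos hgain1; positivity)
  have hlogk : 0 ≤ Real.log ((k : ℝ) + 1) := Real.log_nonneg (by
    have : (0 : ℝ) ≤ k := Nat.cast_nonneg k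
    linarith only [])
  have hCtot : 0 ≤ C' + Real.log (k + 1) + 2 * W * Real.log 2 := by (clear * - hC'0 hlogk hWpos; positivity)
  refine ⟨k, W, C' + Real.log (k + 1) + 2 * W * Real.log 2, hkpos, hWpos, hWW0, hCtot, ?_⟩
  intro M A B _ _ PA PB U Y hU0 hU hY
  obtain ⟨g, hg⟩ : ∃ g : ℕ → ℝ, g = fun j =>
    ((PA.pi k).prod PB).H (fun x => (∑ i, U (x.1 i) + Y x.2) / 2 ^ j) := ⟨_, rfl⟩
  have hganti : Antitone g := by
    rw [hg]
    exact H_level_antitone ((PA.pi k).prod PB) (fun x => ∑ i, U (x.1 i) + Y x.2)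
  -- lower bound of the increments
  have hnonbranch : ∀ j, j + W ≤ M → nb ≤ g j - g (j + W) := by
    intro j hj
    rw [hnb, hg]
    exact nonbranch_window PA PB U Y k j W _ (hY j hj)
  have hbranch : ∀ j, β / 2 * (c * Real.log 2) ≤ PA.H (fun a => U a / 2 ^ j)
        - PA.H (fun a => U a / 2 ^ (j + c)) → nb + gain ≤ g j - g (j + W) := by
    intro j hj
    have h1 := branch_window PA PB U Y j c L hcpos θ hθ0 (by
      rw [hθ]
      linarith only [hc', hj])
    rw [← hk] at h1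
    have e1 : j + c + L = j + W := by rw [hW]; ring
    rw [e1] at h1
    have e2 : nb + gain = L * Real.log 2 + 1 / 2 * Real.log (θ / 12) - 7 / 2 * Real.log 2 := by
      rw [hgain, hC2]; ring
    rw [e2, hg]
    exact h1
  -- total growth
  have hgrow : (α + δ) * (M * Real.log 2) - C' - 2 * W * Real.log 2 ≤ g 0 - g M := by
    rcases lt_or_ge M W with hMW | hWM
    · have h1 : g M ≤ g 0 := hganti (Nat.zero_le _)
      have h2 : (M : ℝ) ≤ W := by exact_mod_cast hMW.le
      have h3 : α + δ ≤ 2 := by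
        rw [hδ]; nlinarith only [hα1, hβ1]
      have h4 : (α + δ) * (M * Real.log 2) ≤ 2 * (W * Real.log 2) := by
        have h5 : 0 ≤ (M : ℝ) * Real.log 2 := by (clear * -; positivity)
        calc (α + δ) * (M * Real.log 2) ≤ 2 * (M * Real.log 2) :=
              mul_le_mul_of_nonneg_right h3 h5
          _ ≤ 2 * (W * Real.log 2) := by
              have := mul_le_mul_of_nonneg_right h2 hlog.le
              linarith only [this]
      linarith only [hC'0, h1, h4]
    · have h1 := telescope_avg g hganti W M hWM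
      have hcW : c ≤ W := by omega
      have h2 := branch_count PA U M W c hcW hWM hU0 β hβ0 hβ1 hcpos hU
      obtain ⟨S, hS⟩ : ∃ S : Finset ℕ, S = (Finset.range (M - W + 1)).filter fun j =>
        β / 2 * (c * Real.log 2) ≤ PA.H (fun a => U a / 2 ^ j)
        - PA.H (fun a => U a / 2 ^ (j + c)) := ⟨_, rfl⟩
      rw [← hS] at h2
      have h3 : ∀ j ∈ Finset.range (M - W + 1),
          nb + (if j ∈ S then gain else 0) ≤ g j - g (j + W) := by
        intro j hj
        have hj' := Finset.mem_range.1 hj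
        split_ifs with h4
        · rw [hS] at h4
          exact hbranch j (Finset.mem_filter.1 h4).2
        · rw [add_zero]
          exact hnonbranch j (by omega)
      have h4 := Finset.sum_le_sum h3
      rw [Finset.sum_add_distrib, Finset.sum_const, Finset.card_range, nsmul_eq_mul] at h4
      have hSsub : S ⊆ Finset.range (M - W + 1) := by rw [hS]; exact Finset.filter_subset _ _
      have h5 : ∑ j ∈ Finset.range (M - W + 1), (if j ∈ S then gain else 0)
          = S.card * gain := by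
        rw [← Finset.sum_filter, Finset.sum_const, nsmul_eq_mul,
          Finset.filter_mem_eq_inter, Finset.inter_eq_right.2 hSsub]
      rw [h5] at h4
      have h6 : ((M - W + 1 : ℕ) : ℝ) = M - W + 1 := by
        push_cast [Nat.cast_sub hWM]; ring
      rw [h6] at h4
      exact growth_arith α β δ W M nb gain C' (g 0 - g M) S.card (Real.log 2) hlog hα1 hβ0 hδ0 hδ
        hα0 hnb hgain0 hW1 (by exact_mod_cast hWM) (by exact_mod_cast hWpos) hC' (h4.trans h1) h2
  -- top level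
  have htop : PB.H (fun b => Y b / 2 ^ M) ≤ g M + Real.log (k + 1) := by
    rw [hg]
    exact top_level_le PA PB U Y M k hU0
  have hKV := H_pi_add_le PA PB U Y k
  have hg0 : g 0 = ((PA.pi k).prod PB).H (fun x => ∑ i, U (x.1 i) + Y x.2) := by
    simp only [hg, pow_zero, EuclideanDomain.div_one]
  rw [← hg0] at hKV
  have hkr : (0 : ℝ) < k := by exact_mod_cast hkpos
  have hfin : (1 / (k : ℝ)) * (PB.H (fun b => Y b / 2 ^ M) + (α + δ) * (M * Real.log 2) - PB.H Y)
      ≤ (1 / (k : ℝ)) * (g 0 - PB.H Y + (C' + Real.log (k + 1) + 2 * W * Real.log 2)) :=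
    mul_le_mul_of_nonneg_left (by linarith only [hgrow, htop]) (by positivity)
  have h10 : (1 / (k : ℝ)) * (g 0 - PB.H Y) ≤ (PA.prod PB).H (fun x => U x.1 + Y x.2) - PB.H Y := by
    rw [one_div, inv_mul_le_iff₀ hkr]
    linarith only [hKV]
  have h11 : (1 / (k : ℝ)) * (C' + Real.log (k + 1) + 2 * W * Real.log 2)
      ≤ C' + Real.log (k + 1) + 2 * W * Real.log 2 := by
    have h13 : (1 / (k : ℝ)) ≤ 1 := by
      rw [div_le_one hkr]
      exact_mod_cast hkpos
    calc _ ≤ 1 * (C' + Real.log (k + 1) + 2 * W * Real.log 2) :=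
          mul_le_mul_of_nonneg_right h13 hCtot
      _ = _ := one_mul _
  rw [mul_add] at hfin
  linarith only [hfin, h10, h11]

end Vale.Agent.P114
end
end

section

/-! The coin lemma. -/

open scoped Classical

noncomputable section

namespace Vale.Agent.P114

open FinProb

/-- data processing for the label information -/
lemma info_ge_coarse {A B τ : Type*} [Fintype A] [Fintype B] (PA : FinProb A) (PB : FinProb B)
    (U : A → ℤ) (T : A → τ) (Y : B → ℤ) (j : ℕ) :
    (PA.prod PB).H (fun x => (U x.1 + Y x.2) / 2 ^ j) + PA.H T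
      - (PA.prod PB).H (fun x => ((U x.1 + Y x.2) / 2 ^ j, T x.1)) ≤ info PA PB U T Y := by
  have h := (PA.prod PB).H_submod (fun x => U x.1 + Y x.2) (fun x => T x.1)
    (fun x => (U x.1 + Y x.2) / 2 ^ j)
  have e1 : (PA.prod PB).H (fun x => (U x.1 + Y x.2, T x.1, (U x.1 + Y x.2) / 2 ^ j))
      = (PA.prod PB).H (fun x => (U x.1 + Y x.2, T x.1)) :=
    H_congr_det _ fun x y => by
      simp only [Prod.mk.injEq]
      constructor
      · rintro ⟨h1, h2⟩; exact ⟨h1, h2, by rw [h1]⟩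
      · rintro ⟨h1, h2, -⟩; exact ⟨h1, h2⟩
  have e2 : (PA.prod PB).H (fun x => (U x.1 + Y x.2, (U x.1 + Y x.2) / 2 ^ j))
      = (PA.prod PB).H (fun x => U x.1 + Y x.2) :=
    H_congr_det _ fun x y => by
      simp only [Prod.mk.injEq]
      constructor
      · intro h1; exact ⟨h1, by rw [h1]⟩
      · rintro ⟨h1, -⟩; exact h1
  have e3 : (PA.prod PB).H (fun x => (T x.1, (U x.1 + Y x.2) / 2 ^ j))
      = (PA.prod PB).H (fun x => ((U x.1 + Y x.2) / 2 ^ j, T x.1)) :=
    H_congr_det _ fun x y => by simp only [Prod.mk.injEq]; tauto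
  rw [e1, e2, e3] at h
  unfold info
  linarith only [h]

/-- A sum does not reduce the coarse entropies of the noise (up to `log 2`). -/
lemma coarse_le_sum {A B : Type*} [Fintype A] [Fintype B] (PA : FinProb A) (PB : FinProb B)
    (U : A → ℤ) (Y : B → ℤ) (j : ℕ) :
    PB.H (fun b => Y b / 2 ^ j) - Real.log 2
      ≤ (PA.prod PB).H (fun x => (U x.1 + Y x.2) / 2 ^ j) := by
  have h := PA.prod_sections_le PB (fun x => (U x.1 + Y x.2) / 2 ^ j)
  refine le_trans ?_ h
  rw [← PA.sum_const (PB.H (fun b => Y b / 2 ^ j) - Real.log 2)]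
  refine PA.sum_mono fun a => ?_
  have := shift_H' PB Y (U a) j
  linarith only [this]

/-- The space of a pair and a fair coin. -/
def coinSp {D : Type*} [Fintype D] (PD : FinProb D) : FinProb (D × Bool) := PD.prod (unif Bool)

/-- The selected value. -/
def pick {D : Type*} (u v : D → ℤ) (x : D × Bool) : ℤ := if x.2 then u x.1 else v x.1

lemma coin_rearrange {D B α : Type*} [Fintype D] [Fintype B] (PD : FinProb D) (PB : FinProb B)
    (k : ℕ) (u v : D → ℤ) (Y : B → ℤ) (φ : ℤ → α) :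
    (((coinSp PD).pi k).prod PB).H (fun x => φ (∑ i, pick u v (x.1 i) + Y x.2))
      = (((PD.pi k).prod PB).prod (unif (Fin k → Bool))).H
          (fun x => φ (sel (fun i => u (x.1.1 i)) (fun i => v (x.1.1 i)) x.2 + Y x.1.2)) := by
  symm
  refine (((coinSp PD).pi k).prod PB).H_equiv
    (((PD.pi k).prod PB).prod (unif (Fin k → Bool)))
    { toFun := fun x => (fun i => (x.1.1 i, x.2 i), x.1.2)
      invFun := fun x => ((fun i => (x.1 i).1, x.2), fun i => (x.1 i).2)
      left_inv := fun x => rfl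
      right_inv := fun x => rfl } ?_ (fun x => φ (∑ i, pick u v (x.1 i) + Y x.2))
  intro x
  simp only [prod_w, pi_w, coinSp, unif, Equiv.coe_fn_mk, Finset.prod_mul_distrib,
    Finset.prod_const, Finset.card_univ, Fintype.card_fin, Fintype.card_fun, Fintype.card_bool]
  push_cast
  rw [one_div_pow]
  ring

lemma coin_k {D B : Type*} [Fintype D] [Fintype B] (PD : FinProb D) (PB : FinProb B)
    (u v : D → ℤ) (u₀ v₀ : ℤ) (Y : B → ℤ) (j L : ℕ) (α C₀ : ℝ) (hα1 : α ≤ 1)
    (hY : PB.H (fun b => Y b / 2 ^ j) - PB.H (fun b => Y b / 2 ^ (j + (3 + L)))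
        ≤ α * (((3 + L : ℕ) : ℝ) * Real.log 2) + C₀)
    (h1 : ∀ d, 2 ^ j ≤ |u d - v d|) (h2 : ∀ d, |u d - v d| ≤ 2 ^ (j + 3))
    (h3 : ∀ d, 4 ^ L * |u d - u₀| ≤ 2 ^ j) (h4 : ∀ d, 4 ^ L * |v d - v₀| ≤ 2 ^ j) :
    (1 - α) * (L * Real.log 2) - (12 * Real.log 2 + C₀)
      ≤ info ((coinSp PD).pi (4 ^ L)) PB (fun x => ∑ i, pick u v (x i))
        (fun x => fun i => (x i).2) Y := by
  set k : ℕ := 4 ^ L with hk
  set PE := (coinSp PD).pi k with hPE
  have hlog2 : 0 < Real.log 2 := Real.log_pos (by norm_num)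
  have a1 := info_ge_coarse PE PB (fun x => ∑ i, pick u v (x i)) (fun x => fun i => (x i).2) Y j
  -- upper bound of the joint entropy
  have a2 : (PE.prod PB).H (fun x => ((∑ i, pick u v (x.1 i) + Y x.2) / 2 ^ j,
      fun i => (x.1 i).2)) ≤ PB.H (fun b => Y b / 2 ^ j)
        + PE.H (fun x => fun i => (x i).2) + Real.log 4 := by
    have b1 := (PE.prod PB).H_le_add_log_card
      (fun x => ((∑ i, pick u v (x.1 i) + Y x.2) / 2 ^ j, fun i => (x.1 i).2))
      (fun x => ((fun i => (x.1 i).2 : Fin k → Bool), Y x.2 / 2 ^ j))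
      (fun z => (Finset.Icc ((∑ i, if z.1 i then u₀ else v₀) / 2 ^ j + z.2 - 1)
        ((∑ i, if z.1 i then u₀ else v₀) / 2 ^ j + z.2 + 2)) ×ˢ {z.1}) 4 (by
        intro x
        rw [Finset.mem_product]
        refine ⟨?_, by simp⟩
        simp only
        set base : ℤ := ∑ i, if (x.1 i).2 then u₀ else v₀ with hbase
        have hR : (0 : ℤ) < 2 ^ j := by positivity
        have hk0 : (0 : ℤ) < 4 ^ L := by positivity
        have c1 : |∑ i, pick u v (x.1 i) - base| ≤ 2 ^ j := by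
          rw [hbase, ← Finset.sum_sub_distrib]
          have c2 : ∀ i, |pick u v (x.1 i) - (if (x.1 i).2 then u₀ else v₀)| * 4 ^ L
              ≤ 2 ^ j := by
            intro i
            unfold pick
            by_cases hx : (x.1 i).2 = true
            · simp only [hx, if_true]
              linarith only [h3 (x.1 i).1]
            · simp only [hx, Bool.false_eq_true, if_false]
              linarith only [h4 (x.1 i).1]
          have c3 : |∑ i, (pick u v (x.1 i) - (if (x.1 i).2 then u₀ else v₀))| * 4 ^ L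
              ≤ 2 ^ j * 4 ^ L := by
            calc _ ≤ (∑ i, |pick u v (x.1 i) - (if (x.1 i).2 then u₀ else v₀)|) * 4 ^ L :=
                  mul_le_mul_of_nonneg_right (Finset.abs_sum_le_sum_abs _ _) hk0.le
              _ = ∑ i, |pick u v (x.1 i) - (if (x.1 i).2 then u₀ else v₀)| * 4 ^ L := by
                  rw [Finset.sum_mul]
              _ ≤ ∑ _i : Fin k, 2 ^ j := Finset.sum_le_sum fun i _ => c2 i
              _ = 2 ^ j * 4 ^ L := by
                  rw [Finset.sum_const, Finset.card_univ, Fintype.card_fin, hk]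
                  simp [mul_comm]
          exact le_of_mul_le_mul_right c3 hk0
        obtain ⟨c4, c5⟩ := abs_le.1 c1
        rw [Finset.mem_Icc]
        have d1 := Int.ediv_mul_le base hR.ne'
        have d2 := Int.lt_ediv_add_one_mul_self base hR
        have d3 := Int.ediv_mul_le (Y x.2) hR.ne'
        have d4 := Int.lt_ediv_add_one_mul_self (Y x.2) hR
        have d5 := Int.ediv_mul_le (∑ i, pick u v (x.1 i) + Y x.2) hR.ne'
        have d6 := Int.lt_ediv_add_one_mul_self (∑ i, pick u v (x.1 i) + Y x.2) hR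
        constructor
        · by_contra hc
          push Not at hc
          have : (∑ i, pick u v (x.1 i) + Y x.2) / 2 ^ j + 1 + 1
              ≤ base / 2 ^ j + Y x.2 / 2 ^ j := by linarith only [hc]
          nlinarith only [c4, d1, d3, d6, hc, hR]
        · by_contra hc
          push Not at hc
          have : base / 2 ^ j + Y x.2 / 2 ^ j + 3
              ≤ (∑ i, pick u v (x.1 i) + Y x.2) / 2 ^ j := by linarith only [hc]
          nlinarith only [c5, d2, d4, d5, hc, hR])
      (by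
        intro z
        rw [Finset.card_product, Int.card_Icc, Finset.card_singleton, mul_one]
        have : (∑ i, if z.1 i then u₀ else v₀) / 2 ^ j + z.2 + 2 + 1
          - ((∑ i, if z.1 i then u₀ else v₀) / 2 ^ j + z.2 - 1) = 4 := by ring
        rw [this]; decide)
    rw [H_prod_pair PE PB (fun x => (fun i => (x i).2 : Fin k → Bool))
      (fun b => Y b / 2 ^ j)] at b1
    push_cast at b1
    linarith only [b1]
  -- lower bound
  obtain ⟨d0, _⟩ := PD.exists_w_pos
  have a3 := window_pairs PD PB u v Y j 3 L (fun d _ => h2 d) 1 (by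
    rw [← PD.sum_one]
    exact Finset.sum_congr rfl fun d _ => by rw [if_pos (h1 d)]) one_pos
  rw [← coin_rearrange PD PB (4 ^ L) u v Y (fun z => z / 2 ^ j),
    ← coin_rearrange PD PB (4 ^ L) u v Y (fun z => z / 2 ^ (j + 3 + L))] at a3
  have a4 := coarse_le_sum PE PB (fun x => ∑ i, pick u v (x i)) Y (j + 3 + L)
  have e1 : j + 3 + L = j + (3 + L) := by ring
  rw [← e1] at hY
  have l4 : Real.log 4 = 2 * Real.log 2 := by
    rw [show (4 : ℝ) = 2 ^ 2 by norm_num, Real.log_pow]; norm_num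
  have l12 : Real.log (1 / 12) ≥ -(4 * Real.log 2) := by
    have : Real.log (1 / 16) ≤ Real.log (1 / 12) := Real.log_le_log (by norm_num) (by norm_num)
    have h16 : Real.log (1 / 16) = -(4 * Real.log 2) := by
      rw [one_div, Real.log_inv, show (16 : ℝ) = 2 ^ 4 by norm_num, Real.log_pow]; norm_num
    linarith only [this, h16]
  rw [l4] at a2
  push_cast at hY
  have hα3 : α * (3 * Real.log 2) ≤ 3 * Real.log 2 := by
    have := mul_le_mul_of_nonneg_right hα1 (by positivity : 0 ≤ 3 * Real.log 2)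
    linarith only [this]
  linarith only [hα3, hY, l12, a4, a3, a2, a1, hlog2]

lemma coin_one {D B : Type*} [Fintype D] [Fintype B] (PD : FinProb D) (PB : FinProb B)
    (u v : D → ℤ) (u₀ v₀ : ℤ) (Y : B → ℤ) (j L : ℕ) (α C₀ : ℝ) (hα1 : α ≤ 1)
    (hY : PB.H (fun b => Y b / 2 ^ j) - PB.H (fun b => Y b / 2 ^ (j + (3 + L)))
        ≤ α * (((3 + L : ℕ) : ℝ) * Real.log 2) + C₀)
    (h1 : ∀ d, 0 < PD.w d → 2 ^ j ≤ |u d - v d|)
    (h2 : ∀ d, 0 < PD.w d → |u d - v d| ≤ 2 ^ (j + 3))
    (h3 : ∀ d, 0 < PD.w d → 4 ^ L * |u d - u₀| ≤ 2 ^ j)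
    (h4 : ∀ d, 0 < PD.w d → 4 ^ L * |v d - v₀| ≤ 2 ^ j) :
    ((1 - α) * (L * Real.log 2) - (12 * Real.log 2 + C₀)) / 4 ^ L
      ≤ info (coinSp PD) PB (pick u v) (fun x => x.2) Y := by
  obtain ⟨d0, hd0⟩ := PD.exists_w_pos
  set u' : D → ℤ := fun d => if 0 < PD.w d then u d else u d0 with hu'
  set v' : D → ℤ := fun d => if 0 < PD.w d then v d else v d0 with hv'
  have key := coin_k PD PB u' v' u₀ v₀ Y j L α C₀ hα1 hY
    (fun d => by simp only [hu', hv']; split_ifs with h; exacts [h1 d h, h1 d0 hd0])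
    (fun d => by simp only [hu', hv']; split_ifs with h; exacts [h2 d h, h2 d0 hd0])
    (fun d => by simp only [hu']; split_ifs with h; exacts [h3 d h, h3 d0 hd0])
    (fun d => by simp only [hv']; split_ifs with h; exacts [h4 d h, h4 d0 hd0])
  have h5 := info_pi_le (coinSp PD) PB (pick u' v') (fun x => x.2) Y (4 ^ L)
  have h6 : info (coinSp PD) PB (pick u' v') (fun x => x.2) Y
      = info (coinSp PD) PB (pick u v) (fun x => x.2) Y := by
    have hpos : ∀ x : (D × Bool) × B, 0 < ((coinSp PD).prod PB).w x → 0 < PD.w x.1.1 := by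
      intro x hx
      rcases PD.w_zero_or_pos x.1.1 with h | h
      · simp [coinSp, prod_w, h] at hx
      · exact h
    unfold info
    rw [((coinSp PD).prod PB).H_congr_supp (fun x => pick u' v' x.1 + Y x.2)
        (fun x => pick u v x.1 + Y x.2) (fun x hx => by
          simp only [pick, hu', hv', if_pos (hpos x hx)]),
      ((coinSp PD).prod PB).H_congr_supp (fun x => (pick u' v' x.1 + Y x.2, x.1.2))
        (fun x => (pick u v x.1 + Y x.2, x.1.2)) (fun x hx => by
          simp only [pick, hu', hv', if_pos (hpos x hx)])]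
  rw [h6] at h5
  rw [div_le_iff₀ (by positivity)]
  push_cast at h5
  have h7 := key.trans h5
  linarith only [key, h5]

lemma cond_prod_first {Ω Ω' γ : Type*} [Fintype Ω] [Fintype Ω'] (P : FinProb Ω)
    (Q : FinProb Ω') (h : Ω → γ) (ω : Ω) (hω : 0 < P.w ω) :
    (P.prod Q).cond (fun x => h x.1) (h ω) = (P.cond h (h ω)).prod Q := by
  have h0 := P.p_pos hω h
  have h1 : (P.prod Q).p (fun x => h x.1) (h ω) = P.p h (h ω) := by
    unfold p
    rw [Fintype.sum_prod_type]
    refine Finset.sum_congr rfl fun a _ => ?_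
    by_cases hh : h a = h ω
    · simp only [hh, if_true, prod_w, ← Finset.mul_sum, Q.sum_one, mul_one]
    · simp only [hh, ↓reduceIte, Finset.sum_const_zero]
  have h2 : ∀ x, ((P.prod Q).cond (fun x => h x.1) (h ω)).w x
      = ((P.cond h (h ω)).prod Q).w x := by
    intro x
    rw [(P.prod Q).cond_w _ _ (by rw [h1]; exact h0)]
    simp only [prod_w]
    rw [P.cond_w h _ h0, h1]
    by_cases hh : h x.1 = h ω
    · simp only [hh, if_true]; ring
    · simp [hh]
  cases hA : (P.prod Q).cond (fun x => h x.1) (h ω)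
  cases hB : (P.cond h (h ω)).prod Q
  rw [hA, hB] at h2
  congr 1
  funext x
  exact h2 x

/-- Chain rule for a label on the first factor. -/
lemma chain_first {Ω Ω' γ δ : Type*} [Fintype Ω] [Fintype Ω'] (P : FinProb Ω)
    (Q : FinProb Ω') (h : Ω → γ) (f : Ω × Ω' → δ) :
    (P.prod Q).H (fun x => (f x, h x.1))
      = P.H h + ∑ a, P.w a * ((P.cond h (h a)).prod Q).H f := by
  rw [(P.prod Q).H_pair_eq_cond f (fun x => h x.1), H_prod_fst P Q h]
  congr 1
  rw [Fintype.sum_prod_type]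
  refine Finset.sum_congr rfl fun a _ => ?_
  rcases P.w_zero_or_pos a with ha | ha
  · simp only [prod_w, ha, zero_mul, Finset.sum_const_zero]
  · simp only [prod_w]
    rw [cond_prod_first P Q h a ha]
    rw [← Finset.sum_mul, ← Finset.mul_sum, Q.sum_one, mul_one]

lemma H_prod_assoc {Ω₁ Ω₂ Ω₃ δ : Type*} [Fintype Ω₁] [Fintype Ω₂] [Fintype Ω₃]
    (P₁ : FinProb Ω₁) (P₂ : FinProb Ω₂) (P₃ : FinProb Ω₃) (f : (Ω₁ × Ω₂) × Ω₃ → δ) :
    (P₁.prod (P₂.prod P₃)).H (fun x => f ((x.1, x.2.1), x.2.2)) = ((P₁.prod P₂).prod P₃).H f :=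
  ((P₁.prod P₂).prod P₃).H_equiv (P₁.prod (P₂.prod P₃)) (Equiv.prodAssoc Ω₁ Ω₂ Ω₃).symm
    (fun x => by simp [prod_w, mul_assoc]) f

lemma H_prod_pair_fst {Ω Ω' δ : Type*} [Fintype Ω] [Fintype Ω'] (P : FinProb Ω)
    (Q : FinProb Ω') (f : Ω × Ω' → δ) :
    (P.prod Q).H (fun x => (f x, x.1)) = P.H (fun a => a) + ∑ a, P.w a * Q.H (fun b => f (a, b)) := by
  rw [P.H_prod_eq_sigma Q (fun x => (f x, x.1)),
    H_sigma_pair P (fun _ => Q) (fun x => f (x.1, x.2))]

/-- Law of the picked point. -/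
lemma pick_law {A : Type*} [Fintype A] (Q : FinProb A) (a : A) :
    (coinSp (Q.prod Q)).p (fun x => if x.2 then x.1.1 else x.1.2) a = Q.w a := by
  unfold p coinSp
  rw [Fintype.sum_prod_type]
  have e1 : ∀ x : A × A, ∑ e : Bool, (if (if e = true then x.1 else x.2) = a then
      ((Q.prod Q).prod (unif Bool)).w (x, e) else 0)
      = (if x.1 = a then Q.w x.1 * Q.w x.2 else 0) * (1 / 2)
        + (if x.2 = a then Q.w x.1 * Q.w x.2 else 0) * (1 / 2) := by
    intro x
    rw [Fintype.sum_bool]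
    simp only [if_true, Bool.false_eq_true, if_false, prod_w, unif, Fintype.card_bool]
    push_cast
    congr 1 <;> split_ifs <;> simp
  refine (Finset.sum_congr rfl fun x _ => e1 x).trans ?_
  rw [Finset.sum_add_distrib, ← Finset.sum_mul, ← Finset.sum_mul, Fintype.sum_prod_type,
    Fintype.sum_prod_type_right]
  have e2 : ∑ x : A, ∑ y : A, (if x = a then Q.w x * Q.w y else 0) = Q.w a := by
    rw [Finset.sum_eq_single a]
    · simp only [if_true, ← Finset.mul_sum, Q.sum_one, mul_one]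
    · intro b _ hb; simp only [hb, ↓reduceIte, Finset.sum_const_zero]
    · simp
  have e3 : ∑ y : A, ∑ x : A, (if y = a then Q.w x * Q.w y else 0) = Q.w a := by
    rw [Finset.sum_eq_single a]
    · simp only [if_true, ← Finset.sum_mul, Q.sum_one, one_mul]
    · intro b _ hb; simp only [hb, ↓reduceIte, Finset.sum_const_zero]
    · simp
  simp only [e2, e3]
  ring

/-- The pair trick. -/
lemma pair_gain {A B : Type*} [Fintype A] [Fintype B] (Q : FinProb A) (PB : FinProb B)
    (U : A → ℤ) (Y : B → ℤ) (V : A → ℤ) (far : ℤ → ℤ → Prop) (L : ℕ) (α C₀ : ℝ) (hα1 : α ≤ 1)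
    (hY : ∀ j, PB.H (fun b => Y b / 2 ^ j) - PB.H (fun b => Y b / 2 ^ (j + (3 + L)))
        ≤ α * (((3 + L : ℕ) : ℝ) * Real.log 2) + C₀)
    (hfar : ∀ z z', far z z' → ∃ (j : ℕ) (u₀ v₀ : ℤ), ∀ a a', V a = z → V a' = z' →
      2 ^ j ≤ |U a - U a'| ∧ |U a - U a'| ≤ 2 ^ (j + 3) ∧ 4 ^ L * |U a - u₀| ≤ 2 ^ j ∧
        4 ^ L * |U a' - v₀| ≤ 2 ^ j) :
    ((1 - α) * (L * Real.log 2) - (12 * Real.log 2 + C₀)) / 4 ^ L
      * (∑ x, if far (V x.1) (V x.2) then (Q.prod Q).w x else 0) ≤ info Q PB U V Y := by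
  set PD := Q.prod Q with hPD
  set c := ((1 - α) * (L * Real.log 2) - (12 * Real.log 2 + C₀)) / 4 ^ L with hc
  set O : ((A × A) × Bool) × B → ℤ := fun x => pick (fun d : A × A => U d.1) (fun d => U d.2) x.1
    + Y x.2 with hO
  set R := (coinSp PD).prod PB with hR
  set Z : A × A → ℤ × ℤ := fun d => (V d.1, V d.2) with hZ
  set π : (A × A) × Bool → A := fun x => if x.2 then x.1.1 else x.1.2 with hπ
  have hOπ : ∀ x, O x = U (π x.1) + Y x.2 := by
    intro x
    simp only [hO, hπ, pick]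
    split_ifs <;> rfl
  -- laws
  have hmap : ∀ ω, R.p (fun x => (π x.1, x.2)) ω = (Q.prod PB).w ω := by
    rintro ⟨a, b⟩
    have h1 : R.p (fun x => (π x.1, x.2)) (a, b) = (coinSp PD).p π a * PB.w b := by
      unfold p
      rw [Fintype.sum_prod_type, Finset.sum_mul]
      refine Finset.sum_congr rfl fun x _ => ?_
      rw [Finset.sum_eq_single b]
      · by_cases hx : π x = a
        · simp [hx, hR, prod_w]
        · simp [hx]
      · intro b' _ hb'
        simp [hb']
      · simp only [Finset.mem_univ, not_true_eq_false, Prod.mk.injEq, and_true, ite_eq_right_iff, IsEmpty.forall_iff]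
    rw [h1, prod_w, pick_law Q a]
  have f1 : R.H O = (Q.prod PB).H (fun x => U x.1 + Y x.2) := by
    rw [← (Q.prod PB).H_comp_of_map R (fun x => (π x.1, x.2)) hmap (fun x => U x.1 + Y x.2)]
    congr 1
    funext x
    exact hOπ x
  have f2 : R.H (fun x => (O x, V (π x.1))) = (Q.prod PB).H (fun x => (U x.1 + Y x.2, V x.1)) := by
    rw [← (Q.prod PB).H_comp_of_map R (fun x => (π x.1, x.2)) hmap
      (fun x => (U x.1 + Y x.2, V x.1))]
    congr 1
    funext x
    rw [hOπ x]
  have f3 : R.H (fun x => V (π x.1)) = Q.H V := by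
    rw [← H_prod_fst Q PB V, ← (Q.prod PB).H_comp_of_map R (fun x => (π x.1, x.2)) hmap
      (fun x => V x.1)]
  -- the exact conditional entropy
  have g1 : R.H (fun x => ((O x, x.1.2), Z x.1.1))
      = (unif Bool).H (fun e => e) + ((Q.prod PB).H (fun x => (U x.1 + Y x.2, V x.1)) + Q.H V) := by
    have c0 : R.H (fun x => ((O x, x.1.2), Z x.1.1)) = R.H (fun x => ((O x, Z x.1.1), x.1.2)) :=
      R.H_congr_det fun x y => by simp only [Prod.mk.injEq]; (clear * -; tauto)
    rw [c0, hR, coinSp, ← H_prod_assoc PD (unif Bool) PB (fun x => ((O x, Z x.1.1), x.1.2)),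
      H_prod_rot PD (unif Bool) PB]
    rw [H_prod_pair_fst (unif Bool) (PD.prod PB)
      (fun x => (O ((x.2.1, x.1), x.2.2), Z x.2.1))]
    congr 1
    have c1 : (PD.prod PB).H (fun x => (O ((x.1, true), x.2), Z x.1))
        = (Q.prod PB).H (fun x => (U x.1 + Y x.2, V x.1)) + Q.H V := by
      rw [hPD, ← H_prod_assoc Q Q PB (fun x => (O ((x.1, true), x.2), Z x.1)),
        H_prod_rot Q Q PB, add_comm, ← H_prod_pair Q (Q.prod PB) V
          (fun x => (U x.1 + Y x.2, V x.1))]
      refine H_congr_det _ fun x y => ?_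
      simp only [hO, pick, hZ, Prod.mk.injEq, if_true]
      (clear * -; tauto)
    have c2 : (PD.prod PB).H (fun x => (O ((x.1, false), x.2), Z x.1))
        = (Q.prod PB).H (fun x => (U x.1 + Y x.2, V x.1)) + Q.H V := by
      rw [hPD, ← H_prod_assoc Q Q PB (fun x => (O ((x.1, false), x.2), Z x.1)),
        add_comm, ← H_prod_pair Q (Q.prod PB) V
          (fun x => (U x.1 + Y x.2, V x.1))]
      refine H_congr_det _ fun x y => ?_
      simp only [hO, pick, hZ, Prod.mk.injEq, if_false, Bool.false_eq_true]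
      (clear * -; tauto)
    rw [Fintype.sum_bool, c1, c2]
    simp only [unif, Fintype.card_bool]
    push_cast
    ring
  have g4 := R.H_pair_le' O (fun x => Z x.1.1)
  -- chain rules over `Z`
  set W := PD.prod ((unif Bool).prod PB) with hW
  have k1 : R.H (fun x => (O x, Z x.1.1))
      = PD.H Z + ∑ d, PD.w d * ((coinSp (PD.cond Z (Z d))).prod PB).H O := by
    rw [hR, coinSp, ← H_prod_assoc PD (unif Bool) PB (fun x => (O x, Z x.1.1)),
      chain_first PD ((unif Bool).prod PB) Z (fun x => O ((x.1, x.2.1), x.2.2))]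
    congr 1
    refine Finset.sum_congr rfl fun d _ => ?_
    rw [H_prod_assoc (PD.cond Z (Z d)) (unif Bool) PB O]
    rfl
  have k2 : R.H (fun x => ((O x, x.1.2), Z x.1.1))
      = PD.H Z + ∑ d, PD.w d * ((coinSp (PD.cond Z (Z d))).prod PB).H (fun x => (O x, x.1.2)) := by
    rw [hR, coinSp, ← H_prod_assoc PD (unif Bool) PB (fun x => ((O x, x.1.2), Z x.1.1)),
      chain_first PD ((unif Bool).prod PB) Z
        (fun x => (O ((x.1, x.2.1), x.2.2), x.2.1))]
    congr 1
    refine Finset.sum_congr rfl fun d _ => ?_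
    exact congrArg (fun t => PD.w d * t)
      (H_prod_assoc (PD.cond Z (Z d)) (unif Bool) PB (fun x => (O x, x.1.2)))
  have k3 : PD.H Z = Q.H V + Q.H V := by
    rw [hZ, hPD, H_prod_pair Q Q V V]
  have k4 : R.H (fun x => Z x.1.1) = PD.H Z := by
    rw [hR, H_prod_fst (coinSp PD) PB (fun x => Z x.1), coinSp, H_prod_fst PD (unif Bool) Z]
  -- each term
  have k5 : ∀ d, PD.w d * (if far (V d.1) (V d.2) then c else 0)
      ≤ PD.w d * (((coinSp (PD.cond Z (Z d))).prod PB).H O + (unif Bool).H (fun e => e)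
        - ((coinSp (PD.cond Z (Z d))).prod PB).H (fun x => (O x, x.1.2))) := by
    intro d
    rcases PD.w_zero_or_pos d with hd | hd
    · simp [hd]
    refine mul_le_mul_of_nonneg_left ?_ hd.le
    have hinfo : ((coinSp (PD.cond Z (Z d))).prod PB).H O + (unif Bool).H (fun e => e)
        - ((coinSp (PD.cond Z (Z d))).prod PB).H (fun x => (O x, x.1.2))
        = info (coinSp (PD.cond Z (Z d))) PB (pick (fun d : A × A => U d.1) (fun d => U d.2))
          (fun x => x.2) Y := by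
      unfold info
      rw [coinSp, H_prod_snd (PD.cond Z (Z d)) (unif Bool) (fun e => e)]
    rw [hinfo]
    by_cases hf : far (V d.1) (V d.2)
    · rw [if_pos hf]
      obtain ⟨j, u₀, v₀, hj⟩ := hfar _ _ hf
      have hs : ∀ d', 0 < (PD.cond Z (Z d)).w d' → V d'.1 = V d.1 ∧ V d'.2 = V d.2 := by
        intro d' hd'
        have := PD.cond_supp Z d hd d' hd'
        simp only [hZ, Prod.mk.injEq] at this
        exact this
      exact coin_one (PD.cond Z (Z d)) PB (fun d => U d.1) (fun d => U d.2) u₀ v₀ Y j L α C₀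
        hα1 (hY j) (fun d' h' => (hj _ _ (hs d' h').1 (hs d' h').2).1)
        (fun d' h' => (hj _ _ (hs d' h').1 (hs d' h').2).2.1)
        (fun d' h' => (hj _ _ (hs d' h').1 (hs d' h').2).2.2.1)
        (fun d' h' => (hj _ _ (hs d' h').1 (hs d' h').2).2.2.2)
    · rw [if_neg hf]
      exact info_nonneg _ _ _ _ _
  have k6 := Finset.sum_le_sum fun d (_ : d ∈ Finset.univ) => k5 d
  have k7 : ∑ d, PD.w d * (if far (V d.1) (V d.2) then c else 0)
      = c * ∑ x, (if far (V x.1) (V x.2) then PD.w x else 0) := by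
    rw [Finset.mul_sum]
    refine Finset.sum_congr rfl fun d _ => ?_
    split_ifs <;> ring
  have k8 : ∑ d, PD.w d * (((coinSp (PD.cond Z (Z d))).prod PB).H O + (unif Bool).H (fun e => e)
        - ((coinSp (PD.cond Z (Z d))).prod PB).H (fun x => (O x, x.1.2)))
      = ∑ d, PD.w d * ((coinSp (PD.cond Z (Z d))).prod PB).H O + (unif Bool).H (fun e => e)
        - ∑ d, PD.w d * ((coinSp (PD.cond Z (Z d))).prod PB).H (fun x => (O x, x.1.2)) := by
    rw [← PD.sum_const ((unif Bool).H (fun e => e)), ← Finset.sum_add_distrib,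
      ← Finset.sum_sub_distrib, PD.sum_const]
    refine Finset.sum_congr rfl fun d _ => ?_
    ring
  rw [k7, k8] at k6
  unfold info
  rw [← f1]
  linarith only [g1, g4, k1, k2, k3, k4, k6]

end Vale.Agent.P114
end
end

section

/-! Level inequalities for the gain lemma. -/

open scoped Classical

noncomputable section

namespace Vale.Agent.P114

open FinProb

/-- Mixing the squares of the conditional laws gives the coupling. -/
lemma couple_eq_mix {A γ : Type*} [Fintype A] (PA : FinProb A) (h : A → γ) (F : A → A → Prop) :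
    ∑ a, PA.w a * ∑ x : A × A, (if F x.1 x.2 then
        ((PA.cond h (h a)).prod (PA.cond h (h a))).w x else 0)
      = ∑ x : A × A, (if F x.1 x.2 then (PA.couple h).w x else 0) := by
  set Φ : A → ℝ := fun b => ∑ b', (PA.cond h (h b)).w b' * (if F b b' then 1 else 0) with hΦ
  have h1 : ∀ a, PA.w a * ∑ x : A × A, (if F x.1 x.2 then
        ((PA.cond h (h a)).prod (PA.cond h (h a))).w x else 0)
      = PA.w a * ∑ b, (PA.cond h (h a)).w b * Φ b := by
    intro a
    rcases PA.w_zero_or_pos a with ha | ha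
    · simp only [ha, prod_w, zero_mul]
    congr 1
    rw [Fintype.sum_prod_type]
    refine Finset.sum_congr rfl fun b _ => ?_
    rcases (PA.cond h (h a)).w_zero_or_pos b with hb | hb
    · simp only [prod_w, hb, zero_mul, ite_self, Finset.sum_const_zero]
    · have hs := PA.cond_supp h a ha b hb
      rw [hΦ, Finset.mul_sum]
      refine Finset.sum_congr rfl fun b' _ => ?_
      rw [hs]
      simp only [prod_w]
      split_ifs <;> ring
  rw [Finset.sum_congr rfl fun a _ => h1 a, PA.sum_cond_total h Φ]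
  have h2 := PA.sum_couple h (fun b b' => if F b b' then (1 : ℝ) else 0)
  rw [hΦ, ← h2]
  refine Finset.sum_congr rfl fun x _ => ?_
  split_ifs <;> simp

/-- `H(O | f)` -/
def HO {A B γ : Type*} [Fintype A] [Fintype B] (PA : FinProb A) (PB : FinProb B) (U : A → ℤ)
    (Y : B → ℤ) (f : A → γ) : ℝ :=
  (PA.prod PB).H (fun x => (U x.1 + Y x.2, f x.1)) - PA.H f

lemma HO_sub {A B γ δ : Type*} [Fintype A] [Fintype B] (PA : FinProb A) (PB : FinProb B)
    (U : A → ℤ) (Y : B → ℤ) (h : A → γ) (V : A → δ) (hV : ∀ a a', V a = V a' → h a = h a') :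
    HO PA PB U Y h - HO PA PB U Y V = ∑ a, PA.w a * info (PA.cond h (h a)) PB U V Y := by
  have e1 := chain_first PA PB h (fun x => U x.1 + Y x.2)
  have e2 := chain_first PA PB h (fun x => (U x.1 + Y x.2, V x.1))
  have e3 := PA.H_pair_eq_cond V h
  have e4 : (PA.prod PB).H (fun x => ((U x.1 + Y x.2, V x.1), h x.1))
      = (PA.prod PB).H (fun x => (U x.1 + Y x.2, V x.1)) :=
    H_congr_det _ fun x y => by
      constructor
      · intro hh
        simp only [Prod.mk.injEq] at hh ⊢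
        exact ⟨hh, hV _ _ hh.2⟩
      · intro hh
        exact (Prod.mk.inj hh).1
  have e5 : PA.H (fun ω => (V ω, h ω)) = PA.H V :=
    PA.H_congr_det fun x y => by
      constructor
      · intro hh
        simp only [Prod.mk.injEq]
        exact ⟨hh, hV _ _ hh⟩
      · intro hh
        exact (Prod.mk.inj hh).1
  rw [e4] at e2
  rw [e5] at e3
  unfold HO
  rw [e1, e2]
  have e6 : ∑ a, PA.w a * info (PA.cond h (h a)) PB U V Y
      = ∑ a, PA.w a * ((PA.cond h (h a)).prod PB).H (fun x => U x.1 + Y x.2)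
        + ∑ a, PA.w a * (PA.cond h (h a)).H V
        - ∑ a, PA.w a * ((PA.cond h (h a)).prod PB).H (fun x => (U x.1 + Y x.2, V x.1)) := by
    rw [← Finset.sum_add_distrib, ← Finset.sum_sub_distrib]
    refine Finset.sum_congr rfl fun a _ => ?_
    unfold info
    ring
  rw [e6]
  linarith only [e3]

lemma HO_le {A B γ : Type*} [Fintype A] [Fintype B] (PA : FinProb A) (PB : FinProb B)
    (U : A → ℤ) (Y : B → ℤ) (f : A → γ) :
    HO PA PB U Y f ≤ (PA.prod PB).H (fun x => U x.1 + Y x.2) := by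
  have h := (PA.prod PB).H_pair_le' (fun x => U x.1 + Y x.2) (fun x => f x.1)
  rw [H_prod_fst PA PB f] at h
  unfold HO
  linarith

lemma HO_self {A B : Type*} [Fintype A] [Fintype B] (PA : FinProb A) (PB : FinProb B)
    (U : A → ℤ) (Y : B → ℤ) : HO PA PB U Y U = PB.H Y := by
  have h : (PA.prod PB).H (fun x => (U x.1 + Y x.2, U x.1)) = PA.H U + PB.H Y := by
    rw [← H_prod_pair PA PB U Y]
    refine H_congr_det _ fun x y => ?_
    simp only [Prod.mk.injEq]
    constructor
    · rintro ⟨h1, h2⟩; exact ⟨by rw [h1, h2], h1⟩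
    · rintro ⟨h1, h2⟩; exact ⟨h2, by linarith⟩
  unfold HO
  rw [h]; ring

/-- Gain between the labels `h` and `V`. -/
lemma level_gain {A B : Type*} [Fintype A] [Fintype B] (PA : FinProb A) (PB : FinProb B)
    (U : A → ℤ) (Y : B → ℤ) (h V : A → ℤ) (hV : ∀ a a', V a = V a' → h a = h a')
    (far : ℤ → ℤ → Prop) (L : ℕ) (α C₀ : ℝ) (hα1 : α ≤ 1)
    (hY : ∀ j, PB.H (fun b => Y b / 2 ^ j) - PB.H (fun b => Y b / 2 ^ (j + (3 + L)))
        ≤ α * (((3 + L : ℕ) : ℝ) * Real.log 2) + C₀)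
    (hfar : ∀ z z', far z z' → ∃ (j : ℕ) (u₀ v₀ : ℤ), ∀ a a', V a = z → V a' = z' →
      2 ^ j ≤ |U a - U a'| ∧ |U a - U a'| ≤ 2 ^ (j + 3) ∧ 4 ^ L * |U a - u₀| ≤ 2 ^ j ∧
        4 ^ L * |U a' - v₀| ≤ 2 ^ j) :
    ((1 - α) * (L * Real.log 2) - (12 * Real.log 2 + C₀)) / 4 ^ L
      * (∑ x : A × A, if far (V x.1) (V x.2) then (PA.couple h).w x else 0)
      ≤ HO PA PB U Y h - HO PA PB U Y V := by
  rw [HO_sub PA PB U Y h V hV, ← couple_eq_mix PA h (fun a b => far (V a) (V b)), Finset.mul_sum]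
  refine Finset.sum_le_sum fun a _ => ?_
  rw [mul_left_comm]
  exact mul_le_mul_of_nonneg_left
    (pair_gain (PA.cond h (h a)) PB U Y V far L α C₀ hα1 hY hfar) (PA.nonneg a)

lemma HO_mono {A B γ δ : Type*} [Fintype A] [Fintype B] (PA : FinProb A) (PB : FinProb B)
    (U : A → ℤ) (Y : B → ℤ) (h : A → γ) (V : A → δ) (hV : ∀ a a', V a = V a' → h a = h a') :
    HO PA PB U Y V ≤ HO PA PB U Y h := by
  have := HO_sub PA PB U Y h V hV
  have h2 : 0 ≤ ∑ a, PA.w a * info (PA.cond h (h a)) PB U V Y :=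
    Finset.sum_nonneg fun a _ => mul_nonneg (PA.nonneg a) (info_nonneg _ _ _ _ _)
  linarith

/-- telescoping with truncated subtraction -/
lemma telescope_trunc (F : ℕ → ℝ) (hF : Monotone F) (c M : ℕ) :
    ∑ s ∈ Finset.range M, (F (s + 1) - F (s + 1 - c)) ≤ c * (F M - F 0) := by
  induction c with
  | zero => simp
  | succ c ih =>
    have h1 : ∀ s, F (s + 1) - F (s + 1 - (c + 1))
        = (F (s + 1) - F (s + 1 - c)) + (F (s + 1 - c) - F (s - c)) := by
      intro s
      have : s + 1 - (c + 1) = s - c := by omega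
      rw [this]; ring
    rw [Finset.sum_congr rfl fun s _ => h1 s, Finset.sum_add_distrib]
    have h2 : ∑ s ∈ Finset.range M, (F (s + 1 - c) - F (s - c)) = F (M - c) - F (0 - c) :=
      Finset.sum_range_sub (fun s => F (s - c)) M
    have h3 : F (M - c) ≤ F M := hF (by omega)
    have h4 : F (0 - c) = F 0 := by simp
    rw [h2, h4]
    push_cast
    linarith

lemma far_arith (a a' z z' R E : ℤ) (hR : 0 < R) (hE : 1 ≤ E) (d1 : z * R ≤ a)
    (d2 : a < (z + 1) * R) (d3 : z' * R ≤ a') (d4 : a' < (z' + 1) * R)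
    (h1 : 2 * E ≤ |z - z'|) (h2 : |z - z'| + 1 ≤ 4 * E) :
    R * E ≤ |a - a'| ∧ |a - a'| ≤ 8 * (R * E) := by
  have hb1 : (|z - z'| - 1) * R ≤ |a - a'| := by
    rcases le_total 0 (z - z') with hz | hz
    · rw [abs_of_nonneg hz]
      refine le_trans ?_ (le_abs_self _)
      linarith
    · rw [abs_of_nonpos hz]
      refine le_trans ?_ (neg_le_abs _)
      linarith
  have hb2 : |a - a'| ≤ (|z - z'| + 1) * R := by
    have q1 := mul_le_mul_of_nonneg_right (le_abs_self (z - z')) hR.le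
    have q2 := mul_le_mul_of_nonneg_right (neg_le_abs (z - z')) hR.le
    rw [abs_le]
    constructor <;> linarith
  constructor
  · refine le_trans ?_ hb1
    have := mul_le_mul_of_nonneg_right (by linarith : E ≤ |z - z'| - 1) hR.le
    linarith
  · refine hb2.trans ?_
    have := mul_le_mul_of_nonneg_right h2 hR.le
    have h3 : 0 ≤ R * E := by positivity
    linarith

/-- Sum over the levels of one grid. -/
lemma grid_gain {A B : Type*} [Fintype A] [Fintype B] (PA : FinProb A) (PB : FinProb B)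
    (U : A → ℤ) (Y : B → ℤ) (M L : ℕ) (α C₀ : ℝ) (hα1 : α ≤ 1)
    (hY : ∀ j, PB.H (fun b => Y b / 2 ^ j) - PB.H (fun b => Y b / 2 ^ (j + (3 + L)))
        ≤ α * (((3 + L : ℕ) : ℝ) * Real.log 2) + C₀) :
    ((1 - α) * (L * Real.log 2) - (12 * Real.log 2 + C₀)) / 4 ^ L
      * (∑ s ∈ Finset.range M, ∑ x : A × A,
        if (if 2 * L + 5 ≤ s + 1 then (2 : ℤ) ^ (2 * L + 1) ≤
              |U x.1 / 2 ^ (s + 1 - (2 * L + 5)) - U x.2 / 2 ^ (s + 1 - (2 * L + 5))|
            else U x.1 ≠ U x.2) then (PA.couple (fun a => U a / 2 ^ (s + 1))).w x else 0)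
      ≤ (2 * L + 5) * ((PA.prod PB).H (fun x => U x.1 + Y x.2) - PB.H Y) := by
  set c : ℕ := 2 * L + 5 with hc
  set F : ℕ → ℝ := fun s => HO PA PB U Y (fun a => U a / 2 ^ s) with hF
  have hFm : Monotone F := by
    intro s s' hss
    refine HO_mono PA PB U Y (fun a => U a / 2 ^ s') (fun a => U a / 2 ^ s) fun a a' h => ?_
    obtain ⟨r, rfl⟩ := Nat.exists_eq_add_of_le hss
    beta_reduce at h ⊢
    rw [ediv_pow_add, ediv_pow_add, h]
  have hF0 : F 0 = PB.H Y := by
    rw [← HO_self PA PB U Y]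
    simp only [hF, pow_zero, Int.ediv_one]
  have hFM : F M ≤ (PA.prod PB).H (fun x => U x.1 + Y x.2) := HO_le _ _ _ _ _
  have h1 := telescope_trunc F hFm c M
  have h2 : (c : ℝ) * (F M - F 0)
      ≤ (2 * L + 5) * ((PA.prod PB).H (fun x => U x.1 + Y x.2) - PB.H Y) := by
    rw [hF0, hc]
    push_cast
    exact mul_le_mul_of_nonneg_left (by linarith only [hFM]) (by (clear * -; positivity))
  refine le_trans ?_ (h1.trans h2)
  rw [Finset.mul_sum]
  refine Finset.sum_le_sum fun s _ => ?_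
  set j0 : ℕ := s + 1 - c with hj0
  set far : ℤ → ℤ → Prop := fun z z' => if c ≤ s + 1 then (2 : ℤ) ^ (2 * L + 1) ≤ |z - z'|
    else z ≠ z' with hfar
  have hV : ∀ a a', U a / 2 ^ j0 = U a' / 2 ^ j0 → U a / 2 ^ (s + 1) = U a' / 2 ^ (s + 1) := by
    intro a a' h
    have : s + 1 = j0 + (s + 1 - j0) := by omega
    rw [this, ediv_pow_add, ediv_pow_add, h]
  have key := level_gain PA PB U Y (fun a => U a / 2 ^ (s + 1)) (fun a => U a / 2 ^ j0) hV far
    L α C₀ hα1 hY ?_
  · refine le_trans (le_of_eq ?_) key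
    congr 1
    refine Finset.sum_congr rfl fun x _ => ?_
    by_cases hcs : c ≤ s + 1
    · simp only [hfar, if_pos hcs]
    · have hj00 : j0 = 0 := by omega
      simp only [hfar, if_neg hcs, hj00, pow_zero, Int.ediv_one]
  · intro z z' hzz
    by_cases hcs : c ≤ s + 1
    · simp only [hfar, if_pos hcs] at hzz
      set D : ℕ := (z - z').natAbs with hD
      have hDz : ((D : ℕ) : ℤ) = |z - z'| := by rw [hD, Int.natCast_natAbs]
      have hD1 : 2 ^ (2 * L + 1) ≤ D := by
        have : (2 : ℤ) ^ (2 * L + 1) ≤ ((D : ℕ) : ℤ) := by rw [hDz]; exact hzz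
        exact_mod_cast this
      have hD0 : D ≠ 0 := by
        have : 0 < 2 ^ (2 * L + 1) := by positivity
        omega
      set e := Nat.log 2 D with he
      have he1 : 2 ^ e ≤ D := Nat.pow_log_le_self 2 hD0
      have he2 : D < 2 ^ (e + 1) := Nat.lt_pow_succ_log_self (by norm_num) D
      have he3 : 2 * L + 1 ≤ e := by
        by_contra hcon
        push Not at hcon
        have : 2 ^ (e + 1) ≤ 2 ^ (2 * L + 1) := Nat.pow_le_pow_right (by norm_num) hcon
        omega
      refine ⟨j0 + (e - 1), z * 2 ^ j0, z' * 2 ^ j0, fun a a' ha ha' => ?_⟩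
      beta_reduce at ha ha'
      have hR : (0 : ℤ) < 2 ^ j0 := by positivity
      have d1 := Int.ediv_mul_le (U a) hR.ne'
      have d2 := Int.lt_ediv_add_one_mul_self (U a) hR
      have d3 := Int.ediv_mul_le (U a') hR.ne'
      have d4 := Int.lt_ediv_add_one_mul_self (U a') hR
      rw [ha] at d1 d2
      rw [ha'] at d3 d4
      have he1' : (2 : ℤ) ^ e ≤ |z - z'| := by rw [← hDz]; exact_mod_cast he1
      have he2' : |z - z'| + 1 ≤ (2 : ℤ) ^ (e + 1) := by
        rw [← hDz]; exact_mod_cast he2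
      obtain ⟨e', hee'⟩ : ∃ e', e = e' + 1 := ⟨e - 1, by omega⟩
      have hee : e - 1 = e' := by omega
      rw [hee]
      rw [hee'] at he1' he2' he3
      have hpe : (1 : ℤ) ≤ 2 ^ e' := one_le_pow₀ (by norm_num)
      have p1 : (2 : ℤ) ^ (e' + 1) = 2 * 2 ^ e' := by ring
      have p2 : (2 : ℤ) ^ (e' + 1 + 1) = 4 * 2 ^ e' := by ring
      have p3 : (2 : ℤ) ^ (j0 + e') = 2 ^ j0 * 2 ^ e' := by ring
      have p4 : (2 : ℤ) ^ (j0 + e' + 3) = 8 * (2 ^ j0 * 2 ^ e') := by ring
      have p5 : (4 : ℤ) ^ L ≤ 2 ^ e' := by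
        rw [show (4 : ℤ) = 2 ^ 2 by norm_num, ← pow_mul]
        exact pow_le_pow_right₀ (by norm_num) (by omega)
      rw [p1] at he1'
      rw [p2] at he2'
      rw [p3, p4]
      have a1 : |U a - z * 2 ^ j0| ≤ 2 ^ j0 := by rw [abs_le]; constructor <;> linarith only [d2, hR, d1]
      have a2 : |U a' - z' * 2 ^ j0| ≤ 2 ^ j0 := by rw [abs_le]; constructor <;> linarith only [d4, hR, d3]
      obtain ⟨a3, a4⟩ := far_arith (U a) (U a') z z' (2 ^ j0) (2 ^ e') hR hpe d1 d2 d3 d4 he1' he2'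
      refine ⟨a3, a4, ?_, ?_⟩
      · calc 4 ^ L * |U a - z * 2 ^ j0| ≤ 2 ^ e' * 2 ^ j0 := by (clear * - p5 a1; gcongr)
          _ = _ := by ring
      · calc 4 ^ L * |U a' - z' * 2 ^ j0| ≤ 2 ^ e' * 2 ^ j0 := by (clear * - p5 a2; gcongr)
          _ = _ := by ring
    · simp only [hfar, if_neg hcs] at hzz
      have hj00 : j0 = 0 := by omega
      rw [hj00]
      set D : ℕ := (z - z').natAbs with hD
      have hDz : ((D : ℕ) : ℤ) = |z - z'| := by rw [hD, Int.natCast_natAbs]
      have hD0 : D ≠ 0 := by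
        rw [hD, Int.natAbs_ne_zero]
        exact sub_ne_zero.2 hzz
      refine ⟨Nat.log 2 D, z, z', fun a a' ha ha' => ?_⟩
      simp only [pow_zero, Int.ediv_one] at ha ha'
      rw [ha, ha', ← hDz]
      have he1 : 2 ^ (Nat.log 2 D) ≤ D := Nat.pow_log_le_self 2 hD0
      have he2 : D < 2 ^ (Nat.log 2 D + 1) := Nat.lt_pow_succ_log_self (by norm_num) D
      refine ⟨by exact_mod_cast he1, ?_, by simp only [sub_self, abs_zero, mul_zero, Nat.ofNat_nonneg, pow_nonneg], by simp only [sub_self, abs_zero, mul_zero, Nat.ofNat_nonneg, pow_nonneg]⟩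
      have : D ≤ 2 ^ (Nat.log 2 D + 3) := he2.le.trans (Nat.pow_le_pow_right (by norm_num) (by omega))
      exact_mod_cast this

end Vale.Agent.P114
end
end

section

/-!
T12-H. Information at the different scales.
-/

open scoped Classical

noncomputable section

namespace Vale.Agent.P114

open FinProb

variable {A B : Type*} [Fintype A] [Fintype B] (PA : FinProb A) (PB : FinProb B) (U : A → ℤ)
  (Y : B → ℤ)

lemma JU_nonneg (t : ℕ) : 0 ≤ JU PA PB U Y t := by
  have h := PA.prod_sections_le PB (fun x => (U x.1 + Y x.2) / 2 ^ t)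
  unfold JU
  linarith

lemma JU_zero : JU PA PB U Y 0 = (PA.prod PB).H (fun x => U x.1 + Y x.2) - PB.H Y := by
  unfold JU
  simp only [pow_zero, Int.ediv_one]
  have e : ∀ a, PB.H (fun b => U a + Y b) = PB.H Y := fun a =>
    PB.H_congr_det fun x y => by simp
  simp only [e, ← Finset.sum_mul, PA.sum_one, one_mul]

/-- The cell of the size `2 ^ (t + 1)` is determined by the cell of the size `2 ^ t`. -/
private lemma JU_cell (x : ℤ) (t : ℕ) : x / 2 ^ (t + 1) = x / 2 ^ t / 2 := by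
  rw [pow_succ, Int.ediv_ediv_of_nonneg (by positivity)]

lemma xU_nonneg (t : ℕ) : 0 ≤ xU PA PB U Y t := by
  unfold xU JU
  have h1 := H_prod_pair_fst PA PB (fun x : A × B => (U x.1 + Y x.2) / 2 ^ t)
  have h2 := H_prod_pair_fst PA PB (fun x : A × B => (U x.1 + Y x.2) / 2 ^ (t + 1))
  have h3 := (PA.prod PB).H_submod (fun x : A × B => (U x.1 + Y x.2) / 2 ^ t)
    (fun x : A × B => x.1) (fun x : A × B => (U x.1 + Y x.2) / 2 ^ (t + 1))
  have h4 : (PA.prod PB).H (fun x : A × B => ((U x.1 + Y x.2) / 2 ^ t, x.1,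
      (U x.1 + Y x.2) / 2 ^ (t + 1)))
      = (PA.prod PB).H (fun x : A × B => ((U x.1 + Y x.2) / 2 ^ t, x.1)) :=
    (PA.prod PB).H_congr_det fun x y => by
      simp only [Prod.mk.injEq, JU_cell]
      constructor
      · rintro ⟨h, h'⟩
        exact ⟨h, h', by rw [h]⟩
      · rintro ⟨h, h', -⟩
        exact ⟨h, h'⟩
  have h5 : (PA.prod PB).H (fun x : A × B => ((U x.1 + Y x.2) / 2 ^ t,
      (U x.1 + Y x.2) / 2 ^ (t + 1)))
      = (PA.prod PB).H (fun x : A × B => (U x.1 + Y x.2) / 2 ^ t) :=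
    (PA.prod PB).H_congr_det fun x y => by
      simp only [Prod.mk.injEq, JU_cell]
      constructor
      · intro h
        exact ⟨h, by rw [h]⟩
      · rintro ⟨h, -⟩
        exact h
  have h6 : (PA.prod PB).H (fun x : A × B => (x.1, (U x.1 + Y x.2) / 2 ^ (t + 1)))
      = (PA.prod PB).H (fun x : A × B => ((U x.1 + Y x.2) / 2 ^ (t + 1), x.1)) :=
    (PA.prod PB).H_congr_det fun x y => by
      simp only [Prod.mk.injEq]
      tauto
  simp only at h1 h2
  linarith

/-- A cell has two halves. -/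
lemma xU_le (t : ℕ) : xU PA PB U Y t ≤ Real.log 2 := by
  have h1 := (PA.prod PB).H_le_add_E_log_card (fun x : A × B => (U x.1 + Y x.2) / 2 ^ t)
    (fun x : A × B => (U x.1 + Y x.2) / 2 ^ (t + 1)) (fun v => {2 * v, 2 * v + 1})
    (fun _ => 2) (fun x => by
      simp only [Finset.mem_insert, Finset.mem_singleton, JU_cell]
      omega) (fun b => by
      have := Finset.card_insert_le (2 * b) {2 * b + 1}
      rw [Finset.card_singleton] at this
      exact_mod_cast this)
  have h2 : ∑ ω, (PA.prod PB).w ω * Real.log 2 = Real.log 2 := by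
    rw [← Finset.sum_mul, (PA.prod PB).sum_one, one_mul]
  rw [h2] at h1
  have h3 : ∑ a, PA.w a * PB.H (fun b => (U a + Y b) / 2 ^ (t + 1))
      ≤ ∑ a, PA.w a * PB.H (fun b => (U a + Y b) / 2 ^ t) := by
    refine Finset.sum_le_sum fun a _ => mul_le_mul_of_nonneg_left ?_ (PA.nonneg a)
    exact PB.H_le_of_det fun x y h => by rw [JU_cell, JU_cell, h]
  unfold xU JU
  linarith

/-- Telescoping. -/
lemma sum_xU (a b : ℕ) (hab : a ≤ b) :
    ∑ t ∈ Finset.Ico a b, xU PA PB U Y t = JU PA PB U Y a - JU PA PB U Y b := by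
  induction b, hab using Nat.le_induction with
  | base => simp
  | succ b hab ih =>
    rw [Finset.sum_Ico_succ_top hab, ih]
    unfold xU
    ring

/-- Conditioning on a label decreases the information gained at a scale (`prod_cond_mix`). -/
lemma xU_cond {τ : Type*} (N : A → τ) (t : ℕ) :
    ∑ a, PA.w a * xU (PA.cond N (N a)) PB U Y t ≤ xU PA PB U Y t := by
  have h1 := PA.prod_cond_mix PB N (fun x : A × B => (U x.1 + Y x.2) / 2 ^ t)
    (fun x : A × B => (U x.1 + Y x.2) / 2 ^ (t + 1)) (fun x y h => by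
      simp only [JU_cell]
      rw [h])
  have h2 := PA.sum_cond_total N (fun a => PB.H (fun b => (U a + Y b) / 2 ^ t)
    - PB.H (fun b => (U a + Y b) / 2 ^ (t + 1)))
  have h3 : ∀ P : FinProb A, xU P PB U Y t
      = ((P.prod PB).H (fun x : A × B => (U x.1 + Y x.2) / 2 ^ t)
        - (P.prod PB).H (fun x : A × B => (U x.1 + Y x.2) / 2 ^ (t + 1)))
        - ∑ a, P.w a * (PB.H (fun b => (U a + Y b) / 2 ^ t)
          - PB.H (fun b => (U a + Y b) / 2 ^ (t + 1))) := by
    intro P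
    unfold xU JU
    simp only [mul_sub, Finset.sum_sub_distrib]
    ring
  rw [h3 PA]
  simp only [h3]
  simp only [mul_sub (PA.w _) (_ - _), Finset.sum_sub_distrib] at h1 h2 ⊢
  linarith only [h1, h2]

/-- `JU` depends only on the law: if `PA.w = PA'.w` pointwise. -/
lemma JU_congr (PA' : FinProb A) (h : ∀ a, PA.w a = PA'.w a) (t : ℕ) :
    JU PA PB U Y t = JU PA' PB U Y t := by
  have h1 : PA = PA' := by
    cases PA
    cases PA'
    congr
    funext a
    exact h a
  rw [h1]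

end Vale.Agent.P114
end
end

section

/-!
T11-L2. Information gained at the good exits.
-/

open scoped Classical

noncomputable section

namespace Vale.Agent.P114

open FinProb

lemma seg2_W (c c7 : ℝ) (hc : 0 < c) (hc7 : 0 < c7) :
    ∃ W₁ : ℕ, ∀ W : ℕ, W₁ ≤ W → 1 ≤ c7 * W * Real.log 2 ∧
      (16 * (W : ℝ) + 8) * (2 : ℝ)⁻¹ ^ W ≤ c / 2 := by
  have hlog2 : 0 < Real.log 2 := Real.log_pos (by norm_num)
  have t1 := tendsto_self_mul_const_pow_of_lt_one (r := (2 : ℝ)⁻¹) (by norm_num) (by norm_num)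
  have t2 := tendsto_pow_atTop_nhds_zero_of_lt_one (r := (2 : ℝ)⁻¹) (by norm_num) (by norm_num)
  have t3 := (t1.const_mul 16).add (t2.const_mul 8)
  rw [mul_zero, mul_zero, add_zero] at t3
  have t4 := t3.eventually (eventually_le_nhds (show (0 : ℝ) < c / 2 by positivity))
  obtain ⟨N, hN⟩ := Filter.eventually_atTop.1 t4
  obtain ⟨n, hn⟩ := exists_nat_ge (1 / (c7 * Real.log 2))
  refine ⟨max N n, fun W hW => ⟨?_, ?_⟩⟩
  · have h1 : (n : ℝ) ≤ W := by exact_mod_cast (le_max_right N n).trans hW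
    have h2 := hn.trans h1
    rw [div_le_iff₀ (by positivity)] at h2
    linarith only [h2]
  · have h1 := hN W ((le_max_left N n).trans hW)
    linarith only [h1]

/-- The labels of the chain. -/
def seg2V {A : Type*} [Fintype A] (PA : FinProb A) (U : A → ℤ) (z : ℤ) (ms g j : ℕ) (a : A) :
    Option (ℕ × ℤ) :=
  if |U a - z| < 2 ^ j then none else some (labN PA U z ms g a)

lemma seg2_log {x : ℤ} {j : ℕ} (h1 : 2 ^ j ≤ |x|) (h2 : |x| < 2 ^ (j + 1)) :
    Nat.log 2 x.natAbs = j := by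
  have e : ((x.natAbs : ℕ) : ℤ) = |x| := Int.natCast_natAbs x
  rw [← e] at h1 h2
  have h1' : 2 ^ j ≤ x.natAbs := by exact_mod_cast h1
  have h2' : x.natAbs < 2 ^ (j + 1) := by exact_mod_cast h2
  exact Nat.log_eq_of_pow_le_of_lt_pow h1' h2'

lemma seg2_lt {x : ℤ} {j : ℕ} (h : Nat.log 2 x.natAbs = j) : |x| < 2 ^ (j + 1) := by
  have h1 := Nat.lt_pow_succ_log_self (b := 2) (by norm_num) x.natAbs
  rw [h] at h1
  rw [← Int.natCast_natAbs]
  exact_mod_cast h1

lemma seg2_ge {x : ℤ} {j : ℕ} (h : Nat.log 2 x.natAbs = j) (hx : x ≠ 0) : 2 ^ j ≤ |x| := by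
  have h1 := Nat.pow_log_le_self 2 (x := x.natAbs) (by simpa using hx)
  rw [h] at h1
  rw [← Int.natCast_natAbs]
  exact_mod_cast h1

section

variable {A : Type*} [Fintype A] (PA : FinProb A) (U : A → ℤ) (z : ℤ) (ms g : ℕ)

lemma seg2_lab {a : A} (h : 2 ^ ms ≤ |U a - z|) :
    labN PA U z ms g a = (Nat.log 2 (U a - z).natAbs + 1,
      U a / 2 ^ (Nat.log 2 (U a - z).natAbs
        - 4 * Wd (annP PA U z (Nat.log 2 (U a - z).natAbs)))) := by
  unfold labN
  rw [if_neg (not_lt.2 h)]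

lemma seg2V_none (j : ℕ) (a : A) : seg2V PA U z ms g j a = none ↔ |U a - z| < 2 ^ j := by
  unfold seg2V
  split_ifs with h
  · simp [h]
  · simp [h]

lemma seg2V_some {j : ℕ} {a : A} (h : 2 ^ j ≤ |U a - z|) :
    seg2V PA U z ms g j a = some (labN PA U z ms g a) := by
  unfold seg2V
  rw [if_neg (not_lt.2 h)]

/-- Equality of labels outside of the ball. -/
lemma seg2V_eq {j : ℕ} {a a' : A} (h : 2 ^ j ≤ |U a - z|)
    (he : seg2V PA U z ms g j a = seg2V PA U z ms g j a') :
    2 ^ j ≤ |U a' - z| ∧ labN PA U z ms g a = labN PA U z ms g a' := by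
  rw [seg2V_some PA U z ms g h] at he
  by_cases h' : |U a' - z| < 2 ^ j
  · rw [(seg2V_none PA U z ms g j a').2 h'] at he
    exact absurd he (by simp)
  · push Not at h'
    rw [seg2V_some PA U z ms g h'] at he
    exact ⟨h', Option.some.inj he⟩

lemma seg2V_logeq {j : ℕ} (hj : ms ≤ j) {a a' : A} (h : 2 ^ j ≤ |U a - z|)
    (h' : 2 ^ j ≤ |U a' - z|) (he : labN PA U z ms g a = labN PA U z ms g a') :
    Nat.log 2 (U a - z).natAbs = Nat.log 2 (U a' - z).natAbs := by
  have hp : (2 : ℤ) ^ ms ≤ 2 ^ j := pow_le_pow_right₀ (by norm_num) hj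
  rw [seg2_lab PA U z ms g (hp.trans h), seg2_lab PA U z ms g (hp.trans h')] at he
  have := (Prod.mk.inj he).1
  omega

lemma seg2V_det {j : ℕ} (hj : ms ≤ j) (a a' : A)
    (he : seg2V PA U z ms g j a = seg2V PA U z ms g j a') :
    seg2V PA U z ms g (j + 1) a = seg2V PA U z ms g (j + 1) a' := by
  have hp : (2 : ℤ) ^ j ≤ 2 ^ (j + 1) := pow_le_pow_right₀ (by norm_num) (by omega)
  by_cases h : |U a - z| < 2 ^ j
  · have h1 := (seg2V_none PA U z ms g j a).2 h
    rw [h1] at he
    have h2 := (seg2V_none PA U z ms g j a').1 he.symm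
    rw [(seg2V_none PA U z ms g (j + 1) a).2 (h.trans_le hp),
      (seg2V_none PA U z ms g (j + 1) a').2 (h2.trans_le hp)]
  · push Not at h
    obtain ⟨h', hl⟩ := seg2V_eq PA U z ms g h he
    have hlog := seg2V_logeq PA U z ms g hj h h' hl
    by_cases h2 : |U a - z| < 2 ^ (j + 1)
    · have h3 := seg2_log h h2
      rw [hlog] at h3
      have h4 := seg2_lt h3
      rw [(seg2V_none PA U z ms g (j + 1) a).2 h2, (seg2V_none PA U z ms g (j + 1) a').2 h4]
    · have h4 : ¬ |U a' - z| < 2 ^ (j + 1) := by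
        intro h4
        have h3 := seg2_log h' h4
        rw [← hlog] at h3
        exact h2 (seg2_lt h3)
      push Not at h2 h4
      rw [seg2V_some PA U z ms g h2, seg2V_some PA U z ms g h4, hl]

lemma seg2V_ms (a a' : A) (he : labN PA U z ms g a = labN PA U z ms g a') :
    seg2V PA U z ms g ms a = seg2V PA U z ms g ms a' := by
  by_cases h : |U a - z| < 2 ^ ms
  · have h' : |U a' - z| < 2 ^ ms := by
      by_contra h'
      unfold labN at he
      rw [if_pos h, if_neg h'] at he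
      have := (Prod.mk.inj he).1
      omega
    rw [(seg2V_none PA U z ms g ms a).2 h, (seg2V_none PA U z ms g ms a').2 h']
  · have h' : ¬ |U a' - z| < 2 ^ ms := by
      intro h'
      unfold labN at he
      rw [if_neg h, if_pos h'] at he
      have := (Prod.mk.inj he).1
      omega
    push Not at h h'
    rw [seg2V_some PA U z ms g h, seg2V_some PA U z ms g h', he]

lemma seg2V_cell {j : ℕ} (hj : ms ≤ j) {a a' : A} (h : 2 ^ j ≤ |U a - z|)
    (h2 : |U a - z| < 2 ^ (j + 1))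
    (he : seg2V PA U z ms g j a = seg2V PA U z ms g j a') :
    2 ^ j ≤ |U a' - z| ∧ |U a - U a'| ≤ 2 ^ (j - 4 * Wd (annP PA U z j)) := by
  have hp : (2 : ℤ) ^ ms ≤ 2 ^ j := pow_le_pow_right₀ (by norm_num) hj
  obtain ⟨h', hl⟩ := seg2V_eq PA U z ms g h he
  refine ⟨h', ?_⟩
  have hlog := seg2V_logeq PA U z ms g hj h h' hl
  have h3 := seg2_log h h2
  rw [seg2_lab PA U z ms g (hp.trans h), seg2_lab PA U z ms g (hp.trans h'), ← hlog, h3] at hl
  have h4 := (Prod.mk.inj hl).2
  set R : ℤ := 2 ^ (j - 4 * Wd (annP PA U z j)) with hR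
  have hR0 : 0 < R := by positivity
  have d1 := Int.ediv_mul_le (U a) hR0.ne'
  have d2 := Int.lt_ediv_add_one_mul_self (U a) hR0
  have d3 := Int.ediv_mul_le (U a') hR0.ne'
  have d4 := Int.lt_ediv_add_one_mul_self (U a') hR0
  rw [← h4] at d3 d4
  rw [abs_le]
  constructor <;> linarith only [d1, d4, d2, d3]

lemma seg2V_p (j : ℕ) : PA.p (seg2V PA U z ms g j) none = balP PA U z j := by
  unfold p balP
  refine Finset.sum_congr rfl fun a _ => ?_
  by_cases h : |U a - z| < 2 ^ j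
  · rw [if_pos h, if_pos ((seg2V_none PA U z ms g j a).2 h)]
  · rw [if_neg h, if_neg (fun h' => h ((seg2V_none PA U z ms g j a).1 h'))]

lemma seg2_balP_mono {j j' : ℕ} (h : j ≤ j') : balP PA U z j ≤ balP PA U z j' := by
  unfold balP
  refine Finset.sum_le_sum fun a _ => ?_
  have hp : (2 : ℤ) ^ j ≤ 2 ^ j' := pow_le_pow_right₀ (by norm_num) h
  by_cases h1 : |U a - z| < 2 ^ j
  · rw [if_pos h1, if_pos (h1.trans_le hp)]
  · rw [if_neg h1]
    split_ifs
    exacts [PA.nonneg a, le_rfl]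

lemma seg2_annP_le_one (m : ℕ) : annP PA U z m ≤ 1 := by
  rw [← PA.sum_one]
  exact Finset.sum_le_sum fun a _ => by split_ifs; exacts [le_rfl, PA.nonneg a]

/-- The mass outside of a ball is the sum over the annuli. -/
lemma seg2_annuli (l j : ℕ) :
    (∑ a, if (2 : ℤ) ^ l ≤ |U a - z| ∧ |U a - z| < 2 ^ (j + 1) then PA.w a else 0)
      ≤ ∑ m ∈ Finset.Ico l (j + 1), annP PA U z m := by
  unfold annP
  rw [Finset.sum_comm]
  refine Finset.sum_le_sum fun a _ => ?_
  have hnn : ∀ m ∈ Finset.Ico l (j + 1),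
      0 ≤ (if 2 ^ m ≤ |U a - z| ∧ |U a - z| < 2 ^ (m + 1) then PA.w a else 0) := by
    intro m _
    split_ifs
    exacts [PA.nonneg a, le_rfl]
  by_cases h : (2 : ℤ) ^ l ≤ |U a - z| ∧ |U a - z| < 2 ^ (j + 1)
  · rw [if_pos h]
    obtain ⟨h1, h2⟩ := h
    have hx : U a - z ≠ 0 := by
      intro h0
      rw [h0, abs_zero] at h1
      have : (0 : ℤ) < 2 ^ l := by positivity
      omega
    set m := Nat.log 2 (U a - z).natAbs with hm
    have g1 : 2 ^ m ≤ |U a - z| := seg2_ge hm.symm hx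
    have g2 : |U a - z| < 2 ^ (m + 1) := seg2_lt hm.symm
    have g3 : l ≤ m := by
      by_contra hcon
      push Not at hcon
      have : (2 : ℤ) ^ (m + 1) ≤ 2 ^ l := pow_le_pow_right₀ (by norm_num) (by omega)
      exact absurd (h1.trans_lt g2) (not_lt.2 this)
    have g4 : m < j + 1 := by
      by_contra hcon
      push Not at hcon
      have : (2 : ℤ) ^ (j + 1) ≤ 2 ^ m := pow_le_pow_right₀ (by norm_num) (by omega)
      exact absurd (g1.trans_lt h2) (not_lt.2 this)
    have := Finset.single_le_sum hnn (Finset.mem_Ico.2 ⟨g3, g4⟩)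
    rw [if_pos ⟨g1, g2⟩] at this
    exact this
  · rw [if_neg h]
    exact Finset.sum_nonneg hnn

end

end Vale.Agent.P114
end
end

section

/-!
T12-J1. Information gained at one exit, contaminated version. Template: Dio/Seg2.lean.
-/

open scoped Classical

noncomputable section

namespace Vale.Agent.P114

open FinProb

lemma segC1_W (c c7 : ℝ) (hc : 0 < c) (hc7 : 0 < c7) :
    ∃ W₁ : ℕ, ∀ W : ℕ, W₁ ≤ W → 1 ≤ c7 * W * Real.log 2 ∧
      (16 * (W : ℝ) + 8) * (2 : ℝ)⁻¹ ^ W ≤ c / 2 ∧ (16 * (W : ℝ) + 8) * (2 : ℝ)⁻¹ ^ W ≤ 1 / 2 := by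
  obtain ⟨W₁, h⟩ := seg2_W (min c 1) c7 (lt_min hc one_pos) hc7
  refine ⟨W₁, fun W hW => ?_⟩
  obtain ⟨h1, h2⟩ := h W hW
  have h3 := min_le_left c 1
  have h4 := min_le_right c 1
  exact ⟨h1, by linarith only [h2, h3], by linarith only [h2, h4]⟩

/-- The conditional law in the core. -/
lemma segC1_core {A B : Type} [Fintype A] [Fintype B] (PA : FinProb A) (PB : FinProb B)
    (U : A → ℤ) (Y : B → ℤ) (z r : ℤ) (e : ℝ) (he : e < 1)
    (hmass : (∑ a, if r ≤ |U a - z| then PA.w a else 0) ≤ e) :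
    ∃ PA' : FinProb A, (∀ a, 0 < PA'.w a → |U a - z| < r) ∧
      ∀ f : ℤ → ℝ, (∀ x, 0 ≤ f x) → (∀ x, f x ≤ 1) →
        Ef PA PB U Y f ≤ e + Ef PA' PB U Y f := by
  set K : A → ℕ := fun a => if r ≤ |U a - z| then 1 else 0 with hK
  have hK0 : ∀ a, K a = 0 ↔ ¬ r ≤ |U a - z| := by
    intro a
    by_cases h : r ≤ |U a - z|
    · simp [hK, h]
    · simp [hK, h]
  have hp : PA.p K 0 = 1 - ∑ a, if r ≤ |U a - z| then PA.w a else 0 := by
    have h1 : PA.p K 0 + (∑ a, if r ≤ |U a - z| then PA.w a else 0) = 1 := by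
      rw [← PA.sum_one]
      unfold p
      rw [← Finset.sum_add_distrib]
      refine Finset.sum_congr rfl fun a _ => ?_
      by_cases h : r ≤ |U a - z|
      · rw [if_pos h, if_neg (fun h' => (hK0 a).1 h' h), zero_add]
      · rw [if_neg h, if_pos ((hK0 a).2 h), add_zero]
    linarith only [h1]
  have hp0 : 0 < PA.p K 0 := by rw [hp]; linarith
  have hp1 : PA.p K 0 ≤ 1 := by
    rw [hp]
    have : 0 ≤ ∑ a, if r ≤ |U a - z| then PA.w a else 0 :=
      Finset.sum_nonneg fun a _ => by split_ifs; exacts [PA.nonneg a, le_rfl]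
    linarith
  have hw : ∀ a, (PA.cond K 0).w a = (if K a = 0 then PA.w a else 0) / PA.p K 0 :=
    fun a => by convert PA.cond_w K 0 hp0 a
  refine ⟨PA.cond K 0, fun a ha => ?_, fun f hf0 hf1 => ?_⟩
  · rw [hw a] at ha
    by_contra hcon
    rw [if_neg (fun h => (hK0 a).1 h (not_lt.1 hcon)), zero_div] at ha
    exact lt_irrefl _ ha
  · refine le_trans ?_ (add_le_add_left hmass _)
    unfold Ef
    rw [← Finset.sum_add_distrib]
    refine Finset.sum_le_sum fun a _ => ?_
    have hn : 0 ≤ ∑ b, PB.w b * f (U a + Y b) :=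
      Finset.sum_nonneg fun b _ => mul_nonneg (PB.nonneg b) (hf0 _)
    have h1 : ∑ b, PB.w b * f (U a + Y b) ≤ 1 := by
      rw [← PB.sum_one]
      refine Finset.sum_le_sum fun b _ => ?_
      have := mul_le_mul_of_nonneg_left (hf1 (U a + Y b)) (PB.nonneg b)
      linarith
    by_cases h : r ≤ |U a - z|
    · rw [if_pos h, hw a, if_neg (fun h' => (hK0 a).1 h' h), zero_div, zero_mul, add_zero]
      have := mul_le_mul_of_nonneg_left h1 (PA.nonneg a)
      linarith only [this]
    · rw [if_neg h, hw a, if_pos ((hK0 a).2 h), zero_add]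
      refine mul_le_mul_of_nonneg_right ?_ hn
      rw [le_div_iff₀ hp0]
      have := mul_le_mul_of_nonneg_left hp1 (PA.nonneg a)
      linarith

/-- One exit. Template `exit_one`: `info_ge_test` with `G v` = the property: `v` is a label of the annulus with
excess `≤ c' W` (the condition of the labels is a property of `PA.cond V v`), test function from
`DetC` with the laws `PA.cond V (V a)` and `PA' =` conditional law of `PA` in the core
`|U - z| < 2^(m-4W)`; `E_PA f ≤ mass outside the core + E_PA' f`. No Lipschitz property needed. -/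
theorem exit_oneC (c c7 c' : ℝ) (hc : 0 < c) (hc7 : 0 < c7) (hc71 : c7 ≤ 1) :
    ∃ W₁ : ℕ, ∀ {A B τ : Type} [Fintype A] [Fintype B] (PA : FinProb A) (PB : FinProb B)
      (U : A → ℤ) (Y : B → ℤ) (V : A → τ) (z : ℤ) (m W R : ℕ), W₁ ≤ W → 4 * W ≤ m →
      (∀ a, 0 < PA.w a → |U a - z| < 2 ^ (m + 1)) → DetC PB Y c c7 c' W m R →
      (∀ a a', 0 < PA.w a → 0 < PA.w a' → 2 ^ m ≤ |U a - z| → V a = V a' →
        2 ^ m ≤ |U a' - z| ∧ |U a - U a'| ≤ 2 ^ (m - 4 * W)) →
      (∑ a, if (2 : ℤ) ^ (m - 4 * W) ≤ |U a - z| then PA.w a else 0)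
        ≤ (16 * (W : ℝ) + 4) * (2 : ℝ)⁻¹ ^ (2 * W) →
      c / 2 * (c7 * W * Real.log 2) * (∑ a, if (2 : ℤ) ^ m ≤ |U a - z| ∧
          JU (PA.cond V (V a)) PB U Y (m - R - W) - JU (PA.cond V (V a)) PB U Y (m - R) ≤ c' * W
          then PA.w a else 0)
        ≤ info PA PB U V Y := by
  obtain ⟨W₁, hW₁⟩ := segC1_W c c7 hc hc7
  refine ⟨W₁, ?_⟩
  intro A B τ _ _ PA PB U Y V z m W R hW hm hsupp hdet hlab hmass
  obtain ⟨hW1, hW2, hW3⟩ := hW₁ W hW
  set γ : ℝ := (2 : ℝ) ^ (c7 * W) with hγ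
  have hγ0 : 0 < γ := Real.rpow_pos_of_pos (by norm_num) _
  have hlogγ : Real.log γ = c7 * W * Real.log 2 := by
    rw [hγ, Real.log_rpow (by norm_num)]
  have hγe : Real.exp 1 ≤ γ := by
    rw [← Real.exp_log hγ0, hlogγ]
    exact Real.exp_le_exp.2 hW1
  have hγW : γ ≤ 2 ^ W := by
    rw [hγ, ← Real.rpow_natCast 2 W]
    refine Real.rpow_le_rpow_of_exponent_le (by norm_num) ?_
    have : (0 : ℝ) ≤ W := Nat.cast_nonneg W
    nlinarith only [hc71]
  -- errors
  set q : ℝ := (2 : ℝ)⁻¹ ^ W with hq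
  have hq0 : 0 < q := by positivity
  have hq1 : q ≤ 1 := pow_le_one₀ (by norm_num) (by norm_num)
  have hqW : (2 : ℝ) ^ W * q = 1 := by
    rw [hq, inv_pow]; exact mul_inv_cancel₀ (by positivity)
  have e2 : (2 : ℝ)⁻¹ ^ (2 * W) = q * q := by
    rw [hq, ← pow_add]; congr 1; omega
  rw [e2] at hmass
  have hW0 : (0 : ℝ) ≤ W := Nat.cast_nonneg W
  have hγq : γ * q ≤ 1 := by
    rw [← hqW]; exact mul_le_mul_of_nonneg_right hγW hq0.le
  have h4 : γ * ((16 * (W : ℝ) + 4) * (q * q)) ≤ (16 * (W : ℝ) + 4) * q := by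
    have := mul_le_mul_of_nonneg_right hγq (show 0 ≤ (16 * (W : ℝ) + 4) * q by (clear * -; positivity))
    linarith only [this]
  have h5 : (16 * (W : ℝ) + 4) * (q * q) < 1 := by
    have h6 : (16 * (W : ℝ) + 4) * q * q ≤ (16 * (W : ℝ) + 4) * q * 1 :=
      mul_le_mul_of_nonneg_left hq1 (by (clear * -; positivity))
    linarith only [hW3, hq0, h6]
  obtain ⟨PA', hPA', hEf⟩ := segC1_core PA PB U Y z _ _ h5 hmass
  obtain ⟨G, hGiff⟩ : ∃ G : τ → Prop, ∀ a, 0 < PA.w a → (G (V a) ↔ (2 ^ m ≤ |U a - z| ∧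
      JU (PA.cond V (V a)) PB U Y (m - R - W) - JU (PA.cond V (V a)) PB U Y (m - R)
        ≤ c' * W)) := by
    refine ⟨fun v => (∃ a, 0 < PA.w a ∧ V a = v ∧ 2 ^ m ≤ |U a - z|) ∧
      JU (PA.cond V v) PB U Y (m - R - W) - JU (PA.cond V v) PB U Y (m - R) ≤ c' * W,
      fun a ha => ?_⟩
    constructor
    · rintro ⟨⟨a₁, h1, h2, h3⟩, h4⟩
      exact ⟨(hlab a₁ a h1 ha h3 h2).1, h4⟩
    · rintro ⟨h1, h2⟩
      exact ⟨⟨a, ha, rfl, h1⟩, h2⟩
  have hsum : (∑ a, if (2 : ℤ) ^ m ≤ |U a - z| ∧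
          JU (PA.cond V (V a)) PB U Y (m - R - W) - JU (PA.cond V (V a)) PB U Y (m - R) ≤ c' * W
          then PA.w a else 0)
      = ∑ a, if G (V a) then PA.w a else 0 := by
    refine Finset.sum_congr rfl fun a _ => ?_
    rcases PA.w_zero_or_pos a with ha | ha
    · simp only [tsub_le_iff_right, ha, ite_self]
    · simp only [hGiff a ha]
  rw [hsum, ← hlogγ]
  refine info_ge_test PA PB U V Y G γ (c / 2) hγe (by positivity) fun a ha hGa => ?_
  obtain ⟨hD1, hJ⟩ := (hGiff a ha).1 hGa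
  obtain ⟨f, hf0, hf1, hfc⟩ := hdet (PA.cond V (V a)) PA' U z (U a - z) hD1 (hsupp a ha)
    (fun a' ha' => by
      have hV : V a' = V a := PA.cond_supp V a ha a' ha'
      have hw' : 0 < PA.w a' := by
        rw [PA.cond_w V (V a) (PA.p_pos ha V) a', if_pos hV] at ha'
        by_contra hcon
        rcases PA.w_zero_or_pos a' with h | h
        · rw [h, zero_div] at ha'; exact lt_irrefl _ ha'
        · exact hcon h
      have hd := (hlab a a' ha hw' hD1 hV.symm).2
      have e : U a' - z - (U a - z) = -(U a - U a') := by ring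
      rw [e, abs_neg]
      exact hd)
    (fun a' ha' => (hPA' a' ha').le) hJ
  refine ⟨f, hf0, hf1, ?_⟩
  have h6 := mul_le_mul_of_nonneg_left (hEf f hf0 hf1) hγ0.le
  have h7 : (16 * (W : ℝ) + 4) * q ≤ c / 2 := by linarith only [hq0, hW2]
  rw [mul_add] at h6
  linarith only [hW2, hq0, h4, hfc, h6]

end Vale.Agent.P114
end
end

section

/-!
T11-L1. Entropy of the label `labN`.
-/

open scoped Classical

noncomputable section

namespace Vale.Agent.P114

open FinProb

lemma balP_succ {A : Type*} [Fintype A] (PA : FinProb A) (U : A → ℤ) (z : ℤ) (m : ℕ) :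
    balP PA U z (m + 1) = balP PA U z m + annP PA U z m := by
  unfold balP annP
  rw [← Finset.sum_add_distrib]
  refine Finset.sum_congr rfl fun a _ => ?_
  have h : (2 : ℤ) ^ m ≤ 2 ^ (m + 1) := pow_le_pow_right₀ (by norm_num) (by omega)
  by_cases h1 : |U a - z| < 2 ^ m
  · have h2 : |U a - z| < 2 ^ (m + 1) := lt_of_lt_of_le h1 h
    simp [h1, h2, not_le.2 h1]
  · have h1' := not_lt.1 h1
    by_cases h2 : |U a - z| < 2 ^ (m + 1)
    · simp [h2, h1, h1']
    · simp [h2, h1]

namespace Seg1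

lemma balP_add_sum {A : Type*} [Fintype A] (PA : FinProb A) (U : A → ℤ) (z : ℤ) (ms M : ℕ)
    (h : ms ≤ M) :
    balP PA U z M = balP PA U z ms + ∑ m ∈ Finset.Ico ms M, annP PA U z m := by
  induction M, h using Nat.le_induction with
  | base => simp
  | succ M hM ih => rw [balP_succ, ih, Finset.sum_Ico_succ_top hM, add_assoc]

lemma balP_eq_one {A : Type*} [Fintype A] (PA : FinProb A) (U : A → ℤ) (z : ℤ) (M : ℕ)
    (hM : ∀ a, 0 < PA.w a → |U a - z| < 2 ^ M) : balP PA U z M = 1 := by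
  unfold balP
  rw [← PA.sum_one]
  refine Finset.sum_congr rfl fun a _ => ?_
  rcases PA.w_zero_or_pos a with h | h
  · simp [h]
  · rw [if_pos (hM a h)]

lemma balP_nonneg {A : Type*} [Fintype A] (PA : FinProb A) (U : A → ℤ) (z : ℤ) (m : ℕ) :
    0 ≤ balP PA U z m :=
  Finset.sum_nonneg fun a _ => by split_ifs; exacts [PA.nonneg a, le_rfl]

lemma annP_nonneg {A : Type*} [Fintype A] (PA : FinProb A) (U : A → ℤ) (z : ℤ) (m : ℕ) :
    0 ≤ annP PA U z m :=
  Finset.sum_nonneg fun a _ => by split_ifs; exacts [PA.nonneg a, le_rfl]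

lemma balP_le_one {A : Type*} [Fintype A] (PA : FinProb A) (U : A → ℤ) (z : ℤ) (m : ℕ) :
    balP PA U z m ≤ 1 := by
  rw [← PA.sum_one]
  exact Finset.sum_le_sum fun a _ => by split_ifs; exacts [le_rfl, PA.nonneg a]

lemma annP_le_one {A : Type*} [Fintype A] (PA : FinProb A) (U : A → ℤ) (z : ℤ) (m : ℕ) :
    annP PA U z m ≤ 1 := by
  rw [← PA.sum_one]
  exact Finset.sum_le_sum fun a _ => by split_ifs; exacts [le_rfl, PA.nonneg a]

/-- The annulus of a point in terms of the binary logarithm. -/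
lemma log_natAbs_eq_iff (x : ℤ) (m : ℕ) (hx : x ≠ 0) :
    Nat.log 2 x.natAbs = m ↔ 2 ^ m ≤ |x| ∧ |x| < 2 ^ (m + 1) := by
  have hx' : x.natAbs ≠ 0 := Int.natAbs_ne_zero.2 hx
  have e : |x| = (x.natAbs : ℤ) := by simp
  rw [Nat.log_eq_iff (Or.inr ⟨by norm_num, hx'⟩), e]
  constructor
  · rintro ⟨h1, h2⟩; exact ⟨by exact_mod_cast h1, by exact_mod_cast h2⟩
  · rintro ⟨h1, h2⟩; exact ⟨by exact_mod_cast h1, by exact_mod_cast h2⟩

lemma p_levL_zero {A : Type*} [Fintype A] (PA : FinProb A) (U : A → ℤ) (z : ℤ) (ms : ℕ) :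
    PA.p (levL U z ms) 0 = balP PA U z ms := by
  unfold FinProb.p balP levL
  refine Finset.sum_congr rfl fun a _ => ?_
  by_cases h : |U a - z| < 2 ^ ms
  · simp [h]
  · simp only [h, ↓reduceIte, Nat.add_eq_zero_iff, Nat.log_eq_zero_iff, Order.lt_two_iff, Nat.not_ofNat_le_one, or_false, one_ne_zero, and_false]

lemma p_levL_succ {A : Type*} [Fintype A] (PA : FinProb A) (U : A → ℤ) (z : ℤ) (ms m : ℕ)
    (h : ms ≤ m) :
    PA.p (levL U z ms) (m + 1) = annP PA U z m := by
  unfold FinProb.p annP levL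
  refine Finset.sum_congr rfl fun a _ => ?_
  have h0 : (2 : ℤ) ^ ms ≤ 2 ^ m := pow_le_pow_right₀ (by norm_num) h
  by_cases h1 : |U a - z| < 2 ^ ms
  · have h2 : ¬ (2 ^ m ≤ |U a - z|) := by
      intro h3; exact absurd (lt_of_lt_of_le h1 (h0.trans h3)) (lt_irrefl _)
    simp [h1, h2]
  · have hne : U a - z ≠ 0 := by
      intro h3
      rw [h3, abs_zero] at h1
      exact h1 (by positivity)
    rw [if_neg h1]
    have := log_natAbs_eq_iff (U a - z) m hne
    by_cases h2 : Nat.log 2 (U a - z).natAbs = m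
    · rw [if_pos (by rw [h2]), if_pos (this.1 h2)]
    · rw [if_neg (by omega), if_neg (fun h3 => h2 (this.2 h3))]

lemma p_levL_zero_of {A : Type*} [Fintype A] (PA : FinProb A) (U : A → ℤ) (z : ℤ) (ms M b : ℕ)
    (hM : ∀ a, 0 < PA.w a → |U a - z| < 2 ^ M)
    (hb : b ∉ insert 0 ((Finset.Ico ms M).image (· + 1))) :
    PA.p (levL U z ms) b = 0 := by
  unfold FinProb.p
  refine Finset.sum_eq_zero fun a _ => ?_
  rcases PA.w_zero_or_pos a with h | h
  · simp [h]
  · refine if_neg fun h1 => hb ?_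
    rw [← h1]
    unfold levL
    split_ifs with h2
    · simp only [Finset.image_add_right_Ico, Finset.mem_insert, Finset.mem_Ico, nonpos_iff_eq_zero, Nat.add_eq_zero_iff, one_ne_zero, and_false, lt_add_iff_pos_left, Order.lt_add_one_iff, zero_le, and_true, or_false]
    · have hne : U a - z ≠ 0 := by
        intro h3
        rw [h3, abs_zero] at h2
        exact h2 (by positivity)
      obtain ⟨h3, h4⟩ := (log_natAbs_eq_iff (U a - z) _ hne).1 rfl
      set m := Nat.log 2 (U a - z).natAbs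
      refine Finset.mem_insert_of_mem (Finset.mem_image.2 ⟨m, Finset.mem_Ico.2 ⟨?_, ?_⟩, rfl⟩)
      · by_contra h5
        have h6 : (2 : ℤ) ^ (m + 1) ≤ 2 ^ ms := pow_le_pow_right₀ (by norm_num) (by omega)
        exact h2 (lt_of_lt_of_le h4 h6)
      · by_contra h5
        have h6 : (2 : ℤ) ^ M ≤ 2 ^ m := pow_le_pow_right₀ (by norm_num) (by omega)
        have h7 := hM a h
        exact absurd (lt_of_lt_of_le h7 (h6.trans h3)) (lt_irrefl _)

lemma card_cells (z : ℤ) (n e k : ℕ) (h : n ≤ e + k) :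
    ((Finset.Icc ((z - 2 ^ n) / 2 ^ e) ((z + 2 ^ n) / 2 ^ e)).card : ℝ) ≤ 2 ^ (k + 1) + 2 := by
  rw [Int.card_Icc]
  have hs : (0 : ℤ) < 2 ^ e := by positivity
  have h1 : (z + 2 ^ n) / 2 ^ e * 2 ^ e ≤ z + 2 ^ n := Int.ediv_mul_le _ hs.ne'
  have h2 : z - 2 ^ n < ((z - 2 ^ n) / 2 ^ e + 1) * 2 ^ e := Int.lt_ediv_add_one_mul_self _ hs
  have h3 : (2 : ℤ) ^ n ≤ 2 ^ e * 2 ^ k := by
    rw [← pow_add]; exact pow_le_pow_right₀ (by norm_num) h
  have h4 : (z + 2 ^ n) / 2 ^ e + 1 - (z - 2 ^ n) / 2 ^ e ≤ 2 ^ (k + 1) + 2 := by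
    by_contra hc
    push Not at hc
    have h5 : 2 ^ (k + 1) + 1 ≤ (z + 2 ^ n) / 2 ^ e - ((z - 2 ^ n) / 2 ^ e + 1) := by omega
    have h6 := mul_le_mul_of_nonneg_right h5 hs.le
    rw [sub_mul] at h6
    have h7 : (2 : ℤ) ^ (k + 1) * 2 ^ e = 2 * (2 ^ e * 2 ^ k) := by ring
    rw [add_mul, h7] at h6
    linarith only [hs, h1, h2, h3, h6]
  have h5 : (((z + 2 ^ n) / 2 ^ e + 1 - (z - 2 ^ n) / 2 ^ e).toNat : ℤ) ≤ 2 ^ (k + 1) + 2 := by
    rcases le_total 0 ((z + 2 ^ n) / 2 ^ e + 1 - (z - 2 ^ n) / 2 ^ e) with h | h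
    · rw [Int.toNat_of_nonneg h]; exact h4
    · rw [Int.toNat_of_nonpos h]; positivity
  exact_mod_cast h5

/-- The values of the label in a given annulus. -/
def labS {A : Type*} [Fintype A] (PA : FinProb A) (U : A → ℤ) (z : ℤ) (ms g : ℕ) :
    ℕ → Finset (ℕ × ℤ)
  | 0 => ({0} : Finset ℕ) ×ˢ
      (if ms = 0 then {z / 2 ^ (ms - g)}
        else Finset.Icc ((z - 2 ^ ms) / 2 ^ (ms - g)) ((z + 2 ^ ms) / 2 ^ (ms - g)))
  | m + 1 => ({m + 1} : Finset ℕ) ×ˢ
      Finset.Icc ((z - 2 ^ (m + 1)) / 2 ^ (m - 4 * Wd (annP PA U z m)))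
        ((z + 2 ^ (m + 1)) / 2 ^ (m - 4 * Wd (annP PA U z m)))

/-- Bound of the cardinality of `labS`. -/
def labK {A : Type*} [Fintype A] (PA : FinProb A) (U : A → ℤ) (z : ℤ) (ms g : ℕ) : ℕ → ℝ
  | 0 => if ms = 0 then 1 else 2 ^ (g + 2)
  | m + 1 => 2 ^ (4 * Wd (annP PA U z m) + 3)

lemma card_labS {A : Type*} [Fintype A] (PA : FinProb A) (U : A → ℤ) (z : ℤ) (ms g b : ℕ) :
    ((labS PA U z ms g b).card : ℝ) ≤ labK PA U z ms g b := by
  cases b with
  | zero =>
    unfold labS labK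
    rw [Finset.card_product, Finset.card_singleton, one_mul]
    split_ifs with h
    · simp
    · refine (card_cells z ms (ms - g) g (by omega)).trans ?_
      have : (1 : ℝ) ≤ 2 ^ g := one_le_pow₀ (by norm_num)
      rw [pow_succ, pow_succ, pow_succ]
      linarith
  | succ m =>
    unfold labS labK
    rw [Finset.card_product, Finset.card_singleton, one_mul]
    refine (card_cells z (m + 1) (m - 4 * Wd (annP PA U z m)) (4 * Wd (annP PA U z m) + 1)
      (by omega)).trans ?_
    have : (1 : ℝ) ≤ 2 ^ (4 * Wd (annP PA U z m)) := one_le_pow₀ (by norm_num)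
    show (2 : ℝ) ^ (4 * Wd (annP PA U z m) + 1 + 1) + 2 ≤ 2 ^ (4 * Wd (annP PA U z m) + 3)
    rw [show 4 * Wd (annP PA U z m) + 1 + 1 = 4 * Wd (annP PA U z m) + 2 from rfl,
      pow_add, pow_add]
    linarith

lemma labN_mem {A : Type*} [Fintype A] (PA : FinProb A) (U : A → ℤ) (z : ℤ) (ms g : ℕ) (a : A) :
    labN PA U z ms g a ∈ labS PA U z ms g (levL U z ms a) := by
  unfold labN levL
  split_ifs with h
  · unfold labS
    refine Finset.mem_product.2 ⟨by simp, ?_⟩
    split_ifs with h0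
    · subst h0
      have h1 : U a = z := by
        have : |U a - z| < 1 := by simpa only [Int.abs_lt_one_iff, pow_zero] using h
        have := Int.abs_lt_one_iff.1 this
        omega
      simp [h1]
    · obtain ⟨h1, h2⟩ := abs_lt.1 h
      exact Finset.mem_Icc.2 ⟨Int.ediv_le_ediv (by positivity) (by linarith),
        Int.ediv_le_ediv (by positivity) (by linarith)⟩
  · have hne : U a - z ≠ 0 := by
      intro h3
      rw [h3, abs_zero] at h
      exact h (by positivity)
    obtain ⟨h3, h4⟩ := (log_natAbs_eq_iff (U a - z) _ hne).1 rfl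
    obtain ⟨h1, h2⟩ := abs_lt.1 h4
    unfold labS
    exact Finset.mem_product.2 ⟨by simp, Finset.mem_Icc.2
      ⟨Int.ediv_le_ediv (by positivity) (by linarith only [h1]),
        Int.ediv_le_ediv (by positivity) (by linarith)⟩⟩

end Seg1

open Seg1

/-- `H(label) ≤ 4 ∑ g(p_m) + C 1_{ms > 0}`. Use `H_le_add_E_log_card` with the annulus label
`levL` as conditioning variable (`2 ^ (4 W + 3)` cells in the annulus `m`, `2 ^ (g+2)` cells in the
ball if `ms > 0`, one if `ms = 0`), `H_eq_sum`, `-x log x ≤ 1 - x` for the ball,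
`4 W log 2 ≤ (1/2) log (1/p)`. -/
theorem labN_entropy {A : Type} [Fintype A] (PA : FinProb A) (U : A → ℤ) (z : ℤ)
    (ms g M W₁ : ℕ) (hW₁ : 1 ≤ W₁) (hM : ∀ a, 0 < PA.w a → |U a - z| < 2 ^ M) (hms : ms ≤ M)
    (hsmall : ∀ m, ms ≤ m → annP PA U z m ≤ (2 : ℝ)⁻¹ ^ (8 * W₁)) :
    PA.H (labN PA U z ms g) ≤ 4 * ∑ m ∈ Finset.Ico ms M, Real.negMulLog (annP PA U z m)
      + (if ms = 0 then 0 else ((g : ℝ) + 2) * Real.log 2) := by
  have key := PA.H_le_add_E_log_card (labN PA U z ms g) (levL U z ms) (labS PA U z ms g)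
    (labK PA U z ms g) (labN_mem PA U z ms g) (card_labS PA U z ms g)
  refine key.trans ?_
  have hlog2 : (0.69 : ℝ) < Real.log 2 := by have := Real.log_two_gt_d9; linarith only [this]
  set Φ : ℕ → ℝ := fun b => Real.negMulLog (PA.p (levL U z ms) b)
    + PA.p (levL U z ms) b * Real.log (labK PA U z ms g b) with hΦ
  have hK1 : ∀ b, 1 ≤ labK PA U z ms g b := by
    intro b
    cases b with
    | zero =>
      unfold labK
      split_ifs
      · exact le_rfl
      · exact one_le_pow₀ (by norm_num)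
    | succ m => exact one_le_pow₀ (by norm_num)
  have hΦ0 : ∀ b, 0 ≤ Φ b := fun b => add_nonneg
    (Real.negMulLog_nonneg (PA.p_nonneg _ _) (PA.p_le_one _ _))
    (mul_nonneg (PA.p_nonneg _ _) (Real.log_nonneg (hK1 b)))
  have e1 : PA.H (levL U z ms) + ∑ a, PA.w a * Real.log (labK PA U z ms g (levL U z ms a))
      = ∑ b ∈ Finset.univ.image (levL U z ms), Φ b := by
    rw [PA.H_eq_sum, PA.sum_fiber (levL U z ms) (fun b => Real.log (labK PA U z ms g b)),
      ← Finset.sum_add_distrib]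
  rw [e1]
  have e2 : ∑ b ∈ Finset.univ.image (levL U z ms), Φ b
      ≤ ∑ b ∈ insert 0 ((Finset.Ico ms M).image (· + 1)), Φ b := by
    refine (Finset.sum_le_sum_of_subset_of_nonneg (Finset.subset_union_left
      (s₂ := insert 0 ((Finset.Ico ms M).image (· + 1)))) fun b _ _ => hΦ0 b).trans
      (le_of_eq ?_)
    symm
    refine Finset.sum_subset Finset.subset_union_right fun b _ hb => ?_
    have := p_levL_zero_of PA U z ms M b hM hb
    simp [hΦ, this]
  have e3 : ∑ b ∈ insert 0 ((Finset.Ico ms M).image (· + 1)), Φ b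
      = Φ 0 + ∑ m ∈ Finset.Ico ms M, Φ (m + 1) := by
    rw [Finset.sum_insert (by simp only [Finset.image_add_right_Ico, Finset.mem_Ico, nonpos_iff_eq_zero, Nat.add_eq_zero_iff, one_ne_zero, and_false, lt_add_iff_pos_left, Order.lt_add_one_iff, zero_le, and_true, not_false_eq_true]), Finset.sum_image (by intro x _ y _ h; simpa using h)]
  have h0 : Φ 0 ≤ ∑ m ∈ Finset.Ico ms M, annP PA U z m
      + (if ms = 0 then 0 else ((g : ℝ) + 2) * Real.log 2) := by
    have h1 := balP_add_sum PA U z ms M hms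
    rw [balP_eq_one PA U z M hM] at h1
    have h2 : Real.negMulLog (balP PA U z ms) ≤ 1 - balP PA U z ms := by
      rcases (balP_nonneg PA U z ms).eq_or_lt with h | h
      · rw [← h]; simp
      · have := Real.one_sub_inv_le_log_of_pos h
        unfold Real.negMulLog
        have h3 : balP PA U z ms * (1 - (balP PA U z ms)⁻¹) ≤
          balP PA U z ms * Real.log (balP PA U z ms) := mul_le_mul_of_nonneg_left this h.le
        rw [mul_sub, mul_inv_cancel₀ h.ne'] at h3
        linarith only [h3]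
    have h3 : balP PA U z ms * Real.log (labK PA U z ms g 0)
        ≤ (if ms = 0 then 0 else ((g : ℝ) + 2) * Real.log 2) := by
      unfold labK
      split_ifs with h
      · simp
      · rw [Real.log_pow]
        push_cast
        have h4 : (0 : ℝ) ≤ ((g : ℝ) + 2) * Real.log 2 := by (clear * -; positivity)
        have := mul_le_mul_of_nonneg_right (balP_le_one PA U z ms) h4
        linarith only [this]
    simp only [hΦ]
    rw [p_levL_zero]
    linarith only [h1, h2, h3]
  have h1 : ∀ m ∈ Finset.Ico ms M, annP PA U z m + Φ (m + 1)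
      ≤ 4 * Real.negMulLog (annP PA U z m) := by
    intro m hm
    have hm' := (Finset.mem_Ico.1 hm).1
    simp only [hΦ]
    rw [p_levL_succ PA U z ms m hm']
    set p := annP PA U z m with hp
    have hp0 : 0 ≤ p := annP_nonneg PA U z m
    rcases hp0.eq_or_lt with h | h
    · rw [← h]; simp
    · have hp1 : p ≤ 1 := annP_le_one PA U z m
      have hs : p ≤ (2 : ℝ)⁻¹ ^ (8 * W₁) := hsmall m hm'
      have hb := (Wd_bounds p h hp1).2
      have l1 : Real.log p ≤ -(8 * (Wd p : ℝ) * Real.log 2) := by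
        have := Real.log_le_log h hb
        rw [Real.log_pow, Real.log_inv] at this
        push_cast at this
        linarith only [this]
      have l2 : Real.log p ≤ -(8 * Real.log 2) := by
        have := Real.log_le_log h hs
        rw [Real.log_pow, Real.log_inv] at this
        push_cast at this
        have h5 : (1 : ℝ) ≤ W₁ := by exact_mod_cast hW₁
        linarith only [mul_nonneg (sub_nonneg.2 h5) (le_of_lt (sub_pos.2 hlog2)), h5, this]
      have l3 : Real.log (labK PA U z ms g (m + 1)) = (4 * (Wd p : ℝ) + 3) * Real.log 2 := by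
        unfold labK
        rw [Real.log_pow]
        push_cast
        rfl
      rw [l3]
      unfold Real.negMulLog
      have l4 : 1 + (4 * (Wd p : ℝ) + 3) * Real.log 2 ≤ 3 * (-Real.log p) := by
        linarith only [hlog2, l1, l2]
      have l5 := mul_le_mul_of_nonneg_left l4 h.le
      linarith only [l5]
  have h2 := Finset.sum_le_sum h1
  rw [Finset.sum_add_distrib, ← Finset.mul_sum] at h2
  rw [e3] at e2
  linarith only [e2, h0, h2]

end Vale.Agent.P114
end
end

section

/-!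
T11-L3. The basic gain: no ball of half the radius carries most of the mass.
-/

open scoped Classical

noncomputable section

namespace Vale.Agent.P114

open FinProb

namespace Seg3

/-- the exponent of the cell size of a level -/
def exn {A : Type*} [Fintype A] (PA : FinProb A) (U : A → ℤ) (z : ℤ) (ms g : ℕ) (l : ℕ) : ℕ :=
  if l = 0 then ms - g else (l - 1) - 4 * Wd (annP PA U z (l - 1))

lemma labN_eq {A : Type*} [Fintype A] (PA : FinProb A) (U : A → ℤ) (z : ℤ) (ms g : ℕ) (a : A) :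
    labN PA U z ms g a = (levL U z ms a, U a / 2 ^ (exn PA U z ms g (levL U z ms a))) := by
  unfold labN levL exn
  by_cases h : |U a - z| < 2 ^ ms
  · simp [h]
  · simp only [h, ↓reduceIte, Nat.add_eq_zero_iff, Nat.log_eq_zero_iff, Order.lt_two_iff, Nat.not_ofNat_le_one, or_false, one_ne_zero, and_false, add_tsub_cancel_right]

lemma far_cell (x y S S' : ℤ) (L : ℕ) (hS : 1 ≤ S) (hS' : 1 ≤ S')
    (h1 : 2 ^ (2 * L + 3) * S ≤ |x - y|) (h2 : 2 ^ (2 * L + 3) * S' ≤ |x - y|) :
    ∃ j : ℕ, ∀ x' y' : ℤ, |x' - x| < S → |y' - y| < S' →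
      2 ^ j ≤ |x' - y'| ∧ |x' - y'| ≤ 2 ^ (j + 3) ∧ 4 ^ L * |x' - x| ≤ 2 ^ j ∧
        4 ^ L * |y' - y| ≤ 2 ^ j := by
  have hQ : (1 : ℤ) ≤ 4 ^ L := one_le_pow₀ (by norm_num)
  have hp : (2 : ℤ) ^ (2 * L + 3) = 8 * 4 ^ L := by
    rw [pow_add, pow_mul]; norm_num; ring
  rw [hp] at h1 h2
  set N := (x - y).natAbs with hN
  have hNz : ((N : ℕ) : ℤ) = |x - y| := by rw [hN, Int.natCast_natAbs]
  have hN8 : 8 ≤ N := by
    have : (8 : ℤ) ≤ ((N : ℕ) : ℤ) := by rw [hNz]; nlinarith only [hS, h1, hQ]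
    exact_mod_cast this
  have he1 : 2 ^ (Nat.log 2 N) ≤ N := Nat.pow_log_le_self 2 (by omega)
  have he2 : N < 2 ^ (Nat.log 2 N + 1) := Nat.lt_pow_succ_log_self (by norm_num) N
  have he3 : 3 ≤ Nat.log 2 N := by
    apply Nat.le_log_of_pow_le (by norm_num)
    omega
  obtain ⟨j, hj⟩ : ∃ j, Nat.log 2 N = j + 1 := ⟨Nat.log 2 N - 1, by omega⟩
  rw [hj] at he1 he2
  have he1' : 2 * (2 : ℤ) ^ j ≤ |x - y| := by
    rw [← hNz]
    have : ((2 ^ (j + 1) : ℕ) : ℤ) ≤ N := by exact_mod_cast he1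
    push_cast at this
    rw [pow_succ] at this
    linarith only [this]
  have he2' : |x - y| < 4 * (2 : ℤ) ^ j := by
    rw [← hNz]
    have : (N : ℤ) < ((2 ^ (j + 1 + 1) : ℕ) : ℤ) := by exact_mod_cast he2
    push_cast at this
    rw [pow_succ, pow_succ] at this
    linarith only [this]
  refine ⟨j, fun x' y' hx hy => ?_⟩
  have hP : (1 : ℤ) ≤ 2 ^ j := one_le_pow₀ (by norm_num)
  have a1 : 8 * S ≤ |x - y| := by nlinarith only [h1, hQ, hS]
  have a2 : 8 * S' ≤ |x - y| := by nlinarith only [h2, hQ, hS']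
  have a3 : |x - y| ≤ |x' - x| + |x' - y'| + |y' - y| := by
    have : x - y = -(x' - x) + (x' - y') + (y' - y) := by ring
    rw [this]
    refine (abs_add_le _ _).trans ?_
    have := abs_add_le (-(x' - x)) (x' - y')
    rw [abs_neg] at this
    linarith only [this]
  have a4 : |x' - y'| ≤ |x' - x| + |x - y| + |y' - y| := by
    have : x' - y' = (x' - x) + (x - y) + (-(y' - y)) := by ring
    rw [this]
    refine (abs_add_le _ _).trans ?_
    have := abs_add_le (x' - x) (x - y)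
    rw [abs_neg]
    linarith only [this]
  have a5 : (2 : ℤ) ^ (j + 3) = 8 * 2 ^ j := by rw [pow_add]; norm_num; ring
  have b1 : 4 ^ L * |x' - x| ≤ 4 ^ L * S := mul_le_mul_of_nonneg_left hx.le (by linarith only [hQ])
  have b2 : 4 ^ L * |y' - y| ≤ 4 ^ L * S' := mul_le_mul_of_nonneg_left hy.le (by linarith only [hQ])
  refine ⟨by linarith only [hS, he1', hx, hy, a1, a2, a3], by rw [a5]; linarith only [hN, he2', hx, hy, a1, a2, a4], by linarith only [h1, hN, he2', b1], by linarith only [h2, hN, he2', b2]⟩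

lemma cell_close (u v : ℤ) (k : ℕ) (h : u / 2 ^ k = v / 2 ^ k) : |u - v| < 2 ^ k := by
  have hR : (0 : ℤ) < 2 ^ k := by positivity
  have d1 := Int.ediv_mul_le u hR.ne'
  have d2 := Int.lt_ediv_add_one_mul_self u hR
  have d3 := Int.ediv_mul_le v hR.ne'
  have d4 := Int.lt_ediv_add_one_mul_self v hR
  rw [h] at d1 d2
  rw [abs_lt]
  constructor <;> linarith

/-- Sizes of the cells of two distant points, one of them in the ball. -/
lemma cell_size {A : Type*} [Fintype A] (PA : FinProb A) (U : A → ℤ) (z : ℤ) (ms L Wb : ℕ)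
    (hWb : 2 * L + 4 ≤ 4 * Wb) (hms : 2 * L + 4 ≤ ms)
    (hW : ∀ m, ms ≤ m → 0 < annP PA U z m → Wb ≤ Wd (annP PA U z m)) (a a' : A)
    (hin : |U a - z| < 2 ^ ms) (hE : (2 : ℤ) ^ (ms - 1) ≤ |U a - U a'|) (hw : 0 < PA.w a') :
    (2 : ℤ) ^ (2 * L + 3) * 2 ^ (exn PA U z ms (2 * L + 4) (levL U z ms a)) ≤ |U a - U a'| ∧
    (2 : ℤ) ^ (2 * L + 3) * 2 ^ (exn PA U z ms (2 * L + 4) (levL U z ms a')) ≤ |U a - U a'| := by
  have hball : ∀ b, |U b - z| < 2 ^ ms →
      (2 : ℤ) ^ (2 * L + 3) * 2 ^ (exn PA U z ms (2 * L + 4) (levL U z ms b)) ≤ |U a - U a'| := by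
    intro b hb
    have h1 : exn PA U z ms (2 * L + 4) (levL U z ms b) = ms - (2 * L + 4) := by
      unfold exn levL; simp [hb]
    rw [h1, ← pow_add]
    have h2 : 2 * L + 3 + (ms - (2 * L + 4)) = ms - 1 := by omega
    rw [h2]; exact hE
  refine ⟨hball a hin, ?_⟩
  by_cases hb : |U a' - z| < 2 ^ ms
  · exact hball a' hb
  · set m := Nat.log 2 (U a' - z).natAbs with hm
    have hNz : (((U a' - z).natAbs : ℕ) : ℤ) = |U a' - z| := by rw [Int.natCast_natAbs]
    push Not at hb
    have hN : 2 ^ ms ≤ (U a' - z).natAbs := by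
      have : (2 : ℤ) ^ ms ≤ (((U a' - z).natAbs : ℕ) : ℤ) := by rw [hNz]; exact hb
      exact_mod_cast this
    have hN0 : (U a' - z).natAbs ≠ 0 := by
      have : 0 < 2 ^ ms := by positivity
      omega
    have hmm : ms ≤ m := Nat.le_log_of_pow_le (by norm_num) hN
    have he1 : 2 ^ m ≤ (U a' - z).natAbs := Nat.pow_log_le_self 2 hN0
    have he2 : (U a' - z).natAbs < 2 ^ (m + 1) := Nat.lt_pow_succ_log_self (by norm_num) _
    have he1' : (2 : ℤ) ^ m ≤ |U a' - z| := by rw [← hNz]; exact_mod_cast he1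
    have he2' : |U a' - z| < (2 : ℤ) ^ (m + 1) := by rw [← hNz]; exact_mod_cast he2
    have hann : 0 < annP PA U z m := by
      unfold annP
      have h1 : (if 2 ^ m ≤ |U a' - z| ∧ |U a' - z| < 2 ^ (m + 1) then PA.w a' else 0)
          ≤ ∑ a, if 2 ^ m ≤ |U a - z| ∧ |U a - z| < 2 ^ (m + 1) then PA.w a else 0 :=
        Finset.single_le_sum (f := fun a => if 2 ^ m ≤ |U a - z| ∧ |U a - z| < 2 ^ (m + 1)
          then PA.w a else 0) (fun b _ => by
            split_ifs
            · exact PA.nonneg b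
            · exact le_rfl) (Finset.mem_univ a')
      rw [if_pos ⟨he1', he2'⟩] at h1
      linarith only [hw, h1]
    have hWm := hW m hmm hann
    have h1 : exn PA U z ms (2 * L + 4) (levL U z ms a') = m - 4 * Wd (annP PA U z m) := by
      unfold exn levL
      rw [if_neg (not_lt.2 hb)]
      simp only [← hm, Nat.add_eq_zero_iff, one_ne_zero, and_false, ↓reduceIte, add_tsub_cancel_right]
    rw [h1, ← pow_add]
    have h2 : (2 : ℤ) ^ (2 * L + 3 + (m - 4 * Wd (annP PA U z m))) ≤ 2 ^ (m - 1) :=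
      pow_le_pow_right₀ (by norm_num) (by (clear * - hWb hms hmm hWm; omega))
    refine h2.trans ?_
    rcases Nat.eq_or_lt_of_le hmm with h3 | h3
    · rw [← h3]; exact hE
    · have h4 : (2 : ℤ) ^ ms ≤ 2 ^ (m - 1) := pow_le_pow_right₀ (by norm_num) (by omega)
      have h5 : (2 : ℤ) ^ m = 2 * 2 ^ (m - 1) := by
        rw [← pow_succ']
        congr 1
        omega
      have h6 : |U a' - z| ≤ |U a - z| + |U a - U a'| := by
        have : U a' - z = (U a - z) + (-(U a - U a')) := by ring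
        rw [this]
        refine (abs_add_le _ _).trans ?_
        rw [abs_neg]
      linarith only [hin, he1, h4, h5, h6]

end Seg3

open Seg3

/-- Basic gain. `pair_gain` with `V a = Encodable.encode (labN a)` and
`far v v' := ∃ a a', V a = v ∧ V a' = v' ∧ (cell sizes ≤ 2^{-2L-3} |U a - U a'|)`. Two independent
copies are `2^{ms-1}`-far with probability `≥ κ` (`hmin`), and both are outside the ball with
probability `≤ κ²`; if one of them is in the ball the cells are small compared with the distance. -/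
theorem basic_gain (α C₀ : ℝ) (hα0 : 0 ≤ α) (hα1 : α < 1) (hC₀ : 0 ≤ C₀) :
    ∃ (g Wb : ℕ) (cL : ℝ), 0 < cL ∧ ∀ (κ : ℝ), 0 < κ → κ ≤ 1 / 2 →
      ∀ {A B : Type} [Fintype A] [Fintype B] (PA : FinProb A) (PB : FinProb B) (U : A → ℤ)
      (Y : B → ℤ) (z : ℤ) (ms : ℕ),
      (∀ j W : ℕ, PB.H (fun b => Y b / 2 ^ j) - PB.H (fun b => Y b / 2 ^ (j + W))
        ≤ α * (W * Real.log 2) + C₀) →
      1 ≤ ms → g ≤ ms → 1 - κ ≤ balP PA U z ms →
      (∀ a, 0 < PA.w a → balP PA U (U a) (ms - 1) < 1 - κ) →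
      (∀ m, ms ≤ m → 0 < annP PA U z m → Wb ≤ Wd (annP PA U z m)) →
      cL * κ ≤ info PA PB U (labN PA U z ms g) Y := by
  have hlog2 : 0 < Real.log 2 := Real.log_pos (by norm_num)
  have h1α : 0 < 1 - α := by linarith
  -- choice of `L`
  obtain ⟨L, hL⟩ : ∃ L : ℕ, 1 + (12 * Real.log 2 + C₀) ≤ (1 - α) * (L * Real.log 2) := by
    obtain ⟨L, hL⟩ := exists_nat_ge ((1 + (12 * Real.log 2 + C₀)) / ((1 - α) * Real.log 2))
    refine ⟨L, ?_⟩
    rw [div_le_iff₀ (by positivity)] at hL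
    linarith
  set c₁ : ℝ := ((1 - α) * (L * Real.log 2) - (12 * Real.log 2 + C₀)) / 4 ^ L with hc₁
  have hc₁0 : 1 / 4 ^ L ≤ c₁ := by
    rw [hc₁]
    exact div_le_div_of_nonneg_right (by linarith only [hL]) (by positivity)
  refine ⟨2 * L + 4, L + 1, 1 / 4 ^ L / 2, by positivity, ?_⟩
  intro κ hκ hκ2 A B _ _ PA PB U Y z ms hY hms1 hmsg hball hmin hW
  set lab := labN PA U z ms (2 * L + 4) with hlab
  set V : A → ℤ := fun a => (Encodable.encode (lab a) : ℤ) with hV
  have hVi : ∀ a b, V a = V b ↔ lab a = lab b := by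
    intro a b
    simp only [hV, Nat.cast_inj, Encodable.encode_inj]
  set ex : A → ℕ := fun a => exn PA U z ms (2 * L + 4) (levL U z ms a) with hex
  obtain ⟨far, hfar⟩ : ∃ far : ℤ → ℤ → Prop, ∀ v v', far v v' ↔ ∃ a a', V a = v ∧ V a' = v' ∧
      (2 : ℤ) ^ (2 * L + 3) * 2 ^ ex a ≤ |U a - U a'| ∧
      (2 : ℤ) ^ (2 * L + 3) * 2 ^ ex a' ≤ |U a - U a'| := ⟨_, fun _ _ => Iff.rfl⟩
  have hclose : ∀ a b, V b = V a → |U b - U a| < 2 ^ ex a := by
    intro a b h
    rw [hVi, hlab, labN_eq, labN_eq, Prod.mk.injEq] at h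
    obtain ⟨h1, h2⟩ := h
    rw [h1] at h2
    exact cell_close _ _ _ h2
  have key := pair_gain PA PB U Y V far L α C₀ hα1.le (fun j => hY j (3 + L)) (by
    intro v v' hvv
    rw [hfar] at hvv
    obtain ⟨a, a', rfl, rfl, h1, h2⟩ := hvv
    obtain ⟨j, hj⟩ := far_cell (U a) (U a') (2 ^ ex a) (2 ^ ex a') L
      (one_le_pow₀ (by norm_num)) (one_le_pow₀ (by norm_num)) h1 h2
    exact ⟨j, U a, U a', fun b b' hb hb' => hj _ _ (hclose a b hb) (hclose a' b' hb')⟩)
  rw [← hc₁] at key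
  have hinfo : info PA PB U V Y = info PA PB U lab Y := by
    unfold info
    have e1 : PA.H V = PA.H lab := H_congr_det _ fun a b => (hVi a b).symm
    have e2 : (PA.prod PB).H (fun x => (U x.1 + Y x.2, V x.1))
        = (PA.prod PB).H (fun x => (U x.1 + Y x.2, lab x.1)) :=
      H_congr_det _ fun x y => by
        simp only [Prod.mk.injEq, hVi]
    rw [e1, e2]
  rw [hinfo] at key
  -- the mass of the far pairs
  have hE1 : κ ≤ ∑ x : A × A, if (2 : ℤ) ^ (ms - 1) ≤ |U x.1 - U x.2| then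
      (PA.prod PA).w x else 0 := by
    have e1 : ∀ a, ∑ a', (if (2 : ℤ) ^ (ms - 1) ≤ |U a - U a'| then (PA.prod PA).w (a, a') else 0)
        = PA.w a * (1 - balP PA U (U a) (ms - 1)) := by
      intro a
      have e2 : (1 : ℝ) = ∑ a', PA.w a' := PA.sum_one.symm
      unfold balP
      rw [e2, ← Finset.sum_sub_distrib, Finset.mul_sum]
      refine Finset.sum_congr rfl fun a' _ => ?_
      rw [abs_sub_comm (U a) (U a')]
      by_cases h : |U a' - U a| < 2 ^ (ms - 1)
      · rw [if_neg (not_le.2 h), if_pos h]; ring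
      · rw [if_pos (not_lt.1 h), if_neg h, prod_w]; ring
    rw [Fintype.sum_prod_type, Finset.sum_congr rfl fun a _ => e1 a]
    have e3 : κ = ∑ a, PA.w a * κ := by rw [← Finset.sum_mul, PA.sum_one, one_mul]
    rw [e3]
    refine Finset.sum_le_sum fun a _ => ?_
    rcases PA.w_zero_or_pos a with ha | ha
    · rw [ha]; simp
    · exact mul_le_mul_of_nonneg_left (by linarith only [hmin a ha]) ha.le
  have hE2 : (∑ x : A × A, if ¬ (|U x.1 - z| < 2 ^ ms) ∧ ¬ (|U x.2 - z| < 2 ^ ms) then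
      (PA.prod PA).w x else 0) ≤ κ * κ := by
    have e1 : (∑ x : A × A, if ¬ (|U x.1 - z| < 2 ^ ms) ∧ ¬ (|U x.2 - z| < 2 ^ ms) then
        (PA.prod PA).w x else 0)
        = (1 - balP PA U z ms) * (1 - balP PA U z ms) := by
      have e2 : 1 - balP PA U z ms = ∑ a, if ¬ (|U a - z| < 2 ^ ms) then PA.w a else 0 := by
        have e3 : (1 : ℝ) = ∑ a', PA.w a' := PA.sum_one.symm
        unfold balP
        rw [e3, ← Finset.sum_sub_distrib]
        refine Finset.sum_congr rfl fun a _ => ?_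
        by_cases h : |U a - z| < 2 ^ ms
        · rw [if_pos h, if_neg (not_not.2 h)]; ring
        · rw [if_neg h, if_pos h]; ring
      rw [e2, Finset.sum_mul_sum, Fintype.sum_prod_type]
      refine Finset.sum_congr rfl fun a _ => Finset.sum_congr rfl fun a' _ => ?_
      by_cases h : |U a - z| < 2 ^ ms <;> by_cases h' : |U a' - z| < 2 ^ ms <;>
        simp [h, h', prod_w]
    rw [e1]
    have e4 : balP PA U z ms ≤ 1 := by
      rw [← PA.sum_one]
      unfold balP
      refine Finset.sum_le_sum fun a _ => ?_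
      split_ifs
      · exact le_rfl
      · exact PA.nonneg a
    exact mul_le_mul (by linarith only [hball]) (by linarith only [hball]) (by linarith only [e4]) hκ.le
  have hmass : κ / 2 ≤ ∑ x : A × A, if far (V x.1) (V x.2) then (PA.prod PA).w x else 0 := by
    have h1 : ∑ x : A × A, ((if (2 : ℤ) ^ (ms - 1) ≤ |U x.1 - U x.2| then
          (PA.prod PA).w x else 0)
        - (if ¬ (|U x.1 - z| < 2 ^ ms) ∧ ¬ (|U x.2 - z| < 2 ^ ms) then
          (PA.prod PA).w x else 0))
        ≤ ∑ x : A × A, if far (V x.1) (V x.2) then (PA.prod PA).w x else 0 := by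
      refine Finset.sum_le_sum fun x _ => ?_
      obtain ⟨a, a'⟩ := x
      have hnn := (PA.prod PA).nonneg (a, a')
      by_cases hE : (2 : ℤ) ^ (ms - 1) ≤ |U a - U a'|
      · by_cases hout : ¬ (|U a - z| < 2 ^ ms) ∧ ¬ (|U a' - z| < 2 ^ ms)
        · rw [if_pos hE, if_pos hout, sub_self]
          split_ifs
          · exact hnn
          · exact le_rfl
        · rw [if_pos hE, if_neg hout, sub_zero]
          rcases PA.w_zero_or_pos a with ha | ha
          · have : (PA.prod PA).w (a, a') = 0 := by rw [prod_w, ha, zero_mul]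
            rw [this]; simp
          rcases PA.w_zero_or_pos a' with ha' | ha'
          · have : (PA.prod PA).w (a, a') = 0 := by rw [prod_w, ha', mul_zero]
            rw [this]; simp
          have hf : far (V a) (V a') := by
            rw [hfar]
            refine ⟨a, a', rfl, rfl, ?_⟩
            by_cases hin : |U a - z| < 2 ^ ms
            · exact cell_size PA U z ms L (L + 1) (by omega) hmsg hW a a' hin hE ha'
            · have hin' : |U a' - z| < 2 ^ ms := by
                by_contra hc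
                exact hout ⟨hin, hc⟩
              have := cell_size PA U z ms L (L + 1) (by omega) hmsg hW a' a hin'
                (by rw [abs_sub_comm]; exact hE) ha
              rw [abs_sub_comm (U a') (U a)] at this
              exact ⟨this.2, this.1⟩
          rw [if_pos hf]
      · rw [if_neg hE]
        have h2 : 0 ≤ (if ¬ (|U a - z| < 2 ^ ms) ∧ ¬ (|U a' - z| < 2 ^ ms) then
          (PA.prod PA).w (a, a') else 0) := by
          split_ifs
          · exact hnn
          · exact le_rfl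
        have h3 : 0 ≤ (if far (V a) (V a') then (PA.prod PA).w (a, a') else 0) := by
          split_ifs
          · exact hnn
          · exact le_rfl
        linarith only [h2, h3]
    rw [Finset.sum_sub_distrib] at h1
    have h4 : κ * κ ≤ κ * (1 / 2) := mul_le_mul_of_nonneg_left hκ2 hκ.le
    linarith only [hE1, hE2, h1, h4]
  refine le_trans ?_ key
  have h5 : (0 : ℝ) ≤ 1 / 4 ^ L := by positivity
  have h6 : 1 / 4 ^ L / 2 * κ = 1 / 4 ^ L * (κ / 2) := by ring
  rw [h6]
  exact (mul_le_mul_of_nonneg_right hc₁0 (by linarith only [hκ])).trans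
    (mul_le_mul_of_nonneg_left hmass (h5.trans hc₁0))

end Vale.Agent.P114
end
end

section

/-!
T11-M. The gain lemma without logarithmic loss.
-/

open scoped Classical

noncomputable section

namespace Vale.Agent.P114

open FinProb

lemma annP_nonneg {A : Type*} [Fintype A] (PA : FinProb A) (U : A → ℤ) (z : ℤ) (m : ℕ) :
    0 ≤ annP PA U z m :=
  Finset.sum_nonneg fun a _ => by split_ifs; exacts [PA.nonneg a, le_rfl]

lemma balP_add_annP_le {A : Type*} [Fintype A] (PA : FinProb A) (U : A → ℤ) (z : ℤ) (ms m : ℕ)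
    (h : ms ≤ m) : balP PA U z ms + annP PA U z m ≤ 1 := by
  unfold balP annP
  rw [← Finset.sum_add_distrib, ← PA.sum_one]
  refine Finset.sum_le_sum fun a _ => ?_
  have h1 : (2 : ℤ) ^ ms ≤ 2 ^ m := pow_le_pow_right₀ (by norm_num) h
  have := PA.nonneg a
  by_cases h2 : |U a - z| < 2 ^ ms
  · have h3 : ¬ (2 ^ m ≤ |U a - z| ∧ |U a - z| < 2 ^ (m + 1)) := by
      rintro ⟨h4, _⟩; linarith only [h1, h2, h4]
    rw [if_pos h2, if_neg h3, add_zero]
  · rw [if_neg h2, zero_add]
    split_ifs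
    exacts [le_rfl, this]

lemma annP_pos_iff {A : Type*} [Fintype A] (PA : FinProb A) (U : A → ℤ) (z : ℤ) (m : ℕ)
    (h : 0 < annP PA U z m) :
    ∃ a, 0 < PA.w a ∧ 2 ^ m ≤ |U a - z| ∧ |U a - z| < 2 ^ (m + 1) := by
  by_contra hcon
  push Not at hcon
  have : annP PA U z m ≤ 0 := by
    unfold annP
    refine Finset.sum_nonpos fun a _ => ?_
    split_ifs with h1
    · by_contra h2
      push Not at h2
      have := hcon a h2 h1.1
      linarith [h1.2]
    · exact le_rfl
  linarith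

lemma w_le_annP {A : Type*} [Fintype A] (PA : FinProb A) (U : A → ℤ) (z : ℤ) (m : ℕ) (a : A)
    (h1 : 2 ^ m ≤ |U a - z|) (h2 : |U a - z| < 2 ^ (m + 1)) : PA.w a ≤ annP PA U z m := by
  unfold annP
  refine le_trans ?_ (Finset.single_le_sum (f := fun a =>
    if 2 ^ m ≤ |U a - z| ∧ |U a - z| < 2 ^ (m + 1) then PA.w a else 0)
    (fun i _ => by split_ifs; exacts [PA.nonneg i, le_rfl]) (Finset.mem_univ a))
  simp only [h1, h2, and_self, if_true, le_refl]

lemma log_annulus (x : ℤ) (hx : x ≠ 0) :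
    (2 : ℤ) ^ (Nat.log 2 x.natAbs) ≤ |x| ∧ |x| < 2 ^ (Nat.log 2 x.natAbs + 1) := by
  have h0 : x.natAbs ≠ 0 := Int.natAbs_ne_zero.2 hx
  have h1 : 2 ^ (Nat.log 2 x.natAbs) ≤ x.natAbs := Nat.pow_log_le_self 2 h0
  have h2 : x.natAbs < 2 ^ (Nat.log 2 x.natAbs + 1) := Nat.lt_pow_succ_log_self (by norm_num) _
  rw [← Int.natCast_natAbs]
  exact ⟨by exact_mod_cast h1, by exact_mod_cast h2⟩

lemma mem_cell (u : ℤ) (k : ℕ) (q : ℤ) (h : u / 2 ^ k = q) : q * 2 ^ k ≤ u ∧ u < q * 2 ^ k + 2 ^ k := by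
  have hR : (0 : ℤ) < 2 ^ k := by positivity
  have d1 := Int.ediv_mul_le u hR.ne'
  have d2 := Int.lt_ediv_add_one_mul_self u hR
  rw [h] at d1 d2
  exact ⟨d1, by linarith⟩

lemma info_eq_HO {A B τ : Type*} [Fintype A] [Fintype B] (PA : FinProb A) (PB : FinProb B)
    (U : A → ℤ) (V : A → τ) (Y : B → ℤ) :
    info PA PB U V Y = (PA.prod PB).H (fun x => U x.1 + Y x.2) - HO PA PB U Y V := by
  unfold info HO
  ring

lemma cond_weights {A γ : Type*} [Fintype A] (PA : FinProb A) (h : A → γ) (ω : A)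
    (hω : 0 < PA.w ω) (K : ℕ) (hw : ∀ a, PA.w a = 0 ∨ (2 : ℝ)⁻¹ ^ K ≤ PA.w a) (a : A) :
    (PA.cond h (h ω)).w a = 0 ∨ (2 : ℝ)⁻¹ ^ K ≤ (PA.cond h (h ω)).w a := by
  have hp := PA.p_pos hω h
  have hp1 := PA.p_le_one h (h ω)
  rw [PA.cond_w _ _ hp]
  split_ifs with hcl
  · rcases hw a with h | h
    · left; rw [h, zero_div]
    · right
      refine h.trans ?_
      rw [le_div_iff₀ hp]
      have := PA.nonneg a
      nlinarith only [hp1, this]
  · left; rw [zero_div]

lemma cond_pos_of {A γ : Type*} [Fintype A] (PA : FinProb A) (h : A → γ) (ω : A)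
    (hω : 0 < PA.w ω) (a : A) (ha : 0 < (PA.cond h (h ω)).w a) : 0 < PA.w a ∧ h a = h ω := by
  refine ⟨?_, PA.cond_supp h ω hω a ha⟩
  rcases PA.w_zero_or_pos a with h0 | h0
  · rw [PA.cond_w _ _ (PA.p_pos hω h), h0] at ha
    simp at ha
  · exact h0

end Vale.Agent.P114
end
end

section

open scoped Classical

noncomputable section

namespace Vale.Agent.P114

open FinProb Filter

lemma FinProb.H_pair_le {Ω : Type*} [Fintype Ω] (P : FinProb Ω) {α β : Type*} (f : Ω → α)
    (g : Ω → β) : P.H (fun ω => (f ω, g ω)) ≤ P.H f + P.H g := by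
  have h1 := P.H_submod f g (fun _ => ())
  have h2 := P.H_nonneg (fun _ => ())
  have e1 : P.H (fun ω => (f ω, g ω, ())) = P.H (fun ω => (f ω, g ω)) :=
    P.H_congr_det fun x y => by simp
  have e2 : P.H (fun ω => (f ω, ())) = P.H f := P.H_congr_det fun x y => by simp
  have e3 : P.H (fun ω => (g ω, ())) = P.H g := P.H_congr_det fun x y => by simp
  rw [e1, e2, e3] at h1
  linarith

lemma log_succ_le (n : ℕ) : Real.log (n + 1) ≤ 2 * Real.sqrt n := by
  have hn : (0 : ℝ) ≤ n := Nat.cast_nonneg n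
  have h1 : Real.sqrt (n + 1) ≤ 1 + Real.sqrt n := by
    rw [Real.sqrt_le_left (by positivity)]
    linarith only [Real.sqrt_nonneg (n : ℝ), Real.sq_sqrt hn]
  have h2 : Real.log (n + 1) = 2 * Real.log (Real.sqrt (n + 1)) := by
    rw [Real.log_sqrt (by positivity)]; ring
  have h3 := Real.log_le_sub_one_of_pos (show 0 < Real.sqrt ((n : ℝ) + 1) by positivity)
  rw [h2]
  linarith

lemma ev_small (A B C e : ℝ) (he : 0 < e) :
    ∀ᶠ n : ℕ in atTop, A * Real.log (n + 1) + B * Real.sqrt n + C ≤ e * n := by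
  obtain ⟨K, hK⟩ := exists_nat_gt (((2 * |A| + |B| + |C|) / e) ^ 2 + 1)
  filter_upwards [eventually_ge_atTop K] with n hn
  have hn1 : (K : ℝ) ≤ n := by exact_mod_cast hn
  have hn0 : (0 : ℝ) ≤ n := Nat.cast_nonneg n
  set R : ℝ := (2 * |A| + |B| + |C|) / e with hR
  have hR0 : 0 ≤ R := by (clear * - he; positivity)
  have h1 : R ≤ Real.sqrt n := by
    rw [Real.le_sqrt hR0 hn0]
    linarith only [hn1, hK]
  have h2 : 1 ≤ Real.sqrt n := by
    rw [Real.one_le_sqrt]
    have : 0 ≤ R ^ 2 := by (clear * -; positivity)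
    linarith only [hn1, hK, this]
  have h3 := log_succ_le n
  have h4 : A * Real.log (n + 1) ≤ |A| * (2 * Real.sqrt n) := by
    have h5 : 0 ≤ Real.log ((n : ℝ) + 1) := Real.log_nonneg (by linarith only [])
    calc A * Real.log (n + 1) ≤ |A| * Real.log (n + 1) :=
          mul_le_mul_of_nonneg_right (le_abs_self A) h5
      _ ≤ _ := mul_le_mul_of_nonneg_left h3 (abs_nonneg A)
  have h5 : B * Real.sqrt n ≤ |B| * Real.sqrt n :=
    mul_le_mul_of_nonneg_right (le_abs_self B) (Real.sqrt_nonneg _)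
  have h6 : C ≤ |C| * Real.sqrt n := by
    calc C ≤ |C| * 1 := by rw [mul_one]; exact le_abs_self C
      _ ≤ _ := mul_le_mul_of_nonneg_left h2 (abs_nonneg C)
  have h7 : (2 * |A| + |B| + |C|) * Real.sqrt n ≤ e * n := by
    have h8 : 2 * |A| + |B| + |C| ≤ Real.sqrt n * e := by
      rw [hR, div_le_iff₀ he] at h1
      exact h1
    calc (2 * |A| + |B| + |C|) * Real.sqrt n ≤ (Real.sqrt n * e) * Real.sqrt n :=
          mul_le_mul_of_nonneg_right h8 (Real.sqrt_nonneg _)
      _ = e * (Real.sqrt n * Real.sqrt n) := by ring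
      _ = e * n := by rw [Real.mul_self_sqrt hn0]
  linarith only [h4, h5, h6, h7]

namespace Sys

variable {Λ : Type} [Fintype Λ] (S : Sys Λ)

/-- The slope takes polynomially many values. -/
lemma H_sl_le (n : ℕ) : (S.P.pi n).H (fun w => sl S.r w)
    ≤ (Fintype.card Λ : ℝ) * Real.log (n + 1) := by
  set cnt : (Fin n → Λ) → (Λ → Fin (n + 1)) := fun w i =>
    ⟨(Finset.univ.filter (fun k => w k = i)).card, by
      have := Finset.card_filter_le (Finset.univ : Finset (Fin n)) (fun k => w k = i)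
      simp only [Finset.card_univ, Fintype.card_fin] at this
      omega⟩ with hcnt
  have hdet : ∀ w : Fin n → Λ, sl S.r w = ∏ i, S.r i ^ (cnt w i : ℕ) := by
    intro w
    rw [sl_eq_prod]
    have h := Finset.prod_fiberwise (Finset.univ : Finset (Fin n)) w (fun k => S.r (w k))
    rw [← h]
    refine Finset.prod_congr rfl fun i _ => ?_
    rw [Finset.prod_congr rfl (g := fun _ => S.r i) (by
      intro k hk
      rw [(Finset.mem_filter.1 hk).2]), Finset.prod_const]
  have h1 : (S.P.pi n).H (fun w => sl S.r w) ≤ (S.P.pi n).H cnt := by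
    refine FinProb.H_le_of_det _ fun x y h => ?_
    rw [hdet, hdet, h]
  have h2 := (S.P.pi n).H_le_log_card cnt Finset.univ (fun _ => Finset.mem_univ _)
  rw [Finset.card_univ, Fintype.card_fun, Fintype.card_fin] at h2
  push_cast at h2
  rw [Real.log_pow] at h2
  linarith

/-- Entropy of the coarse translation part. -/
lemma H_coarse_le (t : Λ → ℝ) (n b : ℕ) : (S.P.pi n).H (fun w => ⌊(2 : ℝ) ^ b * tr S.r t w⌋)
    ≤ S.alpha t * (b * Real.log 2) + S.C5 t + Real.log 3
      + (Fintype.card Λ : ℝ) * Real.log (n + 1) + (Real.log (2 * S.D t + 3)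
      + |b * Real.log 2 - S.χ * n| + S.σ * Real.sqrt n) := by
  set N' := S.Nb t b with hN'
  set Full := (S.P.pi n).prod (S.P.pi N') with hFull
  set X : (Fin n → Λ) × (Fin N' → Λ) → ℤ :=
    fun x => ⌊(2 : ℝ) ^ b * (tr S.r t x.1 + sl S.r x.1 * tr S.r t x.2)⌋ with hX
  have hD := S.one_le_D t
  have h1 := Full.H_le_add_E_log_card (fun x => ⌊(2 : ℝ) ^ b * tr S.r t x.1⌋)
    (fun x => (X x, sl S.r x.1))
    (fun y => Finset.Icc ⌊(y.1 : ℝ) - |(2 : ℝ) ^ b * y.2| * S.D t⌋
      ⌊(y.1 : ℝ) + 1 + |(2 : ℝ) ^ b * y.2| * S.D t⌋)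
    (fun y => 2 * (|(2 : ℝ) ^ b * y.2| * S.D t) + 3) (by
      intro x
      have h2 := Int.floor_le ((2 : ℝ) ^ b * (tr S.r t x.1 + sl S.r x.1 * tr S.r t x.2))
      have h3 := Int.lt_floor_add_one
        ((2 : ℝ) ^ b * (tr S.r t x.1 + sl S.r x.1 * tr S.r t x.2))
      have h4 : |(2 : ℝ) ^ b * sl S.r x.1 * tr S.r t x.2| ≤ |(2 : ℝ) ^ b * sl S.r x.1| * S.D t := by
        rw [abs_mul]
        exact mul_le_mul_of_nonneg_left (S.abs_tr_le t x.2) (abs_nonneg _)
      have h5 := abs_le.1 h4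
      have e : (2 : ℝ) ^ b * (tr S.r t x.1 + sl S.r x.1 * tr S.r t x.2)
          = (2 : ℝ) ^ b * tr S.r t x.1 + (2 : ℝ) ^ b * sl S.r x.1 * tr S.r t x.2 := by ring
      rw [Finset.mem_Icc]
      constructor
      · refine Int.floor_le_floor ?_
        simp only [hX]
        rw [e] at h2 ⊢
        linarith only [h2, h5]
      · refine Int.floor_le_floor ?_
        simp only [hX]
        rw [e] at h3 ⊢
        linarith only [h3, h5])
    (by
      intro y
      set a := |(2 : ℝ) ^ b * y.2| * S.D t with ha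
      have ha0 : 0 ≤ a := by positivity
      have hle : ⌊(y.1 : ℝ) - a⌋ ≤ ⌊(y.1 : ℝ) + 1 + a⌋ := Int.floor_le_floor (by linarith only [ha0])
      rw [Int.card_Icc]
      have h2 : ((⌊(y.1 : ℝ) + 1 + a⌋ + 1 - ⌊(y.1 : ℝ) - a⌋).toNat : ℝ)
          = ((⌊(y.1 : ℝ) + 1 + a⌋ + 1 - ⌊(y.1 : ℝ) - a⌋ : ℤ) : ℝ) := by
        have : ((⌊(y.1 : ℝ) + 1 + a⌋ + 1 - ⌊(y.1 : ℝ) - a⌋).toNat : ℤ)
            = ⌊(y.1 : ℝ) + 1 + a⌋ + 1 - ⌊(y.1 : ℝ) - a⌋ := Int.toNat_of_nonneg (by omega)
        exact_mod_cast this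
      rw [h2]
      push_cast
      have h3 := Int.floor_le ((y.1 : ℝ) + 1 + a)
      have h4 := Int.lt_floor_add_one ((y.1 : ℝ) - a)
      linarith only [h3, h4])
  have h2 := Full.H_pair_le X (fun x => sl S.r x.1)
  have e1 : Full.H (fun x => ⌊(2 : ℝ) ^ b * tr S.r t x.1⌋)
      = (S.P.pi n).H (fun w => ⌊(2 : ℝ) ^ b * tr S.r t w⌋) :=
    FinProb.H_prod_fst _ _ (fun w => ⌊(2 : ℝ) ^ b * tr S.r t w⌋)
  have e2 : Full.H (fun x => sl S.r x.1) = (S.P.pi n).H (fun w => sl S.r w) :=
    FinProb.H_prod_fst _ _ (fun w => sl S.r w)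
  have e3 : Full.H X = S.F t (n + N') (2 ^ b) := by
    unfold F
    rw [← H_pi_add]
    simp only [tr_append]
    rfl
  have e4 : ∑ x, Full.w x * Real.log (2 * (|(2 : ℝ) ^ b * sl S.r x.1| * S.D t) + 3)
      = ∑ w, (S.P.pi n).w w * Real.log (2 * (|(2 : ℝ) ^ b * sl S.r w| * S.D t) + 3) := by
    rw [hFull, FinProb.sum_prod_w (S.P.pi n) (S.P.pi N')
      (fun x => Real.log (2 * (|(2 : ℝ) ^ b * sl S.r x.1| * S.D t) + 3))]
    refine Finset.sum_congr rfl fun w _ => ?_
    exact congrArg _ ((S.P.pi N').sum_const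
      (Real.log (2 * (|(2 : ℝ) ^ b * sl S.r w| * S.D t) + 3)))
  have h3 := S.F_le_fS t b (n + N') (by
    refine le_trans ?_ (S.Nb_spec' t b)
    have h2 : S.ρ ^ (n + N') ≤ S.ρ ^ N' :=
      pow_le_pow_of_le_one S.ρ_pos.le S.ρ_lt.le (by omega)
    have := S.D_nonneg t
    (clear * - h2 hD; gcongr))
  have h4 := S.fS_le_alpha t b
  have h5 := S.H_sl_le n
  have h6 := S.E_log_piece t b n
  rw [e1] at h1
  rw [e2, e3] at h2
  simp only at h1
  rw [e4] at h1
  linarith only [h2, h3, h4, h5, h6, h1]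

/-- Decomposition of the fine entropy. -/
lemma H_fine_le (t : Λ → ℝ) (n b M : ℕ) (β : ℝ) (hβ : 0 ≤ β) :
    (S.P.pi n).H (fun w => (sl S.r w, ⌊(2 : ℝ) ^ (b + M) * tr S.r t w⌋))
      ≤ (S.P.pi n).H (fun w => sl S.r w) + (S.P.pi n).H (fun w => ⌊(2 : ℝ) ^ b * tr S.r t w⌋)
        + (β + pr (S.P.pi n) (S.Good t n b M β)) * (M * Real.log 2) := by
  have h1 : (S.P.pi n).H (fun w => (sl S.r w, ⌊(2 : ℝ) ^ (b + M) * tr S.r t w⌋))
      ≤ (S.P.pi n).H (fun w => (S.τt t n b M w, S.ht t n b M w)) := by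
    refine FinProb.H_le_of_det _ fun x y h => ?_
    simp only [ht, Prod.mk.injEq] at h
    simp only [Prod.mk.injEq]
    exact ⟨h.2.1, h.1⟩
  rw [(S.P.pi n).H_pair_eq_cond (S.τt t n b M) (S.ht t n b M)] at h1
  have h2 : (S.P.pi n).H (S.ht t n b M)
      ≤ (S.P.pi n).H (fun w => sl S.r w)
        + (S.P.pi n).H (fun w => ⌊(2 : ℝ) ^ b * tr S.r t w⌋) := by
    have e : S.ht t n b M = fun w => (sl S.r w, ⌊(2 : ℝ) ^ b * tr S.r t w⌋) := by
      funext w
      unfold ht τt
      rw [floor_pow_ediv _ _ _ (Nat.le_add_left M b), Nat.add_sub_cancel]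
    rw [e]
    exact FinProb.H_pair_le _ _ _
  have h3 : ∑ ω, (S.P.pi n).w ω * ((S.P.pi n).cond (S.ht t n b M) (S.ht t n b M ω)).H
        (S.τt t n b M)
      ≤ ∑ ω, (S.P.pi n).w ω * ((β + if S.Good t n b M β ω then 1 else 0) * (M * Real.log 2)) := by
    have hMl : 0 ≤ (M : ℝ) * Real.log 2 := by
      have : 0 < Real.log 2 := Real.log_pos (by norm_num)
      positivity
    refine Finset.sum_le_sum fun ω _ => ?_
    rcases (S.P.pi n).w_zero_or_pos ω with h | h
    · rw [h, zero_mul, zero_mul]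
    · refine mul_le_mul_of_nonneg_left ?_ h.le
      have e1 : ((S.P.pi n).cond (S.ht t n b M) (S.ht t n b M ω)).H (S.τt t n b M)
          = (S.cw t n b M ω).H (S.Ut t n b M) := by
        have e2 := (S.cw t n b M ω).H_congr_supp (S.τt t n b M)
          (fun w => S.Ut t n b M w + 2 ^ M * (S.τt t n b M ω / 2 ^ M)) (fun w hw => by
            have h4 := (S.cw_supp t n b M ω h w hw).2
            have h6 := Int.emod_add_mul_ediv (S.τt t n b M w) (2 ^ M)
            rw [h4] at h6
            unfold Ut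
            linarith only [h6])
        have e3 : (S.cw t n b M ω).H
            (fun w => S.Ut t n b M w + 2 ^ M * (S.τt t n b M ω / 2 ^ M))
            = (S.cw t n b M ω).H (S.Ut t n b M) := by
          refine FinProb.H_congr_det _ fun x y => ?_
          simp
        rw [← e3, ← e2]
        rfl
      rw [e1]
      by_cases hG : S.Good t n b M β ω
      · rw [if_pos hG]
        have h5 := (S.cw t n b M ω).H_le_log_card (S.Ut t n b M) (Finset.Ico 0 (2 ^ M))
          (fun w => Finset.mem_Ico.2 (S.Ut_mem t n b M w))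
        rw [Int.card_Ico, sub_zero] at h5
        have e4 : ((((2 : ℤ) ^ M).toNat : ℕ) : ℝ) = 2 ^ M := by
          have : ((2 : ℤ) ^ M) = ((2 ^ M : ℕ) : ℤ) := by push_cast; rfl
          rw [this, Int.toNat_natCast]
          push_cast
          rfl
        rw [e4, Real.log_pow] at h5
        nlinarith only [h5, hβ, hMl]
      · rw [if_neg hG, add_zero]
        exact (not_le.1 hG).le
  have h4 : ∑ ω, (S.P.pi n).w ω * ((β + if S.Good t n b M β ω then 1 else 0) * (M * Real.log 2))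
      = (β + pr (S.P.pi n) (S.Good t n b M β)) * (M * Real.log 2) := by
    unfold pr
    rw [add_mul, Finset.sum_mul]
    simp only [add_mul, mul_add, Finset.sum_add_distrib, FinProb.sum_const, mul_assoc]
  rw [h4] at h3
  linarith

lemma pr_atyp_le (n b : ℕ) (e : ℝ) (he : 0 < e) (hn : 0 < n)
    (hb : (S.χ + e) * n ≤ b * Real.log 2) :
    pr (S.P.pi n) (S.Atyp n b) ≤ S.σ * Real.sqrt n / (e / 2 * n) := by
  have hn0 : (0 : ℝ) < n := by exact_mod_cast hn
  refine le_trans ?_ (S.atyp_le n (e / 2 * n) (by positivity))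
  unfold pr
  refine Finset.sum_le_sum fun w _ => ?_
  by_cases h : S.Atyp n b w
  · rw [if_pos h, if_pos, mul_one]
    have h1 : 2 ^ b * |sl S.r w| < 1 := h
    have hsl := S.abs_sl_pos w
    have h2 : Real.log (2 ^ b * |sl S.r w|) < 0 := Real.log_neg (by positivity) h1
    rw [Real.log_mul (by positivity) hsl.ne', Real.log_pow] at h2
    rw [lt_abs]
    right
    nlinarith only [hb, h2, he]
  · rw [if_neg h, mul_zero]
    split_ifs
    · exact (S.P.pi n).nonneg w
    · exact le_rfl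

lemma exists_params (t : Λ → ℝ) (hα : S.alpha t < 1) (β : ℝ) (hβ0 : 0 < β) (hβ1 : β ≤ 1) :
    ∃ (δ : ℝ) (k W : ℕ) (C : ℝ), 0 < δ ∧ 0 < k ∧ 0 ≤ C ∧ Growth (S.alpha t) β δ k W C ∧
      (S.alpha t - δ) * (W * Real.log 2) ≤ S.fS t W - S.C6 t := by
  have hlog : 0 < Real.log 2 := Real.log_pos (by norm_num)
  have hα0 := S.alpha_nonneg t
  obtain ⟨δ, hδ0, hgr⟩ := entropy_growth (S.alpha t) β hα0 hα hβ0 hβ1
  obtain ⟨b1, hb1⟩ := S.alpha_le_fS t (δ / 2) (by positivity)
  obtain ⟨b2, hb2⟩ := exists_nat_gt (S.C6 t / (δ / 2 * Real.log 2))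
  obtain ⟨k, W, C, hk, _, hWW0, hC, hgrow⟩ := hgr (b1 + b2)
  refine ⟨δ, k, W, C, hδ0, hk, hC, hgrow, ?_⟩
  have h1 := hb1 W (by omega)
  have h2 : (b2 : ℝ) ≤ W := by
    have : b2 ≤ W := by omega
    exact_mod_cast this
  rw [div_lt_iff₀ (by positivity)] at hb2
  have h3 : (b2 : ℝ) * (δ / 2 * Real.log 2) ≤ W * (δ / 2 * Real.log 2) :=
    mul_le_mul_of_nonneg_right h2 (by positivity)
  have e1 : (S.alpha t - δ) * (W * Real.log 2)
      = (S.alpha t - δ / 2) * (W * Real.log 2) - W * (δ / 2 * Real.log 2) := by ring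
  rw [e1]
  linarith only [hb2, h1, h3]

/-- Good classes have small probability. -/
lemma good_small (t : Λ → ℝ) (hα : S.alpha t < 1) (q' : ℕ) (e : ℝ) (he0 : 0 < e)
    (β : ℝ) (hβ0 : 0 < β) (hβ1 : β ≤ 1) (η : ℝ) (hη0 : 0 < η) :
    ∃ n0 : ℕ, ∀ n ≥ n0, ∀ b M : ℕ, b + M = q' * n → n ≤ M →
      (S.χ + e) * n ≤ b * Real.log 2 → pr (S.P.pi n) (S.Good t n b M β) ≤ η := by
  have hlog : 0 < Real.log 2 := Real.log_pos (by norm_num)
  have hχ := S.χ_pos
  obtain ⟨δ, k, W, C, hδ0, hk, hC, hgrow, hW⟩ := S.exists_params t hα β hβ0 hβ1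
  have hk0 : (0 : ℝ) < k := by exact_mod_cast hk
  have hq'0 : (0 : ℝ) ≤ q' := Nat.cast_nonneg _
  obtain ⟨ζ, hζ⟩ : ∃ ζ : ℝ, ζ = δ / k * η / 3 := ⟨_, rfl⟩
  have hζ0 : 0 < ζ := by rw [hζ]; positivity
  obtain ⟨e1, he1⟩ : ∃ e1 : ℝ, e1 = ζ / (1 + q') := ⟨_, rfl⟩
  have he10 : 0 < e1 := by rw [he1]; positivity
  obtain ⟨b3, hb3⟩ := S.alpha_le_fS t e1 he10
  obtain ⟨C8, hC8⟩ : ∃ C8 : ℝ, C8 = S.C5 t + S.C6 t + C + 4 * Real.log 3 := ⟨_, rfl⟩
  have ev1 := ev_small 0 (S.σ * (1 + δ)) 0 (ζ * (e / 2)) (by positivity)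
  have ev2 := ev_small 0 0 C8 (ζ * Real.log 2) (by positivity)
  have ev4 := ev_small 0 0 (b3 * Real.log 2) S.χ hχ
  obtain ⟨n0, hn0⟩ := eventually_atTop.1
    (ev1.and (ev2.and (ev4.and (eventually_ge_atTop (b3 + 1)))))
  refine ⟨n0, fun n hn b M hbM hMn hbl => ?_⟩
  obtain ⟨h1, h2, h4, h5⟩ := hn0 n hn
  have hn1 : 1 ≤ n := by omega
  have hn0' : (0 : ℝ) < n := by exact_mod_cast hn1
  simp only [zero_mul, zero_add, add_zero] at h1 h2 h4
  have hMnR : (n : ℝ) ≤ M := by exact_mod_cast hMn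
  have hbb3 : b3 ≤ b := by
    have h6 : (b3 : ℝ) * Real.log 2 ≤ b * Real.log 2 := by
      have h7 : 0 ≤ e * n := by positivity
      have h8 : (S.χ + e) * n = S.χ * n + e * n := by ring
      linarith only [hbl, h4, h7]
    have h7 := le_of_mul_le_mul_right h6 hlog
    exact_mod_cast h7
  have hbq : (b : ℝ) ≤ q' * M := by
    have h6 : b ≤ q' * n := by omega
    have h7 : (b : ℝ) ≤ q' * n := by exact_mod_cast h6
    exact h7.trans (mul_le_mul_of_nonneg_left hMnR hq'0)
  have hpa := S.pr_atyp_le n b e he0 (by omega) hbl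
  have hmain := S.main_ineq t n b M β δ e1 e1 k W C hk hδ0 hC he10.le hgrow hW
    (hb3 M (by omega)) (hb3 b hbb3)
  have hMl : 0 < (M : ℝ) * Real.log 2 := by
    have : (0 : ℝ) < M := by linarith only [hn0', hMnR]
    (clear * - this; positivity)
  have h6 : pr (S.P.pi n) (S.Atyp n b) * (1 + δ) ≤ ζ := by
    have h7 : S.σ * Real.sqrt n / (e / 2 * n) * (1 + δ) ≤ ζ := by
      rw [div_mul_eq_mul_div, div_le_iff₀ (by (clear * - he0 hn1; positivity))]
      linarith only [h1]
    refine le_trans ?_ h7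
    exact mul_le_mul_of_nonneg_right hpa (by linarith only [hδ0])
  have h7 : pr (S.P.pi n) (S.Atyp n b) * ((1 + δ) * (M * Real.log 2))
      ≤ ζ * (M * Real.log 2) := by
    rw [← mul_assoc]
    exact mul_le_mul_of_nonneg_right h6 hMl.le
  have h8 : C8 ≤ ζ * (M * Real.log 2) := by
    refine h2.trans ?_
    have : ζ * Real.log 2 * n ≤ ζ * Real.log 2 * M :=
      mul_le_mul_of_nonneg_left hMnR (by positivity)
    linarith only [this]
  have h9 : (e1 * M + e1 * b) * Real.log 2 ≤ ζ * (M * Real.log 2) := by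
    have h11 : e1 * M + e1 * b ≤ ζ * M := by
      have h12 : e1 * (1 + q') = ζ := by rw [he1]; (clear * - hζ0; field_simp)
      calc e1 * M + e1 * b ≤ e1 * M + e1 * (q' * M) := by (clear * - hbq he10; gcongr)
        _ = e1 * (1 + q') * M := by ring
        _ = ζ * M := by rw [h12]
    calc (e1 * M + e1 * b) * Real.log 2 ≤ ζ * M * Real.log 2 :=
          mul_le_mul_of_nonneg_right h11 hlog.le
      _ = _ := by ring
  rw [← hC8] at hmain
  have h10 : pr (S.P.pi n) (S.Good t n b M β) * (δ / k * (M * Real.log 2))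
      ≤ η * (δ / k * (M * Real.log 2)) := by
    have h11 : η * (δ / k * (M * Real.log 2)) = 3 * (ζ * (M * Real.log 2)) := by
      rw [hζ]; ring
    rw [h11]
    linarith only [h9, h8, h7, hmain]
  exact le_of_mul_le_mul_right h10 (by (clear * - hδ0 hk hMl; positivity))

/-- Choice of the intermediate scale. -/
lemma exists_scale (e : ℝ) (he0 : 0 < e) : ∃ q0 : ℕ, ∀ q' ≥ q0, ∀ n : ℕ, 1 ≤ n →
    ∃ b M : ℕ, b + M = q' * n ∧ n ≤ M ∧ (S.χ + e) * n ≤ b * Real.log 2 ∧
      b * Real.log 2 ≤ (S.χ + e) * n + Real.log 2 := by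
  have hlog : 0 < Real.log 2 := Real.log_pos (by norm_num)
  have hχ := S.χ_pos
  obtain ⟨q0, hq0⟩ := exists_nat_gt ((S.χ + e) / Real.log 2 + 2)
  refine ⟨q0, fun q' hq' n hn => ?_⟩
  have hq0q' : (q0 : ℝ) ≤ q' := by exact_mod_cast hq'
  have hq'2 : (S.χ + e) / Real.log 2 + 2 < q' := lt_of_lt_of_le hq0 hq0q'
  have hnR : (1 : ℝ) ≤ n := by exact_mod_cast hn
  obtain ⟨x, hx⟩ : ∃ x : ℝ, x = (S.χ + e) * n / Real.log 2 := ⟨_, rfl⟩
  have hxl : x * Real.log 2 = (S.χ + e) * n := by rw [hx]; field_simp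
  have hxn : x = (S.χ + e) / Real.log 2 * n := by rw [hx]; ring
  have hx1 : 0 ≤ x := by rw [hx]; positivity
  obtain ⟨b, hb⟩ : ∃ b : ℕ, b = ⌈x⌉₊ := ⟨_, rfl⟩
  have hbx : x ≤ b := by rw [hb]; exact Nat.le_ceil x
  have hbx' : (b : ℝ) < x + 1 := by rw [hb]; exact Nat.ceil_lt_add_one hx1
  have hbn : (b : ℝ) + n ≤ q' * n := by
    have : ((S.χ + e) / Real.log 2 + 2) * n ≤ q' * n :=
      mul_le_mul_of_nonneg_right hq'2.le (by linarith only [])
    have e3 : ((S.χ + e) / Real.log 2 + 2) * n = x + 2 * n := by rw [hxn]; ring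
    linarith only [hnR, hxn, hbx', this]
  have hbn' : b + n ≤ q' * n := by exact_mod_cast hbn
  obtain ⟨M, hM⟩ := Nat.exists_eq_add_of_le (show b ≤ q' * n by omega)
  refine ⟨b, M, hM.symm, by omega, ?_, ?_⟩
  · rw [← hxl]; exact mul_le_mul_of_nonneg_right hbx hlog.le
  · rw [← hxl]
    have := mul_le_mul_of_nonneg_right hbx'.le hlog.le
    linarith only [this]

/-- Theorem H: upper bound for the entropy of words at exponentially small scales. -/
theorem H_upper (t : Λ → ℝ) (hα : S.alpha t < 1) (q : ℕ) (ε : ℝ) (hε : 0 < ε) :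
    ∃ n0 : ℕ, ∀ n ≥ n0, (S.P.pi n).H (fun w => (sl S.r w, ⌊(2 : ℝ) ^ (q * n) * tr S.r t w⌋))
      ≤ (S.alpha t * S.χ + ε) * n := by
  have hlog : 0 < Real.log 2 := Real.log_pos (by norm_num)
  have hl3 : 0 < Real.log 3 := Real.log_pos (by norm_num)
  have hα0 := S.alpha_nonneg t
  obtain ⟨e, he⟩ : ∃ e : ℝ, e = ε / 6 := ⟨_, rfl⟩
  have he0 : 0 < e := by rw [he]; positivity
  obtain ⟨q0, hq0⟩ := S.exists_scale e he0
  obtain ⟨q', hq'⟩ : ∃ q' : ℕ, q' = max q (max q0 1) := ⟨_, rfl⟩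
  have hqq' : q ≤ q' := by rw [hq']; exact le_max_left _ _
  have hq0q' : q0 ≤ q' := by rw [hq']; exact (le_max_left _ _).trans (le_max_right _ _)
  have hq'1 : 1 ≤ q' := by rw [hq']; exact (le_max_right _ _).trans (le_max_right _ _)
  have hq'0 : (0 : ℝ) < q' := by exact_mod_cast hq'1
  obtain ⟨η, hη⟩ : ∃ η : ℝ, η = ε / (6 * q' * Real.log 2) := ⟨_, rfl⟩
  have hη0 : 0 < η := by rw [hη]; positivity
  obtain ⟨β, hβ⟩ : ∃ β : ℝ, β = min 1 η := ⟨_, rfl⟩
  have hβ0 : 0 < β := by rw [hβ]; exact lt_min one_pos hη0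
  have hβ1 : β ≤ 1 := by rw [hβ]; exact min_le_left _ _
  have hβη : β ≤ η := by rw [hβ]; exact min_le_right _ _
  obtain ⟨n1, hn1⟩ := S.good_small t hα q' e he0 β hβ0 hβ1 η hη0
  obtain ⟨n2, hn2⟩ := eventually_atTop.1 (ev_small (2 * Fintype.card Λ) S.σ
    (S.C5 t + Real.log 3 + 2 * Real.log 2 + Real.log (2 * S.D t + 3)) (ε / 3) (by positivity))
  refine ⟨n1 + n2 + 1, fun n hn => ?_⟩
  have h3 := hn2 n (by omega)
  have hnpos : 1 ≤ n := by omega
  have hn0' : (0 : ℝ) < n := by exact_mod_cast hnpos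
  obtain ⟨b, M, hM, hMn, hbl, hbl'⟩ := hq0 q' hq0q' n hnpos
  have hpg := hn1 n (by omega) b M hM hMn hbl
  have hMq : (M : ℝ) ≤ q' * n := by
    have : M ≤ q' * n := by omega
    exact_mod_cast this
  have hMl : 0 ≤ (M : ℝ) * Real.log 2 := by (clear * -; positivity)
  have hred : (S.P.pi n).H (fun w => (sl S.r w, ⌊(2 : ℝ) ^ (q * n) * tr S.r t w⌋))
      ≤ (S.P.pi n).H (fun w => (sl S.r w, ⌊(2 : ℝ) ^ (b + M) * tr S.r t w⌋)) := by
    refine FinProb.H_le_of_det _ fun x y h => ?_
    simp only [Prod.mk.injEq] at h ⊢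
    refine ⟨h.1, ?_⟩
    have h6 : q * n ≤ b + M := by
      rw [hM]; exact Nat.mul_le_mul_right n hqq'
    have h7 : b + M - (b + M - q * n) = q * n := by omega
    have h8 := floor_pow_ediv (tr S.r t x) (b + M) (b + M - q * n) (by omega)
    have h9 := floor_pow_ediv (tr S.r t y) (b + M) (b + M - q * n) (by omega)
    rw [h7] at h8 h9
    rw [← h8, ← h9, h.2]
  have hfine := S.H_fine_le t n b M β hβ0.le
  have hcoarse := S.H_coarse_le t n b
  have hsl := S.H_sl_le n
  have h6 : |b * Real.log 2 - S.χ * n| ≤ e * n + Real.log 2 := by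
    have h7 : 0 ≤ e * n := by positivity
    have h8 : (S.χ + e) * n = S.χ * n + e * n := by ring
    rw [abs_le]
    constructor <;> linarith only [hbl', hlog, hbl, h7]
  have h7 : S.alpha t * (b * Real.log 2) ≤ S.alpha t * S.χ * n + e * n + Real.log 2 := by
    have h8 : S.alpha t * (b * Real.log 2) ≤ S.alpha t * ((S.χ + e) * n + Real.log 2) :=
      mul_le_mul_of_nonneg_left hbl' hα0
    have h9 : S.alpha t * (e * n + Real.log 2) ≤ 1 * (e * n + Real.log 2) :=
      mul_le_mul_of_nonneg_right hα.le (by positivity)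
    have e3 : S.alpha t * ((S.χ + e) * n + Real.log 2)
        = S.alpha t * S.χ * n + S.alpha t * (e * n + Real.log 2) := by ring
    linarith only [h8, h9]
  have h8 : (β + pr (S.P.pi n) (S.Good t n b M β)) * (M * Real.log 2) ≤ ε / 3 * n := by
    have h9 : β + pr (S.P.pi n) (S.Good t n b M β) ≤ 2 * η := by linarith only [hβη, hpg]
    have h10 : (M : ℝ) * Real.log 2 ≤ q' * n * Real.log 2 :=
      mul_le_mul_of_nonneg_right hMq hlog.le
    calc (β + pr (S.P.pi n) (S.Good t n b M β)) * (M * Real.log 2)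
        ≤ 2 * η * (M * Real.log 2) := mul_le_mul_of_nonneg_right h9 hMl
      _ ≤ 2 * η * (q' * n * Real.log 2) := mul_le_mul_of_nonneg_left h10 (by positivity)
      _ = ε / 3 * n := by rw [hη]; field_simp; ring
  have e4 : 2 * (e * n) = ε / 3 * n := by rw [he]; ring
  have e5 : (S.alpha t * S.χ + ε) * n = S.alpha t * S.χ * n + ε / 3 * n + ε / 3 * n
      + ε / 3 * n := by ring
  rw [e5]
  linarith only [e4, h8, h7, h6, hsl, hcoarse, hfine, hred, h3]

end Sys

end Vale.Agent.P114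
end
end

section

open scoped Classical ENNReal Topology NNReal

open MeasureTheory Filter

noncomputable section

namespace Vale.Agent.P114

namespace FinProb

variable {Ω : Type*} [Fintype Ω] (P : FinProb Ω)

/-- Chebyshev's inequality for i.i.d. sums. -/
lemma cheb (g : Ω → ℝ) (m : ℕ) (c : ℝ) (hc : 0 < c) :
    ∑ w, (if c < |∑ i, g (w i) - m * ∑ ω, P.w ω * g ω| then (P.pi m).w w else 0)
      ≤ m * (∑ ω, P.w ω * (g ω - ∑ ω', P.w ω' * g ω') ^ 2) / c ^ 2 := by
  set e := ∑ ω, P.w ω * g ω with he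
  have h1 := P.second_moment m (fun _ ω => g ω - e) (by
    intro _
    simp only [mul_sub, Finset.sum_sub_distrib]
    rw [← Finset.sum_mul, P.sum_one, one_mul, ← he, sub_self])
  have h2 : ∑ i : Fin m, ∑ ω, P.w ω * (g ω - e) ^ 2 = m * ∑ ω, P.w ω * (g ω - e) ^ 2 := by simp only [Finset.sum_const, Finset.card_univ, Fintype.card_fin, nsmul_eq_mul]
  rw [le_div_iff₀ (by positivity), ← h2, ← h1, Finset.sum_mul]
  refine Finset.sum_le_sum fun w _ => ?_
  have h3 : ∑ i, (g (w i) - e) = ∑ i, g (w i) - m * e := by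
    rw [Finset.sum_sub_distrib]; simp only [Finset.sum_const, Finset.card_univ, Fintype.card_fin, nsmul_eq_mul]
  simp only [h3]
  split_ifs with h
  · refine mul_le_mul_of_nonneg_left ?_ ((P.pi m).nonneg w)
    rw [← sq_abs (∑ i, g (w i) - m * e)]
    exact pow_le_pow_left₀ hc.le h.le 2
  · rw [zero_mul]
    exact mul_nonneg ((P.pi m).nonneg w) (sq_nonneg _)

end FinProb

lemma measurable_simMap {A : Type*} (r t : A → ℝ) (a : A) : Measurable (simMap r t a) := by
  unfold simMap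
  fun_prop

/-- Iteration of the self-similarity relation. -/
lemma selfsim_iter {A : Type*} [Fintype A] (P : FinProb A) (r t : A → ℝ) (μ : Measure ℝ)
    (hμ : μ = ∑ a, ENNReal.ofReal (P.w a) • μ.map (simMap r t a)) (m : ℕ) :
    ∀ E : Set ℝ, MeasurableSet E → μ E = ∑ w : Fin m → A,
      ENNReal.ofReal ((P.pi m).w w) * μ ((fun x => sl r w * x + tr r t w) ⁻¹' E) := by
  induction m with
  | zero =>
    intro E hE
    simp only [Finset.univ_unique, FinProb.pi_w, Finset.univ_eq_empty, Finset.prod_empty, ENNReal.ofReal_one, sl_zero, one_mul, tr_zero, add_zero, Set.preimage_id', Finset.sum_const, Finset.card_singleton, one_smul]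
  | succ m ih =>
    intro E hE
    have h1 : μ E = ∑ a, ENNReal.ofReal (P.w a) * μ (simMap r t a ⁻¹' E) := by
      conv_lhs => rw [hμ]
      rw [Measure.finsetSum_apply]
      refine Finset.sum_congr rfl fun a _ => ?_
      rw [Measure.smul_apply, Measure.map_apply (measurable_simMap _ _ _) hE, smul_eq_mul]
    rw [h1, ← (Fin.consEquiv (fun _ : Fin (m + 1) => A)).sum_comp, Fintype.sum_prod_type]
    refine Finset.sum_congr rfl fun a _ => ?_
    rw [ih _ (measurable_simMap _ _ _ hE), Finset.mul_sum]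
    refine Finset.sum_congr rfl fun w _ => ?_
    rw [← mul_assoc, ← ENNReal.ofReal_mul (P.nonneg a)]
    congr 2
    · simp only [FinProb.pi_w, Fin.consEquiv, Equiv.coe_fn_mk, Fin.prod_univ_succ, Fin.cons_zero, Fin.cons_succ]
    · ext x
      simp only [Set.mem_preimage, Fin.consEquiv, Equiv.coe_fn_mk, sl_cons, tr_cons, simMap]
      ring_nf

/-- Log of the weight of a word. -/
lemma log_pi_w {A : Type*} [Fintype A] (P : FinProb A) (hP : ∀ a, 0 < P.w a) {m : ℕ}
    (w : Fin m → A) : Real.log ((P.pi m).w w) = ∑ k, Real.log (P.w (w k)) := by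
  rw [FinProb.pi_w, Real.log_prod]
  intro i _
  exact (hP _).ne'

lemma log_abs_sl {A : Type*} (r : A → ℝ) (hr0 : ∀ a, r a ≠ 0) {m : ℕ}
    (w : Fin m → A) : Real.log |sl r w| = ∑ k, Real.log |r (w k)| := by
  rw [sl_eq_prod, Finset.abs_prod, Real.log_prod]
  intro i _
  exact (abs_pos.2 (hr0 _)).ne'

/-- Words whose weight and slope are typical (one sided). -/
def typW {A : Type*} [Fintype A] (P : FinProb A) (r : A → ℝ) (a b : ℝ) (m : ℕ) :
    Set (Fin m → A) :=
  {w | -Real.log ((P.pi m).w w) ≤ m * a ∧ Real.log |sl r w| ≤ -(m * b)}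

/-- Most words are typical. -/
lemma typW_prob {A : Type*} [Fintype A] (P : FinProb A) (hP : ∀ a, 0 < P.w a)
    (r : A → ℝ) (hr0 : ∀ a, r a ≠ 0) (h X ε : ℝ) (hε : 0 < ε)
    (hh : h = -∑ a, P.w a * Real.log (P.w a)) (hX : X = -∑ a, P.w a * Real.log |r a|) :
    ∃ m0 : ℕ, ∀ m, m0 ≤ m →
      1 / 2 ≤ ∑ w, if w ∈ typW P r (h + ε) (X - ε) m then (P.pi m).w w else 0 := by
  set a1 := ∑ ω, P.w ω * Real.log (P.w ω) with ha1
  set a2 := ∑ ω, P.w ω * Real.log |r ω| with ha2
  set V1 := ∑ ω, P.w ω * (Real.log (P.w ω) - a1) ^ 2 with hV1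
  set V2 := ∑ ω, P.w ω * (Real.log |r ω| - a2) ^ 2 with hV2
  have hV10 : 0 ≤ V1 := Finset.sum_nonneg fun ω _ => mul_nonneg (P.nonneg ω) (sq_nonneg _)
  have hV20 : 0 ≤ V2 := Finset.sum_nonneg fun ω _ => mul_nonneg (P.nonneg ω) (sq_nonneg _)
  obtain ⟨m0, hm0⟩ := exists_nat_gt (2 * (V1 + V2) / ε ^ 2)
  have hm0' : (0 : ℝ) < m0 := lt_of_le_of_lt (by (clear * - hV10 hV20 hε; positivity)) hm0
  refine ⟨m0, fun m hm => ?_⟩
  have hmR : (m0 : ℝ) ≤ m := by exact_mod_cast hm
  have hmpos : (0 : ℝ) < m := hm0'.trans_le hmR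
  have hc : 0 < m * ε := by (clear * - hmpos hε; positivity)
  have c1 := P.cheb (fun ω => Real.log (P.w ω)) m (m * ε) hc
  have c2 := P.cheb (fun ω => Real.log |r ω|) m (m * ε) hc
  simp only [← ha1, ← hV1] at c1
  simp only [← ha2, ← hV2] at c2
  have e1 : ∀ V : ℝ, m * V / (m * ε) ^ 2 = V / ε ^ 2 / m := by
    intro V
    (clear * - hε hmpos; field_simp)
  rw [e1] at c1 c2
  have hsmall : V1 / ε ^ 2 / m + V2 / ε ^ 2 / m ≤ 1 / 2 := by
    rw [← add_div, ← add_div, div_le_iff₀ hmpos]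
    have : 2 * (V1 + V2) / ε ^ 2 = 2 * ((V1 + V2) / ε ^ 2) := by ring
    linarith only [this, hmR, hm0]
  have hsum : (1 : ℝ) ≤ (∑ w, if w ∈ typW P r (h + ε) (X - ε) m then (P.pi m).w w else 0)
      + ((∑ w, (if m * ε < |∑ i : Fin m, Real.log (P.w (w i))
          - m * a1| then (P.pi m).w w else 0))
      + (∑ w, (if m * ε < |∑ i : Fin m, Real.log |r (w i)|
          - m * a2| then (P.pi m).w w else 0))) := by
    rw [← (P.pi m).sum_one, ← Finset.sum_add_distrib, ← Finset.sum_add_distrib]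
    refine Finset.sum_le_sum fun w _ => ?_
    have hw := (P.pi m).nonneg w
    by_cases h0 : w ∈ typW P r (h + ε) (X - ε) m
    · rw [if_pos h0]
      have : 0 ≤ (if m * ε < |∑ i : Fin m, Real.log (P.w (w i))
          - m * a1| then (P.pi m).w w else 0)
        + (if m * ε < |∑ i : Fin m, Real.log |r (w i)|
          - m * a2| then (P.pi m).w w else 0) := by
        apply add_nonneg <;> split_ifs <;> first | exact hw | exact le_rfl
      linarith only [this]
    · rw [if_neg h0, zero_add]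
      by_cases h1 : m * ε < |∑ i : Fin m, Real.log (P.w (w i))
          - m * a1|
      · rw [if_pos h1]
        have : 0 ≤ (if m * ε < |∑ i : Fin m, Real.log |r (w i)|
          - m * a2| then (P.pi m).w w else 0) := by
          split_ifs <;> first | exact hw | exact le_rfl
        linarith only [this]
      · rw [if_neg h1, zero_add]
        by_cases h2 : m * ε < |∑ i : Fin m, Real.log |r (w i)|
          - m * a2|
        · rw [if_pos h2]
        · exfalso
          apply h0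
          push Not at h1 h2
          rw [abs_le] at h1 h2
          refine ⟨?_, ?_⟩
          · rw [log_pi_w P hP]
            have : m * h = - (m * a1) := by rw [hh]; ring
            rw [mul_add, this]
            linarith only [h1]
          · rw [log_abs_sl r hr0]
            have : m * X = - (m * a2) := by rw [hX]; ring
            rw [mul_sub, this]
            linarith only [h2]
  linarith only [c1, c2, hsmall, hsum]

/-- The set of points covered infinitely often has positive measure. -/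
lemma exists_pos_limsup (μ : Measure ℝ) [IsProbabilityMeasure μ] (E : ℕ → Set ℝ)
    (hE : ∀ m, MeasurableSet (E m)) (c : ℝ≥0∞) (hc : 0 < c) (m0 : ℕ)
    (hm : ∀ m, m0 ≤ m → c ≤ μ (E m)) :
    MeasurableSet (⋂ n : ℕ, ⋃ m : ℕ, ⋃ _ : n ≤ m, E m) ∧
      0 < μ (⋂ n : ℕ, ⋃ m : ℕ, ⋃ _ : n ≤ m, E m) := by
  have hF : ∀ n : ℕ, MeasurableSet (⋃ m : ℕ, ⋃ _ : n ≤ m, E m) := fun n =>
    MeasurableSet.iUnion fun m => MeasurableSet.iUnion fun _ => hE m
  refine ⟨MeasurableSet.iInter hF, ?_⟩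
  have hanti : Antitone fun n : ℕ => ⋃ m : ℕ, ⋃ _ : n ≤ m, E m := by
    intro a b hab
    refine Set.iUnion_mono fun m => ?_
    refine Set.iUnion_subset fun h => ?_
    exact Set.subset_iUnion (fun _ : a ≤ m => E m) (hab.trans h)
  have hlim := tendsto_measure_iInter_atTop (μ := μ)
    (fun n => (hF n).nullMeasurableSet) hanti ⟨0, measure_ne_top _ _⟩
  have hge : ∀ n, c ≤ (μ ∘ fun n : ℕ => ⋃ m : ℕ, ⋃ _ : n ≤ m, E m) n := by
    intro n
    refine (hm (max n m0) (le_max_right _ _)).trans (measure_mono ?_)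
    exact Set.subset_iUnion_of_subset (max n m0)
      (Set.subset_iUnion (fun _ : n ≤ max n m0 => E (max n m0)) (le_max_left _ _))
  exact hc.trans_le (ge_of_tendsto' hlim hge)

end Vale.Agent.P114
end
end

section

open scoped Classical ENNReal Topology NNReal

open MeasureTheory Filter

noncomputable section

namespace Vale.Agent.P114

/-- The interval attached to a word. -/
def wordIcc {A : Type*} (r t : A → ℝ) (C : ℝ) {m : ℕ} (w : Fin m → A) : Set ℝ :=
  Set.Icc (tr r t w - |sl r w| * C) (tr r t w + |sl r w| * C)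

/-- The covering at level `m`. -/
def covE {A : Type*} [Fintype A] (P : FinProb A) (r t : A → ℝ) (C a b : ℝ) (m : ℕ) : Set ℝ :=
  ⋃ w ∈ typW P r a b m, wordIcc r t C w

lemma measurableSet_covE {A : Type*} [Fintype A] (P : FinProb A) (r t : A → ℝ) (C a b : ℝ)
    (m : ℕ) : MeasurableSet (covE P r t C a b m) := by
  unfold covE
  exact MeasurableSet.biUnion (Set.to_countable _) fun w _ => measurableSet_Icc

lemma preimage_wordIcc {A : Type*} (r t : A → ℝ) (C : ℝ) {m : ℕ} (w : Fin m → A) :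
    Set.Icc (-C) C ⊆ (fun x => sl r w * x + tr r t w) ⁻¹' wordIcc r t C w := by
  intro x hx
  have h1 : |x| ≤ C := abs_le.2 hx
  have h2 : |sl r w * x| ≤ |sl r w| * C := by
    rw [abs_mul]
    exact mul_le_mul_of_nonneg_left h1 (abs_nonneg _)
  have h3 := abs_le.1 h2
  exact ⟨by simp only; linarith [h3.1], by simp only; linarith [h3.2]⟩

/-- Mass of the covering. -/
lemma measure_covE {A : Type*} [Fintype A] (P : FinProb A) (r t : A → ℝ) (μ : Measure ℝ)
    (hμ : μ = ∑ a, ENNReal.ofReal (P.w a) • μ.map (simMap r t a)) (C a b : ℝ) (m : ℕ)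
    (hm : 1 / 2 ≤ ∑ w, if w ∈ typW P r a b m then (P.pi m).w w else 0) :
    ENNReal.ofReal (1 / 2) * μ (Set.Icc (-C) C) ≤ μ (covE P r t C a b m) := by
  rw [selfsim_iter P r t μ hμ m _ (measurableSet_covE P r t C a b m)]
  calc ENNReal.ofReal (1 / 2) * μ (Set.Icc (-C) C)
      ≤ ENNReal.ofReal (∑ w, if w ∈ typW P r a b m then (P.pi m).w w else 0)
          * μ (Set.Icc (-C) C) := by
        gcongr
    _ = ∑ w, ENNReal.ofReal (if w ∈ typW P r a b m then (P.pi m).w w else 0)
          * μ (Set.Icc (-C) C) := by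
        rw [ENNReal.ofReal_sum_of_nonneg, Finset.sum_mul]
        intro w _
        split_ifs
        exacts [(P.pi m).nonneg w, le_rfl]
    _ ≤ _ := by
        refine Finset.sum_le_sum fun w _ => ?_
        split_ifs with hw
        · refine mul_le_mul_right (measure_mono ?_) _
          refine (preimage_wordIcc r t C w).trans (Set.preimage_mono ?_)
          exact Set.subset_biUnion_of_mem (u := fun w => wordIcc r t C w) hw
        · simp only [ENNReal.ofReal_zero, zero_mul, FinProb.pi_w, zero_le]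

/-- Hausdorff measure of the limsup set. -/
lemma dimH_limsup_le {A : Type*} [Fintype A] (P : FinProb A) (hP : ∀ a, 0 < P.w a)
    (r t : A → ℝ) (hr0 : ∀ a, r a ≠ 0) (C a b s : ℝ) (hC : 0 ≤ C) (hb : 0 < b) (hs : 0 < s)
    (hab : a < s * b) :
    dimH (⋂ n : ℕ, ⋃ m : ℕ, ⋃ _ : n ≤ m, covE P r t C a b m) ≤ ENNReal.ofReal s := by
  set E := ⋂ n : ℕ, ⋃ m : ℕ, ⋃ _ : n ≤ m, covE P r t C a b m with hE
  set δ := s * b - a with hδ
  have hδ0 : 0 < δ := by linarith
  set K : ℝ := (2 * C) ^ s with hK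
  have hK0 : 0 ≤ K := Real.rpow_nonneg (by positivity) _
  -- the covers
  set tt : ∀ _n : ℕ, (Σ m : ℕ, (Fin m → A)) → Set ℝ := fun n x =>
    if n ≤ x.1 ∧ x.2 ∈ typW P r a b x.1 then wordIcc r t C x.2 else ∅ with htt
  have hslope : ∀ (m : ℕ) (w : Fin m → A), w ∈ typW P r a b m →
      |sl r w| ≤ Real.exp (-(m * b)) := by
    intro m w hw
    have h1 : 0 < |sl r w| := by
      rw [sl_eq_prod, Finset.abs_prod]
      exact Finset.prod_pos fun i _ => abs_pos.2 (hr0 _)
    rw [← Real.log_le_iff_le_exp h1]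
    exact hw.2
  have hdiam : ∀ (m : ℕ) (w : Fin m → A), w ∈ typW P r a b m →
      Metric.ediam (wordIcc r t C w) ≤ ENNReal.ofReal (2 * C * Real.exp (-(m * b))) := by
    intro m w hw
    unfold wordIcc
    rw [Real.ediam_Icc]
    apply ENNReal.ofReal_le_ofReal
    have := hslope m w hw
    linarith only [mul_nonneg (sub_nonneg.2 hC) (sub_nonneg.2 this)]
  have hmain : (μH[s] : Measure ℝ) E ≤ liminf (fun n : ℕ => ∑' x : (Σ m : ℕ, (Fin m → A)),
      Metric.ediam (tt n x) ^ s) atTop := by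
    refine Measure.hausdorffMeasure_le_liminf_tsum s E
      (fun n : ℕ => ENNReal.ofReal (2 * C * Real.exp (-(n * b)))) ?_ tt ?_ ?_
    · have h1 : Tendsto (fun n : ℕ => 2 * C * Real.exp (-(n * b))) atTop (𝓝 0) := by
        have h2 : Tendsto (fun n : ℕ => Real.exp (-(n * b))) atTop (𝓝 0) := by
          refine Real.tendsto_exp_atBot.comp ?_
          refine tendsto_neg_atTop_atBot.comp ?_
          exact tendsto_natCast_atTop_atTop.atTop_mul_const hb
        simpa using h2.const_mul (2 * C)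
      have := ENNReal.tendsto_ofReal h1
      simpa only [ENNReal.ofReal_zero] using this
    · refine Eventually.of_forall fun n x => ?_
      simp only [htt]
      split_ifs with hx
      · refine (hdiam x.1 x.2 hx.2).trans ?_
        apply ENNReal.ofReal_le_ofReal
        have h1 : (n : ℝ) ≤ x.1 := by exact_mod_cast hx.1
        have h2 : Real.exp (-(x.1 * b)) ≤ Real.exp (-(n * b)) := by
          apply Real.exp_le_exp.2
          linarith only [mul_nonneg (le_of_lt (sub_pos.2 hb)) (sub_nonneg.2 h1)]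
        exact mul_le_mul_of_nonneg_left h2 (by positivity)
      · simp only [Metric.ediam_empty, zero_le]
    · refine Eventually.of_forall fun n x hx => ?_
      have h1 := Set.mem_iInter.1 hx n
      simp only [Set.mem_iUnion] at h1
      obtain ⟨m, hnm, hx⟩ := h1
      unfold covE at hx
      simp only [Set.mem_iUnion] at hx
      obtain ⟨w, hw, hxw⟩ := hx
      refine Set.mem_iUnion.2 ⟨⟨m, w⟩, ?_⟩
      simp only [htt]
      rw [if_pos ⟨hnm, hw⟩]
      exact hxw
  have hterm : ∀ (n m : ℕ) (w : Fin m → A), Metric.ediam (tt n ⟨m, w⟩) ^ s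
      ≤ ENNReal.ofReal ((P.pi m).w w * (K * Real.exp (-(δ * m)))) := by
    intro n m w
    simp only [htt]
    split_ifs with hx
    · refine (ENNReal.rpow_le_rpow (hdiam m w hx.2) hs.le).trans ?_
      rw [ENNReal.ofReal_rpow_of_nonneg (by (clear * - hC; positivity)) hs.le]
      apply ENNReal.ofReal_le_ofReal
      rw [Real.mul_rpow (by positivity) (Real.exp_pos _).le, ← Real.exp_mul]
      have hq : 0 < (P.pi m).w w := by
        rw [FinProb.pi_w]
        exact Finset.prod_pos fun i _ => hP _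
      have h1 : 1 ≤ (P.pi m).w w * Real.exp (m * a) := by
        have h2 : Real.exp (-(m * a)) ≤ (P.pi m).w w := by
          rw [← Real.le_log_iff_exp_le hq]
          linarith only [hx.2.1]
        rw [← Real.exp_zero, show (0 : ℝ) = -(m * a) + m * a by ring, Real.exp_add]
        exact mul_le_mul_of_nonneg_right h2 (Real.exp_pos _).le
      have h3 : Real.exp (-(m * b) * s) * Real.exp (m * a) = Real.exp (-(δ * m)) := by
        rw [← Real.exp_add]
        congr 1
        rw [hδ]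
        ring
      calc K * Real.exp (-(m * b) * s)
          = (K * Real.exp (-(m * b) * s)) * 1 := by ring
        _ ≤ (K * Real.exp (-(m * b) * s)) * ((P.pi m).w w * Real.exp (m * a)) :=
            mul_le_mul_of_nonneg_left h1 (by (clear * - hC; positivity))
        _ = (P.pi m).w w * (K * (Real.exp (-(m * b) * s) * Real.exp (m * a))) := by ring
        _ = _ := by rw [h3]
    · simp only [Metric.ediam_empty, ENNReal.zero_rpow_of_pos hs, FinProb.pi_w, zero_le]
  have hsumm : Summable fun m : ℕ => K * Real.exp (-(δ * m)) := by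
    refine Summable.mul_left K ?_
    have : ∀ m : ℕ, Real.exp (-(δ * m)) = (Real.exp (-δ)) ^ m := by
      intro m
      rw [← Real.exp_nat_mul]
      congr 1
      ring
    simp only [this]
    exact summable_geometric_of_lt_one (Real.exp_pos _).le (by rw [Real.exp_lt_one_iff]; linarith only [hab])
  have hbound : ∀ n : ℕ, ∑' x : (Σ m : ℕ, (Fin m → A)), Metric.ediam (tt n x) ^ s
      ≤ ∑' m : ℕ, ENNReal.ofReal (K * Real.exp (-(δ * m))) := by
    intro n
    rw [ENNReal.tsum_sigma']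
    refine ENNReal.tsum_le_tsum fun m => ?_
    rw [tsum_fintype]
    refine (Finset.sum_le_sum fun w _ => hterm n m w).trans ?_
    rw [← ENNReal.ofReal_sum_of_nonneg, ← Finset.sum_mul, (P.pi m).sum_one, one_mul]
    intro w _
    exact mul_nonneg ((P.pi m).nonneg w) (by (clear * - hC; positivity))
  have hfin : (μH[s] : Measure ℝ) E ≠ ∞ := by
    refine ne_top_of_le_ne_top hsumm.tsum_ofReal_ne_top (hmain.trans ?_)
    refine (liminf_le_liminf (Eventually.of_forall hbound)).trans ?_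
    simp only [liminf_const, Std.le_refl]
  have := dimH_le_of_hausdorffMeasure_ne_top (s := E) (d := ⟨s, hs.le⟩) hfin
  refine this.trans ?_
  rw [ENNReal.ofReal, Real.toNNReal_of_nonneg hs.le]
  exact le_rfl

theorem lowerDimH_le_of_lt {A : Type*} [Fintype A] (P : FinProb A) (hP : ∀ a, 0 < P.w a)
    (r t : A → ℝ) (hr0 : ∀ a, r a ≠ 0) (μ : Measure ℝ) [IsProbabilityMeasure μ]
    (hμ : μ = ∑ a, ENNReal.ofReal (P.w a) • μ.map (simMap r t a))
    (h X s : ℝ) (hh : h = -∑ a, P.w a * Real.log (P.w a))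
    (hX : X = -∑ a, P.w a * Real.log |r a|)
    (hs : 0 < s) (hsX : h < s * X) : lowerDimH μ ≤ ENNReal.ofReal s := by
  have hh0 : 0 ≤ h := by
    rw [hh, ← Finset.sum_neg_distrib]
    refine Finset.sum_nonneg fun a _ => ?_
    have := Real.log_nonpos (P.nonneg a) (P.w_le_one a)
    linarith only [mul_nonneg (sub_nonneg.2 this) (le_of_lt (sub_pos.2 (hP a)))]
  set ε := (s * X - h) / (2 * (1 + s)) with hε
  have hε0 : 0 < ε := div_pos (by linarith only [hsX]) (by positivity)
  have hε1 : ε + s * ε = (s * X - h) / 2 := by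
    rw [hε]
    field_simp
  have hab : h + ε < s * (X - ε) := by linarith only [hε1, hsX]
  have hb : 0 < X - ε := by
    by_contra hcon
    push Not at hcon
    linarith [mul_nonneg (le_of_lt (sub_pos.2 hs)) (sub_nonneg.2 hcon), mul_pos (sub_pos.2 hε0) (sub_pos.2 hs), hε1, hε0, hh0]
  obtain ⟨m0, hm0⟩ := typW_prob P hP r hr0 h X ε hε0 hh hX
  obtain ⟨C, hC⟩ : ∃ C : ℕ, 0 < μ (Set.Icc (-(C : ℝ)) C) := by
    refine exists_measure_pos_of_not_measure_iUnion_null ?_
    have : (⋃ n : ℕ, Set.Icc (-(n : ℝ)) n) = Set.univ := by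
      refine Set.eq_univ_of_forall fun x => ?_
      obtain ⟨n, hn⟩ := exists_nat_ge |x|
      exact Set.mem_iUnion.2 ⟨n, abs_le.1 hn⟩
    rw [this]
    simp
  obtain ⟨h1, h2⟩ := exists_pos_limsup μ (covE P r t C (h + ε) (X - ε))
    (measurableSet_covE P r t C (h + ε) (X - ε))
    (ENNReal.ofReal (1 / 2) * μ (Set.Icc (-(C : ℝ)) C))
    (ENNReal.mul_pos (by simp) hC.ne') m0
    (fun m hm => measure_covE P r t μ hμ C (h + ε) (X - ε) m (hm0 m hm))
  refine (iInf₂_le _ h1).trans ((iInf_le _ h2).trans ?_)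
  exact dimH_limsup_le P hP r t hr0 C (h + ε) (X - ε) s (Nat.cast_nonneg C) hb hs hab

theorem lowerDimH_le_ratio {A : Type*} [Fintype A] (P : FinProb A) (hP : ∀ a, 0 < P.w a)
    (r t : A → ℝ) (hr0 : ∀ a, r a ≠ 0) (μ : Measure ℝ) [IsProbabilityMeasure μ]
    (hμ : μ = ∑ a, ENNReal.ofReal (P.w a) • μ.map (simMap r t a))
    (h X : ℝ) (hh : h = -∑ a, P.w a * Real.log (P.w a))
    (hX : X = -∑ a, P.w a * Real.log |r a|) (hX0 : 0 < X) :
    lowerDimH μ ≤ ENNReal.ofReal (h / X) := by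
  have hh0 : 0 ≤ h := by
    rw [hh, ← Finset.sum_neg_distrib]
    refine Finset.sum_nonneg fun a _ => ?_
    have := Real.log_nonpos (P.nonneg a) (P.w_le_one a)
    linarith only [mul_nonneg (sub_nonneg.2 this) (le_of_lt (sub_pos.2 (hP a)))]
  refine ENNReal.le_of_forall_pos_le_add fun ε hε _ => ?_
  have h1 : 0 < h / X + ε := by positivity
  have h2 := lowerDimH_le_of_lt P hP r t hr0 μ hμ h X (h / X + ε) hh hX h1 (by
    rw [add_mul, div_mul_cancel₀ _ hX0.ne']
    have : 0 < (ε : ℝ) * X := by positivity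
    linarith only [this])
  refine h2.trans ?_
  rw [ENNReal.ofReal_add (by positivity) (by positivity)]
  simp

end Vale.Agent.P114
end
end

section

open scoped Classical ENNReal Topology NNReal

open MeasureTheory Filter

noncomputable section

namespace Vale.Agent.P114

/-- The values (slope, translation part) of words of length `n`. -/
def blockA {Λ : Type*} [Fintype Λ] (r t : Λ → ℝ) (n : ℕ) : Finset (ℝ × ℝ) :=
  Finset.univ.image fun w : Fin n → Λ => (sl r w, tr r t w)

/-- The law of (slope, translation part) of words of length `n`. -/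
def blockP {Λ : Type*} [Fintype Λ] (P : FinProb Λ) (r t : Λ → ℝ) (n : ℕ) :
    FinProb {x : ℝ × ℝ // x ∈ blockA r t n} where
  w x := (P.pi n).p (fun w : Fin n → Λ => (sl r w, tr r t w)) x.1
  nonneg x := FinProb.p_nonneg _ _ _
  sum_one := by
    have h := (P.pi n).sum_p_image (fun w : Fin n → Λ => (sl r w, tr r t w))
    rw [← h]
    exact Finset.sum_coe_sort (blockA r t n)
      (fun x => (P.pi n).p (fun w : Fin n → Λ => (sl r w, tr r t w)) x)

lemma blockP_w {Λ : Type*} [Fintype Λ] (P : FinProb Λ) (r t : Λ → ℝ) (n : ℕ)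
    (x : {x : ℝ × ℝ // x ∈ blockA r t n}) :
    (blockP P r t n).w x = (P.pi n).p (fun w : Fin n → Λ => (sl r w, tr r t w)) x.1 := rfl

lemma blockP_pos {Λ : Type*} [Fintype Λ] (P : FinProb Λ) (hP : ∀ i, 0 < P.w i) (r t : Λ → ℝ)
    (n : ℕ) (x : {x : ℝ × ℝ // x ∈ blockA r t n}) : 0 < (blockP P r t n).w x := by
  obtain ⟨x, hx⟩ := x
  obtain ⟨w, -, rfl⟩ := Finset.mem_image.1 hx
  rw [blockP_w]
  refine (P.pi n).p_pos (ω := w) ?_ _
  rw [FinProb.pi_w]
  exact Finset.prod_pos fun i _ => hP _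

lemma block_ne_zero {Λ : Type*} [Fintype Λ] (r t : Λ → ℝ) (hr0 : ∀ i, r i ≠ 0)
    (n : ℕ) (x : {x : ℝ × ℝ // x ∈ blockA r t n}) : x.1.1 ≠ 0 := by
  obtain ⟨x, hx⟩ := x
  obtain ⟨w, -, rfl⟩ := Finset.mem_image.1 hx
  simp only
  rw [sl_eq_prod]
  exact Finset.prod_ne_zero_iff.2 fun i _ => hr0 _

/-- Real sums over block values. -/
lemma sum_block {Λ : Type*} [Fintype Λ] (P : FinProb Λ) (r t : Λ → ℝ) (n : ℕ)
    (φ : ℝ × ℝ → ℝ) :
    ∑ x, (blockP P r t n).w x * φ x.1 = ∑ w, (P.pi n).w w * φ (sl r w, tr r t w) := by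
  rw [(P.pi n).sum_fiber (fun w : Fin n → Λ => (sl r w, tr r t w)) φ]
  exact Finset.sum_coe_sort (blockA r t n)
      (fun x => (P.pi n).p (fun w : Fin n → Λ => (sl r w, tr r t w)) x * φ x)

lemma dimBlockEntropy {Λ : Type*} [Fintype Λ] (P : FinProb Λ) (r t : Λ → ℝ) (n : ℕ) :
    (P.pi n).H (fun w : Fin n → Λ => (sl r w, tr r t w))
      = -∑ x, (blockP P r t n).w x * Real.log ((blockP P r t n).w x) := by
  have h := Finset.sum_coe_sort (blockA r t n)
    (fun x => ((P.pi n).p (fun w : Fin n → Λ => (sl r w, tr r t w)) x).negMulLog)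
  rw [(P.pi n).H_eq_sum, ← Finset.sum_neg_distrib]
  refine h.symm.trans (Finset.sum_congr rfl fun x _ => ?_)
  rw [blockP_w, Real.negMulLog]
  ring

/-- Expectation of a sum over the letters of a word. -/
lemma sum_pi_sum {Λ : Type*} [Fintype Λ] (P : FinProb Λ) (g : Λ → ℝ) (n : ℕ) :
    ∑ w, (P.pi n).w w * ∑ k, g (w k) = n * ∑ i, P.w i * g i := by
  induction n with
  | zero => simp only [Finset.univ_unique, FinProb.pi_w, Finset.univ_eq_empty, Finset.prod_empty, Finset.sum_empty, mul_zero, Finset.sum_const_zero, CharP.cast_eq_zero, zero_mul]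
  | succ n ih =>
    rw [P.sum_pi_succ]
    have h1 : ∀ a, ∑ x, (P.pi n).w x * ∑ k, g ((Fin.cons a x : Fin (n + 1) → Λ) k)
        = g a + n * ∑ i, P.w i * g i := by
      intro a
      rw [← ih]
      simp only [Fin.sum_univ_succ, Fin.cons_zero, Fin.cons_succ, mul_add,
        Finset.sum_add_distrib]
      rw [← Finset.sum_mul, (P.pi n).sum_one, one_mul]
    simp only [h1, mul_add, Finset.sum_add_distrib]
    rw [← Finset.sum_mul, P.sum_one, one_mul]
    push_cast
    ring

lemma block_lyap {Λ : Type*} [Fintype Λ] (P : FinProb Λ) (r t : Λ → ℝ) (hr0 : ∀ i, r i ≠ 0)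
    (n : ℕ) : ∑ x, (blockP P r t n).w x * Real.log |x.1.1| = n * ∑ i, P.w i * Real.log |r i| := by
  rw [sum_block P r t n (fun x => Real.log |x.1|), ← sum_pi_sum]
  refine Finset.sum_congr rfl fun w _ => ?_
  rw [log_abs_sl r hr0]

/-- A self-similar measure is self-similar for the block system. -/
lemma block_selfsim {Λ : Type*} [Fintype Λ] (P : FinProb Λ) (r t : Λ → ℝ) (μ : Measure ℝ)
    (hμ : μ = ∑ a, ENNReal.ofReal (P.w a) • μ.map (simMap r t a)) (n : ℕ) :
    μ = ∑ x, ENNReal.ofReal ((blockP P r t n).w x) •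
      μ.map (simMap (fun x : {x : ℝ × ℝ // x ∈ blockA r t n} => x.1.1) (fun x => x.1.2) x) := by
  refine Measure.ext fun E hE => ?_
  rw [selfsim_iter P r t μ hμ n E hE, Measure.finsetSum_apply]
  have h1 : ∀ x : {x : ℝ × ℝ // x ∈ blockA r t n},
      (ENNReal.ofReal ((blockP P r t n).w x) •
      μ.map (simMap (fun x : {x : ℝ × ℝ // x ∈ blockA r t n} => x.1.1) (fun x => x.1.2) x)) E
      = ∑ w : Fin n → Λ, if (sl r w, tr r t w) = x.1 then ENNReal.ofReal ((P.pi n).w w) *
        μ ((fun y => sl r w * y + tr r t w) ⁻¹' E) else 0 := by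
    intro x
    rw [Measure.smul_apply, Measure.map_apply (measurable_simMap _ _ _) hE, smul_eq_mul,
      blockP_w, FinProb.p, ENNReal.ofReal_sum_of_nonneg, Finset.sum_mul]
    · refine Finset.sum_congr rfl fun w _ => ?_
      split_ifs with h
      · congr 2
        ext y
        simp only [Set.mem_preimage, simMap, ← h]
      · simp
    · intro w _
      split_ifs
      exacts [(P.pi n).nonneg w, le_rfl]
  simp only [h1]
  rw [Finset.sum_comm]
  refine Finset.sum_congr rfl fun w _ => ?_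
  have hw : (sl r w, tr r t w) ∈ blockA r t n :=
    Finset.mem_image_of_mem _ (Finset.mem_univ w)
  rw [Finset.sum_eq_single (⟨(sl r w, tr r t w), hw⟩ : {x : ℝ × ℝ // x ∈ blockA r t n})]
  · simp only [FinProb.pi_w, ↓reduceIte]
  · intro b _ hb
    rw [if_neg]
    intro h
    exact hb (Subtype.ext h.symm)
  · intro h
    exact absurd (Finset.mem_univ _) h

lemma lyap_pos {Λ : Type*} [Fintype Λ] (r p : Λ → ℝ) (hr0 : ∀ i, r i ≠ 0)
    (hr1 : ∀ i, |r i| < 1) (hp : ∀ i, 0 ≤ p i) (hp1 : ∑ i, p i = 1) : 0 < lyap r p := by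
  rw [lyap_eq]
  refine div_pos ?_ (Real.log_pos (by norm_num))
  rw [← Finset.sum_neg_distrib]
  have h0 : ∀ i, 0 ≤ -(p i * Real.log |r i|) := by
    intro i
    have := Real.log_neg (abs_pos.2 (hr0 i)) (hr1 i)
    linarith only [mul_nonneg (le_of_lt (sub_pos.2 this)) (sub_nonneg.2 (hp i))]
  refine lt_of_le_of_ne (Finset.sum_nonneg fun i _ => h0 i) ?_
  intro h
  have h1 := (Finset.sum_eq_zero_iff_of_nonneg (fun i _ => h0 i)).1 h.symm
  have h2 : ∀ i, p i = 0 := by
    intro i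
    have h3 := h1 i (Finset.mem_univ i)
    have h4 := Real.log_neg (abs_pos.2 (hr0 i)) (hr1 i)
    rcases mul_eq_zero.1 (neg_eq_zero.1 h3) with h5 | h5
    · exact h5
    · exact absurd h5 h4.ne
  simp only [h2, Finset.sum_const_zero, zero_ne_one] at hp1

/-- Upper bound for the lower Hausdorff dimension of a self-similar measure. -/
theorem lowerDimH_le {Λ : Type*} [Fintype Λ] (r t p : Λ → ℝ) (hr0 : ∀ i, r i ≠ 0)
    (hr1 : ∀ i, |r i| < 1) (hp : ∀ i, 0 < p i) (hp1 : ∑ i, p i = 1)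
    (μ : Measure ℝ) (hμ : IsSelfSimilar r t p μ) :
    lowerDimH μ ≤ ENNReal.ofReal (min 1 (hRW r t p / lyap r p)) := by
  have := hμ.prob
  set P : FinProb Λ := ⟨p, fun i => (hp i).le, hp1⟩ with hPdef
  have hL := lyap_pos r p hr0 hr1 (fun i => (hp i).le) hp1
  have hlog : 0 < Real.log 2 := Real.log_pos (by norm_num)
  have h1 : lowerDimH μ ≤ 1 := by
    refine (iInf₂_le Set.univ MeasurableSet.univ).trans ((iInf_le _ (by simp)).trans ?_)
    rw [Real.dimH_univ]
  have hblock : ∀ n : ℕ, n ≠ 0 →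
      lowerDimH μ ≤ ENNReal.ofReal (stepEntropy r t p n / n / lyap r p) := by
    intro n hn
    have hn0 : (0 : ℝ) < n := by exact_mod_cast Nat.pos_of_ne_zero hn
    have hX0 : 0 < -∑ x, (blockP P r t n).w x * Real.log |x.1.1| := by
      rw [block_lyap P r t hr0 n]
      have e : lyap r p = (-∑ i, P.w i * Real.log |r i|) / Real.log 2 := lyap_eq r p
      rw [e] at hL
      have := (div_pos_iff_of_pos_right hlog).1 hL
      linarith only [mul_pos (sub_pos.2 hn0) (sub_pos.2 this)]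
    have := lowerDimH_le_ratio (blockP P r t n) (blockP_pos P (fun i => hp i) r t n)
      (fun x => x.1.1) (fun x => x.1.2) (block_ne_zero r t hr0 n) μ
      (block_selfsim P r t μ hμ.eq n) _ _ rfl rfl hX0
    refine this.trans (le_of_eq ?_)
    congr 1
    rw [← dimBlockEntropy, block_lyap P r t hr0 n, stepEntropy_eq r t p P (fun _ => rfl) n,
      lyap_eq r p]
    have e2 : ∑ i, p i * Real.log |r i| = ∑ i, P.w i * Real.log |r i| := rfl
    rw [e2]
    have h3 : -∑ i, P.w i * Real.log |r i| ≠ 0 := by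
      intro h
      rw [lyap_eq] at hL
      rw [e2, h] at hL
      simp at hL
    (clear * - hn; field_simp)
  have htop : lowerDimH μ ≠ ∞ := ne_top_of_le_ne_top ENNReal.one_ne_top h1
  have hD : lowerDimH μ = ENNReal.ofReal (lowerDimH μ).toReal := (ENNReal.ofReal_toReal htop).symm
  rw [hD]
  apply ENNReal.ofReal_le_ofReal
  refine le_min ?_ ?_
  · have := ENNReal.toReal_mono ENNReal.one_ne_top h1
    simpa using this
  · rw [le_div_iff₀ hL]
    refine le_hRW r t p _ fun n hn => ?_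
    rw [← le_div_iff₀ hL]
    have h2 := ENNReal.toReal_mono ENNReal.ofReal_ne_top (hblock n hn)
    rwa [ENNReal.toReal_ofReal] at h2
    exact div_nonneg (div_nonneg (stepEntropy_nonneg r t p (fun i => (hp i).le) hp1 n)
      (Nat.cast_nonneg n)) hL.le

end Vale.Agent.P114
end
end

section

/-! Entropy bound by collision probabilities, and the two grid lemma. -/

open scoped Classical

noncomputable section

namespace Vale.Agent.P114

open FinProb

lemma negMulLog_le_coll (q T : ℝ) (hq0 : 0 ≤ q) (hq1 : q ≤ 1) (hT : 0 ≤ T) :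
    Real.negMulLog q ≤ 2 * (T + 1) * (q * (1 - q)) + Real.exp (-T) := by
  rcases hq0.eq_or_lt with h0 | h0
  · rw [← h0]; simp [Real.exp_nonneg]
  unfold Real.negMulLog
  have hexp := Real.exp_pos (-T)
  rcases le_total (1 / 2) q with h | h
  · have h1 : Real.log (1 / q) ≤ 1 / q - 1 := Real.log_le_sub_one_of_pos (by positivity)
    rw [one_div, Real.log_inv] at h1
    have h2 : q * (-Real.log q) ≤ q * (q⁻¹ - 1) := mul_le_mul_of_nonneg_left h1 hq0
    have h3 : q * (q⁻¹ - 1) = 1 - q := by field_simp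
    have h4 : 1 - q ≤ 2 * (q * (1 - q)) := by linarith only [mul_nonneg (sub_nonneg.2 hq1) (sub_nonneg.2 h)]
    have h5 : 0 ≤ q * (1 - q) := mul_nonneg hq0 (by linarith only [hq1])
    (by_contra nlg; linarith only [nlg, mul_nonneg (sub_nonneg.2 hq1) (sub_nonneg.2 hT), mul_nonneg (sub_nonneg.2 h4) (sub_nonneg.2 hT), mul_nonneg (mul_self_nonneg (1 : ℝ)) (sub_nonneg.2 h4), mul_eq_zero_of_left (sub_eq_zero.2 h3) (0 - (0 - 1 * 1)), mul_nonneg (mul_self_nonneg (1 : ℝ)) (sub_nonneg.2 h2), mul_nonneg (mul_self_nonneg (1 : ℝ)) (le_of_lt (sub_pos.2 (not_le.1 nlg))), hexp])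
  · have h1 : Real.log (Real.exp (-T) / q) ≤ Real.exp (-T) / q - 1 :=
      Real.log_le_sub_one_of_pos (by positivity)
    rw [Real.log_div hexp.ne' h0.ne', Real.log_exp] at h1
    have h2 : q * (-T - Real.log q) ≤ q * (Real.exp (-T) / q - 1) :=
      mul_le_mul_of_nonneg_left h1 hq0
    have h3 : q * (Real.exp (-T) / q - 1) = Real.exp (-T) - q := by field_simp
    have h4 : q ≤ 2 * (q * (1 - q)) := by nlinarith only [hq0, h]
    nlinarith only [h0, h2, h3, h4, hT]

/-- Entropy in terms of the collision probabilities. -/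
lemma H_le_coll {A β : Type*} [Fintype A] (Q : FinProb A) (V : A → β) (s : Finset β)
    (F : A → A → Prop) (hF : ∀ a b, F a b ↔ V a ≠ V b)
    (hs : ∀ a, 0 < Q.w a → V a ∈ s) (T : ℝ) (hT : 0 ≤ T) :
    Q.H V ≤ 2 * (T + 1) * (∑ x : A × A, if F x.1 x.2 then (Q.prod Q).w x else 0)
      + s.card * Real.exp (-T) := by
  obtain ⟨a0, ha0⟩ := Q.exists_w_pos
  set V' : A → β := fun a => if 0 < Q.w a then V a else V a0 with hV'
  have e1 : Q.H V = Q.H V' := Q.H_congr_supp _ _ fun a ha => by simp [hV', ha]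
  have e2 : ∀ a, V' a ∈ s := fun a => by
    simp only [hV']; split_ifs with h; exacts [hs a h, hs a0 ha0]
  have e3 : (∑ x : A × A, if F x.1 x.2 then (Q.prod Q).w x else 0)
      = ∑ a, Q.w a * (1 - Q.p V' (V' a)) := by
    rw [Fintype.sum_prod_type]
    refine Finset.sum_congr rfl fun a _ => ?_
    have h1 : (1 : ℝ) - Q.p V' (V' a) = ∑ b, (if V' b ≠ V' a then Q.w b else 0) := by
      rw [← Q.sum_one]
      unfold p
      rw [← Finset.sum_sub_distrib]
      refine Finset.sum_congr rfl fun b _ => ?_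
      by_cases h : V' b = V' a <;> simp [h]
    rw [h1, Finset.mul_sum]
    refine Finset.sum_congr rfl fun b _ => ?_
    simp only [prod_w]
    rcases Q.w_zero_or_pos a with ha | ha
    · simp [ha]
    rcases Q.w_zero_or_pos b with hb | hb
    · simp [hb]
    have h2 : V' a = V a := by simp [hV', ha]
    have h3 : V' b = V b := by simp [hV', hb]
    rw [h2, h3]
    by_cases h : V a = V b
    · rw [if_neg (fun h' => (hF a b).1 h' h), if_neg (by simpa using h.symm), mul_zero]
    · rw [if_pos ((hF a b).2 h), if_pos (fun h' => h h'.symm)]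
  rw [e1, e3, Q.H_eq_sum_of_subset V' s e2]
  have e4 : ∀ b ∈ s, Real.negMulLog (Q.p V' b)
      ≤ 2 * (T + 1) * (Q.p V' b * (1 - Q.p V' b)) + Real.exp (-T) := fun b _ =>
    negMulLog_le_coll _ T (Q.p_nonneg _ _) (Q.p_le_one _ _) hT
  refine (Finset.sum_le_sum e4).trans ?_
  rw [Finset.sum_add_distrib, ← Finset.mul_sum, Finset.sum_const, nsmul_eq_mul]
  have e5 : ∑ b ∈ s, Q.p V' b * (1 - Q.p V' b) = ∑ a, Q.w a * (1 - Q.p V' (V' a)) := by
    rw [Q.sum_fiber V' (fun b => 1 - Q.p V' b)]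
    symm
    refine Finset.sum_subset (fun b hb => ?_) (fun b _ hb => ?_)
    · obtain ⟨a, -, rfl⟩ := Finset.mem_image.1 hb
      exact e2 a
    · rw [Q.p_eq_zero_of_notMem (fun ω h => hb (Finset.mem_image.2 ⟨ω, Finset.mem_univ _, h⟩)),
        zero_mul]
  rw [e5]

lemma half_cases (x : ℤ) (j : ℕ) : x / 2 ^ j = 2 * (x / 2 ^ (j + 1)) ∨
    x / 2 ^ j = 2 * (x / 2 ^ (j + 1)) + 1 := by
  rw [ediv_pow_add x j 1, pow_one]
  omega

/-- One binary digit. -/
lemma digit_le {A : Type*} [Fintype A] (PA : FinProb A) (U : A → ℤ) (j : ℕ) (T : ℝ) (hT : 0 ≤ T) :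
    PA.H (fun a => U a / 2 ^ j) - PA.H (fun a => U a / 2 ^ (j + 1))
      ≤ 2 * (T + 1) * (∑ x : A × A, if U x.1 / 2 ^ j ≠ U x.2 / 2 ^ j then
          (PA.couple (fun a => U a / 2 ^ (j + 1))).w x else 0) + 2 * Real.exp (-T) := by
  set h : A → ℤ := fun a => U a / 2 ^ (j + 1) with hh
  set V : A → ℤ := fun a => U a / 2 ^ j with hV
  have e1 : PA.H (fun a => (V a, h a)) = PA.H V := PA.H_congr_det fun x y => by
    constructor
    · intro hxy
      have : h x = h y := by
        simp only [hh, hV] at hxy ⊢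
        rw [ediv_pow_add, ediv_pow_add, hxy]
      simp [hxy, this]
    · intro hxy; exact (Prod.ext_iff.1 hxy).1
  have e2 := PA.H_pair_eq_cond V h
  have e3 : PA.H V - PA.H h = ∑ ω, PA.w ω * (PA.cond h (h ω)).H V := by linarith only [e1, e2]
  obtain ⟨F, hF⟩ : ∃ F : A → A → Prop, ∀ a b, F a b ↔ V a ≠ V b :=
    ⟨fun a b => V a ≠ V b, fun _ _ => Iff.rfl⟩
  have e5 : (∑ x : A × A, if U x.1 / 2 ^ j ≠ U x.2 / 2 ^ j then (PA.couple h).w x else 0)
      = ∑ a, PA.w a * ∑ x : A × A, (if F x.1 x.2 then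
        ((PA.cond h (h a)).prod (PA.cond h (h a))).w x else 0) := by
    rw [couple_eq_mix PA h F]
    refine Finset.sum_congr rfl fun x _ => ?_
    by_cases hx : V x.1 ≠ V x.2
    · rw [if_pos hx, if_pos ((hF _ _).2 hx)]
    · rw [if_neg hx, if_neg (fun h' => hx ((hF _ _).1 h'))]
  rw [e3, e5, Finset.mul_sum, ← PA.sum_const (2 * Real.exp (-T)), ← Finset.sum_add_distrib]
  refine Finset.sum_le_sum fun a _ => ?_
  rcases PA.w_zero_or_pos a with ha | ha
  · simp only [ha, zero_mul, prod_w, mul_zero, add_zero, Std.le_refl]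
  rw [mul_left_comm, ← mul_add]
  refine mul_le_mul_of_nonneg_left ?_ ha.le
  have key := H_le_coll (PA.cond h (h a)) V {2 * h a, 2 * h a + 1} F hF (fun b hb => by
    have := PA.cond_supp h a ha b hb
    rw [← this, Finset.mem_insert, Finset.mem_singleton]
    exact half_cases (U b) j) T hT
  refine key.trans (add_le_add le_rfl ?_)
  refine mul_le_mul_of_nonneg_right ?_ (Real.exp_pos _).le
  exact_mod_cast Finset.card_le_two

/-- the shift of the second grid -/
def shiftG (m : ℕ) : ℤ := ∑ r ∈ Finset.range m, 4 ^ r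

lemma shiftG_eq (m : ℕ) : 3 * shiftG m + 1 = 4 ^ m := by
  unfold shiftG
  induction m with
  | zero => simp
  | succ m ih => rw [Finset.sum_range_succ, pow_succ]; linarith only [ih]

lemma two_grid_aux {x x' : ℤ} {s m : ℕ} (hs : 3 ≤ s) (hsm : s ≤ 2 * m) (hlt : x < x')
    (hd : 4 * (x' - x) < 2 ^ s) (h1 : x / 2 ^ s ≠ x' / 2 ^ s) :
    (x + shiftG m) / 2 ^ s = (x' + shiftG m) / 2 ^ s := by
  by_contra h2
  have hR : (0 : ℤ) < 2 ^ s := by positivity
  have hR8 : (8 : ℤ) ≤ 2 ^ s := by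
    calc (8 : ℤ) = 2 ^ 3 := by norm_num
      _ ≤ 2 ^ s := pow_le_pow_right₀ (by norm_num) hs
  have a1 : x / 2 ^ s ≤ x' / 2 ^ s := Int.ediv_le_ediv hR hlt.le
  have a2 : x / 2 ^ s + 1 ≤ x' / 2 ^ s := by omega
  have a3 : (x + shiftG m) / 2 ^ s ≤ (x' + shiftG m) / 2 ^ s :=
    Int.ediv_le_ediv hR (by linarith only [hlt])
  have a4 : (x + shiftG m) / 2 ^ s + 1 ≤ (x' + shiftG m) / 2 ^ s := by omega
  have d2 := Int.lt_ediv_add_one_mul_self x hR
  have d3 := Int.ediv_mul_le x' hR.ne'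
  have d6 := Int.lt_ediv_add_one_mul_self (x + shiftG m) hR
  have d7 := Int.ediv_mul_le (x' + shiftG m) hR.ne'
  set k1 := x' / 2 ^ s with hk1
  set k2 := (x' + shiftG m) / 2 ^ s with hk2
  have b1 : x < k1 * 2 ^ s := lt_of_lt_of_le d2 (mul_le_mul_of_nonneg_right a2 hR.le)
  have b2 : x + shiftG m < k2 * 2 ^ s := lt_of_lt_of_le d6 (mul_le_mul_of_nonneg_right a4 hR.le)
  obtain ⟨r, hr⟩ := Nat.exists_eq_add_of_le hsm
  have hθ := shiftG_eq m
  have h4 : (4 : ℤ) ^ m = 2 ^ s * 2 ^ r := by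
    rw [show (4 : ℤ) = 2 ^ 2 by norm_num, ← pow_mul, hr, pow_add]
  rw [h4] at hθ
  -- N
  set N : ℤ := 3 * (k1 - k2) + 2 ^ r with hN
  have hN0 : N ≠ 0 := by
    intro h0
    have h3 : (3 : ℤ) ∣ 2 ^ r := ⟨k2 - k1, by linarith only [h0]⟩
    have h5 : (3 : ℤ) ∣ 2 := Int.Prime.dvd_pow' Nat.prime_three h3
    norm_num at h5
  have hD : 3 * (k1 * 2 ^ s - k2 * 2 ^ s + shiftG m) = 2 ^ s * N - 1 := by
    rw [hN]; linarith only [hθ]
  have c1 : k1 * 2 ^ s - k2 * 2 ^ s + shiftG m < x' - x := by linarith only [d3, b2]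
  have c2 : -(x' - x) < k1 * 2 ^ s - k2 * 2 ^ s + shiftG m := by linarith only [d7, b1]
  rcases lt_or_gt_of_ne hN0 with hn | hn
  · have : 2 ^ s * N ≤ 2 ^ s * (-1) := mul_le_mul_of_nonneg_left (by omega) hR.le
    linarith only [hd, hR8, d7, b1, hθ, this]
  · have : 2 ^ s * 1 ≤ 2 ^ s * N := mul_le_mul_of_nonneg_left (by omega) hR.le
    linarith only [hd, hR8, d3, b2, hθ, this]

/-- Points separated in both grids at scale `2^s` are far. -/
lemma two_grid {x x' : ℤ} {s m : ℕ} (hs : 3 ≤ s) (hsm : s ≤ 2 * m)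
    (hd : 4 * |x - x'| < 2 ^ s) (h1 : x / 2 ^ s ≠ x' / 2 ^ s) :
    (x + shiftG m) / 2 ^ s = (x' + shiftG m) / 2 ^ s := by
  rcases lt_trichotomy x x' with h | h | h
  · rw [abs_of_neg (by linarith only [h])] at hd
    exact two_grid_aux hs hsm h (by linarith only [hd]) h1
  · rw [h]
  · rw [abs_of_pos (by linarith)] at hd
    exact (two_grid_aux hs hsm h (by linarith) (fun h' => h1 h'.symm)).symm

lemma far_of_dist {x x' : ℤ} {i j0 L : ℕ} (hi : (2 : ℤ) ^ i ≤ |x - x'|)
    (hj : j0 + (2 * L + 2) ≤ i) :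
    (2 : ℤ) ^ (2 * L + 1) ≤ |x / 2 ^ j0 - x' / 2 ^ j0| := by
  have hR : (0 : ℤ) < 2 ^ j0 := by positivity
  have d1 := Int.ediv_mul_le x hR.ne'
  have d2 := Int.lt_ediv_add_one_mul_self x hR
  have d3 := Int.ediv_mul_le x' hR.ne'
  have d4 := Int.lt_ediv_add_one_mul_self x' hR
  have h1 : (2 : ℤ) ^ j0 * (2 * 2 ^ (2 * L + 1)) ≤ |x - x'| := by
    refine le_trans ?_ hi
    rw [show (2 : ℤ) * 2 ^ (2 * L + 1) = 2 ^ (2 * L + 2) by ring, ← pow_add]
    exact pow_le_pow_right₀ (by norm_num) hj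
  have hE : (1 : ℤ) ≤ 2 ^ (2 * L + 1) := one_le_pow₀ (by norm_num)
  by_contra hc
  push Not at hc
  have hb : |x - x'| ≤ (|x / 2 ^ j0 - x' / 2 ^ j0| + 1) * 2 ^ j0 := by
    have q1 := mul_le_mul_of_nonneg_right (le_abs_self (x / 2 ^ j0 - x' / 2 ^ j0)) hR.le
    have q2 := mul_le_mul_of_nonneg_right (neg_le_abs (x / 2 ^ j0 - x' / 2 ^ j0)) hR.le
    rw [abs_le]
    constructor <;> linarith only [d1, d4, q2, d2, d3, q1]
  have h2 : (|x / 2 ^ j0 - x' / 2 ^ j0| + 1) * 2 ^ j0 ≤ 2 ^ (2 * L + 1) * 2 ^ j0 :=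
    mul_le_mul_of_nonneg_right (by linarith only [hc]) hR.le
  linarith only [mul_nonneg (le_of_lt (sub_pos.2 hR)) (sub_nonneg.2 hE), h2, hb, hE, h1, hR]

lemma ne_coarse {x x' : ℤ} {s j : ℕ} (hsj : s ≤ j) (h : x / 2 ^ j ≠ x' / 2 ^ j) :
    x / 2 ^ s ≠ x' / 2 ^ s := by
  intro h'
  apply h
  obtain ⟨r, rfl⟩ := Nat.exists_eq_add_of_le hsj
  rw [ediv_pow_add, ediv_pow_add, h']

lemma cell_sub_aux {x x' y : ℤ} {j : ℕ} (hlt : x < x') (h1 : x / 2 ^ j ≠ x' / 2 ^ j)
    (h2 : x / 2 ^ (j + 1) = x' / 2 ^ (j + 1)) (hy1 : |y - x| < 2 ^ j) (hy2 : |y - x'| < 2 ^ j) :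
    y / 2 ^ (j + 1) = x / 2 ^ (j + 1) := by
  have hR : (0 : ℤ) < 2 ^ j := by positivity
  have hR' : (0 : ℤ) < 2 ^ (j + 1) := by positivity
  have a1 : x / 2 ^ j ≤ x' / 2 ^ j := Int.ediv_le_ediv hR hlt.le
  have b1 := half_cases x j
  have b2 := half_cases x' j
  rw [← h2] at b2
  set q := x / 2 ^ (j + 1) with hq
  have c1 : x / 2 ^ j = 2 * q := by omega
  have c2 : x' / 2 ^ j = 2 * q + 1 := by omega
  have d2 := Int.lt_ediv_add_one_mul_self x hR
  have d3 := Int.ediv_mul_le x' hR.ne'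
  rw [c1] at d2
  rw [c2] at d3
  rw [abs_lt] at hy1 hy2
  have p1 : (2 : ℤ) ^ (j + 1) = 2 * 2 ^ j := by ring
  rw [Int.ediv_eq_iff_of_pos hR', p1]
  constructor
  · nlinarith only [hy2, d3]
  · nlinarith only [hy1, d2]

/-- The combinatorial lemma on two grids. -/
lemma two_grid_pair (L m : ℕ) {x x' : ℤ} {j : ℕ} (hjm : j + 1 ≤ 2 * m)
    (h1 : x / 2 ^ j ≠ x' / 2 ^ j) (h2 : x / 2 ^ (j + 1) = x' / 2 ^ (j + 1)) :
    ∃ (θ : ℤ) (s : ℕ), (θ = 0 ∨ θ = shiftG m) ∧ s ≤ j ∧
      (x + θ) / 2 ^ (s + 1) = (x' + θ) / 2 ^ (s + 1) ∧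
      (if 2 * L + 5 ≤ s + 1 then (2 : ℤ) ^ (2 * L + 1) ≤
        |(x + θ) / 2 ^ (s + 1 - (2 * L + 5)) - (x' + θ) / 2 ^ (s + 1 - (2 * L + 5))|
        else x + θ ≠ x' + θ) ∧
      ∀ y, (y + θ) / 2 ^ (s + 1) = (x + θ) / 2 ^ (s + 1) → y / 2 ^ (j + 1) = x / 2 ^ (j + 1) := by
  have hne : x ≠ x' := fun h => h1 (by rw [h])
  set D : ℕ := (x - x').natAbs with hD
  have hDz : ((D : ℕ) : ℤ) = |x - x'| := by rw [hD, Int.natCast_natAbs]
  have hD0 : D ≠ 0 := by
    rw [hD, Int.natAbs_ne_zero]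
    exact sub_ne_zero.2 hne
  set i := Nat.log 2 D with hi
  have he1 : (2 : ℤ) ^ i ≤ |x - x'| := by
    rw [← hDz]; exact_mod_cast Nat.pow_log_le_self 2 hD0
  have he2 : |x - x'| < (2 : ℤ) ^ (i + 1) := by
    rw [← hDz]; exact_mod_cast Nat.lt_pow_succ_log_self (by norm_num) D
  rcases le_or_gt (j + 1) (i + 3) with hc | hc
  · refine ⟨0, j, Or.inl rfl, le_rfl, by simpa only [add_zero] using h2, ?_, fun y hy => by simpa only [add_zero] using hy⟩
    split_ifs with h3
    · have := far_of_dist (x := x) (x' := x') (i := i) (j0 := j + 1 - (2 * L + 5)) (L := L)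
        he1 (by omega)
      simpa only [add_zero, Nat.reduceSubDiff, ge_iff_le] using this
    · simpa using hne
  · have hsep : x / 2 ^ (i + 3) ≠ x' / 2 ^ (i + 3) := ne_coarse (by omega) h1
    have hd : 4 * |x - x'| < 2 ^ (i + 3) := by
      have : (2 : ℤ) ^ (i + 3) = 4 * 2 ^ (i + 1) := by ring
      rw [this]; linarith only [he2]
    have hg := two_grid (m := m) (by omega) (by omega) hd hsep
    refine ⟨shiftG m, i + 2, Or.inr rfl, by omega, hg, ?_, fun y hy => ?_⟩
    · split_ifs with h3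
      · refine far_of_dist (i := i) ?_ (by omega)
        have : x + shiftG m - (x' + shiftG m) = x - x' := by ring
        rw [this]; exact he1
      · intro h; exact hne (by linarith only [h])
    · have hy' := hy
      rw [show i + 2 + 1 = i + 3 by ring] at hy hg
      have hs1 : |y - x| < 2 ^ j := by
        have := abs_sub_lt_of_same_cell hy
        have e : y + shiftG m - (x + shiftG m) = y - x := by ring
        rw [e] at this
        exact lt_of_lt_of_le this (pow_le_pow_right₀ (by norm_num) (by omega))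
      have hs2 : |y - x'| < 2 ^ j := by
        have := abs_sub_lt_of_same_cell (hy.trans hg)
        have e : y + shiftG m - (x' + shiftG m) = y - x' := by ring
        rw [e] at this
        exact lt_of_lt_of_le this (pow_le_pow_right₀ (by norm_num) (by omega))
      rcases lt_or_gt_of_ne hne with hlt | hlt
      · exact cell_sub_aux hlt h1 h2 hs1 hs2
      · rw [h2]
        exact cell_sub_aux hlt (fun h => h1 h.symm) h2.symm hs2 hs1

/-- weight of a pair in a coupling -/
lemma couple_w {A β : Type*} [Fintype A] (PA : FinProb A) (h : A → β) (x : A × A)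
    (hx : 0 < PA.w x.1) :
    (PA.couple h).w x = if h x.2 = h x.1 then PA.w x.1 * PA.w x.2 / PA.p h (h x.1) else 0 := by
  simp only [couple]
  rw [PA.cond_w h _ (PA.p_pos hx h)]
  split_ifs with h1
  · ring
  · simp

/-- Collision probabilities of the digits are dominated by far pairs in the two grids. -/
lemma coll_le_far {A : Type*} [Fintype A] (PA : FinProb A) (U : A → ℤ) (L M : ℕ) :
    ∑ j ∈ Finset.range M, ∑ x : A × A, (if U x.1 / 2 ^ j ≠ U x.2 / 2 ^ j then
          (PA.couple (fun a => U a / 2 ^ (j + 1))).w x else 0)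
      ≤ ∑ s ∈ Finset.range M, ∑ x : A × A,
        (if (if 2 * L + 5 ≤ s + 1 then (2 : ℤ) ^ (2 * L + 1) ≤
              |(U x.1 + 0) / 2 ^ (s + 1 - (2 * L + 5)) - (U x.2 + 0) / 2 ^ (s + 1 - (2 * L + 5))|
            else U x.1 + 0 ≠ U x.2 + 0) then (PA.couple (fun a => (U a + 0) / 2 ^ (s + 1))).w x else 0)
      + ∑ s ∈ Finset.range M, ∑ x : A × A,
        (if (if 2 * L + 5 ≤ s + 1 then (2 : ℤ) ^ (2 * L + 1) ≤
              |(U x.1 + shiftG M) / 2 ^ (s + 1 - (2 * L + 5))
                - (U x.2 + shiftG M) / 2 ^ (s + 1 - (2 * L + 5))|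
            else U x.1 + shiftG M ≠ U x.2 + shiftG M) then
              (PA.couple (fun a => (U a + shiftG M) / 2 ^ (s + 1))).w x else 0) := by
  set G : ℤ → ℕ → A × A → ℝ := fun θ s x =>
    (if (if 2 * L + 5 ≤ s + 1 then (2 : ℤ) ^ (2 * L + 1) ≤
              |(U x.1 + θ) / 2 ^ (s + 1 - (2 * L + 5))
                - (U x.2 + θ) / 2 ^ (s + 1 - (2 * L + 5))|
            else U x.1 + θ ≠ U x.2 + θ) then
              (PA.couple (fun a => (U a + θ) / 2 ^ (s + 1))).w x else 0) with hG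
  have hG0 : ∀ θ s x, 0 ≤ G θ s x := by
    intro θ s x
    simp only [hG]
    split_ifs <;> first | exact (PA.couple _).nonneg x | exact le_rfl
  change _ ≤ ∑ s ∈ Finset.range M, ∑ x : A × A, G 0 s x
    + ∑ s ∈ Finset.range M, ∑ x : A × A, G (shiftG M) s x
  rw [Finset.sum_comm, Finset.sum_comm (f := fun s x => G 0 s x),
    Finset.sum_comm (f := fun s x => G (shiftG M) s x), ← Finset.sum_add_distrib]
  refine Finset.sum_le_sum fun x _ => ?_
  have hR0 : 0 ≤ ∑ s ∈ Finset.range M, G 0 s x + ∑ s ∈ Finset.range M, G (shiftG M) s x :=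
    add_nonneg (Finset.sum_nonneg fun s _ => hG0 _ _ _) (Finset.sum_nonneg fun s _ => hG0 _ _ _)
  -- at most one nonzero term on the left
  by_cases hex : ∃ j ∈ Finset.range M, U x.1 / 2 ^ j ≠ U x.2 / 2 ^ j ∧
      U x.1 / 2 ^ (j + 1) = U x.2 / 2 ^ (j + 1) ∧ 0 < PA.w x.1
  · obtain ⟨j, hjM, h1, h2, hw⟩ := hex
    have hjM' := Finset.mem_range.1 hjM
    rw [Finset.sum_eq_single_of_mem j hjM]
    · rw [if_pos h1, couple_w PA _ x hw, if_pos h2.symm]
      obtain ⟨θ, s, hθ, hsj, hs1, hs2, hs3⟩ := two_grid_pair L M (by omega : j + 1 ≤ 2 * M) h1 h2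
      have hsM : s ∈ Finset.range M := Finset.mem_range.2 (by omega)
      have hval : PA.w x.1 * PA.w x.2 / PA.p (fun a => U a / 2 ^ (j + 1)) (U x.1 / 2 ^ (j + 1))
          ≤ G θ s x := by
        simp only [hG]
        rw [if_pos hs2, couple_w PA _ x hw, if_pos hs1.symm]
        have hp : 0 < PA.p (fun a => (U a + θ) / 2 ^ (s + 1)) ((U x.1 + θ) / 2 ^ (s + 1)) :=
          PA.p_pos hw (fun a => (U a + θ) / 2 ^ (s + 1))
        refine div_le_div_of_nonneg_left (mul_nonneg (PA.nonneg _) (PA.nonneg _)) hp ?_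
        unfold p
        refine Finset.sum_le_sum fun a _ => ?_
        by_cases h3 : (U a + θ) / 2 ^ (s + 1) = (U x.1 + θ) / 2 ^ (s + 1)
        · rw [if_pos h3, if_pos (hs3 _ h3)]
        · rw [if_neg h3]
          split_ifs
          exacts [PA.nonneg a, le_rfl]
      refine hval.trans ?_
      rcases hθ with rfl | rfl
      · have := Finset.single_le_sum (f := fun s => G 0 s x) (fun s _ => hG0 _ _ _) hsM
        have h4 := Finset.sum_nonneg fun s (_ : s ∈ Finset.range M) => hG0 (shiftG M) s x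
        linarith only [this, h4]
      · have := Finset.single_le_sum (f := fun s => G (shiftG M) s x) (fun s _ => hG0 _ _ _) hsM
        have h4 := Finset.sum_nonneg fun s (_ : s ∈ Finset.range M) => hG0 0 s x
        linarith only [this, h4]
    · intro j' hj' hne
      by_cases h3 : U x.1 / 2 ^ j' ≠ U x.2 / 2 ^ j'
      · rw [if_pos h3, couple_w PA _ x hw, if_neg]
        intro h4
        rcases lt_or_gt_of_ne hne with h5 | h5
        · exact ne_coarse (by omega : j' + 1 ≤ j) h1 h4.symm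
        · exact ne_coarse (by omega : j + 1 ≤ j') h3 h2
      · rw [if_neg h3]
  · push Not at hex
    refine le_trans (le_of_eq ?_) hR0
    refine Finset.sum_eq_zero fun j hj => ?_
    by_cases h3 : U x.1 / 2 ^ j ≠ U x.2 / 2 ^ j
    · rw [if_pos h3]
      rcases PA.w_zero_or_pos x.1 with hw | hw
      · simp [couple, hw]
      · rw [couple_w PA _ x hw, if_neg]
        intro h4
        exact absurd hw (not_lt.2 (hex j hj h3 h4.symm))
    · rw [if_neg h3]

end Vale.Agent.P114
end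
end

section

/-! The gain lemma. -/

open scoped Classical
open Polynomial

noncomputable section

namespace Vale.Agent.P114

open FinProb

theorem gain (α C₀ : ℝ) (hα0 : 0 ≤ α) (hα1 : α < 1) (hC₀ : 0 ≤ C₀) :
    ∃ C : ℝ, 0 ≤ C ∧ ∀ (M : ℕ) (A B : Type) [Fintype A] [Fintype B] (PA : FinProb A)
      (PB : FinProb B) (U : A → ℤ) (Y : B → ℤ), (∀ a, 0 ≤ U a ∧ U a < 2 ^ M) →
      (∀ j W : ℕ, PB.H (fun b => Y b / 2 ^ j) - PB.H (fun b => Y b / 2 ^ (j + W))
        ≤ α * (W * Real.log 2) + C₀) →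
      ∀ T : ℝ, 0 ≤ T →
        PA.H U ≤ C + C * (1 + T) * ((PA.prod PB).H (fun x => U x.1 + Y x.2) - PB.H Y)
          + C * M * Real.exp (-T) := by
  have hlog2 : 0 < Real.log 2 := Real.log_pos (by norm_num)
  have h1α : 0 < 1 - α := by linarith
  -- choice of `L`
  obtain ⟨L, hL⟩ : ∃ L : ℕ, 1 + (12 * Real.log 2 + C₀) ≤ (1 - α) * (L * Real.log 2) := by
    obtain ⟨L, hL⟩ := exists_nat_ge ((1 + (12 * Real.log 2 + C₀)) / ((1 - α) * Real.log 2))
    refine ⟨L, ?_⟩
    rw [div_le_iff₀ (by positivity)] at hL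
    linarith
  set c₁ : ℝ := ((1 - α) * (L * Real.log 2) - (12 * Real.log 2 + C₀)) / 4 ^ L with hc₁
  have hc₁0 : 1 / 4 ^ L ≤ c₁ := by
    rw [hc₁]
    exact div_le_div_of_nonneg_right (by linarith only [hL]) (by positivity)
  have h4 : (0 : ℝ) < 4 ^ L := by positivity
  have hc₁p : 0 < c₁ := lt_of_lt_of_le (by positivity) hc₁0
  refine ⟨4 * (2 * L + 5) * 4 ^ L + 2, by (clear * -; positivity), ?_⟩
  intro M A B _ _ PA PB U Y hU hY T hT
  set G : ℝ := (PA.prod PB).H (fun x => U x.1 + Y x.2) - PB.H Y with hG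
  have hG0 : 0 ≤ G := by
    have := PA.H_le_prod_add PB U Y
    rw [hG]; linarith only [this]
  have hYL : ∀ j, PB.H (fun b => Y b / 2 ^ j) - PB.H (fun b => Y b / 2 ^ (j + (3 + L)))
      ≤ α * (((3 + L : ℕ) : ℝ) * Real.log 2) + C₀ := fun j => hY j (3 + L)
  -- the gain on each grid
  have hgrid : ∀ θ : ℤ, (∑ s ∈ Finset.range M, ∑ x : A × A,
        if (if 2 * L + 5 ≤ s + 1 then (2 : ℤ) ^ (2 * L + 1) ≤
              |(U x.1 + θ) / 2 ^ (s + 1 - (2 * L + 5)) - (U x.2 + θ) / 2 ^ (s + 1 - (2 * L + 5))|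
            else U x.1 + θ ≠ U x.2 + θ) then
              (PA.couple (fun a => (U a + θ) / 2 ^ (s + 1))).w x else 0)
      ≤ 4 ^ L * ((2 * L + 5) * G) := by
    intro θ
    have h1 := grid_gain PA PB (fun a => U a + θ) Y M L α C₀ hα1.le hYL
    have h2 : (PA.prod PB).H (fun x => U x.1 + θ + Y x.2)
        = (PA.prod PB).H (fun x => U x.1 + Y x.2) :=
      H_congr_det _ fun x y => by constructor <;> intro h <;> linarith only [h]
    beta_reduce at h1
    rw [h2, ← hG, ← hc₁] at h1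
    set Sg := (∑ s ∈ Finset.range M, ∑ x : A × A,
        if (if 2 * L + 5 ≤ s + 1 then (2 : ℤ) ^ (2 * L + 1) ≤
              |(U x.1 + θ) / 2 ^ (s + 1 - (2 * L + 5)) - (U x.2 + θ) / 2 ^ (s + 1 - (2 * L + 5))|
            else U x.1 + θ ≠ U x.2 + θ) then
              (PA.couple (fun a => (U a + θ) / 2 ^ (s + 1))).w x else 0) with hSg
    have hSg0 : 0 ≤ Sg := by
      refine Finset.sum_nonneg fun s _ => Finset.sum_nonneg fun x _ => ?_
      split_ifs <;> first | exact (PA.couple _).nonneg x | exact le_rfl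
    have h3 : 1 / 4 ^ L * Sg ≤ (2 * L + 5) * G :=
      (mul_le_mul_of_nonneg_right hc₁0 hSg0).trans h1
    rw [div_mul_eq_mul_div, one_mul, div_le_iff₀ h4] at h3
    linarith only [h3]
  have h0 := hgrid 0
  have h1 := hgrid (shiftG M)
  have h2 := coll_le_far PA U L M
  -- entropy of `U`
  have h3 : PA.H U ≤ ∑ j ∈ Finset.range M,
      (PA.H (fun a => U a / 2 ^ j) - PA.H (fun a => U a / 2 ^ (j + 1))) := by
    rw [Finset.sum_range_sub' (fun j => PA.H (fun a => U a / 2 ^ j)) M]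
    have e1 : PA.H (fun a => U a / 2 ^ M) = 0 := by
      have : (fun a => U a / 2 ^ M) = fun _ => 0 := by
        funext a
        exact Int.ediv_eq_zero_of_lt (hU a).1 (hU a).2
      rw [this]
      exact H_const _
    rw [e1]
    simp
  have h5 := Finset.sum_le_sum fun j (_ : j ∈ Finset.range M) => digit_le PA U j T hT
  rw [Finset.sum_add_distrib, ← Finset.mul_sum, Finset.sum_const, Finset.card_range,
    nsmul_eq_mul] at h5
  have hexp := Real.exp_pos (-T)
  have h6 : PA.H U ≤ 2 * (T + 1) * (2 * (4 ^ L * ((2 * L + 5) * G)))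
      + M * (2 * Real.exp (-T)) := by
    refine (h3.trans h5).trans (add_le_add (mul_le_mul_of_nonneg_left ?_ (by positivity)) le_rfl)
    refine h2.trans ?_
    linarith only [h0, h1]
  refine h6.trans ?_
  have h7 : 0 ≤ (1 + T) * G := by (clear * - hT hG0; positivity)
  have h8 : 0 ≤ (M : ℝ) * Real.exp (-T) := by (clear * -; positivity)
  have h9 : 0 ≤ 4 * (2 * (L : ℝ) + 5) * 4 ^ L := by (clear * -; positivity)
  linarith only [mul_nonneg (sub_nonneg.2 h8) (sub_nonneg.2 h9), h9, h7]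

end Vale.Agent.P114
end
end

section

open scoped Classical

noncomputable section

namespace Vale.Agent.P114

open FinProb

variable {Λ : Type} [Fintype Λ]

namespace Sys
variable (S : Sys Λ)

section Fine

variable (t : Λ → ℝ) (n N' b M : ℕ) (s : ℝ)

end Fine

end Sys

end Vale.Agent.P114
end
end

section

open scoped Classical
open Polynomial

noncomputable section

namespace Vale.Agent.P114

open FinProb

variable {Λ : Type} [Fintype Λ]

namespace Sys
variable (S : Sys Λ)

theorem fS_incr_mono (t : Λ → ℝ) : ∃ C : ℝ, 0 ≤ C ∧ ∀ j b W : ℕ,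
    S.fS t (b + W) - S.fS t b - C ≤ S.fS t (j + b + W) - S.fS t (j + b) := by
  refine ⟨S.C10 + 2 * Real.log 3, ?_, S.fS_incr_mono_aux t⟩
  have := S.C10_nonneg
  have h4 : 0 ≤ Real.log 3 := Real.log_nonneg (by norm_num)
  linarith

lemma exp_neg_two_mul_log_add (T₀ : ℝ) (l : ℕ) :
    Real.exp (-(2 * Real.log (l + 2) + T₀)) = Real.exp (-T₀) / ((l : ℝ) + 2) ^ 2 := by
  have h : (0 : ℝ) < (l : ℝ) + 2 := by positivity
  rw [neg_add, Real.exp_add, ← Real.log_rpow h] at *
  rw [Real.exp_neg, Real.exp_log (by positivity)]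
  rw [show ((l : ℝ) + 2) ^ (2 : ℝ) = ((l : ℝ) + 2) ^ 2 by
    rw [← Real.rpow_natCast]; norm_num]
  field_simp

/-- Arithmetic of the gain at one level. -/
lemma gain_arith (α χ ε n H fb C3 C5 T T₀ u K Δ E : ℝ) (hε : 0 < ε) (hn : 0 < n)
    (hC3 : 0 ≤ C3) (hu : 1 / 2 < u) (hT : T = 2 * u + T₀) (hT₀ : 0 ≤ T₀)
    (hK : K = 2 * T₀ + 4) (hfb : fb ≤ α * χ * n + C5) (hE : E ≤ ε / 4 * n)
    (hbig : C3 + C5 ≤ ε / 4 * n) (h1 : H ≤ fb + C3 + C3 * (1 + T) * (Δ + C3) + E)
    (h2 : (α * χ + ε) * n < H) : ε / (2 * (C3 + 1) * K) * n / u ≤ Δ + C3 := by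
  have h3 : ε / 2 * n ≤ C3 * (1 + T) * (Δ + C3) := by
    have e : (α * χ + ε) * n = α * χ * n + ε * n := by ring
    rw [e] at h2
    linarith only [h2, h1, hbig, hE, hfb]
  have h4 : 0 < ε / 2 * n := by positivity
  have hT1 : 0 < 1 + T := by rw [hT]; linarith only [hu, hT₀]
  have hpos : 0 < Δ + C3 := by
    by_contra hcon
    push Not at hcon
    have h5 : C3 * (1 + T) * (Δ + C3) ≤ 0 :=
      mul_nonpos_of_nonneg_of_nonpos (mul_nonneg hC3 hT1.le) hcon
    linarith only [h5, h4, h2, h1, hbig, hE, hfb]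
  have hu0 : 0 < u := by linarith only [hu]
  have hTK : 1 + T ≤ K * u := by
    rw [hT, hK]
    nlinarith only [hu, hT₀]
  have hK0 : 0 < K := by rw [hK]; linarith only [hT₀]
  have h5 : C3 * (1 + T) * (Δ + C3) ≤ (C3 + 1) * (K * u) * (Δ + C3) := by
    have h6 : C3 * (1 + T) ≤ (C3 + 1) * (K * u) :=
      mul_le_mul (by linarith only []) hTK hT1.le (by linarith only [hC3])
    exact mul_le_mul_of_nonneg_right h6 hpos.le
  rw [div_mul_eq_mul_div, div_div, div_le_iff₀ (by positivity)]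
  have e2 : (Δ + C3) * (2 * (C3 + 1) * K * u) = 2 * ((C3 + 1) * (K * u) * (Δ + C3)) := by ring
  rw [e2]
  linarith only [hfb, hE, hbig, h1, h2, h5]

end Sys


end Vale.Agent.P114
end
end

section

open scoped Classical
open Polynomial

noncomputable section

namespace Vale.Agent.P114

open FinProb

variable {Λ : Type} [Fintype Λ]

namespace Blk

omit [Fintype Λ] in
lemma blk_append_left {a b m j : ℕ} (h : j + m ≤ a) (u : Fin a → Λ) (v : Fin b → Λ) :
    Lev.blk j m (Fin.append u v) = Lev.blk j m u := by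
  unfold Lev.blk
  rw [List.ofFn_fin_append, List.drop_append_of_le_length (by rw [List.length_ofFn]; omega),
    List.take_append_of_le_length (by rw [List.length_drop, List.length_ofFn]; omega)]

omit [Fintype Λ] in
lemma blk_append_right {j m : ℕ} (u : Fin j → Λ) (v : Fin m → Λ) :
    Lev.blk j m (Fin.append u v) = List.ofFn v := by
  unfold Lev.blk
  rw [List.ofFn_fin_append, List.drop_left' (List.length_ofFn),
    List.take_of_length_le (by rw [List.length_ofFn])]

omit [Fintype Λ] in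
lemma length_blk {n j m : ℕ} (h : j + m ≤ n) (w : Fin n → Λ) : (Lev.blk j m w).length = m := by
  unfold Lev.blk
  rw [List.length_take, List.length_drop, List.length_ofFn]
  omega

/-- The law of a block. -/
lemma H_blk (P : FinProb Λ) {n j m : ℕ} (h : j + m ≤ n) {α : Type*} (φ : List Λ → α) :
    (P.pi n).H (fun w => φ (Lev.blk j m w)) = (P.pi m).H (fun b => φ (List.ofFn b)) := by
  obtain ⟨r, rfl⟩ := Nat.exists_eq_add_of_le h
  rw [← H_pi_add]
  have h1 : (fun x : (Fin (j + m) → Λ) × (Fin r → Λ) => φ (Lev.blk j m (Fin.append x.1 x.2)))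
      = fun x => φ (Lev.blk j m x.1) := by
    funext x; rw [blk_append_left le_rfl]
  rw [h1, H_prod_fst (P.pi (j + m)) (P.pi r) (fun u => φ (Lev.blk j m u)), ← H_pi_add]
  have h2 : (fun x : (Fin j → Λ) × (Fin m → Λ) => φ (Lev.blk j m (Fin.append x.1 x.2)))
      = fun x => φ (List.ofFn x.2) := by
    funext x; rw [blk_append_right]
  rw [h2, H_prod_snd (P.pi j) (P.pi m) (fun b => φ (List.ofFn b))]

lemma H_pi_id (P : FinProb Λ) (n : ℕ) :
    (P.pi n).H (fun w => w) = n * P.H (fun a => a) := by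
  induction n with
  | zero =>
    have h1 := (P.pi 0).H_le_log_card (fun w => w) Finset.univ (fun _ => Finset.mem_univ _)
    have h2 := (P.pi 0).H_nonneg (fun w => w)
    simp only [Finset.univ_unique, Finset.card_singleton, Nat.cast_one, Real.log_one] at h1
    simp
    linarith
  | succ n ih =>
    rw [← H_pi_succ]
    have h1 : (P.prod (P.pi n)).H (fun x => (Fin.cons x.1 x.2 : Fin (n + 1) → Λ))
        = (P.prod (P.pi n)).H (fun x => (x.1, x.2)) :=
      (P.prod (P.pi n)).H_congr_det fun x y => by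
        constructor
        · intro h
          have h3 := (Prod.mk.inj h)
          rw [h3.1, h3.2]
        · intro h
          have h3 : x.1 = y.1 := by
            have := congrFun h 0
            simpa using this
          have h4 : x.2 = y.2 := by
            funext i
            have := congrFun h i.succ
            simpa using this
          rw [h3, h4]
    rw [h1, H_prod_pair P (P.pi n) (fun a => a) (fun w => w), ih]
    push_cast
    ring

omit [Fintype Λ] in
lemma exists_ofFn (l : List Λ) (k : ℕ) (h : l.length = k) : ∃ b : Fin k → Λ, List.ofFn b = l := by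
  subst h
  exact ⟨l.get, List.ofFn_get l⟩

lemma log_card_nonneg : 0 ≤ Real.log (Fintype.card Λ) := Real.log_natCast_nonneg _

lemma H_list_le {Ω : Type*} [Fintype Ω] (P : FinProb Ω) (f : Ω → List Λ) (k : ℕ)
    (hf : ∀ ω, (f ω).length = k) : P.H f ≤ k * Real.log (Fintype.card Λ) := by
  have h := P.H_le_log_card f (Finset.univ.image (fun b : Fin k → Λ => List.ofFn b))
    (fun ω => by
      obtain ⟨b, hb⟩ := exists_ofFn (f ω) k (hf ω)
      exact Finset.mem_image.2 ⟨b, Finset.mem_univ _, hb⟩)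
  refine h.trans ?_
  have h1 : (Finset.univ.image (fun b : Fin k → Λ => List.ofFn b)).card ≤ Fintype.card Λ ^ k := by
    refine Finset.card_image_le.trans ?_
    rw [Finset.card_univ, Fintype.card_fun, Fintype.card_fin]
  rcases Nat.eq_zero_or_pos (Finset.univ.image (fun b : Fin k → Λ => List.ofFn b)).card with h2 | h2
  · rw [h2, Nat.cast_zero, Real.log_zero]
    exact mul_nonneg (Nat.cast_nonneg _) log_card_nonneg
  · rw [← Real.log_pow]
    exact Real.log_le_log (by exact_mod_cast h2) (by exact_mod_cast h1)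

lemma h_le (P : FinProb Λ) (X : Lev Λ) (j m : ℕ) (hj : j ≤ m) :
    (P.pi X.n).H (X.h j) ≤ (P.pi X.n).H X.c + m * Real.log (Fintype.card Λ) := by
  have h1 := (P.pi X.n).H_pair_le X.c (fun w => (List.ofFn w).take j)
  have h2 := H_list_le (P.pi X.n) (fun w => (List.ofFn w).take j) (min j X.n)
    (fun w => by rw [List.length_take, List.length_ofFn])
  have h3 : ((min j X.n : ℕ) : ℝ) ≤ m := by
    exact_mod_cast (min_le_left _ _).trans hj
  have h4 := mul_le_mul_of_nonneg_right h3 (log_card_nonneg (Λ := Λ))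
  change (P.pi X.n).H (fun w => (X.c w, (List.ofFn w).take j)) ≤ _
  linarith only [h1, h2, h4]

lemma le_h (P : FinProb Λ) (X : Lev Λ) (j m : ℕ) (hj : X.n - j ≤ m) :
    (P.pi X.n).H (fun w => w) ≤ (P.pi X.n).H (X.h j) + m * Real.log (Fintype.card Λ) := by
  have h0 : (P.pi X.n).H (fun w => w) ≤ (P.pi X.n).H (fun w => (X.h j w, (List.ofFn w).drop j)) :=
    (P.pi X.n).H_le_of_det fun w w' h => by
      have h1 := Prod.mk.inj h
      have h2 : (List.ofFn w).take j = (List.ofFn w').take j := (Prod.mk.inj h1.1).2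
      have h3 : List.ofFn w = List.ofFn w' := by
        rw [← List.take_append_drop j (List.ofFn w), ← List.take_append_drop j (List.ofFn w'),
          h2, h1.2]
      exact List.ofFn_injective h3
  have h1 := (P.pi X.n).H_pair_le (X.h j) (fun w => (List.ofFn w).drop j)
  have h2 := H_list_le (P.pi X.n) (fun w => (List.ofFn w).drop j) (X.n - j)
    (fun w => by rw [List.length_drop, List.length_ofFn])
  have h3 : ((X.n - j : ℕ) : ℝ) ≤ m := by exact_mod_cast hj
  have h4 := mul_le_mul_of_nonneg_right h3 (log_card_nonneg (Λ := Λ))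
  linarith only [h0, h1, h2, h4]

lemma H_step (P : FinProb Λ) (X : Lev Λ) (j m : ℕ) :
    ∑ w, (P.pi X.n).w w * ((P.pi X.n).cond (X.h j) (X.h j w)).H (fun w => Lev.blk j m w)
      = (P.pi X.n).H (X.h (j + m)) - (P.pi X.n).H (X.h j) := by
  have h1 := (P.pi X.n).H_pair_eq_cond (fun w => Lev.blk j m w) (X.h j)
  have h2 : (P.pi X.n).H (fun w => (Lev.blk j m w, X.h j w)) = (P.pi X.n).H (X.h (j + m)) :=
    (P.pi X.n).H_congr_det fun w w' => by
      have e : ∀ v : Fin X.n → Λ, (List.ofFn v).take (j + m)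
          = (List.ofFn v).take j ++ Lev.blk j m v := fun v => by
        unfold Lev.blk; rw [List.take_add]
      have e1 : ∀ v : Fin X.n → Λ, (List.ofFn v).take j
          = ((List.ofFn v).take (j + m)).take j := fun v => by
        rw [List.take_take, min_eq_left (Nat.le_add_right j m)]
      have e2 : ∀ v : Fin X.n → Λ, Lev.blk j m v
          = ((List.ofFn v).take (j + m)).drop j := fun v => by
        unfold Lev.blk; rw [List.drop_take, Nat.add_sub_cancel_left]
      constructor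
      · intro h
        have h3 := Prod.mk.inj h
        have h4 : (List.ofFn w).take (j + m) = (List.ofFn w').take (j + m) := h3.2
        change (Lev.blk j m w, X.c w, (List.ofFn w).take j)
          = (Lev.blk j m w', X.c w', (List.ofFn w').take j)
        rw [e1 w, e1 w', e2 w, e2 w', h4, h3.1]
      · intro h
        have h3 := Prod.mk.inj h
        have h4 := Prod.mk.inj h3.2
        change (X.c w, (List.ofFn w).take (j + m)) = (X.c w', (List.ofFn w').take (j + m))
        rw [e w, e w', h4.1, h4.2, h3.1]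
  linarith

lemma sum_step (P : FinProb Λ) (X : Lev Λ) (m : ℕ) (hm : m ≤ X.n) :
    m * (P.pi X.n).H (fun w => w) - m * (P.pi X.n).H X.c - 2 * m ^ 2 * Real.log (Fintype.card Λ)
      ≤ ∑ j ∈ Finset.range (X.n + 1 - m),
        ((P.pi X.n).H (X.h (j + m)) - (P.pi X.n).H (X.h j)) := by
  set G : ℕ → ℝ := fun j => (P.pi X.n).H (X.h j) with hG
  set M : ℕ := X.n + 1 - m with hM
  have h1 := Finset.sum_range_add G m M
  have h2 := Finset.sum_range_add G M m
  rw [add_comm M m] at h2
  have h3 : ∑ x ∈ Finset.range M, G (m + x) = ∑ x ∈ Finset.range M, G (x + m) :=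
    Finset.sum_congr rfl fun x _ => by rw [add_comm]
  have h4 : ∑ x ∈ Finset.range m, G x
      ≤ ∑ x ∈ Finset.range m, ((P.pi X.n).H X.c + m * Real.log (Fintype.card Λ)) :=
    Finset.sum_le_sum fun x hx => h_le P X x m (Finset.mem_range.1 hx).le
  have h5 : ∑ x ∈ Finset.range m, ((P.pi X.n).H (fun w => w) - m * Real.log (Fintype.card Λ))
      ≤ ∑ x ∈ Finset.range m, G (M + x) :=
    Finset.sum_le_sum fun x _ => by
      have := le_h P X (M + x) m (by omega)
      simp only [hG]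
      linarith only [this]
  rw [Finset.sum_const, Finset.card_range, nsmul_eq_mul] at h4 h5
  rw [Finset.sum_sub_distrib]
  change _ ≤ ∑ x ∈ Finset.range M, G (x + m) - ∑ x ∈ Finset.range M, G x
  linarith only [h5, h4, h3, h2, h1]

/-- entropy in one cell -/
lemma cell_bound {Ω : Type*} [Fintype Ω] (R : FinProb Ω) {γ : Type*} (Y : Ω → γ)
    (N : γ → Finset γ) (K A : ℕ) (hK : ∀ c, (N c).card ≤ K) (hK0 : 0 < K) (S : Finset γ)
    (hS : ∀ ω, Y ω ∈ S) (hA : S.card ≤ A) (hA0 : 0 < A) :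
    R.H Y ≤ Real.log 2 + Real.log K
      + (∑ ω, R.w ω * ∑ ω', R.w ω' * (if Y ω' ∈ N (Y ω) then (0 : ℝ) else 1)) * Real.log A := by
  set F : Ω → ℝ := fun ω => ∑ ω', R.w ω' * (if Y ω' ∈ N (Y ω) then (0 : ℝ) else 1) with hF
  obtain ⟨ω0, h0⟩ : ∃ ω0, F ω0 ≤ ∑ ω, R.w ω * F ω := by
    by_contra hcon
    push Not at hcon
    obtain ⟨ω1, h1⟩ := R.exists_w_pos
    have h2 : ∑ ω, R.w ω * (∑ ω, R.w ω * F ω) < ∑ ω, R.w ω * F ω :=
      Finset.sum_lt_sum (fun ω _ => mul_le_mul_of_nonneg_left (hcon ω).le (R.nonneg ω))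
        ⟨ω1, Finset.mem_univ _, mul_lt_mul_of_pos_left (hcon ω1) h1⟩
    rw [← Finset.sum_mul, R.sum_one, one_mul] at h2
    exact lt_irrefl _ h2
  have hKr : (0 : ℝ) < K := by exact_mod_cast hK0
  have hAr : (0 : ℝ) < A := by exact_mod_cast hA0
  have hlK : 0 ≤ Real.log K := Real.log_natCast_nonneg _
  have hlA : 0 ≤ Real.log A := Real.log_natCast_nonneg _
  have hG := R.H_le_gibbs Y (fun y => if y ∈ N (Y ω0) then 1 / (2 * (K : ℝ)) else 1 / (2 * (A : ℝ)))
    (fun ω _ => by split_ifs <;> positivity)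
    (by
      have h1 : ∀ a ∈ Finset.univ.image Y,
          (if a ∈ N (Y ω0) then 1 / (2 * (K : ℝ)) else 1 / (2 * (A : ℝ)))
          ≤ (if a ∈ N (Y ω0) then 1 / (2 * (K : ℝ)) else 0) + 1 / (2 * (A : ℝ)) := by
        intro a _
        split_ifs
        · have : (0 : ℝ) ≤ 1 / (2 * (A : ℝ)) := by positivity
          linarith only [this]
        · linarith only []
      refine (Finset.sum_le_sum h1).trans ?_
      rw [Finset.sum_add_distrib, ← Finset.sum_filter, Finset.sum_const, Finset.sum_const,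
        nsmul_eq_mul, nsmul_eq_mul]
      have h2 : ((Finset.univ.image Y).filter fun a => a ∈ N (Y ω0)).card ≤ K :=
        (Finset.card_le_card (by intro a ha; exact (Finset.mem_filter.1 ha).2)).trans (hK _)
      have h3 : (Finset.univ.image Y).card ≤ A :=
        (Finset.card_le_card (by
          intro a ha; obtain ⟨ω, -, rfl⟩ := Finset.mem_image.1 ha; exact hS ω)).trans hA
      have h4 : ((((Finset.univ.image Y).filter fun a => a ∈ N (Y ω0)).card : ℕ) : ℝ)
          * (1 / (2 * (K : ℝ))) ≤ 1 / 2 := by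
        have : ((((Finset.univ.image Y).filter fun a => a ∈ N (Y ω0)).card : ℕ) : ℝ) ≤ K := by
          exact_mod_cast h2
        rw [mul_one_div, div_le_div_iff₀ (by positivity) (by norm_num)]
        linarith only [this]
      have h5 : (((Finset.univ.image Y).card : ℕ) : ℝ) * (1 / (2 * (A : ℝ))) ≤ 1 / 2 := by
        have : (((Finset.univ.image Y).card : ℕ) : ℝ) ≤ A := by exact_mod_cast h3
        rw [mul_one_div, div_le_div_iff₀ (by positivity) (by norm_num)]
        linarith only [this]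
      linarith only [h5, h4])
    (fun a => by split_ifs <;> positivity)
  refine hG.trans ?_
  have h6 : ∀ ω, R.w ω * -Real.log (if Y ω ∈ N (Y ω0) then 1 / (2 * (K : ℝ))
      else 1 / (2 * (A : ℝ)))
      ≤ R.w ω * (Real.log 2 + Real.log K)
        + R.w ω * (if Y ω ∈ N (Y ω0) then (0 : ℝ) else 1) * Real.log A := by
    intro ω
    rw [mul_assoc, ← mul_add]
    refine mul_le_mul_of_nonneg_left ?_ (R.nonneg ω)
    split_ifs
    · rw [one_div, Real.log_inv, Real.log_mul (by norm_num) hKr.ne']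
      linarith only []
    · rw [one_div, Real.log_inv, Real.log_mul (by norm_num) hAr.ne']
      linarith only [hlK]
  refine (Finset.sum_le_sum fun ω _ => h6 ω).trans ?_
  rw [Finset.sum_add_distrib, ← Finset.sum_mul, R.sum_one, one_mul, ← Finset.sum_mul]
  have h7 := mul_le_mul_of_nonneg_right h0 hlA
  simp only [hF] at h7
  linarith only [h7]

lemma avg_eq {Ω : Type*} [Fintype Ω] (Q : FinProb Ω) {γ : Type*} (h : Ω → γ) (F : Ω → Ω → ℝ) :
    ∑ w, Q.w w * ∑ ω, (Q.cond h (h w)).w ω * ∑ ω', (Q.cond h (h w)).w ω' * F ω ω'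
      = ∑ x, (Q.couple h).w x * F x.1 x.2 := by
  rw [Q.sum_couple h F, ← Q.sum_cond_total h (fun ω => ∑ ω', (Q.cond h (h ω)).w ω' * F ω ω')]
  refine Finset.sum_congr rfl fun w _ => ?_
  rcases Q.w_zero_or_pos w with hw | hw
  · rw [hw, zero_mul, zero_mul]
  congr 1
  refine Finset.sum_congr rfl fun ω _ => ?_
  rcases (Q.cond h (h w)).w_zero_or_pos ω with h1 | h1
  · rw [h1, zero_mul, zero_mul]
  · rw [Q.cond_supp h w hw ω h1]

lemma sum_pairs_le {Ω : Type*} [Fintype Ω] (R : FinProb Ω) (m : ℕ) (f f' : Ω → List Λ)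
    (hf : ∀ x, (f x).length = m) (hf' : ∀ x, (f' x).length = m) (D : List Λ → List Λ → Prop)
    [∀ a b, Decidable (D a b)] :
    ∑ x, R.w x * (if D (f x) (f' x) then (0 : ℝ) else 1)
      ≤ ∑ b : Fin m → Λ, ∑ b' : Fin m → Λ, if D (List.ofFn b) (List.ofFn b') then 0
          else R.p (fun x => (f x, f' x)) (List.ofFn b, List.ofFn b') := by
  rw [R.sum_fiber (fun x => (f x, f' x)) (fun a => if D a.1 a.2 then (0 : ℝ) else 1)]
  have h1 : Finset.univ.image (fun x => (f x, f' x))
      ⊆ Finset.univ.image (fun b : (Fin m → Λ) × (Fin m → Λ) => (List.ofFn b.1, List.ofFn b.2)) := by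
    intro a ha
    obtain ⟨x, -, rfl⟩ := Finset.mem_image.1 ha
    obtain ⟨b, hb⟩ := exists_ofFn (f x) m (hf x)
    obtain ⟨b', hb'⟩ := exists_ofFn (f' x) m (hf' x)
    exact Finset.mem_image.2 ⟨(b, b'), Finset.mem_univ _, by rw [hb, hb']⟩
  refine (Finset.sum_le_sum_of_subset_of_nonneg h1 fun a _ _ => mul_nonneg (R.p_nonneg _ _)
    (by split_ifs <;> norm_num)).trans ?_
  rw [Finset.sum_image (by
    intro b _ b' _ hbb
    have := Prod.mk.inj hbb
    exact Prod.ext (List.ofFn_injective this.1) (List.ofFn_injective this.2)),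
    Fintype.sum_prod_type]
  refine Finset.sum_le_sum fun b _ => Finset.sum_le_sum fun b' _ => ?_
  simp only
  split_ifs
  · rw [mul_zero]
  · rw [mul_one]

end Blk

open Blk

/-- finite block entropy inequality -/
theorem block_entropy (P : FinProb Λ) (X : Lev Λ) (m K : ℕ) (hm : m ≤ X.n) {γ : Type}
    (g : List Λ → γ) (N : γ → Finset γ) (hK : ∀ c, (N c).card ≤ K) (hK0 : 0 < K) :
    (P.pi m).H (fun w => g (List.ofFn w)) * ((X.n + 1 - m : ℕ) : ℝ)
      ≤ m * (P.pi X.n).H X.c + (Real.log 2 + Real.log K) * ((X.n + 1 - m : ℕ) : ℝ)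
        + m * Real.log (Fintype.card Λ) * (((X.n + 1 - m : ℕ) : ℝ) *
          ∑ b : Fin m → Λ, ∑ b' : Fin m → Λ,
            if g (List.ofFn b') ∈ N (g (List.ofFn b)) then 0
            else X.nu P m (List.ofFn b) (List.ofFn b'))
        + 2 * m ^ 2 * Real.log (Fintype.card Λ) := by
  set M : ℕ := X.n + 1 - m with hM
  have hM0 : 0 < M := by omega
  have hMr : (0 : ℝ) < M := by exact_mod_cast hM0
  set Q := P.pi X.n with hQ
  set L : ℝ := Real.log (Fintype.card Λ) with hL
  have hL0 : 0 ≤ L := log_card_nonneg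
  have hcard : 0 < Fintype.card Λ := by
    obtain ⟨a, -⟩ := P.exists_w_pos
    exact Fintype.card_pos_iff.2 ⟨a⟩
  -- probabilities
  set pj : ℕ → (Fin m → Λ) → (Fin m → Λ) → ℝ := fun j b b' =>
    (Q.couple (X.h j)).p (fun x => (Lev.blk j m x.1, Lev.blk j m x.2))
      (List.ofFn b, List.ofFn b') with hpj
  set Tj : ℕ → ℝ := fun j => ∑ b : Fin m → Λ, ∑ b' : Fin m → Λ,
    if g (List.ofFn b') ∈ N (g (List.ofFn b)) then 0 else pj j b b' with hTj
  have hnu : (M : ℝ) * ∑ b : Fin m → Λ, ∑ b' : Fin m → Λ,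
      (if g (List.ofFn b') ∈ N (g (List.ofFn b)) then 0
        else X.nu P m (List.ofFn b) (List.ofFn b')) = ∑ j ∈ Finset.range M, Tj j := by
    have e1 : ∑ j ∈ Finset.range M, Tj j = ∑ b : Fin m → Λ, ∑ b' : Fin m → Λ,
        ∑ j ∈ Finset.range M, if g (List.ofFn b') ∈ N (g (List.ofFn b)) then 0 else pj j b b' := by
      simp only [hTj]
      rw [Finset.sum_comm]
      exact Finset.sum_congr rfl fun b _ => Finset.sum_comm
    rw [e1, Finset.mul_sum]
    refine Finset.sum_congr rfl fun b _ => ?_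
    rw [Finset.mul_sum]
    refine Finset.sum_congr rfl fun b' _ => ?_
    split_ifs
    · rw [mul_zero, Finset.sum_const_zero]
    · simp only [Lev.nu, hpj]
      rw [← hM, mul_div_cancel₀ _ hMr.ne']
  -- one place
  have hone : ∀ j ∈ Finset.range M,
      Q.H (X.h (j + m)) - Q.H (X.h j) ≤ (Real.log 2 + Real.log K) + m * L * Tj j
        + ((P.pi m).H (fun b => List.ofFn b) - (P.pi m).H (fun b => g (List.ofFn b))) := by
    intro j hj
    have hjn : j + m ≤ X.n := by
      have := Finset.mem_range.1 hj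
      omega
    have h1 := H_step P X j m
    have h2 := Q.cond_le (fun w => Lev.blk j m w) (fun w => g (Lev.blk j m w)) (X.h j)
      (fun x y h => by rw [h])
    have h3 : Q.H (fun w => Lev.blk j m w) = (P.pi m).H (fun b => List.ofFn b) :=
      H_blk P hjn (fun l => l)
    have h4 : Q.H (fun w => g (Lev.blk j m w)) = (P.pi m).H (fun b => g (List.ofFn b)) :=
      H_blk P hjn g
    have h5 : ∀ w, Q.w w * (Q.cond (X.h j) (X.h j w)).H (fun w => g (Lev.blk j m w))
        ≤ Q.w w * ((Real.log 2 + Real.log K) + (∑ ω, (Q.cond (X.h j) (X.h j w)).w ω *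
          ∑ ω', (Q.cond (X.h j) (X.h j w)).w ω' *
            (if g (Lev.blk j m ω') ∈ N (g (Lev.blk j m ω)) then (0 : ℝ) else 1)) * (m * L)) := by
      intro w
      refine mul_le_mul_of_nonneg_left ?_ (Q.nonneg w)
      have h6 := cell_bound (Q.cond (X.h j) (X.h j w)) (fun w => g (Lev.blk j m w)) N K
        (Fintype.card Λ ^ m) hK hK0
        (Finset.univ.image (fun b : Fin m → Λ => g (List.ofFn b)))
        (fun ω => by
          obtain ⟨b, hb⟩ := exists_ofFn (Lev.blk j m ω) m (length_blk hjn ω)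
          exact Finset.mem_image.2 ⟨b, Finset.mem_univ _, by rw [hb]⟩)
        (by
          refine Finset.card_image_le.trans ?_
          rw [Finset.card_univ, Fintype.card_fun, Fintype.card_fin])
        (Nat.pow_pos hcard)
      rw [Nat.cast_pow, Real.log_pow] at h6
      exact h6
    have h7 := Finset.sum_le_sum (s := Finset.univ) fun w _ => h5 w
    have h8 : ∑ w, Q.w w * ((Real.log 2 + Real.log K) + (∑ ω, (Q.cond (X.h j) (X.h j w)).w ω *
          ∑ ω', (Q.cond (X.h j) (X.h j w)).w ω' *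
            (if g (Lev.blk j m ω') ∈ N (g (Lev.blk j m ω)) then (0 : ℝ) else 1)) * (m * L))
        = (Real.log 2 + Real.log K) + (∑ x, (Q.couple (X.h j)).w x *
          (if g (Lev.blk j m x.2) ∈ N (g (Lev.blk j m x.1)) then (0 : ℝ) else 1)) * (m * L) := by
      rw [← avg_eq Q (X.h j) (fun ω ω' => if g (Lev.blk j m ω') ∈ N (g (Lev.blk j m ω))
        then (0 : ℝ) else 1), Finset.sum_mul]
      simp only [mul_add]
      rw [Finset.sum_add_distrib]
      simp only [mul_add] at *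
      rw [Finset.sum_add_distrib, ← Finset.sum_mul, ← Finset.sum_mul, Q.sum_one, one_mul, one_mul]
      congr 1
      exact Finset.sum_congr rfl fun w _ => by rw [mul_assoc]
    have h9 := sum_pairs_le (Q.couple (X.h j)) m (fun x => Lev.blk j m x.1)
      (fun x => Lev.blk j m x.2) (fun x => length_blk hjn _) (fun x => length_blk hjn _)
      (fun l l' => g l' ∈ N (g l))
    have h10 : (∑ x, (Q.couple (X.h j)).w x *
          (if g (Lev.blk j m x.2) ∈ N (g (Lev.blk j m x.1)) then (0 : ℝ) else 1)) * (m * L)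
        ≤ Tj j * (m * L) := mul_le_mul_of_nonneg_right h9 (by (clear * -; positivity))
    have h11 : ∑ ω, Q.w ω * ((Q.cond (X.h j) (X.h j ω)).H (fun w => Lev.blk j m w)
        - (Q.cond (X.h j) (X.h j ω)).H (fun w => g (Lev.blk j m w)))
        = ∑ ω, Q.w ω * (Q.cond (X.h j) (X.h j ω)).H (fun w => Lev.blk j m w)
        - ∑ ω, Q.w ω * (Q.cond (X.h j) (X.h j ω)).H (fun w => g (Lev.blk j m w)) := by
      rw [← Finset.sum_sub_distrib]
      exact Finset.sum_congr rfl fun ω _ => by rw [mul_sub]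
    rw [h11] at h2
    rw [h8] at h7
    linarith only [h1, h2, h3, h4, h7, h10]
  have hsum := Finset.sum_le_sum hone
  have hlow := sum_step P X m hm
  rw [Finset.sum_add_distrib, Finset.sum_add_distrib, Finset.sum_const, Finset.sum_const,
    Finset.card_range, nsmul_eq_mul, nsmul_eq_mul, ← Finset.mul_sum] at hsum
  rw [hnu]
  have hid : (P.pi m).H (fun b => List.ofFn b) = m * P.H (fun a => a) := by
    rw [← H_pi_id]
    exact (P.pi m).H_congr_det fun x y =>
      ⟨fun h => by rw [h], fun h => List.ofFn_injective h⟩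
  have hid2 := H_pi_id P X.n
  have hMm : (M : ℝ) * (m * P.H (fun a => a)) ≤ m * (X.n * P.H (fun a => a)) := by
    have hH := P.H_nonneg (fun a => a)
    rcases Nat.eq_zero_or_pos m with h0 | h0
    · rw [h0]; simp
    · have : (M : ℝ) ≤ X.n := by exact_mod_cast (by omega : M ≤ X.n)
      have h1 : 0 ≤ (m : ℝ) * P.H (fun a => a) := by (clear * - h0 hH; positivity)
      linarith only [mul_nonneg (sub_nonneg.2 this) (sub_nonneg.2 h1)]
  rw [hid2] at hlow
  rw [hid] at hsum
  linarith only [hMm, hlow, hsum]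

end Vale.Agent.P114
end
end

section

open scoped Classical
open Polynomial

noncomputable section

namespace Vale.Agent.P114

open FinProb

variable {Λ : Type} [Fintype Λ]

namespace Blk

lemma p_le_sum_p {Ω : Type*} [Fintype Ω] (R : FinProb Ω) {α β δ : Type*} [Fintype δ] (f : Ω → α)
    (F : Ω → β) (G : δ → β) (c : α) (h : ∀ x, f x = c → ∃ d, F x = G d) :
    R.p f c ≤ ∑ d, R.p F (G d) := by
  unfold p
  rw [Finset.sum_comm]
  refine Finset.sum_le_sum fun x _ => ?_
  have hnn : ∀ d ∈ (Finset.univ : Finset δ), 0 ≤ (if F x = G d then R.w x else 0) := by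
    intro d _
    split_ifs
    exacts [R.nonneg x, le_rfl]
  by_cases hx : f x = c
  · obtain ⟨d, hd⟩ := h x hx
    rw [if_pos hx]
    have := Finset.single_le_sum hnn (Finset.mem_univ d)
    rw [if_pos hd] at this
    exact this
  · rw [if_neg hx]
    exact Finset.sum_nonneg hnn

lemma p_le_p_of_imp {Ω : Type*} [Fintype Ω] (R : FinProb Ω) {α β : Type*} (f : Ω → α)
    (F : Ω → β) (c : α) (d : β) (h : ∀ x, f x = c → F x = d) : R.p f c ≤ R.p F d := by
  unfold p
  refine Finset.sum_le_sum fun x _ => ?_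
  by_cases hx : f x = c
  · rw [if_pos hx, if_pos (h x hx)]
  · rw [if_neg hx]
    split_ifs
    exacts [R.nonneg x, le_rfl]

omit [Fintype Λ] in
lemma blk_take {n j K L : ℕ} (hKL : K ≤ L) (w : Fin n → Λ) :
    (Lev.blk j L w).take K = Lev.blk j K w := by
  unfold Lev.blk
  rw [List.take_take, min_eq_left hKL]

omit [Fintype Λ] in
lemma blk_succ {n j L : ℕ} (h : j + (L + 1) ≤ n) (w : Fin n → Λ) :
    ∃ a, Lev.blk j (L + 1) w = Lev.blk j L w ++ [a] := by
  have h1 := length_blk h w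
  have h2 : ((Lev.blk j (L + 1) w).drop L).length = 1 := by
    rw [List.length_drop, h1]; omega
  obtain ⟨a, ha⟩ := List.length_eq_one_iff.1 h2
  refine ⟨a, ?_⟩
  rw [← ha, ← blk_take (Nat.le_succ L) w, List.take_append_drop]

/-- The probability at one place. -/
def pl (X : Lev Λ) (P : FinProb Λ) (L : ℕ) (b b' : List Λ) (j : ℕ) : ℝ :=
  ((P.pi X.n).couple (X.h j)).p (fun x => (Lev.blk j L x.1, Lev.blk j L x.2)) (b, b')

lemma nu_eq (X : Lev Λ) (P : FinProb Λ) (L : ℕ) (b b' : List Λ) :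
    X.nu P L b b' = (∑ j ∈ Finset.range (X.n + 1 - L), pl X P L b b' j)
      / ((X.n + 1 - L : ℕ) : ℝ) := rfl

lemma pl_nonneg (X : Lev Λ) (P : FinProb Λ) (L : ℕ) (b b' : List Λ) (j : ℕ) :
    0 ≤ pl X P L b b' j := FinProb.p_nonneg _ _ _

lemma nu_nonneg (X : Lev Λ) (P : FinProb Λ) (L : ℕ) (b b' : List Λ) : 0 ≤ X.nu P L b b' := by
  rw [nu_eq]
  exact div_nonneg (Finset.sum_nonneg fun j _ => pl_nonneg X P L b b' j) (Nat.cast_nonneg _)

lemma nu_mul (X : Lev Λ) (P : FinProb Λ) (L : ℕ) (hL : L ≤ X.n) (b b' : List Λ) :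
    X.nu P L b b' * ((X.n + 1 - L : ℕ) : ℝ)
      = ∑ j ∈ Finset.range (X.n + 1 - L), pl X P L b b' j := by
  rw [nu_eq, div_mul_cancel₀]
  have : 0 < X.n + 1 - L := by omega
  exact_mod_cast this.ne'

lemma nu_child (X : Lev Λ) (P : FinProb Λ) (L : ℕ) (hL : L + 1 ≤ X.n) (b b' : List Λ) :
    X.nu P L b b' ≤ ∑ d : Λ × Λ, X.nu P (L + 1) (b ++ [d.1]) (b' ++ [d.2])
      + 1 / ((X.n + 1 - L : ℕ) : ℝ) := by
  have h0 : (0 : ℝ) < ((X.n + 1 - L : ℕ) : ℝ) := by
    have : 0 < X.n + 1 - L := by omega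
    exact_mod_cast this
  have h1 := nu_mul X P L (by omega) b b'
  have hs : X.n + 1 - L = (X.n + 1 - (L + 1)) + 1 := by omega
  rw [hs, Finset.sum_range_succ, ← hs] at h1
  have h2 : ∑ j ∈ Finset.range (X.n + 1 - (L + 1)), pl X P L b b' j
      ≤ ∑ j ∈ Finset.range (X.n + 1 - (L + 1)), ∑ d : Λ × Λ,
        pl X P (L + 1) (b ++ [d.1]) (b' ++ [d.2]) j := by
    refine Finset.sum_le_sum fun j hj => ?_
    have hj' : j + (L + 1) ≤ X.n := by
      have := Finset.mem_range.1 hj
      omega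
    refine p_le_sum_p _ _ _ (fun d : Λ × Λ => (b ++ [d.1], b' ++ [d.2])) _ ?_
    intro x hx
    have hx' := Prod.mk.inj hx
    obtain ⟨a, ha⟩ := blk_succ hj' x.1
    obtain ⟨a', ha'⟩ := blk_succ hj' x.2
    exact ⟨(a, a'), by rw [ha, ha', hx'.1, hx'.2]⟩
  have h3 : pl X P L b b' (X.n + 1 - (L + 1)) ≤ 1 := FinProb.p_le_one _ _ _
  rw [Finset.sum_comm] at h2
  have h4 : ∑ d : Λ × Λ, ∑ j ∈ Finset.range (X.n + 1 - (L + 1)),
        pl X P (L + 1) (b ++ [d.1]) (b' ++ [d.2]) j
      ≤ (∑ d : Λ × Λ, X.nu P (L + 1) (b ++ [d.1]) (b' ++ [d.2])) * ((X.n + 1 - L : ℕ) : ℝ) := by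
    rw [Finset.sum_mul]
    refine Finset.sum_le_sum fun d _ => ?_
    rw [← nu_mul X P (L + 1) hL]
    refine mul_le_mul_of_nonneg_left ?_ (nu_nonneg _ _ _ _ _)
    exact_mod_cast (by omega : X.n + 1 - (L + 1) ≤ X.n + 1 - L)
  rw [← mul_le_mul_iff_left₀ h0, add_mul, one_div, inv_mul_cancel₀ h0.ne']
  linarith only [h1, h2, h3, h4]

lemma nu_prefix (X : Lev Λ) (P : FinProb Λ) (K L : ℕ) (hKL : K ≤ L) (hL : 2 * L ≤ X.n)
    (b b' : List Λ) : X.nu P L b b' ≤ 2 * X.nu P K (b.take K) (b'.take K) := by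
  have h0 : (0 : ℝ) < ((X.n + 1 - L : ℕ) : ℝ) := by
    have : 0 < X.n + 1 - L := by omega
    exact_mod_cast this
  have h1 := nu_mul X P L (by omega) b b'
  have h2 := nu_mul X P K (by omega) (b.take K) (b'.take K)
  have h3 : ∑ j ∈ Finset.range (X.n + 1 - L), pl X P L b b' j
      ≤ ∑ j ∈ Finset.range (X.n + 1 - K), pl X P K (b.take K) (b'.take K) j := by
    refine (Finset.sum_le_sum fun j _ => ?_).trans
      (Finset.sum_le_sum_of_subset_of_nonneg
        (Finset.range_subset_range.2 (by omega : X.n + 1 - L ≤ X.n + 1 - K))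
        fun j _ _ => pl_nonneg X P K _ _ j)
    refine p_le_p_of_imp _ _ _ _ _ fun x hx => ?_
    have hx' := Prod.mk.inj hx
    rw [← blk_take hKL x.1, ← blk_take hKL x.2, hx'.1, hx'.2]
  rw [← h1, ← h2] at h3
  have h4 : ((X.n + 1 - K : ℕ) : ℝ) ≤ 2 * ((X.n + 1 - L : ℕ) : ℝ) := by
    exact_mod_cast (by omega : X.n + 1 - K ≤ 2 * (X.n + 1 - L))
  have h5 := nu_nonneg X P K (b.take K) (b'.take K)
  rw [← mul_le_mul_iff_left₀ h0]
  linarith only [mul_nonneg (sub_nonneg.2 h4) (sub_nonneg.2 h5), h3]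

omit [Fintype Λ] in
lemma length_pre (u : ℕ → Λ) (K : ℕ) : (pre u K).length = K := List.length_ofFn

omit [Fintype Λ] in
lemma pre_getElem (u : ℕ → Λ) (K l : ℕ) (h : l < (pre u K).length) : (pre u K)[l] = u l :=
  List.getElem_ofFn _

end Blk

open Blk

section tree
variable (U : Ultrafilter ℕ) (P : FinProb Λ) (X : ℕ → Lev Λ)

lemma not_node {b b' : List Λ} (hl : b.length = b'.length) (h : ¬ Node U P X b b') (δ : ℝ)
    (hδ : 0 < δ) : ∀ᶠ i in (U : Filter ℕ), (X i).nu P b.length b b' < δ := by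
  have h1 : ¬ ∀ᶠ i in (U : Filter ℕ), δ ≤ (X i).nu P b.length b b' :=
    fun h2 => h ⟨hl, δ, hδ, h2⟩
  rw [← Ultrafilter.eventually_not] at h1
  exact h1.mono fun i hi => lt_of_not_ge hi

/-- nodes have child nodes -/
theorem Node.child (hL : LargeLev U X) {b b' : List Λ} (h : Node U P X b b') :
    ∃ a a', Node U P X (b ++ [a]) (b' ++ [a']) := by
  obtain ⟨hl, δ, hδ, hev⟩ := h
  by_contra hcon
  push Not at hcon
  set c : ℝ := (Fintype.card (Λ × Λ) : ℝ) + 1 with hc
  have hc0 : 0 < c := by (clear * -; positivity)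
  have h1 : ∀ d : Λ × Λ, ∀ᶠ i in (U : Filter ℕ),
      (X i).nu P (b.length + 1) (b ++ [d.1]) (b' ++ [d.2]) < δ / (2 * c) := by
    intro d
    have h2 := not_node U P X (b := b ++ [d.1]) (b' := b' ++ [d.2])
      (by rw [List.length_append, List.length_append, hl]; rfl) (hcon d.1 d.2) (δ / (2 * c))
      (by (clear * - hδ; positivity))
    rw [List.length_append] at h2
    exact h2
  obtain ⟨N, hN⟩ := exists_nat_gt (2 / δ)
  obtain ⟨i, h2, h3, h4⟩ := (hev.and ((Filter.eventually_all.2 h1).and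
    (hL (b.length + 1 + N)))).exists
  have h5 := nu_child (X i) P b.length (by omega) b b'
  have h6 : ∑ d : Λ × Λ, (X i).nu P (b.length + 1) (b ++ [d.1]) (b' ++ [d.2])
      ≤ (Fintype.card (Λ × Λ) : ℝ) * (δ / (2 * c)) := by
    refine (Finset.sum_le_sum fun d _ => (h3 d).le).trans ?_
    rw [Finset.sum_const, nsmul_eq_mul, Finset.card_univ]
  have h7 : (Fintype.card (Λ × Λ) : ℝ) * (δ / (2 * c)) < δ / 2 := by
    have e : c * (δ / (2 * c)) = δ / 2 := by field_simp
    have e2 : 0 < δ / (2 * c) := by (clear * - hδ; positivity)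
    have e3 : (Fintype.card (Λ × Λ) : ℝ) < c := by rw [hc]; linarith only []
    calc (Fintype.card (Λ × Λ) : ℝ) * (δ / (2 * c)) < c * (δ / (2 * c)) :=
          mul_lt_mul_of_pos_right e3 e2
      _ = δ / 2 := e
  have h8 : 1 / (((X i).n + 1 - b.length : ℕ) : ℝ) ≤ δ / 2 := by
    have hN0 : (0 : ℝ) < N := lt_trans (by positivity) hN
    have e1 : (N : ℝ) ≤ (((X i).n + 1 - b.length : ℕ) : ℝ) := by
      exact_mod_cast (by omega : N ≤ (X i).n + 1 - b.length)
    have e2 : 1 / (((X i).n + 1 - b.length : ℕ) : ℝ) ≤ 1 / N := one_div_le_one_div_of_le hN0 e1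
    have e3 : 1 / (N : ℝ) ≤ δ / 2 := by
      rw [div_lt_iff₀ hδ] at hN
      rw [div_le_div_iff₀ hN0 (by norm_num)]
      linarith only [hN]
    exact e2.trans e3
  linarith only [h2, h5, h6, h7, h8]

theorem Node.takePre (hL : LargeLev U X) {b b' : List Λ} (h : Node U P X b b') (L : ℕ) :
    Node U P X (b.take L) (b'.take L) := by
  obtain ⟨hl, δ, hδ, hev⟩ := h
  refine ⟨by rw [List.length_take, List.length_take, hl], δ / 2, by positivity, ?_⟩
  filter_upwards [hev, hL (2 * b.length)] with i h1 h2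
  have h3 := nu_prefix (X i) P (min L b.length) b.length (min_le_right _ _) h2 b b'
  have e1 : b.take (min L b.length) = b.take L := by
    rcases le_total L b.length with h4 | h4
    · rw [min_eq_left h4]
    · rw [min_eq_right h4, List.take_of_length_le le_rfl, List.take_of_length_le h4]
  have e2 : b'.take (min L b.length) = b'.take L := by
    rw [hl]
    rcases le_total L b'.length with h4 | h4
    · rw [min_eq_left h4]
    · rw [min_eq_right h4, List.take_of_length_le le_rfl, List.take_of_length_le h4]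
  rw [e1, e2] at h3
  rw [List.length_take]
  linarith only [h1, h3]

theorem Node.exists_branch (hL : LargeLev U X) {b b' : List Λ} (h : Node U P X b b') :
    ∃ u u' : ℕ → Λ, Branch U P X u u' ∧ pre u b.length = b ∧ pre u' b.length = b' := by
  have hch : ∀ x : {x : List Λ × List Λ // Node U P X x.1 x.2}, ∃ d : Λ × Λ,
      Node U P X (x.1.1 ++ [d.1]) (x.1.2 ++ [d.2]) := by
    intro x
    obtain ⟨a, a', ha⟩ := Node.child U P X hL x.2
    exact ⟨(a, a'), ha⟩
  choose D hD using hch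
  let s : ℕ → {x : List Λ × List Λ // Node U P X x.1 x.2} := fun k =>
    Nat.rec ⟨(b, b'), h⟩ (fun _ x => ⟨(x.1.1 ++ [(D x).1], x.1.2 ++ [(D x).2]), hD x⟩) k
  have hs1 : ∀ k, (s (k + 1)).1.1 = (s k).1.1 ++ [(D (s k)).1] := fun k => rfl
  have hs2 : ∀ k, (s (k + 1)).1.2 = (s k).1.2 ++ [(D (s k)).2] := fun k => rfl
  have hlen1 : ∀ k, (s k).1.1.length = b.length + k := by
    intro k
    induction k with
    | zero => rfl
    | succ k ih => rw [hs1, List.length_append, ih]; rfl
  have hlen2 : ∀ k, (s k).1.2.length = b.length + k := by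
    intro k
    rw [← (s k).2.1, hlen1]
  have hp1 : ∀ k l, k ≤ l → (s k).1.1 <+: (s l).1.1 := by
    intro k l hkl
    induction l, hkl using Nat.le_induction with
    | base => exact List.prefix_rfl
    | succ l _ ih => exact ih.trans (by rw [hs1]; exact List.prefix_append _ _)
  have hp2 : ∀ k l, k ≤ l → (s k).1.2 <+: (s l).1.2 := by
    intro k l hkl
    induction l, hkl using Nat.le_induction with
    | base => exact List.prefix_rfl
    | succ l _ ih => exact ih.trans (by rw [hs2]; exact List.prefix_append _ _)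
  have hb1 : ∀ l, l < (s (l + 1)).1.1.length := fun l => by have := hlen1 (l + 1); omega
  have hb2 : ∀ l, l < (s (l + 1)).1.2.length := fun l => by have := hlen2 (l + 1); omega
  let u : ℕ → Λ := fun l => (s (l + 1)).1.1[l]'(hb1 l)
  let u' : ℕ → Λ := fun l => (s (l + 1)).1.2[l]'(hb2 l)
  have hpre1 : ∀ K, pre u K = (s K).1.1.take K := by
    intro K
    refine List.ext_getElem ?_ fun l h1 h2 => ?_
    · rw [length_pre, List.length_take, hlen1]; omega
    · have hlK : l < K := by rwa [length_pre] at h1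
      rw [pre_getElem, List.getElem_take]
      exact (hp1 (l + 1) K hlK).getElem _
  have hpre2 : ∀ K, pre u' K = (s K).1.2.take K := by
    intro K
    refine List.ext_getElem ?_ fun l h1 h2 => ?_
    · rw [length_pre, List.length_take, hlen2]; omega
    · have hlK : l < K := by rwa [length_pre] at h1
      rw [pre_getElem, List.getElem_take]
      exact (hp2 (l + 1) K hlK).getElem _
  refine ⟨u, u', fun K => ?_, ?_, ?_⟩
  · rw [hpre1, hpre2]
    exact Node.takePre U P X hL (s K).2 K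
  · rw [hpre1]
    exact (List.prefix_iff_eq_take.1 (hp1 0 b.length (Nat.zero_le _))).symm
  · rw [hpre2]
    have h1 := (List.prefix_iff_eq_take.1 (hp2 0 b.length (Nat.zero_le _))).symm
    rw [hlen2] at h1
    exact h1

set_option linter.unusedVariables false in
theorem Node.realized (hL : LargeLev U X) {b b' : List Λ} (h : Node U P X b b') :
    ∀ᶠ i in (U : Filter ℕ), ∃ x ∈ (X i).Tails, b <+: x.1 ∧ b' <+: x.2 := by
  obtain ⟨hl, δ, hδ, hev⟩ := h
  filter_upwards [hev] with i h1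
  have h2 : 0 < ∑ j ∈ Finset.range ((X i).n + 1 - b.length), pl (X i) P b.length b b' j := by
    by_contra hcon
    have h3 : (X i).nu P b.length b b' ≤ 0 := by
      rw [nu_eq]
      exact div_nonpos_of_nonpos_of_nonneg (not_lt.1 hcon) (Nat.cast_nonneg _)
    linarith only [hδ, h1, h3]
  obtain ⟨j, -, hj⟩ := Finset.exists_ne_zero_of_sum_ne_zero h2.ne'
  have hj' : 0 < pl (X i) P b.length b b' j := lt_of_le_of_ne (pl_nonneg _ _ _ _ _ _) (Ne.symm hj)
  unfold pl p at hj'
  obtain ⟨x, -, hx⟩ := Finset.exists_ne_zero_of_sum_ne_zero hj'.ne'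
  have hx1 : (Lev.blk j b.length x.1, Lev.blk j b.length x.2) = (b, b') := by
    by_contra hne
    rw [if_neg hne] at hx
    exact hx rfl
  rw [if_pos hx1] at hx
  have hx2 : 0 < ((P.pi (X i).n).couple ((X i).h j)).w x :=
    lt_of_le_of_ne (FinProb.nonneg _ _) (Ne.symm hx)
  have h4 := (P.pi (X i).n).couple_same ((X i).h j) x hx2
  have h5 := Prod.mk.inj h4
  have h6 := Prod.mk.inj hx1
  refine ⟨((List.ofFn x.1).drop j, (List.ofFn x.2).drop j),
    ⟨x.1, x.2, j, h5.1, h5.2, rfl⟩, ?_, ?_⟩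
  · rw [← h6.1]
    exact List.take_prefix _ _
  · rw [← h6.2]
    exact List.take_prefix _ _

end tree

end Vale.Agent.P114
end
end

section

open scoped Classical
open Polynomial

noncomputable section

namespace Vale.Agent.P114

open FinProb

variable {Λ : Type} [Fintype Λ]

namespace Sys
variable (S : Sys Λ)

end Sys


end Vale.Agent.P114
end
end

section

open scoped Classical
open Polynomial

noncomputable section

namespace Vale.Agent.P114

open FinProb

/-! ### entropy of sums in commutative groups -/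

namespace FinProb

variable {Ω : Type*} [Fintype Ω] (P : FinProb Ω) {α β γ δ : Type*}

lemma hz_const (f : Ω → α) (h : ∀ x y, f x = f y) : P.H f = 0 := by
  refine le_antisymm ?_ (P.H_nonneg f)
  obtain ⟨ω0, -⟩ := P.exists_w_pos
  have := P.H_le_log_card f {f ω0} (fun ω => Finset.mem_singleton.2 (h ω ω0))
  simpa only [ge_iff_le, Finset.card_singleton, Nat.cast_one, Real.log_one] using this

lemma hz_swap {Ω' : Type*} [Fintype Ω'] (Q : FinProb Ω') (f : Ω × Ω' → α) :
    (Q.prod P).H (fun x => f (x.2, x.1)) = (P.prod Q).H f :=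
  (P.prod Q).H_equiv (Q.prod P) (Equiv.prodComm Ω' Ω) (fun x => by
    simp only [prod_w, Equiv.prodComm_apply, Prod.fst_swap, Prod.snd_swap]
    ring) f

/-- Kaimanovich-Vershik submodularity in commutative groups. -/
lemma hz_add_submod {G : Type*} [AddCommGroup G] {Ω₁ Ω₂ Ω₃ : Type*} [Fintype Ω₁] [Fintype Ω₂]
    [Fintype Ω₃] (P₁ : FinProb Ω₁) (P₂ : FinProb Ω₂) (P₃ : FinProb Ω₃) (U : Ω₁ → G) (Z : Ω₂ → G)
    (Y : Ω₃ → G) :
    (P₁.prod (P₂.prod P₃)).H (fun x => U x.1 + (Z x.2.1 + Y x.2.2)) + P₃.H Y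
      ≤ (P₂.prod P₃).H (fun x => Z x.1 + Y x.2) + (P₁.prod P₃).H (fun x => U x.1 + Y x.2) := by
  set R := P₁.prod (P₂.prod P₃) with hR
  have h1 := R.H_submod (fun x => U x.1) (fun x => (U x.1 + Y x.2.2, Z x.2.1))
    (fun x => U x.1 + (Z x.2.1 + Y x.2.2))
  have e1 : R.H (fun ω => (U ω.1, (U ω.1 + Y ω.2.2, Z ω.2.1), U ω.1 + (Z ω.2.1 + Y ω.2.2)))
      = P₁.H U + (P₂.H Z + P₃.H Y) := by
    have : R.H (fun ω => (U ω.1, (U ω.1 + Y ω.2.2, Z ω.2.1), U ω.1 + (Z ω.2.1 + Y ω.2.2)))
        = R.H (fun x => (U x.1, (fun y : Ω₂ × Ω₃ => (Z y.1, Y y.2)) x.2)) :=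
      R.H_congr_det fun x y => by
        simp only [Prod.mk.injEq]
        constructor
        · rintro ⟨h1, h2, h3⟩
          refine ⟨h1, ⟨by rw [h1, h3], h2⟩, by rw [h1, h2, h3]⟩
        · rintro ⟨h1, ⟨h2, h3⟩, h4⟩
          refine ⟨h1, h3, ?_⟩
          rw [h1] at h2
          exact add_left_cancel h2
    rw [this, H_prod_pair P₁ (P₂.prod P₃) U (fun y : Ω₂ × Ω₃ => (Z y.1, Y y.2)),
      H_prod_pair P₂ P₃ Z Y]
  have e2 : R.H (fun ω => (U ω.1, U ω.1 + (Z ω.2.1 + Y ω.2.2)))
      = P₁.H U + (P₂.prod P₃).H (fun x => Z x.1 + Y x.2) := by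
    have : R.H (fun ω => (U ω.1, U ω.1 + (Z ω.2.1 + Y ω.2.2)))
        = R.H (fun x => (U x.1, (fun y : Ω₂ × Ω₃ => Z y.1 + Y y.2) x.2)) :=
      R.H_congr_det fun x y => by
        simp only [Prod.mk.injEq]
        constructor
        · rintro ⟨h1, h2⟩
          exact ⟨h1, by rw [h1, h2]⟩
        · rintro ⟨h1, h2⟩
          rw [h1] at h2
          exact ⟨h1, add_left_cancel h2⟩
    rw [this, H_prod_pair P₁ (P₂.prod P₃) U (fun y : Ω₂ × Ω₃ => Z y.1 + Y y.2)]
  have e3 : R.H (fun ω => ((U ω.1 + Y ω.2.2, Z ω.2.1), U ω.1 + (Z ω.2.1 + Y ω.2.2)))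
      = P₂.H Z + (P₁.prod P₃).H (fun x => U x.1 + Y x.2) := by
    have h : R.H (fun ω => ((U ω.1 + Y ω.2.2, Z ω.2.1), U ω.1 + (Z ω.2.1 + Y ω.2.2)))
        = R.H (fun ω => (Z ω.2.1, U ω.1 + Y ω.2.2)) :=
      R.H_congr_det fun x y => by
        simp only [Prod.mk.injEq]
        constructor
        · rintro ⟨h1, h2⟩
          refine ⟨⟨h2, h1⟩, ?_⟩
          rw [add_left_comm, h2, h1, add_left_comm]
        · rintro ⟨⟨h1, h2⟩, h3⟩
          exact ⟨h2, h1⟩
    rw [h, ← H_prod_pair P₂ (P₁.prod P₃) Z (fun x => U x.1 + Y x.2)]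
    refine (P₂.prod (P₁.prod P₃)).H_comp_of_map R (fun x => (x.2.1, (x.1, x.2.2))) ?_
      (fun x => (Z x.1, U x.2.1 + Y x.2.2))
    intro ω
    unfold p
    rw [Finset.sum_eq_single (ω.2.1, (ω.1, ω.2.2))]
    · simp only [if_true, hR, prod_w]; ring
    · intro b _ hb
      rw [if_neg]
      intro h
      apply hb
      rw [← h]
    · simp only [Finset.mem_univ, not_true_eq_false, Prod.mk.eta, ↓reduceIte, IsEmpty.forall_iff]
  rw [e1, e2, e3] at h1
  linarith only [h1]

/-- Iterated Kaimanovich-Vershik inequality in commutative groups. -/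
lemma hz_pi_add_le {G : Type*} [AddCommGroup G] {A B : Type*} [Fintype A] [Fintype B]
    (PA : FinProb A) (PB : FinProb B) (U : A → G) (Y : B → G) (k : ℕ) :
    ((PA.pi k).prod PB).H (fun x => ∑ i, U (x.1 i) + Y x.2)
      ≤ PB.H Y + k * ((PA.prod PB).H (fun x => U x.1 + Y x.2) - PB.H Y) := by
  induction k with
  | zero =>
    have : ((PA.pi 0).prod PB).H (fun x => ∑ i, U (x.1 i) + Y x.2)
        = ((PA.pi 0).prod PB).H (fun x => Y x.2) := by
      congr 1
      ext x
      simp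
    rw [this, H_prod_snd]
    simp
  | succ k ih =>
    have h1 := hz_add_submod PA (PA.pi k) PB U (fun x => ∑ i, U (x i)) Y
    have h2 : ((PA.pi (k + 1)).prod PB).H (fun x => ∑ i, U (x.1 i) + Y x.2)
        = (PA.prod ((PA.pi k).prod PB)).H
          (fun x => U x.1 + ((∑ i, U (x.2.1 i)) + Y x.2.2)) := by
      have h3 := ((PA.pi (k + 1)).prod PB).H_equiv (PA.prod ((PA.pi k).prod PB))
        ((Equiv.prodAssoc A (Fin k → A) B).symm.trans
          ((Fin.consEquiv (fun _ : Fin (k + 1) => A)).prodCongr (Equiv.refl B)))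
        (by
          intro x
          simp only [prod_w, pi_w, Equiv.trans_apply, Equiv.prodAssoc_symm_apply,
            Equiv.prodCongr_apply, Fin.consEquiv, Equiv.coe_fn_mk, Prod.map_apply,
            Equiv.refl_apply]
          rw [Fin.prod_univ_succ]
          simp only [Fin.cons_zero, Fin.cons_succ]
          ring)
        (fun x => ∑ i, U (x.1 i) + Y x.2)
      rw [← h3]
      congr 1
      ext x
      simp only [Equiv.trans_apply, Equiv.prodAssoc_symm_apply,
            Equiv.prodCongr_apply, Fin.consEquiv, Equiv.coe_fn_mk, Prod.map_apply,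
            Equiv.refl_apply]
      rw [Fin.sum_univ_succ]
      simp only [Fin.cons_zero, Fin.cons_succ, add_assoc]
    rw [h2]
    push_cast
    linarith

lemma hz_le_prod_add {G : Type*} [AddCommGroup G] {B : Type*} [Fintype B] (Q : FinProb B)
    (U : Ω → G) (Y : B → G) :
    Q.H Y ≤ (P.prod Q).H (fun x => U x.1 + Y x.2) := by
  have h := P.prod_sections_le Q (fun x => U x.1 + Y x.2)
  have e : ∀ a, Q.H (fun b => U a + Y b) = Q.H Y := fun a =>
    Q.H_congr_det fun x y => by simp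
  simp only [e, P.sum_const] at h
  exact h

/-- `H (V + Y) ≥ H (π Y) + H V` if `π V` is constant. -/
lemma hz_lower {G G' : Type*} [AddCommGroup G] [AddCommGroup G'] (φ : G →+ G') {B : Type*}
    [Fintype B] (Q : FinProb B) (V : Ω → G) (Y : B → G) (c : G') (hV : ∀ ω, φ (V ω) = c) :
    Q.H (fun b => φ (Y b)) + P.H V ≤ (P.prod Q).H (fun x => V x.1 + Y x.2) := by
  have h1 := Q.prod_cond_le P (fun x => V x.2 + Y x.1) (fun x => φ (V x.2 + Y x.1))
    (fun x y h => by rw [h])
  have e1 : ∀ b, P.H (fun a => V a + Y b) = P.H V := fun b =>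
    P.H_congr_det fun x y => by simp
  have e2 : ∀ b, P.H (fun a => φ (V a + Y b)) = 0 := fun b =>
    P.hz_const _ fun x y => by rw [map_add, map_add, hV, hV]
  simp only [e1, e2, sub_zero, Q.sum_const] at h1
  have e3 : (Q.prod P).H (fun x => φ (V x.2 + Y x.1)) = Q.H (fun b => φ (Y b)) := by
    rw [← Q.H_prod_fst P (fun b => φ (Y b))]
    exact H_congr_det _ fun x y => by rw [map_add, map_add, hV, hV, add_right_inj]
  have e4 := P.hz_swap Q (fun x => V x.1 + Y x.2)
  simp only at e4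
  rw [e3, e4] at h1
  linarith only [h1]

end FinProb

/-- entropy of a binomial variable -/
def hzBin (k : ℕ) : ℝ := ((unif Bool).pi k).H (fun e => ∑ i, if e i then (1 : ℤ) else 0)

lemma hzBin_large (L : ℝ) : ∃ k : ℕ, 0 < k ∧ L ≤ hzBin k := by
  obtain ⟨k, hk⟩ := exists_nat_ge (2 * Real.exp (2 * L))
  refine ⟨k, ?_, ?_⟩
  · have : (0 : ℝ) < k := lt_of_lt_of_le (by positivity) hk
    exact_mod_cast this
  · have h1 := lo_entropy (k := k) (fun _ => 1) (fun _ => 0) 1 one_pos 0 k (by simp)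
    have h2 : (unif (Fin k → Bool)).H (fun e => (sel (fun _ => 1) (fun _ => 0) e + 0) / 1)
        = hzBin k := by
      unfold hzBin
      have h3 := ((unif Bool).pi k).H_equiv (unif (Fin k → Bool)) (Equiv.refl _) (by
        intro x
        simp [unif, pi_w]) (fun e => ∑ i, if e i then (1 : ℤ) else 0)
      rw [← h3]
      congr 1
      ext e
      simp only [sel, add_zero, Int.ediv_one, Equiv.refl_apply]
      exact Finset.sum_congr rfl fun i _ => by by_cases h : e i = true <;> simp [h]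
    rw [h2] at h1
    refine le_trans ?_ h1
    have h4 : 2 * L ≤ Real.log (((k : ℝ) + 1) / 2) := by
      rw [Real.le_log_iff_exp_le (by (clear * -; positivity))]
      linarith only [hk]
    linarith only [h4]

/-! ### the digit gain -/

section gain

variable {G G' : Type*} [AddCommGroup G] [AddCommGroup G'] [IsAddTorsionFree G] (φ : G →+ G')
  {Ω B : Type*} [Fintype Ω] [Fintype B] (P : FinProb Ω) (PB : FinProb B) (Y : B → G) (a' : ℝ)
  (k : ℕ)

/-- gain of one coin -/
lemma hz_coin (hk : a' + 1 ≤ hzBin k) (hY : PB.H Y ≤ PB.H (fun b => φ (Y b)) + a')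
    (v0 v1 : G) (hv : v0 ≠ v1) (hφ : φ v0 = φ v1) :
    1 ≤ k * (((unif Bool).prod PB).H (fun x => (if x.1 then v0 else v1) + Y x.2) - PB.H Y) := by
  have h1 := hz_pi_add_le (unif Bool) PB (fun e => if e then v0 else v1) Y k
  have h2 := hz_lower ((unif Bool).pi k) φ PB
    (fun e => ∑ i, if e i then v0 else v1) Y (k • φ v1) (by
      intro e
      rw [map_sum]
      have : ∀ i, φ (if e i then v0 else v1) = φ v1 := by
        intro i
        split_ifs
        · exact hφ
        · rfl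
      simp only [this, Finset.sum_const, Finset.card_univ, Fintype.card_fin])
  have h3 : ((unif Bool).pi k).H (fun e => ∑ i, if e i then v0 else v1) = hzBin k := by
    unfold hzBin
    refine H_congr_det _ fun x y => ?_
    have key : ∀ e : Fin k → Bool, (∑ i, if e i then v0 else v1)
        = k • v1 + (∑ i, if e i then (1 : ℤ) else 0) • (v0 - v1) := by
      intro e
      rw [Finset.sum_smul]
      have : ∀ i, (if e i then v0 else v1) = v1 + (if e i then (1 : ℤ) else 0) • (v0 - v1) := by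
        intro i
        split_ifs <;> simp
      rw [Finset.sum_congr rfl fun i _ => this i, Finset.sum_add_distrib]
      simp only [Finset.sum_const, Finset.card_univ, Fintype.card_fin, ite_smul, one_smul, zero_smul]
    rw [key, key, add_right_inj]
    constructor
    · intro h
      rw [h]
    · intro h
      have h4 : ((∑ i, if x i then (1 : ℤ) else 0) - ∑ i, if y i then (1 : ℤ) else 0)
          • (v0 - v1) = 0 := by rw [sub_smul, h, sub_self]
      rcases smul_eq_zero.1 h4 with h5 | h5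
      · exact sub_eq_zero.1 h5
      · exact absurd (sub_eq_zero.1 h5) hv
  rw [h3] at h2
  linarith

/-- the gain is at least the probability that two independent copies differ -/
lemma hz_pair (hk0 : 0 < k) (hk : a' + 1 ≤ hzBin k) (hY : PB.H Y ≤ PB.H (fun b => φ (Y b)) + a')
    (V : Ω → G) (c : G') (hV : ∀ ω, φ (V ω) = c) :
    ∑ ω, P.w ω * ∑ ω', P.w ω' * (if V ω = V ω' then 0 else 1)
      ≤ k * ((P.prod PB).H (fun x => V x.1 + Y x.2) - PB.H Y) := by
  set R := (P.prod P).prod ((unif Bool).prod PB) with hR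
  have hmap : ∀ ω : Ω × B, R.p (fun x => (if x.2.1 then x.1.1 else x.1.2, x.2.2)) ω
      = (P.prod PB).w ω := by
    rintro ⟨ω, b⟩
    have e0 : R.p (fun x => (if x.2.1 then x.1.1 else x.1.2, x.2.2)) (ω, b)
        = ∑ x, R.w x * (if (if x.2.1 then x.1.1 else x.1.2, x.2.2) = (ω, b) then (1 : ℝ) else 0) := by
      unfold p
      refine Finset.sum_congr rfl fun x _ => ?_
      by_cases h : (if x.2.1 then x.1.1 else x.1.2, x.2.2) = (ω, b)
      · simp [h]
      · simp only [h, if_false, mul_zero]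
    rw [e0, hR, sum_prod_w]
    have e1 : ∀ y : Ω × Ω, ∑ z : Bool × B, ((unif Bool).prod PB).w z *
        (if ((if z.1 then y.1 else y.2), z.2) = (ω, b) then (1 : ℝ) else 0)
        = PB.w b * (1 / 2 * ((if y.1 = ω then 1 else 0) + (if y.2 = ω then 1 else 0))) := by
      intro y
      rw [sum_prod_w, Fintype.sum_bool]
      have e2 : ∀ a : Ω, ∑ b', PB.w b' * (if (a, b') = (ω, b) then (1 : ℝ) else 0)
          = PB.w b * (if a = ω then 1 else 0) := by
        intro a
        rw [Finset.sum_eq_single b]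
        · by_cases h : a = ω
          · simp [h]
          · simp [h]
        · intro b' _ hb'
          simp [hb']
        · simp only [Finset.mem_univ, not_true_eq_false, Prod.mk.injEq, and_true, mul_ite, mul_one, mul_zero, ite_eq_right_iff, IsEmpty.forall_iff]
      simp only [if_true, Bool.false_eq_true, if_false]
      rw [e2, e2]
      simp only [unif, Fintype.card_bool]
      push_cast
      ring
    simp_rw [e1]
    have e3 : ∑ y : Ω × Ω, (P.prod P).w y * (PB.w b * (1 / 2 * ((if y.1 = ω then 1 else 0)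
        + (if y.2 = ω then 1 else 0)))) = ∑ a, P.w a * ∑ a', P.w a' *
          (PB.w b * (1 / 2 * ((if a = ω then 1 else 0) + (if a' = ω then 1 else 0)))) :=
      P.sum_prod_w P (fun y => PB.w b * (1 / 2 * ((if y.1 = ω then 1 else 0)
        + (if y.2 = ω then 1 else 0))))
    rw [e3]
    have e4 : ∀ a, ∑ a', P.w a' * (PB.w b * (1 / 2 * ((if a = ω then 1 else 0)
        + (if a' = ω then 1 else 0)))) = PB.w b * (1 / 2) * ((if a = ω then 1 else 0) + P.w ω) := by
      intro a
      have e5 : ∀ a', P.w a' * (PB.w b * (1 / 2 * ((if a = ω then 1 else 0)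
        + (if a' = ω then 1 else 0)))) = P.w a' * (PB.w b * (1 / 2) * (if a = ω then 1 else 0))
          + PB.w b * (1 / 2) * (if a' = ω then P.w a' else 0) := by
        intro a'
        split_ifs <;> ring
      rw [Finset.sum_congr rfl fun a' _ => e5 a', Finset.sum_add_distrib, P.sum_const,
        ← Finset.mul_sum, Finset.sum_ite_eq', if_pos (Finset.mem_univ _)]
      ring
    rw [Finset.sum_congr rfl fun a _ => by rw [e4 a]]
    have e6 : ∀ a, P.w a * (PB.w b * (1 / 2) * ((if a = ω then 1 else 0) + P.w ω))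
        = PB.w b * (1 / 2) * (if a = ω then P.w a else 0) + P.w a * (PB.w b * (1 / 2) * P.w ω) := by
      intro a
      split_ifs <;> ring
    rw [Finset.sum_congr rfl fun a _ => e6 a, Finset.sum_add_distrib, P.sum_const,
      ← Finset.mul_sum, Finset.sum_ite_eq', if_pos (Finset.mem_univ _), prod_w]
    ring
  have h1 := (P.prod PB).H_comp_of_map R _ hmap (fun x => V x.1 + Y x.2)
  have h2 := (P.prod P).prod_sections_le ((unif Bool).prod PB)
    (fun x => V (if x.2.1 then x.1.1 else x.1.2) + Y x.2.2)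
  rw [← hR] at h2
  have h3 : ∀ x : Ω × Ω, PB.H Y + (k : ℝ)⁻¹ * (if V x.1 = V x.2 then 0 else 1)
      ≤ ((unif Bool).prod PB).H (fun y => V (if y.1 then x.1 else x.2) + Y y.2) := by
    intro x
    have e1 : ∀ y : Bool × B, V (if y.1 then x.1 else x.2) + Y y.2
        = (if y.1 then V x.1 else V x.2) + Y y.2 := by
      intro y
      split_ifs <;> rfl
    simp only [e1]
    by_cases h : V x.1 = V x.2
    · rw [if_pos h, mul_zero, add_zero]
      exact hz_le_prod_add (unif Bool) PB (fun e => if e then V x.1 else V x.2) Y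
    · rw [if_neg h, mul_one]
      have h4 := hz_coin φ PB Y a' k hk hY (V x.1) (V x.2) h (by rw [hV, hV])
      have hk0 : (0 : ℝ) < k := by exact_mod_cast hk0
      have h5 : (k : ℝ)⁻¹ * 1 ≤ (k : ℝ)⁻¹ * (k * (((unif Bool).prod PB).H
          (fun x_1 => (if x_1.1 then V x.1 else V x.2) + Y x_1.2) - PB.H Y)) :=
        mul_le_mul_of_nonneg_left h4 (by positivity)
      rw [← mul_assoc, inv_mul_cancel₀ hk0.ne', one_mul, mul_one] at h5
      linarith only [h5]
  have h4 : PB.H Y + (k : ℝ)⁻¹ * ∑ ω, P.w ω * ∑ ω', P.w ω' * (if V ω = V ω' then 0 else 1)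
      ≤ (P.prod PB).H (fun x => V x.1 + Y x.2) := by
    rw [← h1]
    refine le_trans (le_trans (le_of_eq ?_)
      (Finset.sum_le_sum fun x _ => mul_le_mul_of_nonneg_left (h3 x) ((P.prod P).nonneg x))) h2
    have h5 := P.sum_prod_w P (fun x => if V x.1 = V x.2 then (0 : ℝ) else 1)
    simp only at h5
    rw [← h5, Finset.mul_sum]
    have h6 : ∀ x : Ω × Ω, (P.prod P).w x * (PB.H Y + (k : ℝ)⁻¹ * (if V x.1 = V x.2 then 0 else 1))
        = (P.prod P).w x * PB.H Y + (k : ℝ)⁻¹ * ((P.prod P).w x *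
          (if V x.1 = V x.2 then 0 else 1)) := fun x => by ring
    rw [Finset.sum_congr rfl fun x _ => h6 x, Finset.sum_add_distrib, (P.prod P).sum_const]
  have h7 : 0 ≤ ∑ ω, P.w ω * ∑ ω', P.w ω' * (if V ω = V ω' then (0 : ℝ) else 1) :=
    Finset.sum_nonneg fun ω _ => mul_nonneg (P.nonneg _) (Finset.sum_nonneg fun ω' _ =>
      mul_nonneg (P.nonneg _) (by split_ifs <;> norm_num))
  have hk0 : (0 : ℝ) < k := by exact_mod_cast hk0
  have h8 : (k : ℝ)⁻¹ * ∑ ω, P.w ω * ∑ ω', P.w ω' * (if V ω = V ω' then 0 else 1)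
      ≤ (P.prod PB).H (fun x => V x.1 + Y x.2) - PB.H Y := by linarith only [h4]
  rwa [inv_mul_le_iff₀ hk0] at h8

lemma hz_negMulLog (x T : ℝ) (hx : 0 ≤ x) : Real.negMulLog x ≤ Real.exp (-T) - x + T * x := by
  rcases hx.eq_or_lt with h | h
  · rw [← h]
    simp [Real.exp_nonneg]
  · have h1 := Real.log_le_sub_one_of_pos (div_pos (Real.exp_pos (-T)) h)
    rw [Real.log_div (Real.exp_pos _).ne' h.ne', Real.log_exp] at h1
    have h2 := mul_le_mul_of_nonneg_left h1 hx
    have h3 : x * (Real.exp (-T) / x - 1) = Real.exp (-T) - x := by field_simp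
    rw [h3] at h2
    unfold Real.negMulLog
    linarith only [h2]

/-- entropy of an indicator -/
lemma hz_ind (J : Ω → Bool) (T : ℝ) : P.H J ≤ T * P.p J true + Real.exp (-T) := by
  rw [P.H_eq_sum_of_subset J Finset.univ (fun ω => Finset.mem_univ _), Fintype.sum_bool]
  have h1 : P.p J false = 1 - P.p J true := by
    have h2 := P.sum_p_image J
    have h3 : ∑ a : Bool, P.p J a = 1 := by
      rw [← h2]
      symm
      refine Finset.sum_subset (Finset.subset_univ _) ?_
      intro a _ ha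
      refine P.p_eq_zero_of_notMem ?_
      intro ω hω
      exact ha (hω ▸ Finset.mem_image_of_mem J (Finset.mem_univ ω))
    rw [Fintype.sum_bool] at h3
    linarith
  have h4 := hz_negMulLog (P.p J true) T (P.p_nonneg _ _)
  have h5 := hz_negMulLog (P.p J false) 0 (P.p_nonneg _ _)
  rw [h1] at h5 ⊢
  simp at h5
  linarith

/-- the digit gain -/
lemma hz_gain (ha' : 0 ≤ a') (hk0 : 0 < k) (hk : a' + 1 ≤ hzBin k)
    (hY : PB.H Y ≤ PB.H (fun b => φ (Y b)) + a')
    (V : Ω → G) (c : G') (hV : ∀ ω, φ (V ω) = c) (T : ℝ) (hT : 0 ≤ T) :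
    P.H V ≤ (T * k + 1 + a' * k) * ((P.prod PB).H (fun x => V x.1 + Y x.2) - PB.H Y)
      + Real.exp (-T) := by
  set gn := (P.prod PB).H (fun x => V x.1 + Y x.2) - PB.H Y with hgn
  obtain ⟨ω0, -⟩ := P.exists_w_pos
  obtain ⟨ωs, -, hωs⟩ := Finset.exists_max_image Finset.univ (fun ω => P.p V (V ω))
    ⟨ω0, Finset.mem_univ _⟩
  set J : Ω → Bool := fun ω => decide (V ω ≠ V ωs) with hJ
  set q := P.p J true with hq
  have hqe : q = 1 - P.p V (V ωs) := by
    have h1 : q + P.p V (V ωs) = 1 := by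
      rw [hq]
      unfold p
      rw [← Finset.sum_add_distrib, ← P.sum_one]
      refine Finset.sum_congr rfl fun ω _ => ?_
      by_cases h : V ω = V ωs
      · simp [hJ, h]
      · simp [hJ, h]
    linarith only [h1]
  have hq0 : 0 ≤ q := P.p_nonneg _ _
  have h1 : q ≤ k * gn := by
    refine le_trans ?_ (hz_pair φ P PB Y a' k hk0 hk hY V c hV)
    have h2 : ∀ ω, q ≤ ∑ ω', P.w ω' * (if V ω = V ω' then 0 else 1) := by
      intro ω
      have h3 : ∑ ω', P.w ω' * (if V ω = V ω' then (0 : ℝ) else 1) = 1 - P.p V (V ω) := by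
        have h4 : ∑ ω', P.w ω' * (if V ω = V ω' then (0 : ℝ) else 1) + P.p V (V ω) = 1 := by
          unfold p
          rw [← Finset.sum_add_distrib]
          refine Eq.trans (Finset.sum_congr rfl fun ω' _ => ?_) P.sum_one
          by_cases h : V ω = V ω'
          · simp [h]
          · have h' : ¬ V ω' = V ω := fun h5 => h h5.symm
            simp [h, h']
        linarith only [h4]
      rw [h3, hqe]
      have := hωs ω (Finset.mem_univ _)
      linarith
    calc q = ∑ ω, P.w ω * q := (P.sum_const q).symm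
      _ ≤ _ := Finset.sum_le_sum fun ω _ => mul_le_mul_of_nonneg_left (h2 ω) (P.nonneg ω)
  have h2 : P.H V = P.H J + ∑ ω, P.w ω * (P.cond J (J ω)).H V := by
    rw [← P.H_pair_eq_cond V J]
    exact P.H_congr_det fun x y => by
      constructor
      · intro h; exact (Prod.mk.inj h).1
      · intro h; simp only [hJ, h]
  have h3 : ∑ ω, P.w ω * ((P.cond J (J ω)).prod PB).H (fun x => V x.1 + Y x.2)
      ≤ (P.prod PB).H (fun x => V x.1 + Y x.2) := by
    have h4 := P.prod_cond_mix PB J (fun x => V x.1 + Y x.2) (fun _ => ()) (fun _ _ _ => rfl)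
    have h5 : (P.prod PB).H (fun _ => ()) = 0 := hz_const _ _ fun _ _ => rfl
    have h6 : ∀ ω, ((P.cond J (J ω)).prod PB).H (fun _ => ()) = 0 :=
      fun ω => hz_const _ _ fun _ _ => rfl
    simp only [h5, h6, sub_zero] at h4
    exact h4
  have h4 : ∀ ω, P.w ω * (PB.H Y + (P.cond J (J ω)).H V - a' * (if J ω = true then 1 else 0))
      ≤ P.w ω * ((P.cond J (J ω)).prod PB).H (fun x => V x.1 + Y x.2) := by
    intro ω
    rcases P.w_zero_or_pos ω with hw | hw
    · rw [hw, zero_mul, zero_mul]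
    · refine mul_le_mul_of_nonneg_left ?_ hw.le
      by_cases h : J ω = true
      · rw [if_pos h]
        have h5 := hz_lower (P.cond J (J ω)) φ PB V Y c hV
        linarith only [hY, h5]
      · rw [if_neg h, mul_zero, sub_zero]
        have h5 : (P.cond J (J ω)).H V = 0 := by
          rw [(P.cond J (J ω)).H_congr_supp V (fun _ => V ωs) (fun ω' hω' => ?_)]
          · exact hz_const _ _ fun _ _ => rfl
          · have h6 := P.cond_supp J ω hw ω' hω'
            by_contra h7
            apply h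
            rw [← h6]
            simp only [hJ, h7, ne_eq, not_false_eq_true, decide_true]
        rw [h5, add_zero]
        exact hz_le_prod_add _ PB V Y
  have h5 := Finset.sum_le_sum (s := Finset.univ) fun ω _ => h4 ω
  have h6 : ∑ ω, P.w ω * (PB.H Y + (P.cond J (J ω)).H V - a' * (if J ω = true then 1 else 0))
      = PB.H Y + ∑ ω, P.w ω * (P.cond J (J ω)).H V - a' * q := by
    have h7 : ∀ ω, P.w ω * (PB.H Y + (P.cond J (J ω)).H V - a' * (if J ω = true then 1 else 0))
        = P.w ω * PB.H Y + P.w ω * (P.cond J (J ω)).H V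
          - a' * (if J ω = true then P.w ω else 0) := by
      intro ω
      split_ifs <;> ring
    rw [Finset.sum_congr rfl fun ω _ => h7 ω, Finset.sum_sub_distrib, Finset.sum_add_distrib,
      P.sum_const, ← Finset.mul_sum]
    have h8 : ∑ i, (if J i = true then P.w i else 0) = q := by
      rw [hq]
      unfold p
      exact Finset.sum_congr rfl fun i _ => by by_cases h : J i = true <;> simp [h]
    rw [h8]
  rw [h6] at h5
  have h7 := hz_ind P J T
  have h8 : a' * q ≤ a' * (k * gn) := mul_le_mul_of_nonneg_left h1 ha'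
  have h9 : T * q ≤ T * (k * gn) := mul_le_mul_of_nonneg_left h1 hT
  rw [h2]
  linarith

lemma hz_gain_supp (ha' : 0 ≤ a') (hk0 : 0 < k) (hk : a' + 1 ≤ hzBin k)
    (hY : PB.H Y ≤ PB.H (fun b => φ (Y b)) + a')
    (V : Ω → G) (c : G') (hV : ∀ ω, 0 < P.w ω → φ (V ω) = c) (T : ℝ) (hT : 0 ≤ T) :
    P.H V ≤ (T * k + 1 + a' * k) * ((P.prod PB).H (fun x => V x.1 + Y x.2) - PB.H Y)
      + Real.exp (-T) := by
  obtain ⟨ω0, hω0⟩ := P.exists_w_pos
  set V' : Ω → G := fun ω => if 0 < P.w ω then V ω else V ω0 with hV'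
  have h0 : ∀ ω, 0 < P.w ω → V ω = V' ω := fun ω hω => by simp only [hV', hω, if_true]
  have h1 := hz_gain φ P PB Y a' k ha' hk0 hk hY V' c (fun ω => by
    simp only [hV']
    split_ifs with h
    · exact hV ω h
    · exact hV ω0 hω0) T hT
  rw [P.H_congr_supp V V' h0, (P.prod PB).H_congr_supp (fun x => V x.1 + Y x.2)
    (fun x => V' x.1 + Y x.2) (fun x hx => by
      have h2 : 0 < P.w x.1 := by
        rcases P.w_zero_or_pos x.1 with h3 | h3
        · rw [prod_w, h3, zero_mul] at hx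
          exact absurd hx (lt_irrefl _)
        · exact h3
      simp only [h0 x.1 h2])]
  exact h1

end gain

/-! ### sequences -/

section seq

variable {Λ : Type} {ι : Type} (x : Λ → ℕ → (ι → ℤ))

/-- multiplication by `z^n` -/
def hzShift (n : ℕ) (y : ℕ → (ι → ℤ)) : ℕ → (ι → ℤ) := fun m => if m < n then 0 else y (m - n)

/-- truncation as a homomorphism -/
def hz_truHom (ι : Type) (s : ℕ) : (ℕ → (ι → ℤ)) →+ (ℕ → (ι → ℤ)) where
  toFun := tru s
  map_zero' := by
    funext m
    simp [tru]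
  map_add' y z := by
    funext m
    simp only [tru, Pi.add_apply]
    split_ifs
    · rfl
    · simp

lemma hz_truHom_apply (s : ℕ) (y : ℕ → (ι → ℤ)) : hz_truHom ι s y = tru s y := rfl

lemma hz_tru_add (s : ℕ) (y z : ℕ → (ι → ℤ)) : tru s (y + z) = tru s y + tru s z :=
  (hz_truHom ι s).map_add y z

lemma hz_tru_tru (m s : ℕ) (h : m ≤ s) (y : ℕ → (ι → ℤ)) : tru m (tru s y) = tru m y := by
  funext l
  simp only [tru]
  split_ifs with h1 h2
  · rfl
  · omega
  · rfl

lemma hz_tru_shift (s n : ℕ) (y : ℕ → (ι → ℤ)) :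
    tru s (hzShift n y) = hzShift n (tru (s - n) y) := by
  funext l
  simp only [tru, hzShift]
  split_ifs with h1 h2 h3 h4 h5
  · rfl
  · rfl
  · omega
  · rfl
  · omega
  · rfl

lemma hz_shift_inj (n : ℕ) {y z : ℕ → (ι → ℤ)} (h : hzShift n y = hzShift n z) : y = z := by
  funext l
  have := congrFun h (l + n)
  simpa only [hzShift, add_lt_iff_neg_right, not_lt_zero, ↓reduceIte, add_tsub_cancel_right] using this

lemma hz_tru_shift_self (s : ℕ) (y : ℕ → (ι → ℤ)) : tru s (hzShift s y) = 0 := by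
  funext l
  simp only [tru, hzShift]
  split_ifs <;> rfl

lemma hz_shift_add (n : ℕ) (y z : ℕ → (ι → ℤ)) : hzShift n (y + z) = hzShift n y + hzShift n z := by
  funext m
  simp only [hzShift, Pi.add_apply]
  split_ifs <;> simp

lemma hz_shift_shift (m n : ℕ) (y : ℕ → (ι → ℤ)) :
    hzShift m (hzShift n y) = hzShift (n + m) y := by
  funext l
  simp only [hzShift]
  split_ifs with h1 h2 h3 h4
  · rfl
  · omega
  · rfl
  · omega
  · omega
  · congr 1
    omega

variable [Fintype Λ] (P : FinProb Λ)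

end seq

end Vale.Agent.P114
end
end

section

/-! Evaluation of power series with polynomially bounded coefficients. -/

open scoped Classical
open Polynomial

noncomputable section

namespace Vale.Agent.P114.DG

/-- Power series with polynomially bounded coefficients. -/
def PGrow (f : PowerSeries ℤ) : Prop :=
  ∃ (C : ℝ) (k : ℕ), 0 ≤ C ∧ ∀ m, |((PowerSeries.coeff m f : ℤ) : ℝ)| ≤ C * ((m : ℝ) + 1) ^ k

theorem PGrow.of_bound {f : PowerSeries ℤ} {C : ℝ} (hC : 0 ≤ C)
    (h : ∀ m, |((PowerSeries.coeff m f : ℤ) : ℝ)| ≤ C) : PGrow f :=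
  ⟨C, 0, hC, fun m => by simpa using h m⟩

theorem PGrow.add {f g : PowerSeries ℤ} (hf : PGrow f) (hg : PGrow g) : PGrow (f + g) := by
  obtain ⟨C, k, hC, h1⟩ := hf
  obtain ⟨D, l, hD, h2⟩ := hg
  refine ⟨C + D, k + l, by positivity, fun m => ?_⟩
  have hm : (1 : ℝ) ≤ (m : ℝ) + 1 := by
    have : (0 : ℝ) ≤ m := Nat.cast_nonneg m
    linarith
  rw [map_add, Int.cast_add]
  refine (abs_add_le _ _).trans ?_
  have e1 : ((m : ℝ) + 1) ^ k ≤ ((m : ℝ) + 1) ^ (k + l) := pow_le_pow_right₀ hm (by omega)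
  have e2 : ((m : ℝ) + 1) ^ l ≤ ((m : ℝ) + 1) ^ (k + l) := pow_le_pow_right₀ hm (by omega)
  calc _ ≤ C * ((m : ℝ) + 1) ^ k + D * ((m : ℝ) + 1) ^ l := add_le_add (h1 m) (h2 m)
    _ ≤ C * ((m : ℝ) + 1) ^ (k + l) + D * ((m : ℝ) + 1) ^ (k + l) := by gcongr
    _ = _ := by ring

theorem PGrow.neg {f : PowerSeries ℤ} (hf : PGrow f) : PGrow (-f) := by
  obtain ⟨C, k, hC, h1⟩ := hf
  refine ⟨C, k, hC, fun m => ?_⟩
  rw [map_neg, Int.cast_neg, abs_neg]
  exact h1 m

theorem PGrow.mul {f g : PowerSeries ℤ} (hf : PGrow f) (hg : PGrow g) : PGrow (f * g) := by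
  obtain ⟨C, k, hC, h1⟩ := hf
  obtain ⟨D, l, hD, h2⟩ := hg
  refine ⟨C * D, k + l + 1, by positivity, fun m => ?_⟩
  have hm : (1 : ℝ) ≤ (m : ℝ) + 1 := by
    have : (0 : ℝ) ≤ m := Nat.cast_nonneg m
    linarith
  rw [PowerSeries.coeff_mul, Int.cast_sum]
  refine (Finset.abs_sum_le_sum_abs _ _).trans ?_
  calc _ ≤ ∑ p ∈ Finset.HasAntidiagonal.antidiagonal m, C * D * ((m : ℝ) + 1) ^ (k + l) := by
        apply Finset.sum_le_sum
        intro p hp
        have hp' := Finset.HasAntidiagonal.mem_antidiagonal.mp hp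
        have a1 : (p.1 : ℝ) + 1 ≤ (m : ℝ) + 1 := by
          have : p.1 ≤ m := by omega
          have : (p.1 : ℝ) ≤ m := by exact_mod_cast this
          linarith only [this]
        have a2 : (p.2 : ℝ) + 1 ≤ (m : ℝ) + 1 := by
          have : p.2 ≤ m := by omega
          have : (p.2 : ℝ) ≤ m := by exact_mod_cast this
          linarith only [this]
        rw [Int.cast_mul, abs_mul]
        calc _ ≤ (C * ((p.1 : ℝ) + 1) ^ k) * (D * ((p.2 : ℝ) + 1) ^ l) :=
              mul_le_mul (h1 _) (h2 _) (abs_nonneg _) (by positivity)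
          _ ≤ (C * ((m : ℝ) + 1) ^ k) * (D * ((m : ℝ) + 1) ^ l) := by (clear * - a1 hC a2 hD; gcongr)
          _ = _ := by ring
    _ = C * D * ((m : ℝ) + 1) ^ (k + l + 1) := by
        rw [Finset.sum_const, Finset.Nat.card_antidiagonal, nsmul_eq_mul]
        push_cast
        ring

theorem PGrow.coe (p : ℤ[X]) : PGrow (p : PowerSeries ℤ) := by
  refine PGrow.of_bound (C := ∑ i ∈ p.support, |((p.coeff i : ℤ) : ℝ)|)
    (Finset.sum_nonneg fun _ _ => abs_nonneg _) fun m => ?_
  rw [Polynomial.coeff_coe]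
  by_cases hm : m ∈ p.support
  · exact Finset.single_le_sum (f := fun i => |((p.coeff i : ℤ) : ℝ)|)
      (fun _ _ => abs_nonneg _) hm
  · rw [Polynomial.notMem_support_iff.mp hm]
    simp only [Int.cast_zero, abs_zero]
    exact Finset.sum_nonneg fun _ _ => abs_nonneg _

theorem PGrow.one : PGrow 1 := by
  have := PGrow.coe (1 : ℤ[X])
  simpa using this

theorem PGrow.zero : PGrow 0 := by
  have := PGrow.coe (0 : ℤ[X])
  simpa using this

/-- The subring of series with polynomially bounded coefficients. -/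
def PGSub : Subring (PowerSeries ℤ) where
  carrier := {f | PGrow f}
  mul_mem' := PGrow.mul
  one_mem' := PGrow.one
  add_mem' := PGrow.add
  zero_mem' := PGrow.zero
  neg_mem' := PGrow.neg

/-- polynomial times geometric is summable -/
theorem summable_pg (lam : ℝ) (h0 : lam ≠ 0) (h1 : |lam| < 1) (C : ℝ) (k : ℕ) :
    Summable fun m : ℕ => C * ((m : ℝ) + 1) ^ k * |lam| ^ m := by
  have hs := summable_pow_mul_geometric_of_norm_lt_one k (r := |lam|) (by
    rw [Real.norm_eq_abs, abs_abs]; exact h1)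
  have hs1 := (summable_nat_add_iff 1).2 hs
  have hs2 := hs1.mul_left (C * |lam|⁻¹)
  refine hs2.congr fun m => ?_
  have : |lam| ≠ 0 := by simpa using h0
  push_cast
  rw [pow_succ]
  field_simp

theorem PGrow.summable {f : PowerSeries ℤ} (hf : PGrow f) (lam : ℝ) (h0 : lam ≠ 0)
    (h1 : |lam| < 1) :
    Summable fun l => ‖((PowerSeries.coeff l f : ℤ) : ℝ) * lam ^ l‖ := by
  obtain ⟨C, k, hC, h⟩ := hf
  refine Summable.of_nonneg_of_le (fun _ => norm_nonneg _) (fun m => ?_)
    (summable_pg lam h0 h1 C k)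
  rw [norm_mul, norm_pow, Real.norm_eq_abs, Real.norm_eq_abs]
  exact mul_le_mul_of_nonneg_right (h m) (by positivity)

theorem evS_add (lam : ℝ) (h0 : lam ≠ 0) (h1 : |lam| < 1) {f g : PowerSeries ℤ} (hf : PGrow f)
    (hg : PGrow g) : evS lam (f + g) = evS lam f + evS lam g := by
  unfold evS
  rw [← Summable.tsum_add (hf.summable lam h0 h1).of_norm (hg.summable lam h0 h1).of_norm]
  apply tsum_congr
  intro l
  rw [map_add, Int.cast_add, add_mul]

theorem evS_mul (lam : ℝ) (h0 : lam ≠ 0) (h1 : |lam| < 1) {f g : PowerSeries ℤ} (hf : PGrow f)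
    (hg : PGrow g) : evS lam (f * g) = evS lam f * evS lam g := by
  unfold evS
  rw [tsum_mul_tsum_eq_tsum_sum_antidiagonal_of_summable_norm (hf.summable lam h0 h1)
    (hg.summable lam h0 h1)]
  apply tsum_congr
  intro l
  rw [PowerSeries.coeff_mul, Int.cast_sum, Finset.sum_mul]
  apply Finset.sum_congr rfl
  intro p hp
  rw [Int.cast_mul, ← Finset.HasAntidiagonal.mem_antidiagonal.mp hp, pow_add]
  ring

theorem evS_coe (lam : ℝ) (p : ℤ[X]) : evS lam (p : PowerSeries ℤ) = aeval lam p := by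
  unfold evS
  rw [tsum_eq_sum (s := p.support)]
  · rw [Polynomial.aeval_eq_sum_range' (Nat.lt_succ_self _)]
    rw [Finset.sum_subset (s₁ := p.support) (s₂ := Finset.range (p.natDegree + 1))]
    · apply Finset.sum_congr rfl
      intro i _
      rw [Polynomial.coeff_coe, zsmul_eq_mul]
    · intro i hi
      rw [Finset.mem_range]
      exact Nat.lt_succ_of_le (Polynomial.le_natDegree_of_mem_supp i hi)
    · intro i _ hi
      rw [Polynomial.coeff_coe, Polynomial.notMem_support_iff.mp hi]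
      simp
  · intro l hl
    rw [Polynomial.coeff_coe, Polynomial.notMem_support_iff.mp hl]
    simp

/-- Evaluation at `lam` as a ring homomorphism. -/
def evH (lam : ℝ) (h0 : lam ≠ 0) (h1 : |lam| < 1) : PGSub →+* ℝ where
  toFun f := evS lam f.1
  map_one' := by
    have := evS_coe lam (1 : ℤ[X])
    simpa using this
  map_zero' := by
    have := evS_coe lam (0 : ℤ[X])
    simpa using this
  map_mul' f g := evS_mul lam h0 h1 f.2 g.2
  map_add' f g := evS_add lam h0 h1 f.2 g.2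

@[simp] theorem evH_apply (lam : ℝ) (h0 : lam ≠ 0) (h1 : |lam| < 1) (f : PGSub) :
    evH lam h0 h1 f = evS lam f.1 := rfl

/-- the determinant of a matrix with entries in `PGSub` -/
theorem PGrow.det {m : ℕ} {M : Matrix (Fin m) (Fin m) (PowerSeries ℤ)}
    (hM : ∀ i j, PGrow (M i j)) : PGrow M.det := by
  have h1 : M = (PGSub.subtype).mapMatrix (Matrix.of fun i j => (⟨M i j, hM i j⟩ : PGSub)) := by
    ext i j
    simp
  rw [h1, ← RingHom.map_det]
  exact (Matrix.det _ : PGSub).2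

theorem evS_det (lam : ℝ) (h0 : lam ≠ 0) (h1 : |lam| < 1) {m : ℕ}
    {M : Matrix (Fin m) (Fin m) (PowerSeries ℤ)} (hM : ∀ i j, PGrow (M i j)) :
    evS lam M.det = (Matrix.of fun i j => evS lam (M i j)).det := by
  set M' : Matrix (Fin m) (Fin m) PGSub := Matrix.of fun i j => (⟨M i j, hM i j⟩ : PGSub) with hM'
  have e1 : M = (PGSub.subtype).mapMatrix M' := by
    ext i j
    simp [hM']
  have e2 : (Matrix.of fun i j => evS lam (M i j)) = (evH lam h0 h1).mapMatrix M' := by
    ext i j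
    simp [hM']
  rw [e2, ← RingHom.map_det]
  conv_lhs => rw [e1]
  rw [← RingHom.map_det]
  rfl

/-- A series with small coefficients in the beginning is small at `lam`. -/
theorem evS_small (lam : ℝ) (h0 : lam ≠ 0) (h1 : |lam| < 1) (C : ℝ) (k : ℕ) (ε : ℝ)
    (hε : 0 < ε) : ∃ N : ℕ, ∀ f : PowerSeries ℤ,
      (∀ m, |((PowerSeries.coeff m f : ℤ) : ℝ)| ≤ C * ((m : ℝ) + 1) ^ k) →
      (∀ m < N, PowerSeries.coeff m f = 0) → |evS lam f| ≤ ε := by
  have hs := summable_pg lam h0 h1 C k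
  have ht := tendsto_sum_nat_add (fun m : ℕ => C * ((m : ℝ) + 1) ^ k * |lam| ^ m)
  have hev := ht.eventually (gt_mem_nhds hε)
  obtain ⟨N, hN⟩ := hev.exists
  refine ⟨N, fun f hf hz => ?_⟩
  have hC : 0 ≤ C := by
    have := (abs_nonneg _).trans (hf 0)
    simpa only [ge_iff_le, CharP.cast_eq_zero, zero_add, one_pow, mul_one] using this
  have hsf : Summable fun l => ‖((PowerSeries.coeff l f : ℤ) : ℝ) * lam ^ l‖ := by
    refine Summable.of_nonneg_of_le (fun _ => norm_nonneg _) (fun m => ?_) hs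
    rw [norm_mul, norm_pow, Real.norm_eq_abs, Real.norm_eq_abs]
    exact mul_le_mul_of_nonneg_right (hf m) (by positivity)
  have e1 : evS lam f = ∑' l, ((PowerSeries.coeff (l + N) f : ℤ) : ℝ) * lam ^ (l + N) := by
    unfold evS
    rw [← hsf.of_norm.sum_add_tsum_nat_add N, Finset.sum_eq_zero, zero_add]
    intro l hl
    rw [hz l (Finset.mem_range.mp hl)]
    simp
  rw [e1]
  have hs2 : Summable fun l : ℕ => ‖((PowerSeries.coeff (l + N) f : ℤ) : ℝ) * lam ^ (l + N)‖ :=
    (summable_nat_add_iff N).2 hsf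
  have hs3 : Summable fun m : ℕ => C * (((m + N : ℕ) : ℝ) + 1) ^ k * |lam| ^ (m + N) :=
    (summable_nat_add_iff (f := fun m : ℕ => C * ((m : ℝ) + 1) ^ k * |lam| ^ m) N).2 hs
  rw [← Real.norm_eq_abs]
  refine (norm_tsum_le_tsum_norm hs2).trans ?_
  refine le_trans (hs2.tsum_le_tsum (fun m => ?_) hs3) hN.le
  rw [norm_mul, norm_pow, Real.norm_eq_abs, Real.norm_eq_abs]
  exact mul_le_mul_of_nonneg_right (hf (m + N)) (by positivity)

/-- coefficients of a product of a fixed series and a series with coefficients at most `B`. -/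
theorem PGrow.mul_bound {g : PowerSeries ℤ} (hg : PGrow g) (B : ℝ) (hB : 0 ≤ B) :
    ∃ (C : ℝ) (k : ℕ), 0 ≤ C ∧ ∀ f : PowerSeries ℤ,
      (∀ m, |((PowerSeries.coeff m f : ℤ) : ℝ)| ≤ B) →
      ∀ m, |((PowerSeries.coeff m (f * g) : ℤ) : ℝ)| ≤ C * ((m : ℝ) + 1) ^ k := by
  obtain ⟨D, l, hD, h2⟩ := hg
  refine ⟨B * D, l + 1, by positivity, fun f h1 m => ?_⟩
  have hm : (1 : ℝ) ≤ (m : ℝ) + 1 := by
    have : (0 : ℝ) ≤ m := Nat.cast_nonneg m
    linarith
  rw [PowerSeries.coeff_mul, Int.cast_sum]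
  refine (Finset.abs_sum_le_sum_abs _ _).trans ?_
  calc _ ≤ ∑ p ∈ Finset.HasAntidiagonal.antidiagonal m, B * D * ((m : ℝ) + 1) ^ l := by
        apply Finset.sum_le_sum
        intro p hp
        have hp' := Finset.HasAntidiagonal.mem_antidiagonal.mp hp
        have a2 : (p.2 : ℝ) + 1 ≤ (m : ℝ) + 1 := by
          have : p.2 ≤ m := by omega
          have : (p.2 : ℝ) ≤ m := by exact_mod_cast this
          linarith only [this]
        rw [Int.cast_mul, abs_mul]
        calc _ ≤ B * (D * ((p.2 : ℝ) + 1) ^ l) :=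
              mul_le_mul (h1 _) (h2 _) (abs_nonneg _) (by positivity)
          _ ≤ B * (D * ((m : ℝ) + 1) ^ l) := by gcongr
          _ = _ := by ring
    _ = B * D * ((m : ℝ) + 1) ^ (l + 1) := by
        rw [Finset.sum_const, Finset.Nat.card_antidiagonal, nsmul_eq_mul]
        push_cast
        ring

end Vale.Agent.P114.DG
end
end

section

/-! Words, their series, and the levels of the degenerate case. -/

open scoped Classical
open Polynomial

noncomputable section

namespace Vale.Agent.P114.DG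

open FinProb

section words

variable {Λ : Type}

end words

section cramer

variable {Λ : Type} {k : ℕ}

theorem crL_dvd {R : Type*} [CommRing R] (F : Fin k → Λ → R) (ι0 : Fin k → Λ) (y : Λ → R) (q : R)
    (h : ∀ b, q ∣ y b) (a : Λ) : q ∣ crL F ι0 y a := by
  rw [crL_apply]
  apply dvd_sub
  · exact Dvd.dvd.mul_left (h a) _
  · refine Finset.dvd_sum fun r _ => ?_
    apply Dvd.dvd.mul_right
    exact Finset.dvd_sum fun s _ => Dvd.dvd.mul_right (h _) _

/-- Evaluation of the Cramer form. -/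
theorem evS_crL (lam : ℝ) (h0 : lam ≠ 0) (h1 : |lam| < 1) (F : Fin k → Λ → PowerSeries ℤ)
    (ι0 : Fin k → Λ) (y : Λ → PowerSeries ℤ) (hF : ∀ r b, PGrow (F r b)) (hy : ∀ b, PGrow (y b))
    (a : Λ) :
    evS lam (crL F ι0 y a)
      = crL (fun r b => evS lam (F r b)) ι0 (fun b => evS lam (y b)) a := by
  have e1 := map_crL PGSub.subtype (fun r b => (⟨F r b, hF r b⟩ : PGSub)) ι0
    (fun b => (⟨y b, hy b⟩ : PGSub)) a
  have e2 := map_crL (evH lam h0 h1) (fun r b => (⟨F r b, hF r b⟩ : PGSub)) ι0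
    (fun b => (⟨y b, hy b⟩ : PGSub)) a
  rw [evH_apply] at e2
  have e3 : crL F ι0 y a
      = (crL (fun r b => (⟨F r b, hF r b⟩ : PGSub)) ι0 (fun b => (⟨y b, hy b⟩ : PGSub)) a).1 :=
    e1.symm
  rw [e3, e2]
  rfl

theorem pgrow_adjugate (F : Fin k → Λ → PowerSeries ℤ) (ι0 : Fin k → Λ)
    (hF : ∀ r b, PGrow (F r b)) (s r : Fin k) : PGrow ((crm F ι0).adjugate s r) := by
  have e : crm F ι0 = PGSub.subtype.mapMatrix (crm (fun r b => (⟨F r b, hF r b⟩ : PGSub)) ι0) := by
    ext r s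
    rfl
  rw [e, ← RingHom.map_adjugate]
  exact ((crm (fun r b => (⟨F r b, hF r b⟩ : PGSub)) ι0).adjugate s r).2

theorem pgrow_crm_det (F : Fin k → Λ → PowerSeries ℤ) (ι0 : Fin k → Λ)
    (hF : ∀ r b, PGrow (F r b)) : PGrow (crm F ι0).det :=
  PGrow.det fun i j => hF i (ι0 j)

theorem evS_crm_det (lam : ℝ) (h0 : lam ≠ 0) (h1 : |lam| < 1) (F : Fin k → Λ → PowerSeries ℤ)
    (ι0 : Fin k → Λ) (hF : ∀ r b, PGrow (F r b)) :
    evS lam (crm F ι0).det = (crm (fun r b => evS lam (F r b)) ι0).det :=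
  evS_det lam h0 h1 (M := crm F ι0) fun i j => hF i (ι0 j)

/-- uniformly polynomially bounded operators -/
def UBd (T : (Λ → PowerSeries ℤ) → PowerSeries ℤ) : Prop :=
  ∃ (C : ℝ) (l : ℕ), 0 ≤ C ∧ ∀ y : Λ → PowerSeries ℤ,
    (∀ a m, |((PowerSeries.coeff m (y a) : ℤ) : ℝ)| ≤ 1) →
    ∀ m, |((PowerSeries.coeff m (T y) : ℤ) : ℝ)| ≤ C * ((m : ℝ) + 1) ^ l

theorem UBd.add {T T' : (Λ → PowerSeries ℤ) → PowerSeries ℤ} (hT : UBd T) (hT' : UBd T') :
    UBd (fun y => T y + T' y) := by
  obtain ⟨C, l, hC, h1⟩ := hT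
  obtain ⟨C', l', hC', h2⟩ := hT'
  refine ⟨C + C', l + l', by positivity, fun y hy m => ?_⟩
  have hm : (1 : ℝ) ≤ (m : ℝ) + 1 := by
    have : (0 : ℝ) ≤ m := Nat.cast_nonneg m
    linarith
  rw [map_add, Int.cast_add]
  refine (abs_add_le _ _).trans ?_
  have e1 : ((m : ℝ) + 1) ^ l ≤ ((m : ℝ) + 1) ^ (l + l') := pow_le_pow_right₀ hm (by omega)
  have e2 : ((m : ℝ) + 1) ^ l' ≤ ((m : ℝ) + 1) ^ (l + l') := pow_le_pow_right₀ hm (by omega)
  calc _ ≤ C * ((m : ℝ) + 1) ^ l + C' * ((m : ℝ) + 1) ^ l' := add_le_add (h1 y hy m) (h2 y hy m)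
    _ ≤ C * ((m : ℝ) + 1) ^ (l + l') + C' * ((m : ℝ) + 1) ^ (l + l') := by gcongr
    _ = _ := by ring

theorem UBd.neg {T : (Λ → PowerSeries ℤ) → PowerSeries ℤ} (hT : UBd T) :
    UBd (fun y => -T y) := by
  obtain ⟨C, l, hC, h1⟩ := hT
  refine ⟨C, l, hC, fun y hy m => ?_⟩
  rw [map_neg, Int.cast_neg, abs_neg]
  exact h1 y hy m

theorem UBd.zero : UBd (fun _ : Λ → PowerSeries ℤ => (0 : PowerSeries ℤ)) := by
  refine ⟨0, 0, le_rfl, fun y _ m => ?_⟩
  simp

theorem UBd.sum {ι : Type} (s : Finset ι) {T : ι → (Λ → PowerSeries ℤ) → PowerSeries ℤ}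
    (hT : ∀ i ∈ s, UBd (T i)) : UBd (fun y => ∑ i ∈ s, T i y) := by
  induction s using Finset.induction_on with
  | empty => simpa using UBd.zero
  | insert a s ha ih =>
    have h1 := (hT a (Finset.mem_insert_self a s)).add
      (ih (fun i hi => hT i (Finset.mem_insert_of_mem hi)))
    have e : (fun y => ∑ i ∈ insert a s, T i y) = fun y => T a y + ∑ i ∈ s, T i y := by
      funext y
      rw [Finset.sum_insert ha]
    rw [e]
    exact h1

theorem UBd.coord (b : Λ) {g : PowerSeries ℤ} (hg : PGrow g) :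
    UBd (fun y => y b * g) := by
  obtain ⟨C, l, hC, h⟩ := hg.mul_bound 1 zero_le_one
  exact ⟨C, l, hC, fun y hy m => h (y b) (hy b) m⟩

theorem UBd.crL (F : Fin k → Λ → PowerSeries ℤ) (ι0 : Fin k → Λ)
    (hF : ∀ r b, PGrow (F r b)) (a : Λ) : UBd (fun y => crL F ι0 y a) := by
  have h1 : UBd (fun y : Λ → PowerSeries ℤ => y a * (crm F ι0).det
      + -(∑ r, ∑ s, y (ι0 s) * ((crm F ι0).adjugate s r * F r a))) := by
    apply UBd.add
    · exact UBd.coord a (pgrow_crm_det F ι0 hF)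
    · apply UBd.neg
      refine UBd.sum _ fun r _ => UBd.sum _ fun s _ => ?_
      exact UBd.coord _ ((pgrow_adjugate F ι0 hF s r).mul (hF r a))
  have e : (fun y => DG.crL F ι0 y a) = (fun y : Λ → PowerSeries ℤ => y a * (crm F ι0).det
      + -(∑ r, ∑ s, y (ι0 s) * ((crm F ι0).adjugate s r * F r a))) := by
    funext y
    rw [crL_apply, sub_eq_add_neg, mul_comm]
    congr 2
    refine Finset.sum_congr rfl fun r _ => ?_
    rw [Finset.sum_mul]
    refine Finset.sum_congr rfl fun s _ => by ring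
  rw [e]
  exact h1

end cramer

end Vale.Agent.P114.DG
end
end

section

/-! The levels of the degenerate case. -/

open scoped Classical
open Polynomial

noncomputable section

namespace Vale.Agent.P114.DG

open FinProb

variable {Λ : Type} [Fintype Λ] {k : ℕ}

theorem tru_eq_iff {G : Type} [Zero G] (s : ℕ) (y y' : ℕ → G) :
    tru s y = tru s y' ↔ ∀ m < s, y m = y' m := by
  constructor
  · intro h m hm
    have := congrFun h m
    simpa [tru, hm] using this
  · intro h
    funext m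
    unfold tru
    split_ifs with hm
    · exact h m hm
    · rfl

/-- the key evaluation formula over the reals -/
theorem crL_dot (G : Fin k → Λ → ℝ) (ι0 : Fin k → Λ) (y v : Λ → ℝ) (hv : ∀ r, G r ⬝ᵥ v = 0) :
    crL G ι0 y ⬝ᵥ v = (crm G ι0).det * (y ⬝ᵥ v) := by
  have e : crL G ι0 y = (crm G ι0).det • y
      - ∑ r, (∑ s, y (ι0 s) * (crm G ι0).adjugate s r) • G r := by
    funext a
    rw [crL_apply]
    simp only [Pi.sub_apply, Pi.smul_apply, smul_eq_mul, Finset.sum_apply]
  rw [e, sub_dotProduct, smul_dotProduct, sum_dotProduct, smul_eq_mul, Finset.sum_eq_zero, sub_zero]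
  intro r _
  rw [smul_dotProduct, hv r, smul_zero]

end Vale.Agent.P114.DG
end
end

section

/-! The degenerate case: main argument. -/

open scoped Classical
open Polynomial

noncomputable section

namespace Vale.Agent.P114.DG

open FinProb

variable {Λ : Type} [Fintype Λ]

/-- branches are realized by tails -/
theorem realized_family (U : Ultrafilter ℕ) (P : FinProb Λ) (X : ℕ → Lev Λ) (hL : LargeLev U X)
    {k : ℕ} (u u' : Fin k → ℕ → Λ) (hbr : ∀ r, Branch U P X (u r) (u' r)) (L : ℕ) :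
    ∀ᶠ i in (U : Filter ℕ), ∃ Y : Fin k → List Λ × List Λ, (∀ r, Y r ∈ (X i).Tails) ∧
      ∀ r, pre (u r) L <+: (Y r).1 ∧ pre (u' r) L <+: (Y r).2 := by
  have h : ∀ r, ∀ᶠ i in (U : Filter ℕ), ∃ x ∈ (X i).Tails,
      pre (u r) L <+: x.1 ∧ pre (u' r) L <+: x.2 := fun r => Node.realized U P X hL (hbr r L)
  filter_upwards [Filter.eventually_all.2 h] with i hi
  choose Y h1 h2 using hi
  exact ⟨Y, h1, h2⟩

theorem dg_det_congr {R : Type*} [CommRing R] {m : ℕ} (M M' : Matrix (Fin m) (Fin m) R) (q : R)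
    (h : ∀ i j, q ∣ M i j - M' i j) : q ∣ M.det - M'.det := by
  rw [← Ideal.mem_span_singleton, ← Ideal.Quotient.mk_eq_mk_iff_sub_mem]
  rw [RingHom.map_det, RingHom.map_det]
  congr 1
  ext i j
  simp only [RingHom.mapMatrix_apply, Matrix.map_apply]
  rw [Ideal.Quotient.mk_eq_mk_iff_sub_mem, Ideal.mem_span_singleton]
  exact h i j

/-- The field used for the spans. -/
abbrev KK := FractionRing (PowerSeries ℤ)

end Vale.Agent.P114.DG
end
end

section

open scoped Classical
open Polynomial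

noncomputable section

namespace Vale.Agent.P114

open FinProb

variable {Λ : Type} [Fintype Λ]

end Vale.Agent.P114
end
end

section

open scoped Classical
open Polynomial

noncomputable section

namespace Vale.Agent.P114

open FinProb

variable {Λ : Type} [Fintype Λ]

/-! ### Coefficient polynomials of words -/

/-! ### Minors -/

lemma natDegree_prod_le' (k n : ℕ) (p : Fin (k + 1) → ℤ[X]) (hp : ∀ j, (p j).natDegree ≤ n) :
    (∏ j, p j).natDegree ≤ (k + 1) * n := by
  refine (Polynomial.natDegree_prod_le _ _).trans ?_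
  calc ∑ j, (p j).natDegree ≤ ∑ _j : Fin (k + 1), n := Finset.sum_le_sum fun j _ => hp j
    _ = _ := by simp

/-- A nonzero vector of `V` supported on the range of `ι`. -/
lemma exists_mem_supported (V : Submodule ℝ (Λ → ℝ)) (k : ℕ)
    (hk : k + Module.finrank ℝ V = Fintype.card Λ) (ι : Fin (k + 1) → Λ)
    (hι : Function.Injective ι) :
    ∃ y : Fin (k + 1) → ℝ, (fun i => ∑ s, if ι s = i then y s else 0) ∈ V ∧
      (∀ s, |y s| ≤ 1) ∧ ∃ s, y s = 1 := by
  let E : (Fin (k + 1) → ℝ) →ₗ[ℝ] (Λ → ℝ) :=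
    { toFun := fun y i => ∑ s, if ι s = i then y s else 0
      map_add' := by
        intro a b
        funext i
        simp only [Pi.add_apply]
        rw [← Finset.sum_add_distrib]
        refine Finset.sum_congr rfl fun s _ => ?_
        by_cases h : ι s = i
        · simp [h]
        · simp [h]
      map_smul' := by
        intro c a
        funext i
        simp only [Pi.smul_apply, smul_eq_mul, RingHom.id_apply]
        rw [Finset.mul_sum]
        refine Finset.sum_congr rfl fun s _ => ?_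
        by_cases h : ι s = i
        · simp [h]
        · simp [h] }
  let Q : (Fin (k + 1) → ℝ) →ₗ[ℝ] ((Λ → ℝ) ⧸ V) := V.mkQ.comp E
  have hfin : Module.finrank ℝ ((Λ → ℝ) ⧸ V) = k := by
    have h1 := Submodule.finrank_quotient_add_finrank V
    rw [Module.finrank_fintype_fun_eq_card] at h1
    omega
  have hker : ∃ y ∈ LinearMap.ker Q, y ≠ 0 := by
    rw [← Submodule.ne_bot_iff]
    intro hbot
    have h2 := LinearMap.finrank_le_finrank_of_injective (LinearMap.ker_eq_bot.1 hbot)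
    rw [hfin, Module.finrank_fintype_fun_eq_card, Fintype.card_fin] at h2
    omega
  obtain ⟨y, hy, hy0⟩ := hker
  have hyV : E y ∈ V := by
    rw [LinearMap.mem_ker, LinearMap.comp_apply] at hy
    exact (Submodule.Quotient.mk_eq_zero V).1 hy
  obtain ⟨s0, -, hs0⟩ := Finset.exists_max_image Finset.univ (fun s => |y s|)
    Finset.univ_nonempty
  have hs0' : y s0 ≠ 0 := by
    intro h
    apply hy0
    funext s
    have := hs0 s (Finset.mem_univ _)
    rw [h, abs_zero] at this
    exact abs_eq_zero.1 (le_antisymm this (abs_nonneg _))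
  refine ⟨(y s0)⁻¹ • y, ?_, ?_, s0, ?_⟩
  · have h3 : E ((y s0)⁻¹ • y) ∈ V := by
      rw [map_smul]
      exact V.smul_mem _ hyV
    exact h3
  · intro s
    have := hs0 s (Finset.mem_univ _)
    rw [Pi.smul_apply, smul_eq_mul, abs_mul, abs_inv, inv_mul_le_iff₀ (abs_pos.2 hs0'), mul_one]
    exact this
  · rw [Pi.smul_apply, smul_eq_mul, inv_mul_cancel₀ hs0']

end Vale.Agent.P114
end
end

section

open scoped Classical
open Polynomial

noncomputable section

namespace Vale.Agent.P114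

open FinProb

variable {Λ : Type} [Fintype Λ]

/-- irreducible polynomials sharing a root divide -/
theorem irred_dvd (f p : ℤ[X]) (hf : Irreducible f) (η : ℂ) (hη : aeval η f = 0)
    (hp : aeval η p = 0) : f ∣ p := by
  have hdeg : f.natDegree ≠ 0 := by
    intro h
    rw [natDegree_eq_zero] at h
    obtain ⟨a, rfl⟩ := h
    rw [aeval_C] at hη
    have ha : a = 0 := by
      have : ((a : ℤ) : ℂ) = 0 := by simpa using hη
      exact_mod_cast this
    exact hf.ne_zero (by rw [ha, C_0])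
  have hprim := hf.isPrimitive hdeg
  rw [IsPrimitive.Int.dvd_iff_map_cast_dvd_map_cast _ _ hprim]
  have hirr := (IsPrimitive.Int.irreducible_iff_irreducible_map_cast hprim).1 hf
  by_contra hnd
  obtain ⟨a, b, hab⟩ := (hirr.coprime_iff_not_dvd).2 hnd
  have h1 : aeval η (f.map (Int.castRingHom ℚ)) = 0 := by
    have := aeval_map_algebraMap (A := ℚ) η f
    simpa using this.trans hη
  have h2 : aeval η (p.map (Int.castRingHom ℚ)) = 0 := by
    have := aeval_map_algebraMap (A := ℚ) η p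
    simpa using this.trans hp
  have h3 := congrArg (aeval η) hab
  rw [map_add, map_mul, map_mul, h1, h2] at h3
  simp at h3

theorem norm_eval_eq (Q : ℂ[X]) (x : ℂ) :
    ‖Q.eval x‖ = ‖Q.leadingCoeff‖ * (Q.roots.map fun a => ‖x - a‖).prod := by
  have h := (IsAlgClosed.splits Q).eq_prod_roots
  conv_lhs => rw [h]
  rw [eval_mul, eval_C, norm_mul, eval_multiset_prod, Multiset.map_map]
  congr 1
  have := map_multiset_prod (normHom : ℂ →*₀ ℝ) (Multiset.map (eval x ∘ fun a => X - C a) Q.roots)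
  rw [Multiset.map_map] at this
  simpa only [Function.comp_apply, eval_sub, eval_X, eval_C, normHom_apply] using this

theorem norm_eval_le (p : ℤ[X]) (A : ℝ)
    (hA : (∑ i ∈ Finset.range (p.natDegree + 1), |((p.coeff i : ℤ) : ℝ)|) ≤ A) (z : ℂ) :
    ‖aeval z p‖ ≤ A * (max 1 ‖z‖) ^ p.natDegree := by
  rw [aeval_eq_sum_range]
  have hm : (1 : ℝ) ≤ max 1 ‖z‖ := le_max_left _ _
  calc ‖∑ i ∈ Finset.range (p.natDegree + 1), p.coeff i • z ^ i‖
      ≤ ∑ i ∈ Finset.range (p.natDegree + 1), ‖p.coeff i • z ^ i‖ := norm_sum_le _ _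
    _ ≤ ∑ i ∈ Finset.range (p.natDegree + 1),
        |((p.coeff i : ℤ) : ℝ)| * (max 1 ‖z‖) ^ p.natDegree := by
        refine Finset.sum_le_sum fun i hi => ?_
        rw [zsmul_eq_mul, norm_mul, norm_pow]
        have e1 : ‖((p.coeff i : ℤ) : ℂ)‖ = |((p.coeff i : ℤ) : ℝ)| := Complex.norm_intCast _
        rw [e1]
        refine mul_le_mul_of_nonneg_left ?_ (abs_nonneg _)
        calc ‖z‖ ^ i ≤ (max 1 ‖z‖) ^ i := by
              gcongr
              exact le_max_right _ _
          _ ≤ (max 1 ‖z‖) ^ p.natDegree :=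
              pow_le_pow_right₀ hm (Nat.lt_succ_iff.1 (Finset.mem_range.1 hi))
    _ = (∑ i ∈ Finset.range (p.natDegree + 1), |((p.coeff i : ℤ) : ℝ)|)
        * (max 1 ‖z‖) ^ p.natDegree := by rw [Finset.sum_mul]
    _ ≤ A * (max 1 ‖z‖) ^ p.natDegree := by
        (clear * - hA; gcongr)

/-- Liouville inequality -/
theorem liouville_ineq (f p : ℤ[X]) (hf : Irreducible f) (η : ℂ) (hη : aeval η f = 0)
    (hη1 : ‖η‖ ≤ 1) (hp : aeval η p ≠ 0) (A : ℝ)
    (hA : (∑ i ∈ Finset.range (p.natDegree + 1), |((p.coeff i : ℤ) : ℝ)|) ≤ A) :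
    1 ≤ ‖aeval η p‖ * (f.map (Int.castRingHom ℂ)).mahlerMeasure ^ p.natDegree
      * A ^ f.natDegree := by
  have hinj : Function.Injective (Int.castRingHom ℂ) := Int.cast_injective
  set F := f.map (Int.castRingHom ℂ) with hF
  set P := p.map (Int.castRingHom ℂ) with hP
  have hF0 : F ≠ 0 := (Polynomial.map_ne_zero_iff hinj).2 hf.ne_zero
  have hFd : F.natDegree = f.natDegree := natDegree_map_eq_of_injective hinj f
  have hPd : P.natDegree = p.natDegree := natDegree_map_eq_of_injective hinj p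
  have hev : ∀ z : ℂ, P.eval z = aeval z p := by
    intro z
    rw [hP, eval_map, aeval_def]
    rfl
  have hevF : ∀ z : ℂ, F.eval z = aeval z f := by
    intro z
    rw [hF, eval_map, aeval_def]
    rfl
  have hA1 : 1 ≤ A := by
    have hp0 : p ≠ 0 := by
      rintro rfl
      exact hp (map_zero _)
    have h1 : (1 : ℝ) ≤ |((p.coeff p.natDegree : ℤ) : ℝ)| := by
      have : p.coeff p.natDegree ≠ 0 := by
        rw [coeff_natDegree]
        exact leadingCoeff_ne_zero.2 hp0
      exact_mod_cast Int.one_le_abs this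
    refine h1.trans (le_trans ?_ hA)
    exact Finset.single_le_sum (f := fun i => |((p.coeff i : ℤ) : ℝ)|)
      (fun i _ => abs_nonneg _) (Finset.self_mem_range_succ _)
  -- the resultant
  have hres := resultant_eq_prod_eval F P p.natDegree (by rw [hPd]) (IsAlgClosed.splits F)
  rw [hFd, hF, hP, resultant_map_map] at hres
  rw [← hF, ← hP] at hres
  have hne : F.leadingCoeff ^ p.natDegree * (F.roots.map P.eval).prod ≠ 0 := by
    refine mul_ne_zero (pow_ne_zero _ (leadingCoeff_ne_zero.2 hF0)) ?_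
    rw [Ne, Multiset.prod_eq_zero_iff]
    intro h
    obtain ⟨z, hz, hz0⟩ := Multiset.mem_map.1 h
    have hz1 : aeval z f = 0 := by
      rw [← hevF]
      exact (mem_roots hF0).1 hz
    have hz2 : aeval z p = 0 := by rw [← hev]; exact hz0
    obtain ⟨g, rfl⟩ := irred_dvd f p hf z hz1 hz2
    exact hp (by rw [map_mul, hη, zero_mul])
  have hone : 1 ≤ ‖F.leadingCoeff ^ p.natDegree * (F.roots.map P.eval).prod‖ := by
    rw [← hres]
    rw [← hres] at hne
    have h1 : resultant f p f.natDegree p.natDegree ≠ 0 := by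
      intro h0
      rw [h0, map_zero] at hne
      exact hne rfl
    have h2 : (1 : ℝ) ≤ |((resultant f p f.natDegree p.natDegree : ℤ) : ℝ)| := by
      exact_mod_cast Int.one_le_abs h1
    refine h2.trans (le_of_eq ?_)
    exact (Complex.norm_intCast _).symm
  -- split off the root η
  have hmem : η ∈ F.roots := (mem_roots hF0).2 (by rw [IsRoot, hevF]; exact hη)
  obtain ⟨R, hR⟩ := Multiset.exists_cons_of_mem hmem
  have hmahler := mahlerMeasure_eq_leadingCoeff_mul_prod_roots F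
  rw [hR, Multiset.map_cons, Multiset.prod_cons, max_eq_left hη1, one_mul] at hmahler
  have hcard : R.card + 1 = f.natDegree := by
    rw [← hFd, (IsAlgClosed.splits F).natDegree_eq_card_roots, hR, Multiset.card_cons]
  have hprod : ∀ s : Multiset ℂ, ‖(s.map P.eval).prod‖ ≤
      A ^ s.card * ((s.map fun a => max 1 ‖a‖).prod) ^ p.natDegree := by
    intro s
    induction s using Multiset.induction with
    | empty => simp only [Multiset.map_zero, Multiset.prod_zero, norm_one, Multiset.card_zero, pow_zero, one_pow, mul_one, Std.le_refl]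
    | cons a s ih =>
      rw [Multiset.map_cons, Multiset.prod_cons, norm_mul, Multiset.map_cons, Multiset.prod_cons,
        Multiset.card_cons, mul_pow, pow_succ]
      have h1 : ‖P.eval a‖ ≤ A * (max 1 ‖a‖) ^ p.natDegree := by
        rw [hev]
        exact norm_eval_le p A hA a
      calc ‖P.eval a‖ * ‖(s.map P.eval).prod‖
          ≤ (A * (max 1 ‖a‖) ^ p.natDegree) *
            (A ^ s.card * ((s.map fun a => max 1 ‖a‖).prod) ^ p.natDegree) := by
            (clear * - h1 ih hA1; gcongr)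
        _ = _ := by ring
  have hM0 : 0 ≤ ‖F.leadingCoeff‖ * (R.map fun a => max 1 ‖a‖).prod := by
    rw [← hmahler]
    exact mahlerMeasure_nonneg _
  calc (1 : ℝ) ≤ ‖F.leadingCoeff ^ p.natDegree * (F.roots.map P.eval).prod‖ := hone
    _ = ‖F.leadingCoeff‖ ^ p.natDegree * (‖P.eval η‖ * ‖(R.map P.eval).prod‖) := by
        rw [norm_mul, norm_pow, hR, Multiset.map_cons, Multiset.prod_cons, norm_mul]
    _ ≤ ‖F.leadingCoeff‖ ^ p.natDegree * (‖P.eval η‖ *
          (A ^ R.card * ((R.map fun a => max 1 ‖a‖).prod) ^ p.natDegree)) := by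
        gcongr
        exact hprod R
    _ = ‖P.eval η‖ * (‖F.leadingCoeff‖ * (R.map fun a => max 1 ‖a‖).prod) ^ p.natDegree
          * A ^ R.card := by
        rw [mul_pow]; ring
    _ ≤ ‖P.eval η‖ * (‖F.leadingCoeff‖ * (R.map fun a => max 1 ‖a‖).prod) ^ p.natDegree
          * A ^ f.natDegree := by
        refine mul_le_mul_of_nonneg_left (pow_le_pow_right₀ hA1 (by omega)) ?_
        exact mul_nonneg (norm_nonneg _) (pow_nonneg hM0 _)
    _ = _ := by rw [hev, ← hmahler]

/-- Mahler measure at radius `ρ`. -/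
theorem prod_max_le (Q : ℂ[X]) (ρ : ℝ) (hρ : 0 < ρ) :
    ‖Q.leadingCoeff‖ * (Q.roots.map fun a => max ρ ‖a‖).prod ≤
      ∑ i ∈ Finset.range (Q.natDegree + 1), ‖Q.coeff i‖ * ρ ^ i := by
  have hρ' : (ρ : ℂ) ≠ 0 := by exact_mod_cast hρ.ne'
  set Q' := Q.comp (C (ρ : ℂ) * X) with hQ'
  have h1 : Q'.mahlerMeasure = ‖Q.leadingCoeff‖ * (Q.roots.map fun a => max ρ ‖a‖).prod := by
    have h := (IsAlgClosed.splits Q).eq_prod_roots
    have h2 : Q' = C Q.leadingCoeff *
        (Q.roots.map fun a => C (ρ : ℂ) * X + C (-a)).prod := by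
      rw [hQ']
      conv_lhs => rw [h]
      rw [mul_comp, C_comp, multiset_prod_comp, Multiset.map_map]
      congr 2
      apply Multiset.map_congr rfl
      intro a _
      simp only [sub_eq_add_neg, Function.comp_apply, add_comp, X_comp, neg_comp, C_comp, map_neg]
    rw [h2, mahlerMeasure_mul, mahlerMeasure_const, prod_mahlerMeasure_eq_mahlerMeasure_prod,
      Multiset.map_map]
    congr 2
    apply Multiset.map_congr rfl
    intro a _
    simp only [Function.comp]
    rw [mahlerMeasure_C_mul_X_add_C hρ', norm_neg, Complex.norm_real, Real.norm_of_nonneg hρ.le]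
  rw [← h1]
  refine (mahlerMeasure_le_sum_norm_coeff Q').trans ?_
  have hd : Q'.natDegree = Q.natDegree := by
    rw [hQ', natDegree_comp, natDegree_C_mul_X _ hρ', mul_one]
  rw [Polynomial.sum_over_range _ (by simp), hd]
  refine le_of_eq (Finset.sum_congr rfl fun i _ => ?_)
  rw [hQ', comp_C_mul_X_coeff, norm_mul, norm_pow, Complex.norm_real, Real.norm_of_nonneg hρ.le]

theorem card_filter_mul_le (ρ ρ' : ℝ) (h0 : 0 < ρ') (h1 : ρ' ≤ ρ) (s : Multiset ℂ) :
    (ρ / ρ') ^ (s.filter fun a => ‖a‖ ≤ ρ').card * (s.map fun a => ‖a‖).prod ≤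
      (s.map fun a => max ρ ‖a‖).prod := by
  have hρ : 0 ≤ ρ := h0.le.trans h1
  have hr : 0 ≤ ρ / ρ' := div_nonneg hρ h0.le
  induction s using Multiset.induction with
  | empty => simp only [Multiset.filter_zero, Multiset.card_zero, pow_zero, Multiset.map_zero, Multiset.prod_zero, mul_one, Std.le_refl]
  | cons a s ih =>
    have hn : 0 ≤ (s.map fun a => ‖a‖).prod :=
      Multiset.prod_nonneg (by
        intro y hy
        obtain ⟨z, _, rfl⟩ := Multiset.mem_map.1 hy
        exact norm_nonneg z)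
    have hn2 : 0 ≤ (ρ / ρ') ^ (s.filter fun a => ‖a‖ ≤ ρ').card * (s.map fun a => ‖a‖).prod :=
      mul_nonneg (pow_nonneg hr _) hn
    rw [Multiset.map_cons, Multiset.prod_cons, Multiset.map_cons, Multiset.prod_cons]
    by_cases ha : ‖a‖ ≤ ρ'
    · rw [Multiset.filter_cons_of_pos (p := fun a => ‖a‖ ≤ ρ') _ ha, Multiset.card_cons, pow_succ]
      have h2 : ρ / ρ' * ‖a‖ ≤ max ρ ‖a‖ := by
        refine le_max_of_le_left ?_
        rw [div_mul_eq_mul_div, div_le_iff₀ h0]
        gcongr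
      calc (ρ / ρ') ^ (s.filter fun a => ‖a‖ ≤ ρ').card * (ρ / ρ') *
            (‖a‖ * (s.map fun a => ‖a‖).prod)
          = (ρ / ρ' * ‖a‖) * ((ρ / ρ') ^ (s.filter fun a => ‖a‖ ≤ ρ').card *
              (s.map fun a => ‖a‖).prod) := by ring
        _ ≤ max ρ ‖a‖ * (s.map fun a => max ρ ‖a‖).prod := by
            gcongr
    · rw [Multiset.filter_cons_of_neg (p := fun a => ‖a‖ ≤ ρ') _ ha]
      calc (ρ / ρ') ^ (s.filter fun a => ‖a‖ ≤ ρ').card * (‖a‖ * (s.map fun a => ‖a‖).prod)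
          = ‖a‖ * ((ρ / ρ') ^ (s.filter fun a => ‖a‖ ≤ ρ').card *
              (s.map fun a => ‖a‖).prod) := by ring
        _ ≤ max ρ ‖a‖ * (s.map fun a => max ρ ‖a‖).prod := by
            have := le_max_right ρ ‖a‖
            (clear * - this ih hρ h0 hn; gcongr)

theorem prod_dist_ge (x : ℂ) (ρ' κ δ : ℝ) (hκ : 0 < κ) (hκ1 : κ ≤ 1) (hδ : 0 < δ)
    (hρ1 : ρ' ≤ 1)
    (hfar : ∀ a : ℂ, ρ' < ‖a‖ → κ * ‖a‖ ≤ ‖x - a‖) (s : Multiset ℂ)
    (hs : ∀ a ∈ s, δ ≤ ‖x - a‖) :
    δ ^ (s.filter fun a => ‖a‖ ≤ ρ').card * κ ^ s.card * (s.map fun a => ‖a‖).prod ≤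
      (s.map fun a => ‖x - a‖).prod := by
  induction s using Multiset.induction with
  | empty => simp
  | cons a s ih =>
    have ih' := ih fun b hb => hs b (Multiset.mem_cons_of_mem hb)
    have ha' := hs a (Multiset.mem_cons_self a s)
    have hn : 0 ≤ (s.map fun a => ‖a‖).prod :=
      Multiset.prod_nonneg (by
        intro y hy
        obtain ⟨z, _, rfl⟩ := Multiset.mem_map.1 hy
        exact norm_nonneg z)
    rw [Multiset.map_cons, Multiset.prod_cons, Multiset.map_cons, Multiset.prod_cons,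
      Multiset.card_cons, pow_succ]
    by_cases ha : ‖a‖ ≤ ρ'
    · rw [Multiset.filter_cons_of_pos (p := fun a => ‖a‖ ≤ ρ') _ ha, Multiset.card_cons, pow_succ]
      have h2 : δ * κ * ‖a‖ ≤ ‖x - a‖ := by
        have : κ * ‖a‖ ≤ 1 := by
          calc κ * ‖a‖ ≤ 1 * 1 := by
                gcongr
                exact ha.trans hρ1
            _ = 1 := by ring
        linarith only [mul_nonneg (le_of_lt (sub_pos.2 hδ)) (sub_nonneg.2 this), ha']
      calc δ ^ (s.filter fun a => ‖a‖ ≤ ρ').card * δ * (κ ^ s.card * κ) *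
            (‖a‖ * (s.map fun a => ‖a‖).prod)
          = (δ * κ * ‖a‖) * (δ ^ (s.filter fun a => ‖a‖ ≤ ρ').card * κ ^ s.card *
              (s.map fun a => ‖a‖).prod) := by ring
        _ ≤ ‖x - a‖ * (s.map fun a => ‖x - a‖).prod := by
            gcongr
    · rw [Multiset.filter_cons_of_neg (p := fun a => ‖a‖ ≤ ρ') _ ha]
      have h2 : κ * ‖a‖ ≤ ‖x - a‖ := hfar a (not_le.1 ha)
      calc δ ^ (s.filter fun a => ‖a‖ ≤ ρ').card * (κ ^ s.card * κ) *
            (‖a‖ * (s.map fun a => ‖a‖).prod)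
          = (κ * ‖a‖) * (δ ^ (s.filter fun a => ‖a‖ ≤ ρ').card * κ ^ s.card *
              (s.map fun a => ‖a‖).prod) := by ring
        _ ≤ ‖x - a‖ * (s.map fun a => ‖x - a‖).prod := by
            (clear * - h2 ih' hδ hκ hn; gcongr)

/-- zeros near `lam`, and multiplicities -/
theorem zero_near (lam : ℝ) (h0 : lam ≠ 0) (h1 : |lam| < 1) (k L₀ : ℕ) :
    ∃ (c : ℝ) (m₀ : ℕ), 0 < c ∧ c ≤ 1 ∧ ∀ (n : ℕ) (p : ℤ[X]), 1 ≤ n → Nice k n p →
      (∃ o ≤ L₀, p.coeff o ≠ 0) →
      (∀ δ : ℝ, 0 < δ → δ ≤ 1 → (∀ η : ℂ, aeval η p = 0 → δ ≤ ‖(lam : ℂ) - η‖) →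
        c ^ n * δ ^ m₀ ≤ |aeval lam p|) ∧
      (∀ η : ℂ, ‖η‖ ≤ (1 + |lam|) / 2 →
        (p.map (Int.castRingHom ℂ)).rootMultiplicity η ≤ m₀) := by
  have habs : 0 < |lam| := abs_pos.2 h0
  set ρ' : ℝ := (1 + |lam|) / 2 with hρ'
  set ρ : ℝ := (3 + |lam|) / 4 with hρ
  have hρ'0 : 0 < ρ' := by rw [hρ']; linarith only [habs]
  have hρ'1 : ρ' < 1 := by rw [hρ']; linarith only [h1]
  have hρρ' : ρ' < ρ := by rw [hρ', hρ]; linarith only [hρ'1, hρ']
  have hρ0 : 0 < ρ := hρ'0.trans hρρ'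
  have hρ1 : ρ < 1 := by rw [hρ]; linarith
  -- the summability bound
  have hsum : Summable fun i : ℕ => ((k + 1).factorial : ℝ) * (((i + L₀ : ℕ) : ℝ) + 1) ^ k * ρ ^ i := by
    have h2 := summable_pow_mul_geometric_of_norm_lt_one (R := ℝ) k (r := ρ)
      (by rw [Real.norm_of_nonneg hρ0.le]; exact hρ1)
    have h3 := (summable_nat_add_iff (L₀ + 1)).2 h2
    have h4 := h3.mul_left (((k + 1).factorial : ℝ) * (ρ ^ (L₀ + 1))⁻¹)
    refine h4.congr fun i => ?_
    rw [pow_add ρ i]
    push_cast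
    field_simp
    ring
  set K : ℝ := ∑' i : ℕ, ((k + 1).factorial : ℝ) * (((i + L₀ : ℕ) : ℝ) + 1) ^ k * ρ ^ i with hK
  obtain ⟨m₁, hm₁⟩ := pow_unbounded_of_one_lt K ((one_lt_div hρ'0).2 hρρ')
  set κ : ℝ := 1 - |lam| / ρ' with hκ
  have hκ0 : 0 < κ := by
    rw [hκ, sub_pos, div_lt_one hρ'0, hρ']
    linarith only [hρ', hρ, hρρ']
  have hκ1 : κ ≤ 1 := by
    rw [hκ]
    have : 0 ≤ |lam| / ρ' := by positivity
    linarith only [this]
  refine ⟨κ ^ (k + 1), m₁ + L₀, pow_pos hκ0 _, pow_le_one₀ hκ0.le hκ1, ?_⟩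
  intro n p hn hp ho
  have hinj : Function.Injective (Int.castRingHom ℂ) := Int.cast_injective
  have hp0 : p ≠ 0 := by
    rintro rfl
    obtain ⟨o, _, ho⟩ := ho
    simp at ho
  obtain ⟨q, hq, hqnd⟩ := exists_eq_pow_rootMultiplicity_mul_and_not_dvd p hp0 0
  set o := rootMultiplicity 0 p with hodef
  rw [C_0, sub_zero] at hq hqnd
  have hq0 : q.coeff 0 ≠ 0 := by
    intro h
    exact hqnd (X_dvd_iff.2 h)
  have hqne : q ≠ 0 := by
    rintro rfl
    simp at hq0
  have hoL : o ≤ L₀ := by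
    obtain ⟨o', ho'L, ho'⟩ := ho
    by_contra hcon
    apply ho'
    rw [hq, coeff_X_pow_mul', if_neg (by omega)]
  have hcoeff : ∀ i, q.coeff i = p.coeff (i + o) := by
    intro i
    conv_rhs => rw [hq]
    rw [mul_comm, coeff_mul_X_pow]
  have hqdeg : q.natDegree ≤ (k + 1) * n := by
    refine le_trans ?_ hp.1
    rw [hq, natDegree_mul (pow_ne_zero _ X_ne_zero) hqne]
    omega
  set Q := q.map (Int.castRingHom ℂ) with hQ
  have hQdeg : Q.natDegree = q.natDegree := natDegree_map_eq_of_injective hinj q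
  have hQne : Q ≠ 0 := (Polynomial.map_ne_zero_iff hinj).2 hqne
  have hPQ : p.map (Int.castRingHom ℂ) = X ^ o * Q := by
    conv_lhs => rw [hq]
    rw [Polynomial.map_mul, Polynomial.map_pow, map_X]
  -- value at 0
  have hQ0 : 1 ≤ ‖Q.leadingCoeff‖ * (Q.roots.map fun a => ‖a‖).prod := by
    have h2 := norm_eval_eq Q 0
    simp only [zero_sub, norm_neg] at h2
    rw [← h2, ← coeff_zero_eq_eval_zero, hQ, coeff_map]
    have h3 : (1 : ℝ) ≤ |((q.coeff 0 : ℤ) : ℝ)| := by exact_mod_cast Int.one_le_abs hq0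
    refine h3.trans (le_of_eq ?_)
    exact (Complex.norm_intCast _).symm
  -- coefficient bound
  have hKb : ‖Q.leadingCoeff‖ * (Q.roots.map fun a => max ρ ‖a‖).prod ≤ K := by
    refine (prod_max_le Q ρ hρ0).trans ?_
    refine le_trans (Finset.sum_le_sum fun i _ => ?_) (hsum.sum_le_tsum _ (fun i _ => by (clear * - h0; positivity)))
    gcongr
    rw [hQ, coeff_map, hcoeff]
    have h2 : ‖(Int.castRingHom ℂ) (p.coeff (i + o))‖ = |((p.coeff (i + o) : ℤ) : ℝ)| :=
      Complex.norm_intCast _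
    rw [h2]
    refine (hp.2 (i + o)).trans ?_
    (clear * - hoL; gcongr)
  have hlead : 0 < ‖Q.leadingCoeff‖ := norm_pos_iff.2 (leadingCoeff_ne_zero.2 hQne)
  -- number of small roots
  have hcard : (Q.roots.filter fun a => ‖a‖ ≤ ρ').card ≤ m₁ := by
    by_contra hcon
    push Not at hcon
    have h2 := card_filter_mul_le ρ ρ' hρ'0 hρρ'.le Q.roots
    have h3 : (ρ / ρ') ^ (Q.roots.filter fun a => ‖a‖ ≤ ρ').card ≤ K := by
      calc (ρ / ρ') ^ (Q.roots.filter fun a => ‖a‖ ≤ ρ').card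
          = (ρ / ρ') ^ (Q.roots.filter fun a => ‖a‖ ≤ ρ').card * 1 := by ring
        _ ≤ (ρ / ρ') ^ (Q.roots.filter fun a => ‖a‖ ≤ ρ').card *
            (‖Q.leadingCoeff‖ * (Q.roots.map fun a => ‖a‖).prod) := by
            (clear * - hQ0 h0; gcongr)
        _ = ‖Q.leadingCoeff‖ * ((ρ / ρ') ^ (Q.roots.filter fun a => ‖a‖ ≤ ρ').card *
            (Q.roots.map fun a => ‖a‖).prod) := by ring
        _ ≤ ‖Q.leadingCoeff‖ * (Q.roots.map fun a => max ρ ‖a‖).prod :=
            mul_le_mul_of_nonneg_left h2 (norm_nonneg _)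
        _ ≤ K := hKb
    have h4 : (ρ / ρ') ^ m₁ ≤ (ρ / ρ') ^ (Q.roots.filter fun a => ‖a‖ ≤ ρ').card :=
      pow_le_pow_right₀ ((one_lt_div hρ'0).2 hρρ').le hcon.le
    linarith only [hm₁, h3, h4]
  constructor
  · intro δ hδ hδ1 hroots
    have hev : ∀ x : ℝ, |aeval x p| = |x| ^ o * ‖Q.eval (x : ℂ)‖ := by
      intro x
      have h2 : ((aeval x p : ℝ) : ℂ) = aeval (x : ℂ) p := by
        have := aeval_algebraMap_apply ℂ x p
        simpa using this.symm
      have h3 : aeval (x : ℂ) p = (p.map (Int.castRingHom ℂ)).eval (x : ℂ) := by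
        rw [eval_map, aeval_def]
        rfl
      rw [← Real.norm_eq_abs, ← Complex.norm_real, h2, h3, hPQ, eval_mul, eval_pow, eval_X,
        norm_mul, norm_pow, Complex.norm_real, Real.norm_eq_abs]
    rw [hev, norm_eval_eq]
    have hrts : ∀ a ∈ Q.roots, δ ≤ ‖(lam : ℂ) - a‖ := by
      intro a ha
      apply hroots
      have h2 : Q.eval a = 0 := (mem_roots hQne).1 ha
      have h3 : aeval a p = (p.map (Int.castRingHom ℂ)).eval a := by
        rw [eval_map, aeval_def]
        rfl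
      rw [h3, hPQ, eval_mul, h2, mul_zero]
    have hfar : ∀ a : ℂ, ρ' < ‖a‖ → κ * ‖a‖ ≤ ‖(lam : ℂ) - a‖ := by
      intro a ha
      have h2 : ‖a‖ - |lam| ≤ ‖(lam : ℂ) - a‖ := by
        have := norm_sub_norm_le a (lam : ℂ)
        rw [norm_sub_rev, Complex.norm_real, Real.norm_eq_abs] at this
        exact this
      refine le_trans ?_ h2
      rw [hκ, sub_mul, one_mul]
      have h3 : |lam| ≤ |lam| / ρ' * ‖a‖ := by
        rw [div_mul_eq_mul_div, le_div_iff₀ hρ'0]
        (clear * - ha h0; gcongr)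
      linarith only [h3]
    have h2 := prod_dist_ge (lam : ℂ) ρ' κ δ hκ0 hκ1 hδ hρ'1.le hfar Q.roots hrts
    have hlam : δ ^ L₀ ≤ |lam| ^ o := by
      rcases Nat.eq_zero_or_pos o with h3 | h3
      · rw [h3, pow_zero]
        exact pow_le_one₀ hδ.le hδ1
      · have h4 : δ ≤ |lam| := by
          have h5 := hroots 0 (by
            have h6 : aeval (0 : ℂ) p = (p.map (Int.castRingHom ℂ)).eval 0 := by
              rw [eval_map, aeval_def]
              rfl
            rw [h6, hPQ, eval_mul, eval_pow, eval_X, zero_pow h3.ne', zero_mul])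
          rwa [sub_zero, Complex.norm_real, Real.norm_eq_abs] at h5
        calc δ ^ L₀ ≤ δ ^ o := pow_le_pow_of_le_one hδ.le hδ1 hoL
          _ ≤ |lam| ^ o := by (clear * - hδ h4; gcongr)
    have hcardle : Q.roots.card ≤ (k + 1) * n :=
      (card_roots' Q).trans (by rw [hQdeg]; exact hqdeg)
    calc (κ ^ (k + 1)) ^ n * δ ^ (m₁ + L₀)
        = δ ^ L₀ * (δ ^ m₁ * κ ^ ((k + 1) * n) * 1) := by rw [pow_add, pow_mul]; ring
      _ ≤ |lam| ^ o * (δ ^ (Q.roots.filter fun a => ‖a‖ ≤ ρ').card * κ ^ Q.roots.card *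
          (‖Q.leadingCoeff‖ * (Q.roots.map fun a => ‖a‖).prod)) := by
          have e1 := pow_le_pow_of_le_one hδ.le hδ1 hcard
          have e2 := pow_le_pow_of_le_one hκ0.le hκ1 hcardle
          (clear * - hlam e1 e2 hκ0 hδ hQ0 h0; gcongr ?_ * (?_ * ?_ * ?_))
      _ = |lam| ^ o * (‖Q.leadingCoeff‖ * (δ ^ (Q.roots.filter fun a => ‖a‖ ≤ ρ').card *
          κ ^ Q.roots.card * (Q.roots.map fun a => ‖a‖).prod)) := by ring
      _ ≤ |lam| ^ o * (‖Q.leadingCoeff‖ * (Q.roots.map fun a => ‖(lam : ℂ) - a‖).prod) := by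
          (clear * - h2 hlead h0; gcongr)
  · intro η hη
    rw [hPQ, rootMultiplicity_mul (mul_ne_zero (pow_ne_zero _ X_ne_zero) hQne)]
    have h2 : rootMultiplicity η Q ≤ m₁ := by
      rw [← count_roots]
      refine le_trans ?_ hcard
      have h3 : Multiset.count η Q.roots = Multiset.count η (Q.roots.filter fun a => ‖a‖ ≤ ρ') :=
        (Multiset.count_filter_of_pos (p := fun a => ‖a‖ ≤ ρ') hη).symm
      rw [h3]
      exact Multiset.count_le_card _ _
    have h4 : rootMultiplicity η ((X : ℂ[X]) ^ o) ≤ o := by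
      rw [← count_roots]
      refine (Multiset.count_le_card _ _).trans ?_
      refine (card_roots' _).trans ?_
      rw [natDegree_X_pow]
    omega

end Vale.Agent.P114
end
end

section

open scoped Classical
open Polynomial

noncomputable section

namespace Vale.Agent.P114

open FinProb

section coeffs
variable {Λ : Type}

/-! ### coefficients of the difference polynomials of words with given prefixes -/

end coeffs

variable {Λ : Type} [Fintype Λ]

/-! ### elementary estimates -/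

/-- bound for the sum of the absolute values of the coefficients -/
def Anice (k n : ℕ) : ℝ := (k + 1).factorial * (((k + 1) * n + 1 : ℕ) : ℝ) ^ (k + 1)

theorem one_le_Anice (k n : ℕ) : 1 ≤ Anice k n := by
  unfold Anice
  have h1 : (1 : ℝ) ≤ (k + 1).factorial := by exact_mod_cast Nat.succ_le_of_lt (Nat.factorial_pos _)
  have h2 : (1 : ℝ) ≤ (((k + 1) * n + 1 : ℕ) : ℝ) := by exact_mod_cast Nat.succ_le_succ (Nat.zero_le _)
  have h3 : (1 : ℝ) ≤ (((k + 1) * n + 1 : ℕ) : ℝ) ^ (k + 1) := one_le_pow₀ h2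
  linarith [mul_nonneg (sub_nonneg.2 h1) (sub_nonneg.2 h3), h1]

theorem sum_coeff_le_Anice {k n : ℕ} {p : ℤ[X]} (hp : Nice k n p) :
    (∑ i ∈ Finset.range (p.natDegree + 1), |((p.coeff i : ℤ) : ℝ)|) ≤ Anice k n := by
  have hb : ∀ i ∈ Finset.range (p.natDegree + 1), |((p.coeff i : ℤ) : ℝ)| ≤
      (k + 1).factorial * (((k + 1) * n + 1 : ℕ) : ℝ) ^ k := by
    intro i hi
    refine (hp.2 i).trans ?_
    have h1 : i + 1 ≤ (k + 1) * n + 1 := by
      have := Finset.mem_range.1 hi
      have := hp.1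
      omega
    have h2 : ((i : ℝ) + 1) ≤ (((k + 1) * n + 1 : ℕ) : ℝ) := by exact_mod_cast h1
    gcongr
  refine (Finset.sum_le_sum hb).trans ?_
  rw [Finset.sum_const, Finset.card_range, nsmul_eq_mul]
  unfold Anice
  have h3 : ((p.natDegree + 1 : ℕ) : ℝ) ≤ (((k + 1) * n + 1 : ℕ) : ℝ) := by
    exact_mod_cast Nat.succ_le_succ hp.1
  calc ((p.natDegree + 1 : ℕ) : ℝ) * ((k + 1).factorial * (((k + 1) * n + 1 : ℕ) : ℝ) ^ k)
      ≤ (((k + 1) * n + 1 : ℕ) : ℝ) * ((k + 1).factorial * (((k + 1) * n + 1 : ℕ) : ℝ) ^ k) := by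
        gcongr
    _ = _ := by ring

theorem log_Anice_le (k : ℕ) : ∃ E : ℝ, 0 ≤ E ∧ ∀ n : ℕ,
    Real.log (Anice k n) ≤ E * Real.log (n + 2) := by
  set a : ℝ := (k + 1).factorial * ((k : ℝ) + 2) ^ (k + 1) with ha
  have ha1 : 1 ≤ a := by
    rw [ha]
    have h1 : (1 : ℝ) ≤ (k + 1).factorial := by
      exact_mod_cast Nat.succ_le_of_lt (Nat.factorial_pos _)
    have h2 : (1 : ℝ) ≤ ((k : ℝ) + 2) ^ (k + 1) := one_le_pow₀ (by
      have : (0 : ℝ) ≤ k := Nat.cast_nonneg k
      linarith)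
    linarith [mul_nonneg (sub_nonneg.2 h1) (sub_nonneg.2 h2), h1]
  have hl2 : 0 < Real.log 2 := Real.log_pos (by norm_num)
  refine ⟨Real.log a / Real.log 2 + (k + 1), by
    have := Real.log_nonneg ha1
    positivity, fun n => ?_⟩
  have hn : (0 : ℝ) ≤ n := Nat.cast_nonneg n
  have h1 : Anice k n ≤ a * ((n : ℝ) + 2) ^ (k + 1) := by
    unfold Anice
    rw [ha, mul_assoc, ← mul_pow]
    have hk : (0 : ℝ) ≤ k := Nat.cast_nonneg k
    gcongr
    push_cast
    linarith
  have h2 : Real.log 2 ≤ Real.log (n + 2) := Real.log_le_log (by norm_num) (by linarith)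
  calc Real.log (Anice k n) ≤ Real.log (a * ((n : ℝ) + 2) ^ (k + 1)) :=
        Real.log_le_log (by linarith [one_le_Anice k n]) h1
    _ = Real.log a + (k + 1) * Real.log (n + 2) := by
        rw [Real.log_mul (by linarith) (by positivity), Real.log_pow]
        push_cast
        ring
    _ ≤ Real.log a / Real.log 2 * Real.log (n + 2) + (k + 1) * Real.log (n + 2) := by
        gcongr
        rw [div_mul_eq_mul_div, le_div_iff₀ hl2]
        exact mul_le_mul_of_nonneg_left h2 (Real.log_nonneg ha1)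
    _ = _ := by ring

theorem norm_pow_sub_pow_le' (z w : ℂ) (hz : ‖z‖ ≤ 1) (hw : ‖w‖ ≤ 1) (i : ℕ) :
    ‖z ^ i - w ^ i‖ ≤ i * ‖z - w‖ := by
  induction i with
  | zero => simp
  | succ i ih =>
    have h : z ^ (i + 1) - w ^ (i + 1) = z * (z ^ i - w ^ i) + (z - w) * w ^ i := by ring
    rw [h]
    calc ‖z * (z ^ i - w ^ i) + (z - w) * w ^ i‖
        ≤ ‖z‖ * ‖z ^ i - w ^ i‖ + ‖z - w‖ * ‖w‖ ^ i := by
          refine (norm_add_le _ _).trans ?_
          rw [norm_mul, norm_mul, norm_pow]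
      _ ≤ 1 * (i * ‖z - w‖) + ‖z - w‖ * 1 := by
          gcongr
          exact pow_le_one₀ (norm_nonneg _) hw
      _ = ((i + 1 : ℕ) : ℝ) * ‖z - w‖ := by push_cast; ring

theorem norm_aeval_sub_le {k n : ℕ} {p : ℤ[X]} (hp : Nice k n p) (z w : ℂ) (hz : ‖z‖ ≤ 1)
    (hw : ‖w‖ ≤ 1) :
    ‖aeval z p - aeval w p‖ ≤ ‖z - w‖ * (((k + 1) * n : ℕ) * Anice k n) := by
  rw [aeval_eq_sum_range, aeval_eq_sum_range, ← Finset.sum_sub_distrib]
  calc ‖∑ i ∈ Finset.range (p.natDegree + 1), (p.coeff i • z ^ i - p.coeff i • w ^ i)‖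
      ≤ ∑ i ∈ Finset.range (p.natDegree + 1), ‖p.coeff i • z ^ i - p.coeff i • w ^ i‖ :=
        norm_sum_le _ _
    _ ≤ ∑ i ∈ Finset.range (p.natDegree + 1),
        |((p.coeff i : ℤ) : ℝ)| * (((k + 1) * n : ℕ) * ‖z - w‖) := by
        refine Finset.sum_le_sum fun i hi => ?_
        rw [← smul_sub, zsmul_eq_mul, norm_mul, Complex.norm_intCast]
        refine mul_le_mul_of_nonneg_left ?_ (abs_nonneg _)
        refine (norm_pow_sub_pow_le' z w hz hw i).trans ?_
        have h1 : i ≤ (k + 1) * n := by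
          have := Finset.mem_range.1 hi
          have := hp.1
          omega
        have h2 : (i : ℝ) ≤ (((k + 1) * n : ℕ) : ℝ) := by exact_mod_cast h1
        gcongr
    _ = (∑ i ∈ Finset.range (p.natDegree + 1), |((p.coeff i : ℤ) : ℝ)|)
        * (((k + 1) * n : ℕ) * ‖z - w‖) := by rw [Finset.sum_mul]
    _ ≤ Anice k n * (((k + 1) * n : ℕ) * ‖z - w‖) := by
        gcongr
        exact sum_coeff_le_Anice hp
    _ = _ := by ring

theorem exists_irred_factor (p : ℤ[X]) (hp : p ≠ 0) (η : ℂ) (h : aeval η p = 0) :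
    ∃ g : ℤ[X], Irreducible g ∧ g ∣ p ∧ aeval η g = 0 := by
  obtain ⟨s, hs, hsp⟩ := WfDvdMonoid.exists_factors p hp
  have h1 : aeval η s.prod = 0 := by
    obtain ⟨c, hc⟩ := hsp.symm.dvd
    rw [hc, map_mul, h, zero_mul]
  rw [map_multiset_prod, Multiset.prod_eq_zero_iff] at h1
  obtain ⟨g, hg, hg0⟩ := Multiset.mem_map.1 h1
  exact ⟨g, hs g hg, (Multiset.dvd_prod hg).trans hsp.dvd, hg0⟩

theorem mahler_le_of_dvd {k n : ℕ} {f p : ℤ[X]} (hp : Nice k n p) (hp0 : p ≠ 0) (h : f ∣ p) :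
    (f.map (Int.castRingHom ℂ)).mahlerMeasure ≤ Anice k n := by
  have hinj : Function.Injective (Int.castRingHom ℂ) := Int.cast_injective
  obtain ⟨g, rfl⟩ := h
  have hg0 : g ≠ 0 := right_ne_zero_of_mul hp0
  have h1 : 1 ≤ (g.map (Int.castRingHom ℂ)).mahlerMeasure := by
    apply one_le_mahlerMeasure_of_one_le_norm_leadingCoeff
    rw [leadingCoeff_map_of_injective hinj]
    have h2 : (1 : ℝ) ≤ |((g.leadingCoeff : ℤ) : ℝ)| := by
      exact_mod_cast Int.one_le_abs (leadingCoeff_ne_zero.2 hg0)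
    exact h2.trans (le_of_eq (Complex.norm_intCast _).symm)
  have h3 : ((f * g).map (Int.castRingHom ℂ)).mahlerMeasure ≤ Anice k n := by
    refine (mahlerMeasure_le_sum_norm_coeff _).trans ?_
    rw [Polynomial.sum_over_range _ (by simp), natDegree_map_eq_of_injective hinj]
    refine le_trans (le_of_eq ?_) (sum_coeff_le_Anice hp)
    refine Finset.sum_congr rfl fun i _ => ?_
    rw [coeff_map]
    exact Complex.norm_intCast _
  rw [Polynomial.map_mul, mahlerMeasure_mul] at h3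
  calc (f.map (Int.castRingHom ℂ)).mahlerMeasure
      = (f.map (Int.castRingHom ℂ)).mahlerMeasure * 1 := by ring
    _ ≤ (f.map (Int.castRingHom ℂ)).mahlerMeasure *
        (g.map (Int.castRingHom ℂ)).mahlerMeasure := by
        gcongr
        exact mahlerMeasure_nonneg _
    _ ≤ _ := h3

omit [Fintype Λ] in
theorem growth_of_hN (U : Ultrafilter ℕ) (X : ℕ → Lev Λ) (hL : LargeLev U X) (N : ℕ → ℝ)
    (hN : ∀ A : ℝ, ∀ᶠ i in (U : Filter ℕ), A * ((X i).n * Real.log (X i).n) ≤ N i) (A : ℝ) :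
    ∀ᶠ i in (U : Filter ℕ), A * (((X i).n + 1) * Real.log ((X i).n + 2)) ≤ N i := by
  filter_upwards [hN (4 * max A 0), hL 3] with i hi h3
  refine le_trans ?_ hi
  have hn : (3 : ℝ) ≤ (X i).n := by exact_mod_cast h3
  have hlog : 0 ≤ Real.log (X i).n := Real.log_nonneg (by linarith only [hn])
  have h4 : Real.log ((X i).n + 2) ≤ 2 * Real.log (X i).n := by
    rw [← Real.log_rpow (by linarith only [hn])]
    apply Real.log_le_log (by linarith)
    have : ((X i).n : ℝ) ^ (2 : ℝ) = (X i).n * (X i).n := by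
      rw [Real.rpow_two]; ring
    rw [this]
    (by_contra nlg; linarith only [nlg, mul_nonneg (le_of_lt (sub_pos.2 (not_le.1 nlg))) (sub_nonneg.2 hn), mul_nonneg (mul_self_nonneg (↑(X i).n : ℝ)) (sub_nonneg.2 hn)])
  have h5 : 0 ≤ Real.log ((X i).n + 2) := Real.log_nonneg (by linarith)
  have h6 : (((X i).n : ℝ) + 1) * Real.log ((X i).n + 2) ≤ 4 * ((X i).n * Real.log (X i).n) := by
    calc (((X i).n : ℝ) + 1) * Real.log ((X i).n + 2)
        ≤ (2 * (X i).n) * (2 * Real.log (X i).n) := by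
          gcongr
          linarith only [hn]
      _ = _ := by ring
  have h7 : 0 ≤ (((X i).n : ℝ) + 1) * Real.log ((X i).n + 2) := by positivity
  calc A * ((((X i).n : ℝ) + 1) * Real.log ((X i).n + 2))
      ≤ max A 0 * ((((X i).n : ℝ) + 1) * Real.log ((X i).n + 2)) := by
        gcongr
        exact le_max_left _ _
    _ ≤ max A 0 * (4 * ((X i).n * Real.log (X i).n)) := by
        (clear * - h6; gcongr)
    _ = _ := by ring

theorem root_lower (k o : ℕ) : ∃ ρ₀ : ℝ, 0 < ρ₀ ∧ ∀ (n : ℕ) (p h : ℤ[X]), Nice k n p →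
    p = X ^ o * h → h.coeff 0 ≠ 0 → ∀ α : ℂ, aeval α h = 0 → ρ₀ ≤ ‖α‖ := by
  have hsum : Summable fun j : ℕ =>
      ((k + 1).factorial : ℝ) * (((j + 1 + o : ℕ) : ℝ) + 1) ^ k * (1 / 2 : ℝ) ^ j := by
    have h2 := summable_pow_mul_geometric_of_norm_lt_one (R := ℝ) k (r := 1 / 2)
      (by rw [Real.norm_of_nonneg (by norm_num)]; norm_num)
    have h3 := (summable_nat_add_iff (o + 2)).2 h2
    have h4 := h3.mul_left (((k + 1).factorial : ℝ) * ((1 / 2 : ℝ) ^ (o + 2))⁻¹)
    refine h4.congr fun j => ?_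
    rw [pow_add (1 / 2 : ℝ) j]
    push_cast
    have : ((1 / 2 : ℝ) ^ (o + 2)) ≠ 0 := by positivity
    field_simp
    ring
  set K : ℝ := ∑' j : ℕ,
      ((k + 1).factorial : ℝ) * (((j + 1 + o : ℕ) : ℝ) + 1) ^ k * (1 / 2 : ℝ) ^ j with hK
  have hK0 : 0 ≤ K := tsum_nonneg fun j => by positivity
  refine ⟨min (1 / 2) (1 / (K + 1)), by positivity, ?_⟩
  intro n p h hp hph h0 α hα
  by_contra hcon
  push Not at hcon
  have hα1 : ‖α‖ < 1 / 2 := hcon.trans_le (min_le_left _ _)
  have hα2 : ‖α‖ < 1 / (K + 1) := hcon.trans_le (min_le_right _ _)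
  have hcoeff : ∀ i, h.coeff i = p.coeff (i + o) := by
    intro i
    rw [hph, mul_comm, coeff_mul_X_pow]
  have h1 : ‖aeval α h.divX‖ ≤ K := by
    rw [aeval_eq_sum_range]
    refine (norm_sum_le _ _).trans ?_
    refine le_trans (Finset.sum_le_sum fun j _ => ?_) (hsum.sum_le_tsum _ (fun j _ => by (clear * -; positivity)))
    rw [zsmul_eq_mul, norm_mul, norm_pow, Complex.norm_intCast, coeff_divX, hcoeff]
    gcongr
    exact hp.2 _
  have h2 : aeval α h = aeval α h.divX * α + h.coeff 0 := by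
    conv_lhs => rw [← divX_mul_X_add h]
    simp
  rw [hα] at h2
  have h3 : ((h.coeff 0 : ℤ) : ℂ) = -(aeval α h.divX * α) := by
    rw [eq_neg_iff_add_eq_zero, add_comm]
    exact h2.symm
  have h4 : (1 : ℝ) ≤ ‖((h.coeff 0 : ℤ) : ℂ)‖ := by
    rw [Complex.norm_intCast]
    exact_mod_cast Int.one_le_abs h0
  rw [h3, norm_neg, norm_mul] at h4
  have h5 : ‖aeval α h.divX‖ * ‖α‖ ≤ K * (1 / (K + 1)) := by
    (clear * - h1 hα2; gcongr)
  have h6 : K * (1 / (K + 1)) < 1 := by
    rw [mul_one_div, div_lt_one (by linarith only [hK0])]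
    linarith only []
  linarith only [h4, h5, h6]

/-! ### numerical lemmas -/

theorem log_two_pos' : 0 < Real.log 2 := Real.log_pos (by norm_num)

theorem n_log_bounds {n : ℝ} (hn : 1 ≤ n) :
    Real.log 2 ≤ Real.log (n + 2) ∧ n * Real.log 2 ≤ (n + 1) * Real.log (n + 2) ∧
      Real.log 2 ≤ (n + 1) * Real.log (n + 2) := by
  have hl2 := log_two_pos'
  have hlogn : Real.log 2 ≤ Real.log (n + 2) :=
    Real.log_le_log (by norm_num) (by linarith)
  refine ⟨hlogn, ?_, ?_⟩
  · calc n * Real.log 2 ≤ (n + 1) * Real.log 2 := by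
          apply mul_le_mul_of_nonneg_right (by linarith) hl2.le
      _ ≤ _ := mul_le_mul_of_nonneg_left hlogn (by linarith)
  · calc Real.log 2 = 1 * Real.log 2 := (one_mul _).symm
      _ ≤ (n + 1) * Real.log 2 := mul_le_mul_of_nonneg_right (by linarith) hl2.le
      _ ≤ _ := mul_le_mul_of_nonneg_left hlogn (by linarith)

theorem num_A (c c₁ C' N n : ℝ) (n' m₀ : ℕ) (hnn : (n' : ℝ) = n) (hcm : c * m₀ ≤ 1 / 2)
    (hc₁ : 0 < c₁) (hc₁1 : c₁ ≤ 1) (hC'1 : 1 ≤ C') (hN0 : 0 ≤ N) (hn : 1 ≤ n)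
    (g1 : 2 * (Real.log C' + Real.log (1 / c₁) + 1) / (Real.log 2 * Real.log 2) *
      ((n + 1) * Real.log (n + 2)) ≤ N)
    (h3 : c₁ ^ n' * ((2 : ℝ) ^ (-c * N)) ^ m₀ ≤ C' * (2 : ℝ) ^ (-N)) : False := by
  have hl2 := log_two_pos'
  obtain ⟨-, hnl, -⟩ := n_log_bounds hn
  have h4 : Real.log (c₁ ^ n' * ((2 : ℝ) ^ (-c * N)) ^ m₀) ≤
      Real.log (C' * (2 : ℝ) ^ (-N)) :=
    Real.log_le_log (by positivity) h3
  rw [Real.log_mul (by positivity) (by positivity), Real.log_mul (by positivity) (by positivity),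
    Real.log_pow, Real.log_pow, Real.log_rpow (by norm_num), Real.log_rpow (by norm_num),
    hnn] at h4
  have h5 : Real.log c₁ = - Real.log (1 / c₁) := by
    rw [one_div, Real.log_inv]; ring
  have h6 : 0 ≤ Real.log (1 / c₁) := Real.log_nonneg (by
    rw [le_div_iff₀ hc₁]; linarith only [hc₁1])
  have h7 : 0 ≤ Real.log C' := Real.log_nonneg hC'1
  set L := Real.log 2 with hL
  set a := Real.log C' with ha
  set b := Real.log (1 / c₁) with hb
  have h8 : c * m₀ * (N * L) ≤ 1 / 2 * (N * L) :=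
    mul_le_mul_of_nonneg_right hcm (by positivity)
  have h9 : 1 / 2 * (N * L) ≤ a + n * b := by
    rw [h5] at h4
    have e1 : (m₀ : ℝ) * (-c * N * L) = - (c * m₀ * (N * L)) := by ring
    rw [e1] at h4
    linarith only [h4, h8]
  have h11 : 2 * (a + b + 1) * n ≤ N * L := by
    have e1 : 2 * (a + b + 1) / (L * L) * ((n + 1) * Real.log (n + 2)) * L ≤ N * L :=
      mul_le_mul_of_nonneg_right g1 hl2.le
    refine le_trans ?_ e1
    have e2 : 2 * (a + b + 1) * n = 2 * (a + b + 1) / (L * L) * (n * L) * L := by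
      (clear * - hl2 hn h7 h6; field_simp)
    rw [e2]
    apply mul_le_mul_of_nonneg_right _ hl2.le
    apply mul_le_mul_of_nonneg_left hnl (by (clear * - h7 h6; positivity))
  have h12 : a ≤ a * n := by
    calc a = a * 1 := (mul_one _).symm
      _ ≤ a * n := mul_le_mul_of_nonneg_left hn h7
  have h13 : 2 * (a + b + 1) * n = 2 * (a * n) + 2 * (n * b) + 2 * n := by ring
  linarith only [hn, h9, h11, h12]

theorem num_B (c mn N n : ℝ) (hc0 : 0 < c) (hmn0 : 0 < mn) (hmn1 : mn ≤ 1) (hn : 1 ≤ n)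
    (g2 : (Real.log (1 / mn) + 1) / (c * Real.log 2 * Real.log 2) *
      ((n + 1) * Real.log (n + 2)) ≤ N) : (2 : ℝ) ^ (-c * N) < mn := by
  have hl2 := log_two_pos'
  obtain ⟨-, -, hnl2⟩ := n_log_bounds hn
  have h4 : 0 ≤ Real.log (1 / mn) := Real.log_nonneg (by
    rw [le_div_iff₀ hmn0]; linarith only [hmn1])
  have h6 : Real.log mn = - Real.log (1 / mn) := by
    rw [one_div, Real.log_inv]; ring
  rw [Real.rpow_def_of_pos (by norm_num), ← Real.lt_log_iff_exp_lt hmn0, h6]
  set L := Real.log 2 with hL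
  set a := Real.log (1 / mn) with ha
  have h3 : (a + 1) / (c * L * L) * ((n + 1) * Real.log (n + 2)) * (c * L) ≤ N * (c * L) :=
    mul_le_mul_of_nonneg_right g2 (by positivity)
  have h5 : a + 1 ≤ (a + 1) / (c * L * L) * ((n + 1) * Real.log (n + 2)) * (c * L) := by
    have e2 : a + 1 = (a + 1) / (c * L * L) * L * (c * L) := by
      field_simp
    calc a + 1 = (a + 1) / (c * L * L) * L * (c * L) := e2
      _ ≤ _ := by
        apply mul_le_mul_of_nonneg_right _ (by positivity)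
        apply mul_le_mul_of_nonneg_left hnl2 (by positivity)
  have h7 : L * (-c * N) = - (N * (c * L)) := by ring
  rw [h7]
  linarith only [h3, h5]

theorem num_D (c C' N n A E k' : ℝ) (d : ℕ) (hc0 : 0 < c) (hC'1 : 1 ≤ C') (hk0 : 0 ≤ k')
    (hE : 0 ≤ E) (hd : (d : ℝ) = (k' + 1) * n)
    (hn : 1 ≤ n) (hA1 : 1 ≤ A) (hA : Real.log A ≤ E * Real.log (n + 2))
    (g3 : (Real.log (C' + k' + 1) / Real.log 2 + 1 + E + 2 * (k' + 1) * E + 1) /
      (c * Real.log 2) * ((n + 1) * Real.log (n + 2)) ≤ N)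
    (h4 : (1 : ℝ) ≤ (2 : ℝ) ^ (-c * N) * ((C' + k' + 1) * (n + 1) * A) * A ^ d * A ^ d) :
    False := by
  have hl2 := log_two_pos'
  obtain ⟨hlogn, -, hnl2⟩ := n_log_bounds hn
  have hApos : 0 < A := by linarith only [hA1]
  have hC'pos : 0 < C' + k' + 1 := by linarith only [hC'1, hk0]
  have hn1pos : (0 : ℝ) < n + 1 := by linarith only [hn]
  have h5 := Real.log_le_log (by norm_num) h4
  rw [Real.log_one, Real.log_mul (by positivity) (by positivity),
    Real.log_mul (by positivity) (by positivity), Real.log_mul (by positivity) (by positivity),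
    Real.log_mul (by positivity) (by positivity), Real.log_mul (by positivity) (by positivity),
    Real.log_pow, Real.log_rpow (by norm_num), hd] at h5
  have h7 : Real.log (n + 1) ≤ Real.log (n + 2) :=
    Real.log_le_log hn1pos (by linarith only [])
  have hlogC : 0 ≤ Real.log (C' + k' + 1) := Real.log_nonneg (by linarith only [hC'1, hk0])
  set L := Real.log 2 with hL
  set l := Real.log (n + 2) with hl
  set q := Real.log (C' + k' + 1) with hq
  have hl0 : 0 < l := hl2.trans_le hlogn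
  have h8 : q ≤ q / L * l := by
    rw [div_mul_eq_mul_div, le_div_iff₀ hl2]
    exact mul_le_mul_of_nonneg_left hlogn hlogC
  have hnl : 0 < (n + 1) * l := by positivity
  have h9 : c * N * L ≤ (q / L + 1 + E + 2 * (k' + 1) * E) * ((n + 1) * l) := by
    have e1 : (k' + 1) * n * Real.log A ≤ (k' + 1) * E * ((n + 1) * l) := by
      calc (k' + 1) * n * Real.log A ≤ (k' + 1) * n * (E * l) :=
            mul_le_mul_of_nonneg_left hA (by positivity)
        _ = (k' + 1) * (E * l) * n := by ring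
        _ ≤ (k' + 1) * (E * l) * (n + 1) :=
            mul_le_mul_of_nonneg_left (by linarith only []) (by (clear * - hk0 hE hl0; positivity))
        _ = _ := by ring
    have e2 : (q / L + 1 + E) * l ≤ (q / L + 1 + E) * ((n + 1) * l) := by
      apply mul_le_mul_of_nonneg_left _ (by (clear * - hlogC hE; positivity))
      nlinarith only [hl2, hlogn, hk0, hd]
    have e3 : (q / L + 1 + E) * l = q / L * l + l + E * l := by ring
    have e4 : (q / L + 1 + E + 2 * (k' + 1) * E) * ((n + 1) * l) =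
      (q / L + 1 + E) * ((n + 1) * l) + 2 * ((k' + 1) * E * ((n + 1) * l)) := by ring
    have e5 : c * N * L = - (-c * N * L) := by ring
    rw [e4, e5]
    linarith only [hA, h7, h5, h8, e1, e2]
  have h10 : (q / L + 1 + E + 2 * (k' + 1) * E + 1) * ((n + 1) * l) ≤ c * N * L := by
    have e1 : (q / L + 1 + E + 2 * (k' + 1) * E + 1) / (c * L) * ((n + 1) * l) * (c * L) ≤
        N * (c * L) := mul_le_mul_of_nonneg_right g3 (by positivity)
    have e2 : (q / L + 1 + E + 2 * (k' + 1) * E + 1) / (c * L) * ((n + 1) * l) * (c * L) =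
        (q / L + 1 + E + 2 * (k' + 1) * E + 1) * ((n + 1) * l) := by
      (clear * - hl2 hc0 hl0 hn hlogC hE hk0; field_simp)
    rw [e2] at e1
    linarith only [e1]
  have h11 : (q / L + 1 + E + 2 * (k' + 1) * E + 1) * ((n + 1) * l) =
    (q / L + 1 + E + 2 * (k' + 1) * E) * ((n + 1) * l) + (n + 1) * l := by ring
  linarith only [hl2, hnl2, h9, h10]


theorem factor_facts {k n o : ℕ} {c₀ : ℤ} (hc₀ : c₀ ≠ 0) {p : ℤ[X]} (hnice : Nice k n p)
    (hx0 : ∀ m < o, p.coeff m = 0) (hxo : p.coeff o = c₀) (z : ℂ) (hz : aeval z p = 0)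
    (hz0 : z ≠ 0) (ρ₀ : ℝ) (hroot : ∀ (n : ℕ) (p h : ℤ[X]), Nice k n p →
      p = X ^ o * h → h.coeff 0 ≠ 0 → ∀ α : ℂ, aeval α h = 0 → ρ₀ ≤ ‖α‖) :
    ∃ g : ℤ[X], Irreducible g ∧ g ∣ p ∧ aeval z g = 0 ∧ g.coeff 0 ≠ 0 ∧
      |((g.coeff 0 : ℤ) : ℝ)| ≤ |((c₀ : ℤ) : ℝ)| ∧ (∀ α : ℂ, aeval α g = 0 → ρ₀ ≤ ‖α‖) := by
  have hp0 : p ≠ 0 := by
    intro h
    rw [h] at hxo
    exact hc₀ (by rw [← hxo]; simp)
  obtain ⟨g, hg, hgp, hgz⟩ := exists_irred_factor p hp0 z hz
  have hg0 : g.coeff 0 ≠ 0 := by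
    intro h
    have h2 : (Polynomial.X : ℤ[X]) ∣ g := X_dvd_iff.2 h
    obtain ⟨w, hw⟩ := (Irreducible.associated_of_dvd prime_X.irreducible hg h2).symm.dvd
    have h3 : aeval z (Polynomial.X : ℤ[X]) = 0 := by rw [hw, map_mul, hgz, zero_mul]
    rw [aeval_X] at h3
    exact hz0 h3
  have hXo : (Polynomial.X : ℤ[X]) ^ o ∣ p := by
    rw [X_pow_dvd_iff]
    exact hx0
  obtain ⟨q, hq⟩ := hgp
  have hXq : (Polynomial.X : ℤ[X]) ^ o ∣ q := by
    apply prime_X.pow_dvd_of_dvd_mul_left o (a := g)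
    · rw [X_dvd_iff]; exact hg0
    · rw [← hq]; exact hXo
  obtain ⟨q', hq'⟩ := hXq
  have hpg : p = Polynomial.X ^ o * (g * q') := by
    rw [hq, hq']; ring
  have hcoeff : g.coeff 0 * q'.coeff 0 = c₀ := by
    rw [← hxo, hpg, mul_comm (Polynomial.X ^ o), ← mul_coeff_zero]
    have := coeff_mul_X_pow (g * q') o 0
    rw [zero_add] at this
    exact this.symm
  refine ⟨g, hg, ⟨q, hq⟩, hgz, hg0, ?_, ?_⟩
  · rw [← hcoeff]
    push_cast
    rw [abs_mul]
    have h2 : (1 : ℝ) ≤ |((q'.coeff 0 : ℤ) : ℝ)| := by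
      have : q'.coeff 0 ≠ 0 := by
        intro h
        rw [h, mul_zero] at hcoeff
        exact hc₀ hcoeff.symm
      exact_mod_cast Int.one_le_abs this
    linarith only [mul_nonneg (sub_nonneg.2 h2) (sub_nonneg.2 (abs_nonneg (((g.coeff 0 : ℤ) : ℝ))))]
  · intro α hα
    refine hroot n p (g * q') hnice hpg ?_ α (by rw [map_mul, hα, zero_mul])
    rw [mul_coeff_zero, hcoeff]
    exact hc₀

theorem aeval_small {k n : ℕ} (hn : 1 ≤ n) {p' : ℤ[X]} (hnice' : Nice k n p') (z : ℂ)
    (hz1 : ‖z‖ ≤ 1) (lam : ℝ) (hlam : |lam| ≤ 1) (c C' N : ℝ) (hc1 : c ≤ 1) (hC'1 : 1 ≤ C')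
    (hN0 : 0 ≤ N)
    (hzlam : ‖(lam : ℂ) - z‖ ≤ (2 : ℝ) ^ (-c * N))
    (hsmall : |aeval lam p'| ≤ C' * (2 : ℝ) ^ (-N)) :
    ‖aeval z p'‖ ≤ (2 : ℝ) ^ (-c * N) * ((C' + k + 1) * (n + 1) * Anice k n) := by
  have hA1 := one_le_Anice k n
  have hn' : (1 : ℝ) ≤ n := by exact_mod_cast hn
  have h4 : ‖aeval (lam : ℂ) p'‖ ≤ C' * (2 : ℝ) ^ (-N) := by
    have h5 : ((aeval lam p' : ℝ) : ℂ) = aeval (lam : ℂ) p' := by
      have := aeval_algebraMap_apply ℂ lam p'
      simpa using this.symm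
    rw [← h5, Complex.norm_real, Real.norm_eq_abs]
    exact hsmall
  have h5 : ‖aeval z p' - aeval (lam : ℂ) p'‖ ≤
      (2 : ℝ) ^ (-c * N) * (((k + 1) * n : ℕ) * Anice k n) := by
    refine (norm_aeval_sub_le hnice' z lam hz1
      (by rw [Complex.norm_real, Real.norm_eq_abs]; exact hlam)).trans ?_
    rw [norm_sub_rev z]
    apply mul_le_mul_of_nonneg_right hzlam
    have : 0 ≤ Anice k n := by linarith only [hA1]
    positivity
  have h6 : (2 : ℝ) ^ (-N) ≤ (2 : ℝ) ^ (-c * N) := by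
    apply Real.rpow_le_rpow_of_exponent_le (by norm_num)
    have : c * N ≤ 1 * N := mul_le_mul_of_nonneg_right hc1 hN0
    linarith only [this]
  have hpos : 0 < (2 : ℝ) ^ (-c * N) := by positivity
  have hk0 : (0 : ℝ) ≤ k := Nat.cast_nonneg k
  calc ‖aeval z p'‖ = ‖aeval (lam : ℂ) p' + (aeval z p' - aeval (lam : ℂ) p')‖ := by
        congr 1; ring
    _ ≤ C' * (2 : ℝ) ^ (-c * N) +
        (2 : ℝ) ^ (-c * N) * (((k + 1) * n : ℕ) * Anice k n) := by
        refine (norm_add_le _ _).trans (add_le_add (h4.trans ?_) h5)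
        exact mul_le_mul_of_nonneg_left h6 (by linarith only [hC'1])
    _ = (2 : ℝ) ^ (-c * N) * (C' + (k + 1) * n * Anice k n) := by
        push_cast; ring
    _ ≤ (2 : ℝ) ^ (-c * N) * ((C' + k + 1) * (n + 1) * Anice k n) := by
        apply mul_le_mul_of_nonneg_left _ hpos.le
        have e0 : (1 : ℝ) ≤ ((n : ℝ) + 1) * Anice k n := by nlinarith only [hA1]
        have e1 : C' * 1 ≤ C' * ((n + 1) * Anice k n) :=
          mul_le_mul_of_nonneg_left e0 (by linarith only [hC'1])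
        have e2 : ((k : ℝ) + 1) * (n * Anice k n) ≤ (k + 1) * ((n + 1) * Anice k n) := by
          apply mul_le_mul_of_nonneg_left _ (by linarith only [])
          apply mul_le_mul_of_nonneg_right (by linarith only []) (by linarith only [hA1])
        have e3 : (C' + k + 1) * (n + 1) * Anice k n =
          C' * ((n + 1) * Anice k n) + (k + 1) * ((n + 1) * Anice k n) := by ring
        rw [e3]
        linarith only [e1, e2]

theorem dvd_of_small {k n : ℕ} (hn : 1 ≤ n) {g p p' : ℤ[X]} (hg : Irreducible g) (hgp : g ∣ p)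
    (hp0 : p ≠ 0) (hnice : Nice k n p) (hnice' : Nice k n p') (z : ℂ) (hgz : aeval z g = 0)
    (hz1 : ‖z‖ ≤ 1) (lam : ℝ) (hlam : |lam| ≤ 1) (c C' N E : ℝ) (hc0 : 0 < c) (hc1 : c ≤ 1)
    (hC'1 : 1 ≤ C') (hN0 : 0 ≤ N) (hE : 0 ≤ E)
    (hA : Real.log (Anice k n) ≤ E * Real.log (n + 2))
    (hzlam : ‖(lam : ℂ) - z‖ ≤ (2 : ℝ) ^ (-c * N))
    (hsmall : |aeval lam p'| ≤ C' * (2 : ℝ) ^ (-N))
    (g3 : (Real.log (C' + k + 1) / Real.log 2 + 1 + E + 2 * (k + 1) * E + 1) /
      (c * Real.log 2) * ((n + 1) * Real.log (n + 2)) ≤ N) : g ∣ p' := by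
  apply irred_dvd g _ hg z hgz
  by_contra hne
  have h2 := liouville_ineq g p' hg z hgz hz1 hne (Anice k n) (sum_coeff_le_Anice hnice')
  have hA1 := one_le_Anice k n
  have hM : (g.map (Int.castRingHom ℂ)).mahlerMeasure ≤ Anice k n :=
    mahler_le_of_dvd hnice hp0 hgp
  have hgd : g.natDegree ≤ (k + 1) * n :=
    le_trans (natDegree_le_of_dvd hgp hp0) hnice.1
  have h3 := aeval_small hn hnice' z hz1 lam hlam c C' N hc1 hC'1 hN0 hzlam hsmall
  have e0 : 0 ≤ (g.map (Int.castRingHom ℂ)).mahlerMeasure := mahlerMeasure_nonneg _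
  have e1 : (g.map (Int.castRingHom ℂ)).mahlerMeasure ^ p'.natDegree ≤
      (Anice k n) ^ ((k + 1) * n) :=
    (pow_le_pow_left₀ e0 hM _).trans (pow_le_pow_right₀ hA1 hnice'.1)
  have e2 : (Anice k n) ^ g.natDegree ≤ (Anice k n) ^ ((k + 1) * n) :=
    pow_le_pow_right₀ hA1 hgd
  have hn' : (1 : ℝ) ≤ n := by exact_mod_cast hn
  have hk0 : (0 : ℝ) ≤ k := Nat.cast_nonneg k
  have h4 : (1 : ℝ) ≤ (2 : ℝ) ^ (-c * N) * ((C' + k + 1) * (n + 1) * Anice k n) *
      (Anice k n) ^ ((k + 1) * n) * (Anice k n) ^ ((k + 1) * n) := by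
    refine h2.trans ?_
    apply mul_le_mul _ e2 (by positivity) (by (clear * - hC'1 hn hA1; positivity))
    apply mul_le_mul h3 e1 (by (clear * - e0; positivity)) (by (clear * - hC'1 hn hA1; positivity))
  exact num_D c C' N n (Anice k n) E k ((k + 1) * n) hc0 hC'1 hk0 hE (by push_cast; ring) hn' hA1
    hA g3 h4


end Vale.Agent.P114
end
end

section

open scoped Classical
open Polynomial

noncomputable section

namespace Vale.Agent.P114

open FinProb

namespace MB

variable {Λ : Type} [Fintype Λ]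

section lev
variable (P : FinProb Λ) (X : Lev Λ)

lemma cond_zero {Ω : Type*} [Fintype Ω] (Q : FinProb Ω) {γ : Type*} (h : Ω → γ) {ω ω' : Ω}
    (hw : 0 < Q.w ω) (hne : h ω' ≠ h ω) : (Q.cond h (h ω)).w ω' = 0 := by
  rw [Q.cond_w h _ (Q.p_pos hw h), if_neg hne, zero_div]

/-- multilinear expansion of the determinant of rows which are combinations -/
lemma det_expand {R : Type*} [CommRing R] {k : ℕ} {T : Type*} [Fintype T]
    (c : Fin (k + 1) → T → R) (v : Fin (k + 1) → T → Fin (k + 1) → R) :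
    (Matrix.of fun r s => ∑ t, c r t * v r t s).det =
      ∑ f : Fin (k + 1) → T, (∏ r, c r (f r)) * (Matrix.of fun r s => v r (f r) s).det := by
  have h1 : (Matrix.of fun r s => ∑ t, c r t * v r t s) =
      (fun r => ∑ t, c r t • v r t : Matrix (Fin (k + 1)) (Fin (k + 1)) R) := by
    ext r s
    simp only [Matrix.of_apply, Finset.sum_apply, Pi.smul_apply, smul_eq_mul]
  have h2 := (Matrix.detRowAlternating (n := Fin (k + 1)) (R := R)).toMultilinearMap.map_sum
    (fun r t => c r t • v r t)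
  rw [h1]
  have h3 : (Matrix.det (fun r => ∑ t, c r t • v r t : Matrix (Fin (k + 1)) (Fin (k + 1)) R)) =
     (Matrix.detRowAlternating (n := Fin (k + 1)) (R := R)).toMultilinearMap
      (fun r => ∑ t, c r t • v r t) := rfl
  rw [h3, h2]
  refine Finset.sum_congr rfl fun f _ => ?_
  have h4 := (Matrix.detRowAlternating (n := Fin (k + 1)) (R := R)).toMultilinearMap.map_smul_univ
    (fun r => c r (f r)) (fun r => v r (f r))
  rw [h4]
  rfl

end lev

end MB

end Vale.Agent.P114
end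
end

section

open scoped Classical
open Polynomial

noncomputable section

namespace Vale.Agent.P114

open FinProb

namespace MB

variable {Λ : Type} [Fintype Λ]

section lev
variable (P : FinProb Λ) (X : Lev Λ)

/-- congruent matrices have congruent determinants -/
lemma det_congr {R : Type*} [CommRing R] {k : ℕ} (I : Ideal R)
    (A B : Matrix (Fin (k + 1)) (Fin (k + 1)) R) (h : ∀ r s, A r s - B r s ∈ I) :
    A.det - B.det ∈ I := by
  rw [← Ideal.Quotient.eq, RingHom.map_det, RingHom.map_det]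
  congr 1
  ext r s
  simp only [RingHom.mapMatrix_apply, Matrix.map_apply]
  exact Ideal.Quotient.eq.2 (h r s)

lemma det_coeff_congr {R : Type*} [CommRing R] {k L : ℕ}
    (A B : Matrix (Fin (k + 1)) (Fin (k + 1)) R[X])
    (h : ∀ r s, ∀ m < L, (A r s).coeff m = (B r s).coeff m) (m : ℕ) (hm : m < L) :
    A.det.coeff m = B.det.coeff m := by
  have h1 := det_congr (Ideal.span {(Polynomial.X : R[X]) ^ L}) A B (fun r s => by
    rw [Ideal.mem_span_singleton, Polynomial.X_pow_dvd_iff]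
    intro d hd
    rw [Polynomial.coeff_sub, h r s d hd, sub_self])
  rw [Ideal.mem_span_singleton, Polynomial.X_pow_dvd_iff] at h1
  have := h1 m hm
  rw [Polynomial.coeff_sub] at this
  exact sub_eq_zero.1 this

end lev

end MB

end Vale.Agent.P114
end
end

section

open scoped Classical
open Polynomial

noncomputable section

namespace Vale.Agent.P114

open FinProb

namespace MB

variable {Λ : Type} [Fintype Λ]

section marg
variable {Ω : Type*} [Fintype Ω] (Q : FinProb Ω) {γ : Type*}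

lemma marg1 (h : Ω → γ) (F : Ω → ℝ) : ∑ x, (Q.couple h).w x * F x.1 = ∑ ω, Q.w ω * F ω := by
  rw [Q.sum_couple h (fun ω _ => F ω)]
  refine Finset.sum_congr rfl fun ω _ => ?_
  rw [← Finset.sum_mul, (Q.cond h _).sum_one, one_mul]

lemma marg2 (h : Ω → γ) (F : Ω → ℝ) : ∑ x, (Q.couple h).w x * F x.2 = ∑ ω, Q.w ω * F ω := by
  rw [Q.sum_couple h (fun _ ω' => F ω'), Q.sum_cond_total h F]

lemma couple_pos1 (h : Ω → γ) (x : Ω × Ω) (hx : 0 < (Q.couple h).w x) : 0 < Q.w x.1 := by
  rcases Q.w_zero_or_pos x.1 with h2 | h2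
  · simp [couple, h2] at hx
  · exact h2

lemma couple_pos2 (h : Ω → γ) (x : Ω × Ω) (hx : 0 < (Q.couple h).w x) : 0 < Q.w x.2 := by
  rcases Q.w_zero_or_pos x.2 with h2 | h2
  · have h1 := couple_pos1 Q h x hx
    have h3 : (Q.cond h (h x.1)).w x.2 = 0 := by
      rw [Q.cond_w h _ (Q.p_pos h1 h), h2]
      simp
    simp [couple, h3] at hx
  · exact h2

end marg

section lev
variable (P : FinProb Λ) (X : Lev Λ)

/-- weights of (place, pair) -/
def Wt (θ : Fin X.n × ((Fin X.n → Λ) × (Fin X.n → Λ))) : ℝ :=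
  (1 / (X.n : ℝ)) * ((P.pi X.n).couple (X.h θ.1)).w θ.2

lemma Wt_nonneg (θ : Fin X.n × ((Fin X.n → Λ) × (Fin X.n → Λ))) : 0 ≤ Wt P X θ :=
  mul_nonneg (by positivity) (((P.pi X.n).couple _).nonneg _)

/-- the blocks match -/
def Mt (L : ℕ) (b b' : List Λ) (θ : Fin X.n × ((Fin X.n → Λ) × (Fin X.n → Λ))) : Prop :=
  Lev.blk θ.1 L θ.2.1 = b ∧ Lev.blk θ.1 L θ.2.2 = b'

lemma sum_Wt_Mt (L : ℕ) (b b' : List Λ) :
    ∑ θ, Wt P X θ * (if Mt X L b b' θ then 1 else 0) =
      (1 / (X.n : ℝ)) * ∑ j ∈ Finset.range X.n,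
        ((P.pi X.n).couple (X.h j)).p (fun x => (Lev.blk j L x.1, Lev.blk j L x.2)) (b, b') := by
  rw [Fintype.sum_prod_type, ← Fin.sum_univ_eq_sum_range (fun j =>
    ((P.pi X.n).couple (X.h j)).p (fun x => (Lev.blk j L x.1, Lev.blk j L x.2)) (b, b')) X.n,
    Finset.mul_sum]
  refine Finset.sum_congr rfl fun j _ => ?_
  unfold FinProb.p
  rw [Finset.mul_sum]
  refine Finset.sum_congr rfl fun x _ => ?_
  unfold Wt Mt
  simp only [Prod.mk.injEq]
  split_ifs <;> simp

end lev

end MB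

end Vale.Agent.P114
end
end

section

open scoped Classical
open Polynomial

noncomputable section

namespace Vale.Agent.P114

open FinProb

variable {Λ : Type} [Fintype Λ]

namespace MB

lemma nu_lower (P : FinProb Λ) (X : Lev Λ) (L : ℕ) (hL : 0 < L) (hn : 2 * L ≤ X.n)
    (b b' : List Λ) (δ : ℝ) (hδ : 0 < δ) (h : δ ≤ X.nu P L b b') :
    δ / 2 ≤ (1 / (X.n : ℝ)) * ∑ j ∈ Finset.range X.n,
        ((P.pi X.n).couple (X.h j)).p (fun x => (Lev.blk j L x.1, Lev.blk j L x.2)) (b, b') := by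
  unfold Lev.nu at h
  have h1 : (0 : ℝ) < ((X.n + 1 - L : ℕ) : ℝ) := by
    have : 0 < X.n + 1 - L := by omega
    exact_mod_cast this
  rw [le_div_iff₀ h1] at h
  have h2 : ∑ j ∈ Finset.range (X.n + 1 - L),
      ((P.pi X.n).couple (X.h j)).p (fun x => (Lev.blk j L x.1, Lev.blk j L x.2)) (b, b') ≤
      ∑ j ∈ Finset.range X.n,
        ((P.pi X.n).couple (X.h j)).p (fun x => (Lev.blk j L x.1, Lev.blk j L x.2)) (b, b') :=
    Finset.sum_le_sum_of_subset_of_nonneg (Finset.range_subset_range.2 (by omega))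
      fun _ _ _ => FinProb.p_nonneg _ _ _
  have h3 : (X.n : ℝ) / 2 ≤ ((X.n + 1 - L : ℕ) : ℝ) := by
    rw [Nat.cast_sub (by omega)]
    push_cast
    have : (2 * (L : ℝ)) ≤ X.n := by exact_mod_cast hn
    linarith only [this]
  have h4 : (0 : ℝ) < X.n := by
    have : 0 < X.n := by omega
    exact_mod_cast this
  have h5 := mul_le_mul_of_nonneg_left h3 hδ.le
  rw [one_div, ← div_eq_inv_mul, le_div_iff₀ h4]
  linarith only [h5, h2, h]

lemma exists_K (C D B c : ℝ) (hD : 0 < D) (hc : 0 < c) :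
    ∃ K : ℝ, 0 < K ∧ C * (B / K) ^ c < D := by
  have h1 : Filter.Tendsto (fun K : ℝ => B / K) Filter.atTop (nhds 0) :=
    tendsto_const_nhds.div_atTop Filter.tendsto_id
  have h2 : Filter.Tendsto (fun K : ℝ => (B / K) ^ c) Filter.atTop (nhds 0) := by
    have := (Real.continuousAt_rpow_const 0 c (Or.inr hc.le)).tendsto.comp h1
    rw [Real.zero_rpow hc.ne'] at this
    exact this
  have h3 : Filter.Tendsto (fun K : ℝ => C * (B / K) ^ c) Filter.atTop (nhds 0) := by
    have := h2.const_mul C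
    rwa [mul_zero] at this
  have h4 := (h3.eventually (gt_mem_nhds hD)).and (Filter.eventually_gt_atTop (0 : ℝ))
  obtain ⟨K, hK⟩ := h4.exists
  exact ⟨K, hK.2, hK.1⟩

end MB

end Vale.Agent.P114
end
end

section

open scoped Classical
open Polynomial

noncomputable section

namespace Vale.Agent.P114

open FinProb

variable {Λ : Type} [Fintype Λ]

omit [Fintype Λ] in
theorem Tails_length (X : Lev Λ) (x : List Λ × List Λ) (h : x ∈ X.Tails) :
    x.1.length ≤ X.n ∧ x.2.length ≤ X.n := by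
  obtain ⟨w, w', j, _, _, rfl⟩ := h
  simp only [List.length_drop, List.length_ofFn, tsub_le_iff_right, le_add_iff_nonneg_right, zero_le, and_self]

end Vale.Agent.P114
end
end

section

open scoped Classical
open Polynomial

noncomputable section

namespace Vale.Agent.P114

open FinProb

variable {Λ : Type} [Fintype Λ]

theorem hf_aeval_hasse (p : ℤ[X]) (η : ℂ) (j : ℕ) :
    aeval η (hasseDeriv j p) = (taylor η (p.map (Int.castRingHom ℂ))).coeff j := by
  rw [taylor_coeff, aeval_def, eval₂_eq_eval_map]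
  congr 1
  ext a
  simp [hasseDeriv_coeff]

/-- the absolute polynomial -/
def hfabs (p : ℤ[X]) : ℝ[X] := ∑ i ∈ Finset.range (p.natDegree + 1), monomial i |((p.coeff i : ℤ) : ℝ)|

theorem hfabs_coeff (p : ℤ[X]) (i : ℕ) : (hfabs p).coeff i = |((p.coeff i : ℤ) : ℝ)| := by
  unfold hfabs
  rw [finsetSum_coeff]
  simp only [coeff_monomial]
  rw [Finset.sum_ite_eq' (Finset.range (p.natDegree + 1)) i]
  split_ifs with h
  · rfl
  · rw [Finset.mem_range, not_lt] at h
    rw [coeff_eq_zero_of_natDegree_lt (by omega)]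
    simp

theorem hfabs_natDegree (p : ℤ[X]) : (hfabs p).natDegree ≤ p.natDegree := by
  rw [natDegree_le_iff_coeff_eq_zero]
  intro N hN
  rw [hfabs_coeff, coeff_eq_zero_of_natDegree_lt hN]
  simp

theorem hfabs_eval_le (p : ℤ[X]) (x : ℝ) (hx0 : 0 ≤ x) (hx1 : x ≤ 1) :
    (hfabs p).eval x ≤ ∑ i ∈ Finset.range (p.natDegree + 1), |((p.coeff i : ℤ) : ℝ)| := by
  unfold hfabs
  rw [eval_finsetSum]
  apply Finset.sum_le_sum
  intro i _
  rw [eval_monomial]
  exact mul_le_of_le_one_right (abs_nonneg _) (pow_le_one₀ hx0 hx1)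

theorem hf_hasse_norm (p : ℤ[X]) (η : ℂ) (j : ℕ) :
    ‖aeval η (hasseDeriv j p)‖ ≤ (taylor ‖η‖ (hfabs p)).coeff j := by
  rw [taylor_coeff]
  have h1 : (hasseDeriv j p).natDegree < p.natDegree + 1 :=
    Nat.lt_succ_of_le ((natDegree_hasseDeriv_le p j).trans (Nat.sub_le _ _))
  have h2 : (hasseDeriv j (hfabs p)).natDegree < p.natDegree + 1 :=
    Nat.lt_succ_of_le (((natDegree_hasseDeriv_le _ j).trans (Nat.sub_le _ _)).trans
      (hfabs_natDegree p))
  rw [aeval_eq_sum_range' h1, eval_eq_sum_range' h2]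
  refine (norm_sum_le _ _).trans (Finset.sum_le_sum ?_)
  intro a _
  rw [hasseDeriv_coeff, hasseDeriv_coeff, hfabs_coeff]
  rw [zsmul_eq_mul, norm_mul, norm_pow]
  apply mul_le_mul_of_nonneg_right _ (by positivity)
  push_cast
  rw [norm_mul, Complex.norm_natCast, Complex.norm_intCast]

/-- Taylor coefficients at `η`. -/
theorem hf_taylor_sum (p : ℤ[X]) (η : ℂ) (ρ : ℝ) (hρ : 0 ≤ ρ) (h1 : ‖η‖ + ρ ≤ 1) :
    ∑ j ∈ Finset.range (p.natDegree + 1), ‖aeval η (hasseDeriv j p)‖ * ρ ^ j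
      ≤ ∑ i ∈ Finset.range (p.natDegree + 1), |((p.coeff i : ℤ) : ℝ)| := by
  calc ∑ j ∈ Finset.range (p.natDegree + 1), ‖aeval η (hasseDeriv j p)‖ * ρ ^ j
      ≤ ∑ j ∈ Finset.range (p.natDegree + 1), (taylor ‖η‖ (hfabs p)).coeff j * ρ ^ j := by
        apply Finset.sum_le_sum
        intro j _
        exact mul_le_mul_of_nonneg_right (hf_hasse_norm p η j) (by positivity)
    _ = (taylor ‖η‖ (hfabs p)).eval ρ := by
        rw [eval_eq_sum_range' (n := p.natDegree + 1)]
        rw [natDegree_taylor]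
        exact Nat.lt_succ_of_le (hfabs_natDegree p)
    _ = (hfabs p).eval (ρ + ‖η‖) := taylor_eval _ _ _
    _ ≤ _ := hfabs_eval_le p _ (by positivity) (by linarith)

theorem hf_core (p : ℤ[X]) (η : ℂ) (lam : ℝ) (ρ : ℝ) (hρ : 0 < ρ) (h1 : ‖η‖ + ρ ≤ 1)
    (hδ : ‖(lam : ℂ) - η‖ ≤ ρ) (m : ℕ) (hm : ∀ j < m, aeval η (hasseDeriv j p) = 0) :
    ‖aeval η (hasseDeriv m p)‖ * ‖(lam : ℂ) - η‖ ^ m ≤ |aeval lam p|
      + (∑ i ∈ Finset.range (p.natDegree + 1), |((p.coeff i : ℤ) : ℝ)|)
        * (‖(lam : ℂ) - η‖ / ρ) ^ (m + 1) := by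
  set δ : ℝ := ‖(lam : ℂ) - η‖ with hδd
  have hδ0 : 0 ≤ δ := norm_nonneg _
  have hr1 : δ / ρ ≤ 1 := by rw [div_le_one hρ]; exact hδ
  have hr0 : 0 ≤ δ / ρ := by positivity
  have hlam : |aeval lam p| = ‖aeval (lam : ℂ) p‖ := by
    have h : aeval (lam : ℂ) p = ((aeval lam p : ℝ) : ℂ) := by
      rw [aeval_def, aeval_def, eval₂_eq_sum_range, eval₂_eq_sum_range]
      push_cast
      rfl
    rw [h, Complex.norm_real, Real.norm_eq_abs]
  have hexp : aeval (lam : ℂ) p = ∑ j ∈ Finset.range (p.natDegree + 1),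
      aeval η (hasseDeriv j p) * ((lam : ℂ) - η) ^ j := by
    have h2 : aeval (lam : ℂ) p
        = (taylor η (p.map (Int.castRingHom ℂ))).eval ((lam : ℂ) - η) := by
      rw [taylor_eval, sub_add_cancel, aeval_def, eval₂_eq_eval_map]
      rfl
    rw [h2, eval_eq_sum_range' (n := p.natDegree + 1)]
    · apply Finset.sum_congr rfl
      intro j _
      rw [hf_aeval_hasse]
    · rw [natDegree_taylor]
      exact Nat.lt_succ_of_le natDegree_map_le
  by_cases hmN : m ∈ Finset.range (p.natDegree + 1)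
  · have hsplit := Finset.sum_erase_add (Finset.range (p.natDegree + 1))
      (fun j => aeval η (hasseDeriv j p) * ((lam : ℂ) - η) ^ j) hmN
    have h3 : aeval η (hasseDeriv m p) * ((lam : ℂ) - η) ^ m = aeval (lam : ℂ) p
        - ∑ j ∈ (Finset.range (p.natDegree + 1)).erase m,
          aeval η (hasseDeriv j p) * ((lam : ℂ) - η) ^ j := by
      rw [hexp, ← hsplit]; ring
    have h4 : ‖aeval η (hasseDeriv m p)‖ * δ ^ m
        = ‖aeval η (hasseDeriv m p) * ((lam : ℂ) - η) ^ m‖ := by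
      rw [norm_mul, norm_pow]
    rw [h4, h3, hlam]
    refine (norm_sub_le _ _).trans (add_le_add le_rfl ?_)
    refine (norm_sum_le _ _).trans ?_
    calc ∑ j ∈ (Finset.range (p.natDegree + 1)).erase m,
          ‖aeval η (hasseDeriv j p) * ((lam : ℂ) - η) ^ j‖
        ≤ ∑ j ∈ (Finset.range (p.natDegree + 1)).erase m,
          (‖aeval η (hasseDeriv j p)‖ * ρ ^ j) * (δ / ρ) ^ (m + 1) := by
          apply Finset.sum_le_sum
          intro j hj
          rw [Finset.mem_erase] at hj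
          rcases lt_or_gt_of_ne hj.1 with h | h
          · rw [hm j h]; simp
          · rw [norm_mul, norm_pow, mul_assoc]
            apply mul_le_mul_of_nonneg_left _ (norm_nonneg _)
            have h5 : δ ^ j = ρ ^ j * (δ / ρ) ^ j := by
              rw [← mul_pow, mul_div_cancel₀ _ hρ.ne']
            rw [← hδd, h5]
            apply mul_le_mul_of_nonneg_left _ (by positivity)
            exact pow_le_pow_of_le_one hr0 hr1 h
      _ ≤ ∑ j ∈ Finset.range (p.natDegree + 1),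
          (‖aeval η (hasseDeriv j p)‖ * ρ ^ j) * (δ / ρ) ^ (m + 1) := by
          apply Finset.sum_le_sum_of_subset_of_nonneg (Finset.erase_subset _ _)
          intro j _ _
          (clear * - hρ; positivity)
      _ = (∑ j ∈ Finset.range (p.natDegree + 1),
          (‖aeval η (hasseDeriv j p)‖ * ρ ^ j)) * (δ / ρ) ^ (m + 1) := by
          rw [Finset.sum_mul]
      _ ≤ _ := mul_le_mul_of_nonneg_right (hf_taylor_sum p η ρ hρ.le h1) (by positivity)
  · rw [Finset.mem_range, not_lt] at hmN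
    rw [hasseDeriv_eq_zero_of_lt_natDegree p m (by omega)]
    simp only [map_zero, norm_zero, zero_mul]
    (clear * - hρ; positivity)

theorem hf_rootMult (p : ℤ[X]) (hp : p ≠ 0) (η : ℂ) (m : ℕ)
    (hm : m = (p.map (Int.castRingHom ℂ)).rootMultiplicity η) :
    (∀ j < m, aeval η (hasseDeriv j p) = 0) ∧ aeval η (hasseDeriv m p) ≠ 0 := by
  have hP : p.map (Int.castRingHom ℂ) ≠ 0 := by
    rw [Ne, Polynomial.map_eq_zero_iff]
    · exact hp
    · exact Int.cast_injective
  have hT : taylor η (p.map (Int.castRingHom ℂ)) ≠ 0 := by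
    rw [Ne, taylor_eq_zero]; exact hP
  have hmm : m = (taylor η (p.map (Int.castRingHom ℂ))).natTrailingDegree := by
    rw [hm, rootMultiplicity_eq_natTrailingDegree, taylor_apply]
  constructor
  · intro j hj
    rw [hf_aeval_hasse]
    apply coeff_eq_zero_of_lt_natTrailingDegree
    rw [← hmm]; exact hj
  · rw [hf_aeval_hasse, hmm]
    have := trailingCoeff_nonzero_iff_nonzero.2 hT
    exact this

theorem hf_hasse_sum (k n J j : ℕ) (p : ℤ[X]) (hp : Nice k n p) (hj : j ≤ J) :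
    ∑ i ∈ Finset.range ((hasseDeriv j p).natDegree + 1), |(((hasseDeriv j p).coeff i : ℤ) : ℝ)|
      ≤ (k + 1).factorial * (((k : ℝ) + 1) * n + 1) ^ (k + J + 1) := by
  set N : ℝ := ((k : ℝ) + 1) * n + 1 with hN
  have hN1 : 1 ≤ N := by
    have : (0 : ℝ) ≤ ((k : ℝ) + 1) * n := by positivity
    linarith only [this]
  have hterm : ∀ i, |(((hasseDeriv j p).coeff i : ℤ) : ℝ)| ≤ (k + 1).factorial * N ^ (k + J) := by
    intro i
    by_cases h : (k + 1) * n < i + j
    · rw [hasseDeriv_coeff, coeff_eq_zero_of_natDegree_lt (lt_of_le_of_lt hp.1 h)]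
      simp only [mul_zero, Int.cast_zero, abs_zero]
      (clear * -; positivity)
    · push Not at h
      rw [hasseDeriv_coeff]
      push_cast
      rw [abs_mul, Nat.abs_cast]
      have hij : ((i + j : ℕ) : ℝ) + 1 ≤ N := by
        rw [hN]; exact_mod_cast Nat.add_le_add_right h 1
      have h1 : (((i + j).choose j : ℕ) : ℝ) ≤ N ^ J := by
        have h2 : ((i + j).choose j) ≤ (i + j) ^ j := Nat.choose_le_pow _ _
        calc (((i + j).choose j : ℕ) : ℝ) ≤ (((i + j : ℕ) : ℝ)) ^ j := by exact_mod_cast h2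
          _ ≤ N ^ j := pow_le_pow_left₀ (by positivity) (by linarith only [hij]) _
          _ ≤ N ^ J := pow_le_pow_right₀ hN1 hj
      have h3 : |((p.coeff (i + j) : ℤ) : ℝ)| ≤ (k + 1).factorial * N ^ k := by
        refine (hp.2 (i + j)).trans ?_
        apply mul_le_mul_of_nonneg_left _ (by positivity)
        exact pow_le_pow_left₀ (by positivity) hij _
      calc (((i + j).choose j : ℕ) : ℝ) * |((p.coeff (i + j) : ℤ) : ℝ)|
          ≤ N ^ J * ((k + 1).factorial * N ^ k) :=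
            mul_le_mul h1 h3 (abs_nonneg _) (by positivity)
        _ = (k + 1).factorial * N ^ (k + J) := by rw [pow_add]; ring
  have hdeg : (hasseDeriv j p).natDegree + 1 ≤ (k + 1) * n + 1 :=
    Nat.add_le_add_right (((natDegree_hasseDeriv_le p j).trans (Nat.sub_le _ _)).trans hp.1) 1
  calc ∑ i ∈ Finset.range ((hasseDeriv j p).natDegree + 1),
        |(((hasseDeriv j p).coeff i : ℤ) : ℝ)|
      ≤ ∑ _i ∈ Finset.range ((hasseDeriv j p).natDegree + 1),
        ((k + 1).factorial * N ^ (k + J) : ℝ) := Finset.sum_le_sum (fun i _ => hterm i)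
    _ = (((hasseDeriv j p).natDegree + 1 : ℕ) : ℝ) * ((k + 1).factorial * N ^ (k + J)) := by
        rw [Finset.sum_const, Finset.card_range, nsmul_eq_mul]
    _ ≤ N * ((k + 1).factorial * N ^ (k + J)) := by
        apply mul_le_mul_of_nonneg_right _ (by positivity)
        rw [hN]; exact_mod_cast hdeg
    _ = (k + 1).factorial * N ^ (k + J + 1) := by rw [pow_succ]; ring

/-- `G ≤ n ^ E` -/
theorem hf_G_le (k n m₀ : ℕ) (h1 : (k + 1).factorial ≤ n) (h2 : k + 2 ≤ n) :
    ((k + 1).factorial : ℝ) * (((k : ℝ) + 1) * n + 1) ^ (k + m₀ + 1)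
      ≤ (n : ℝ) ^ (2 * (k + m₀) + 3) := by
  have hn1 : (1 : ℝ) ≤ n := by exact_mod_cast (by omega : 1 ≤ n)
  have h3 : ((k : ℝ) + 1) * n + 1 ≤ (n : ℝ) ^ 2 := by
    have : ((k : ℝ) + 2) ≤ n := by exact_mod_cast h2
    nlinarith only [this]
  calc ((k + 1).factorial : ℝ) * (((k : ℝ) + 1) * n + 1) ^ (k + m₀ + 1)
      ≤ (n : ℝ) * ((n : ℝ) ^ 2) ^ (k + m₀ + 1) := by
        apply mul_le_mul (by exact_mod_cast h1) _ (by positivity) (by positivity)
        exact pow_le_pow_left₀ (by positivity) h3 _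
    _ = (n : ℝ) ^ (2 * (k + m₀) + 3) := by
        rw [← pow_mul, ← pow_succ']
        congr 1

/-- one index: the contradiction. -/
theorem hf_step (lam : ℝ) (k n m m₀ : ℕ) (h1 : |lam| < 1) (p f : ℤ[X]) (hp0 : p ≠ 0)
    (hnice : Nice k n p) (η : ℂ) (C₀ Cs κ : ℝ) (hκ : 0 < κ)
    (hirr : Irreducible f) (hroot : aeval η f = 0) (hdeg : f.natDegree ≤ (k + 1) * m)
    (hM : (f.map (Int.castRingHom ℂ)).mahlerMeasure ≤ C₀) (hne : (lam : ℂ) ≠ η)
    (hmult : ‖η‖ ≤ (1 + |lam|) / 2 → (p.map (Int.castRingHom ℂ)).rootMultiplicity η ≤ m₀)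
    (C3 : ℝ) (hC3 : C3 = (k + 1) * Real.log (max C₀ 1) + 1) (hκ1 : κ = 1 / (C3 + 2))
    (hD1 : (n : ℝ) ≤ κ * Real.log (1 / ‖(lam : ℂ) - η‖))
    (hD2 : κ / 2 * Real.log (1 / ‖(lam : ℂ) - η‖) ≤ n)
    (hO : (m : ℝ) * Real.log n ≤ 1 / (((2 * (k + m₀) + 3 : ℕ) : ℝ) * (k + 1)) * n)
    (hn1 : (k + 1).factorial ≤ n) (hn2 : k + 2 ≤ n)
    (hn3 : (n : ℝ) ^ (2 * (k + m₀) + 3) * (((1 - |lam|) / 2)⁻¹) ^ (m₀ + 1) * 2
      ≤ Real.exp (2 * n))
    (hn4 : Real.exp (-((C3 + 2) * n)) ≤ (1 - |lam|) / 2)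
    (hn5 : Cs * Real.exp (-(n : ℝ)) < 1 / 2)
    (hsmall : |aeval lam p| ≤ Cs * Real.exp (-((2 * m₀ / κ + C3 + 1) * n))) : False := by
  set δ : ℝ := ‖(lam : ℂ) - η‖ with hδ
  have hδ0 : 0 < δ := by rw [hδ, norm_pos_iff, sub_ne_zero]; exact hne
  set D : ℝ := Real.log (1 / δ) with hD
  have hδD : δ = Real.exp (-D) := by
    rw [hD, one_div, Real.log_inv, neg_neg, Real.exp_log hδ0]
  set K0 : ℝ := max C₀ 1 with hK0
  have hK01 : 1 ≤ K0 := le_max_right _ _
  have hlogK : 0 ≤ Real.log K0 := Real.log_nonneg hK01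
  have hC31 : 1 ≤ C3 := by
    rw [hC3]
    have : 0 ≤ ((k : ℝ) + 1) * Real.log K0 := by (clear * - hlogK; positivity)
    linarith only [this]
  have hn0 : (0 : ℝ) ≤ n := Nat.cast_nonneg n
  have hnpos : (1 : ℝ) ≤ n := by exact_mod_cast (by omega : 1 ≤ n)
  -- D ≥ (C3+2) n
  have hDn : (C3 + 2) * n ≤ D := by
    have h2 : 0 < C3 + 2 := by linarith only [hC31]
    rw [hκ1, div_mul_eq_mul_div, one_mul, le_div_iff₀ h2] at hD1
    linarith only [hD1]
  have hδle : δ ≤ Real.exp (-((C3 + 2) * n)) := by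
    rw [hδD]; exact Real.exp_le_exp.2 (by linarith only [hDn])
  set ρ : ℝ := (1 - |lam|) / 2 with hρ
  have hρ0 : 0 < ρ := by rw [hρ]; linarith only [hδ0, hδle, hn4, hρ]
  have hρ1 : ρ ≤ 1 := by rw [hρ]; have := abs_nonneg lam; linarith only [this]
  have hδρ : δ ≤ ρ := hδle.trans hn4
  have hη : ‖η‖ ≤ (1 + |lam|) / 2 := by
    have h2 : ‖η‖ ≤ ‖(lam : ℂ)‖ + δ := by
      have : η = (lam : ℂ) - ((lam : ℂ) - η) := by ring
      calc ‖η‖ = ‖(lam : ℂ) - ((lam : ℂ) - η)‖ := by rw [← this]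
        _ ≤ _ := norm_sub_le _ _
    rw [Complex.norm_real, Real.norm_eq_abs] at h2
    have : |lam| + ρ = (1 + |lam|) / 2 := by rw [hρ]; ring
    linarith only [h2, hρ, hn4, hδle]
  have hηρ : ‖η‖ + ρ ≤ 1 := by
    have : (1 + |lam|) / 2 + ρ = 1 := by rw [hρ]; ring
    linarith only [hρ, hη]
  set μ : ℕ := (p.map (Int.castRingHom ℂ)).rootMultiplicity η with hμ
  have hμ0 : μ ≤ m₀ := hmult hη
  obtain ⟨hz, hnz⟩ := hf_rootMult p hp0 η μ hμ
  -- size of the coefficients
  set G : ℝ := (n : ℝ) ^ (2 * (k + m₀) + 3) with hG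
  have hG1 : 1 ≤ G := one_le_pow₀ hnpos
  have hS1 : ∑ i ∈ Finset.range ((hasseDeriv μ p).natDegree + 1),
      |(((hasseDeriv μ p).coeff i : ℤ) : ℝ)| ≤ G :=
    (hf_hasse_sum k n m₀ μ p hnice hμ0).trans (hf_G_le k n m₀ hn1 hn2)
  have hS0 : ∑ i ∈ Finset.range (p.natDegree + 1), |((p.coeff i : ℤ) : ℝ)| ≤ G := by
    have := (hf_hasse_sum k n m₀ 0 p hnice (Nat.zero_le _)).trans (hf_G_le k n m₀ hn1 hn2)
    simpa only [ge_iff_le, hasseDeriv_zero, LinearMap.id_coe, id_eq] using this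
  -- Liouville
  have hη1 : ‖η‖ ≤ 1 := by linarith only [hδ0, hδle, hn4, hρ, hη]
  have hli := liouville_ineq f (hasseDeriv μ p) hirr η hroot hη1 hnz G hS1
  have hMK : (f.map (Int.castRingHom ℂ)).mahlerMeasure ^ (hasseDeriv μ p).natDegree
      ≤ Real.exp ((k + 1) * n * Real.log K0) := by
    have hM0 : 0 ≤ (f.map (Int.castRingHom ℂ)).mahlerMeasure := mahlerMeasure_nonneg _
    have hd : (hasseDeriv μ p).natDegree ≤ (k + 1) * n :=
      ((natDegree_hasseDeriv_le p μ).trans (Nat.sub_le _ _)).trans hnice.1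
    calc (f.map (Int.castRingHom ℂ)).mahlerMeasure ^ (hasseDeriv μ p).natDegree
        ≤ K0 ^ (hasseDeriv μ p).natDegree :=
          pow_le_pow_left₀ hM0 (hM.trans (le_max_left _ _)) _
      _ ≤ K0 ^ ((k + 1) * n) := pow_le_pow_right₀ hK01 hd
      _ = Real.exp ((k + 1) * n * Real.log K0) := by
          rw [← Real.exp_log (show (0 : ℝ) < K0 by linarith only [hK01]), ← Real.exp_nat_mul, Real.log_exp]
          push_cast
          rfl
  have hGe : G ^ f.natDegree ≤ Real.exp n := by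
    calc G ^ f.natDegree ≤ G ^ ((k + 1) * m) := pow_le_pow_right₀ hG1 hdeg
      _ = Real.exp ((((2 * (k + m₀) + 3) * ((k + 1) * m) : ℕ) : ℝ) * Real.log n) := by
          rw [hG, ← pow_mul, ← Real.exp_log (show (0 : ℝ) < n by linarith only [hnpos]), ← Real.exp_nat_mul,
            Real.log_exp]
      _ ≤ Real.exp n := by
          apply Real.exp_le_exp.2
          have hE : (0 : ℝ) < ((2 * (k + m₀) + 3 : ℕ) : ℝ) * (k + 1) := by (clear * -; positivity)
          rw [div_mul_eq_mul_div, one_mul, le_div_iff₀ hE] at hO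
          calc (((2 * (k + m₀) + 3) * ((k + 1) * m) : ℕ) : ℝ) * Real.log n
              = (m : ℝ) * Real.log n * (((2 * (k + m₀) + 3 : ℕ) : ℝ) * (k + 1)) := by
                push_cast; ring
            _ ≤ n := hO
  have hlow : Real.exp (-(C3 * n)) ≤ ‖aeval η (hasseDeriv μ p)‖ := by
    have h2 : 1 ≤ ‖aeval η (hasseDeriv μ p)‖ * Real.exp (C3 * n) := by
      refine hli.trans ?_
      have h3 : Real.exp (C3 * n) = Real.exp ((k + 1) * n * Real.log K0) * Real.exp n := by
        rw [← Real.exp_add]; congr 1; rw [hC3]; ring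
      rw [h3, mul_assoc]
      apply mul_le_mul_of_nonneg_left _ (norm_nonneg _)
      exact mul_le_mul hMK hGe (by (clear * - hnpos; positivity)) (by positivity)
    rw [Real.exp_neg]
    rw [inv_eq_one_div, div_le_iff₀ (Real.exp_pos _)]
    exact h2
  -- core
  have hcore := hf_core p η lam ρ hρ0 hηρ hδρ μ hz
  have hrest : (∑ i ∈ Finset.range (p.natDegree + 1), |((p.coeff i : ℤ) : ℝ)|)
        * (δ / ρ) ^ (μ + 1) ≤ δ ^ μ * (1 / 2 * Real.exp (-(C3 * n))) := by
    have h2 : (δ / ρ) ^ (μ + 1) = δ ^ μ * (δ * (ρ⁻¹) ^ (μ + 1)) := by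
      rw [div_eq_mul_inv, mul_pow, pow_succ δ μ]; ring
    have hρi : 1 ≤ ρ⁻¹ := (one_le_inv₀ hρ0).2 hρ1
    have h3 : (ρ⁻¹) ^ (μ + 1) ≤ (ρ⁻¹) ^ (m₀ + 1) := pow_le_pow_right₀ hρi (by omega)
    have h4 : G * (δ * (ρ⁻¹) ^ (m₀ + 1)) ≤ 1 / 2 * Real.exp (-(C3 * n)) := by
      calc G * (δ * (ρ⁻¹) ^ (m₀ + 1)) = δ * (G * (ρ⁻¹) ^ (m₀ + 1)) := by ring
        _ ≤ Real.exp (-((C3 + 2) * n)) * (1 / 2 * Real.exp (2 * n)) := by
            apply mul_le_mul hδle _ (by (clear * - hnpos h1; positivity)) (Real.exp_pos _).le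
            linarith only [hn3]
        _ = 1 / 2 * Real.exp (-(C3 * n)) := by
            rw [mul_left_comm, ← Real.exp_add]
            congr 2
            ring
    calc (∑ i ∈ Finset.range (p.natDegree + 1), |((p.coeff i : ℤ) : ℝ)|) * (δ / ρ) ^ (μ + 1)
        ≤ G * (δ / ρ) ^ (μ + 1) := mul_le_mul_of_nonneg_right hS0 (by (clear * - hδ0 h1; positivity))
      _ = δ ^ μ * (G * (δ * (ρ⁻¹) ^ (μ + 1))) := by rw [h2]; ring
      _ ≤ δ ^ μ * (G * (δ * (ρ⁻¹) ^ (m₀ + 1))) := by (clear * - h3 hδ0 hnpos; gcongr)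
      _ ≤ _ := mul_le_mul_of_nonneg_left h4 (by positivity)
  have hδ1 : δ ≤ 1 := hδρ.trans hρ1
  have hmain : 1 / 2 * Real.exp (-(C3 * n)) * δ ^ m₀ ≤ |aeval lam p| := by
    have h2 : Real.exp (-(C3 * n)) * δ ^ μ ≤ |aeval lam p|
        + δ ^ μ * (1 / 2 * Real.exp (-(C3 * n))) :=
      (mul_le_mul_of_nonneg_right hlow (by positivity)).trans
        (hcore.trans (add_le_add le_rfl hrest))
    have h3 : δ ^ m₀ ≤ δ ^ μ := pow_le_pow_of_le_one hδ0.le hδ1 hμ0
    have h4 : 1 / 2 * Real.exp (-(C3 * n)) * δ ^ m₀ ≤ 1 / 2 * Real.exp (-(C3 * n)) * δ ^ μ := by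
      (clear * - h3; gcongr)
    linarith only [h4, h2]
  have hδm : Real.exp (-(2 * m₀ / κ * n)) ≤ δ ^ m₀ := by
    rw [hδD, ← Real.exp_nat_mul]
    apply Real.exp_le_exp.2
    have h2 : D ≤ 2 / κ * n := by
      rw [div_mul_eq_mul_div, le_div_iff₀ hκ]
      linarith only [hD2]
    have h3 : (m₀ : ℝ) * D ≤ m₀ * (2 / κ * n) := mul_le_mul_of_nonneg_left h2 (Nat.cast_nonneg _)
    have h4 : (m₀ : ℝ) * (2 / κ * n) = 2 * m₀ / κ * n := by ring
    linarith only [h3, h4]
  have hfin : 1 / 2 * Real.exp (-(C3 * n)) * Real.exp (-(2 * m₀ / κ * n))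
      ≤ Cs * Real.exp (-((2 * m₀ / κ + C3 + 1) * n)) := by
    refine le_trans ?_ (hmain.trans hsmall)
    (clear * - hδm; gcongr)
  have hsplit : Real.exp (-((2 * m₀ / κ + C3 + 1) * n))
      = Real.exp (-(C3 * n)) * Real.exp (-(2 * m₀ / κ * n)) * Real.exp (-(n : ℝ)) := by
    rw [← Real.exp_add, ← Real.exp_add]; congr 1; ring
  rw [hsplit] at hfin
  have hpos : 0 < Real.exp (-(C3 * n)) * Real.exp (-(2 * m₀ / κ * n)) := by positivity
  have : 1 / 2 * (Real.exp (-(C3 * n)) * Real.exp (-(2 * m₀ / κ * n)))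
      ≤ (Cs * Real.exp (-(n : ℝ))) * (Real.exp (-(C3 * n)) * Real.exp (-(2 * m₀ / κ * n))) := by
    linarith only [hfin]
  have := le_of_mul_le_mul_right this hpos
  linarith only [hn5, this]

omit [Fintype Λ] in
theorem hf_littleo (U : Ultrafilter ℕ) (m : ℕ → ℕ) (D : ℕ → ℝ) (X : ℝ → ℕ → Lev Λ)
    (hX : ∀ κ > 0, κ ≤ 1 → LargeLev U (X κ) ∧
      (∀ᶠ i in (U : Filter ℕ), ((X κ i).n : ℝ) ≤ κ * D i ∧ κ / 2 * D i ≤ (X κ i).n ∧
        (m i : ℝ) * Real.log (X κ i).n ≤ (X κ i).n))
    (κ : ℝ) (hκ : 0 < κ) (hκ1 : κ ≤ 1) (ε : ℝ) (hε : 0 < ε) (hε1 : ε ≤ 1) :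
    ∀ᶠ i in (U : Filter ℕ), (m i : ℝ) * Real.log (X κ i).n ≤ ε * (X κ i).n := by
  set κ' : ℝ := κ * ε / 4 with hκ'
  have hκ'0 : 0 < κ' := by positivity
  have hκ'1 : κ' ≤ 1 := by rw [hκ']; nlinarith only [hκ1, hκ, hε1]
  obtain ⟨_, h1⟩ := hX κ hκ hκ1
  obtain ⟨hL, h2⟩ := hX κ' hκ'0 hκ'1
  filter_upwards [h1, h2, hL (⌈8 / ε⌉₊ + 1)] with i ⟨a1, a2, a3⟩ ⟨b1, b2, b3⟩ hN
  have hn' : 8 / ε ≤ ((X κ' i).n : ℝ) := by
    have h3 : 8 / ε ≤ (⌈8 / ε⌉₊ : ℝ) := Nat.le_ceil _
    have h4 : ((⌈8 / ε⌉₊ + 1 : ℕ) : ℝ) ≤ ((X κ' i).n : ℝ) := by exact_mod_cast hN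
    push_cast at h4
    linarith only [h4, h3]
  have h8 : 0 < 8 / ε := by positivity
  have hn'0 : 0 < ((X κ' i).n : ℝ) := lt_of_lt_of_le h8 hn'
  rcases Nat.eq_zero_or_pos (X κ i).n with h0 | h0
  · rw [h0]; simp
  · have hn0 : (0 : ℝ) < (X κ i).n := by exact_mod_cast h0
    have h5 : ((X κ i).n : ℝ) ≤ 8 / ε * (X κ' i).n := by
      have h6 : D i ≤ 2 / κ' * (X κ' i).n := by
        rw [div_mul_eq_mul_div, le_div_iff₀ hκ'0]; linarith only [b2]
      calc ((X κ i).n : ℝ) ≤ κ * D i := a1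
        _ ≤ κ * (2 / κ' * (X κ' i).n) := mul_le_mul_of_nonneg_left h6 hκ.le
        _ = 8 / ε * (X κ' i).n := by rw [hκ']; field_simp; ring
    have h6 : Real.log (X κ i).n ≤ 2 * Real.log (X κ' i).n := by
      calc Real.log (X κ i).n ≤ Real.log (8 / ε * (X κ' i).n) := Real.log_le_log hn0 h5
        _ = Real.log (8 / ε) + Real.log (X κ' i).n := Real.log_mul h8.ne' hn'0.ne'
        _ ≤ Real.log (X κ' i).n + Real.log (X κ' i).n :=
            add_le_add (Real.log_le_log h8 hn') le_rfl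
        _ = 2 * Real.log (X κ' i).n := by ring
    calc (m i : ℝ) * Real.log (X κ i).n ≤ m i * (2 * Real.log (X κ' i).n) :=
          mul_le_mul_of_nonneg_left h6 (Nat.cast_nonneg _)
      _ = 2 * (m i * Real.log (X κ' i).n) := by ring
      _ ≤ 2 * (X κ' i).n := by linarith only [b3]
      _ ≤ 2 * (κ' * D i) := by linarith only [b1]
      _ = ε * (κ / 2 * D i) := by rw [hκ']; ring
      _ ≤ ε * (X κ i).n := mul_le_mul_of_nonneg_left a2 hε.le

end Vale.Agent.P114
end
end

section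

open scoped Classical
open Polynomial

noncomputable section

namespace Vale.Agent.P114

open FinProb

variable {Λ : Type} [Fintype Λ]

/-- diagonal choice of a slowly growing sequence -/
lemma hsDiag (Q : ℕ → ℕ → Prop) (h : ∀ q, ∃ n0, ∀ n ≥ n0, Q q n) :
    ∃ q : ℕ → ℕ, Filter.Tendsto q Filter.atTop Filter.atTop ∧ ∃ n1, ∀ n ≥ n1, Q (q n) n := by
  choose n0 hn0 using h
  -- q n = greatest q ≤ n with n0 q ≤ n
  set q : ℕ → ℕ := fun n => Nat.findGreatest (fun m => n0 m ≤ n) n with hq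
  refine ⟨q, ?_, n0 0, fun n hn => ?_⟩
  · rw [Filter.tendsto_atTop]
    intro b
    rw [Filter.eventually_atTop]
    refine ⟨max b (n0 b), fun n hn => ?_⟩
    exact Nat.le_findGreatest ((le_max_left _ _).trans hn) ((le_max_right _ _).trans hn)
  · refine hn0 _ _ ?_
    exact Nat.findGreatest_spec (P := fun m => n0 m ≤ n) (Nat.zero_le n) hn

namespace Sys
variable (S : Sys Λ)

end Sys

end Vale.Agent.P114
end
end

section

/-!
T10, weighted z-adic entropy: definitions and basic facts.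
-/

open scoped Classical

noncomputable section

namespace Vale.Agent.P114

open FinProb

/-- weight of a word -/
def wtl {Λ : Type} (wt : Λ → ℕ) (w : List Λ) : ℕ := (w.map wt).sum

/-- sign of a word -/
def sgl {Λ : Type} (sg : Λ → ℤ) (w : List Λ) : ℤ := (w.map sg).prod

/-- `∑ ± z^{weight} x_{w_l}` for sequences. -/
def zsumW {Λ : Type} {G : Type} [AddCommGroup G] (wt : Λ → ℕ) (sg : Λ → ℤ) (x : Λ → ℕ → G) :
    List Λ → ℕ → G
  | [], _ => 0
  | a :: w, m => x a m + (if m < wt a then 0 else sg a • zsumW wt sg x w (m - wt a))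

section basic

variable {Λ : Type} (wt : Λ → ℕ) (sg : Λ → ℤ) {ι : Type} (x : Λ → ℕ → (ι → ℤ))

@[simp] lemma wtl_nil : wtl wt ([] : List Λ) = 0 := rfl

@[simp] lemma wtl_cons (a : Λ) (w : List Λ) : wtl wt (a :: w) = wt a + wtl wt w := by
  simp [wtl]

@[simp] lemma sgl_nil : sgl sg ([] : List Λ) = 1 := rfl

@[simp] lemma sgl_cons (a : Λ) (w : List Λ) : sgl sg (a :: w) = sg a * sgl sg w := by
  simp [sgl]

lemma sgl_pm (hsg : ∀ i, sg i = 1 ∨ sg i = -1) (w : List Λ) : sgl sg w = 1 ∨ sgl sg w = -1 := by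
  induction w with
  | nil => left; rfl
  | cons a w ih =>
    rw [sgl_cons]
    rcases hsg a with h | h <;> rcases ih with h2 | h2 <;> rw [h, h2] <;> norm_num

lemma length_le_wtl (hwt : ∀ i, 1 ≤ wt i) (w : List Λ) : w.length ≤ wtl wt w := by
  induction w with
  | nil => simp
  | cons a w ih =>
    rw [wtl_cons, List.length_cons]
    have := hwt a
    omega

lemma wtl_le (A : ℕ) (hA : ∀ i, wt i ≤ A) (w : List Λ) : wtl wt w ≤ A * w.length := by
  induction w with
  | nil => simp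
  | cons a w ih =>
    rw [wtl_cons, List.length_cons, Nat.mul_succ]
    have := hA a
    omega

lemma hz_shift_smul (n : ℕ) (c : ℤ) (y : ℕ → (ι → ℤ)) :
    hzShift n (c • y) = c • hzShift n y := by
  funext m
  simp only [hzShift, Pi.smul_apply]
  split_ifs <;> simp

lemma hz_tru_smul (s : ℕ) (c : ℤ) (y : ℕ → (ι → ℤ)) : tru s (c • y) = c • tru s y := by
  funext m
  simp only [tru, Pi.smul_apply]
  split_ifs <;> simp

lemma hz_smul_inj (c : ℤ) (hc : c = 1 ∨ c = -1) {y z : ℕ → (ι → ℤ)} (h : c • y = c • z) :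
    y = z := by
  rcases hc with rfl | rfl
  · simpa using h
  · simpa using h

lemma zsumW_cons (a : Λ) (w : List Λ) :
    zsumW wt sg x (a :: w) = x a + sg a • hzShift (wt a) (zsumW wt sg x w) := by
  funext m
  simp only [zsumW, Pi.add_apply, Pi.smul_apply, hzShift]
  congr 1
  split_ifs <;> simp

lemma zsumW_nil : zsumW wt sg x ([] : List Λ) = 0 := by
  funext m
  simp [zsumW]

lemma hz_shift_zero (y : ℕ → (ι → ℤ)) : hzShift 0 y = y := by
  funext m
  simp [hzShift]

lemma zsumW_append (u v : List Λ) :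
    zsumW wt sg x (u ++ v)
      = zsumW wt sg x u + sgl sg u • hzShift (wtl wt u) (zsumW wt sg x v) := by
  induction u with
  | nil =>
    rw [List.nil_append, zsumW_nil, sgl_nil, wtl_nil, hz_shift_zero, one_smul, zero_add]
  | cons a u ih =>
    rw [List.cons_append, zsumW_cons, zsumW_cons, ih, hz_shift_add, hz_shift_smul,
      hz_shift_shift, wtl_cons, sgl_cons, smul_add, smul_smul, add_assoc, add_comm (wt a)]

lemma hz_tru_shift_ge (s n : ℕ) (h : s ≤ n) (y : ℕ → (ι → ℤ)) : tru s (hzShift n y) = 0 := by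
  funext l
  simp only [tru, hzShift]
  split_ifs with h1 h2
  · rfl
  · omega
  · rfl

variable [Fintype Λ] (P : FinProb Λ)

/-- entropy at the natural scale -/
def gW (s : ℕ) : ℝ := (P.pi s).H (fun w => tru s (zsumW wt sg x (List.ofFn w)))

lemma gW_eq (hwt : ∀ i, 1 ≤ wt i) (s N : ℕ) (h : s ≤ N) :
    (P.pi N).H (fun w => tru s (zsumW wt sg x (List.ofFn w))) = gW wt sg x P s := by
  obtain ⟨d, rfl⟩ := Nat.exists_eq_add_of_le h
  rw [← P.H_pi_add s d, gW, ← (P.pi s).H_prod_fst (P.pi d)]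
  congr 1
  funext y
  have h1 := length_le_wtl wt hwt (List.ofFn y.1)
  rw [List.length_ofFn] at h1
  rw [List.ofFn_fin_append, zsumW_append, hz_tru_add, hz_tru_smul,
    hz_tru_shift_ge _ _ h1, smul_zero, add_zero]

lemma gW_zero : gW wt sg x P 0 = 0 := hz_const _ _ fun v w => by
  funext m
  simp [tru]

lemma gW_shift (hwt : ∀ i, 1 ≤ wt i) (c : ℤ) (hc : c = 1 ∨ c = -1) (n m N : ℕ) (h : m - n ≤ N) :
    (P.pi N).H (fun v => tru m (c • hzShift n (zsumW wt sg x (List.ofFn v))))
      = gW wt sg x P (m - n) := by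
  rw [← gW_eq wt sg x P hwt (m - n) N h]
  exact H_congr_det _ fun v w => by
    rw [hz_tru_smul, hz_tru_smul, hz_tru_shift, hz_tru_shift]
    exact ⟨fun h => by rw [h], fun h => hz_shift_inj n (hz_smul_inj c hc h)⟩

lemma gW_mono (hwt : ∀ i, 1 ≤ wt i) : Monotone (gW wt sg x P) := by
  refine monotone_nat_of_le_succ fun s => ?_
  rw [← gW_eq wt sg x P hwt s (s + 1) (by omega)]
  refine H_le_of_det _ fun v w h => ?_
  rw [← hz_tru_tru s (s + 1) (by omega), h, hz_tru_tru _ _ (by omega)]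

lemma gW_le_log (s : ℕ) : gW wt sg x P s ≤ Real.log (Fintype.card Λ) * s := by
  unfold gW
  set f := fun w : Fin s → Λ => tru s (zsumW wt sg x (List.ofFn w)) with hf
  have h1 := (P.pi s).H_le_log_card f (Finset.univ.image f)
    (fun ω => Finset.mem_image_of_mem _ (Finset.mem_univ _))
  refine h1.trans ?_
  obtain ⟨ω0, -⟩ := (P.pi s).exists_w_pos
  have h2 : 0 < (Finset.univ.image f).card :=
    Finset.card_pos.2 ⟨f ω0, Finset.mem_image_of_mem _ (Finset.mem_univ _)⟩
  have h3 : (Finset.univ.image f).card ≤ Fintype.card Λ ^ s := by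
    refine Finset.card_image_le.trans ?_
    rw [Finset.card_univ, Fintype.card_fun, Fintype.card_fin]
  have h4 : Real.log ((Finset.univ.image f).card) ≤ Real.log ((Fintype.card Λ : ℝ) ^ s) := by
    refine Real.log_le_log (by exact_mod_cast h2) ?_
    exact_mod_cast h3
  rw [Real.log_pow] at h4
  linarith only [h4]

/-- The increments are superharmonic. -/
lemma gW_super (hwt : ∀ i, 1 ≤ wt i) (hsg : ∀ i, sg i = 1 ∨ sg i = -1) (s : ℕ) :
    ∑ a, P.w a * (gW wt sg x P (s + 1 - wt a) - gW wt sg x P (s - wt a))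
      ≤ gW wt sg x P (s + 1) - gW wt sg x P s := by
  have h1 := P.prod_cond_le (P.pi (s + 1))
    (fun y => tru (s + 1) (zsumW wt sg x (List.ofFn (Fin.cons y.1 y.2 : Fin (s + 2) → Λ))))
    (fun y => tru s (zsumW wt sg x (List.ofFn (Fin.cons y.1 y.2 : Fin (s + 2) → Λ))))
    (fun y z h => by
      rw [← hz_tru_tru s (s + 1) (by omega), h, hz_tru_tru _ _ (by omega)])
  rw [P.H_pi_succ (s + 1) (fun w => tru (s + 1) (zsumW wt sg x (List.ofFn w))),
    P.H_pi_succ (s + 1) (fun w => tru s (zsumW wt sg x (List.ofFn w))),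
    gW_eq wt sg x P hwt (s + 1) (s + 1 + 1) (by omega),
    gW_eq wt sg x P hwt s (s + 1 + 1) (by omega)] at h1
  have h2 : ∀ m ≤ s + 1, ∀ a, (P.pi (s + 1)).H (fun v => tru m
      (zsumW wt sg x (List.ofFn (Fin.cons a v : Fin (s + 2) → Λ)))) = gW wt sg x P (m - wt a) := by
    intro m hm a
    have := gW_shift wt sg x P hwt (sg a) (hsg a) (wt a) m (s + 1) (by omega)
    rw [← this]
    exact H_congr_det _ fun v w => by
      rw [List.ofFn_cons, List.ofFn_cons, zsumW_cons, zsumW_cons, hz_tru_add, hz_tru_add,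
        add_right_inj]
  simp only [h2 (s + 1) le_rfl, h2 s (by omega)] at h1
  exact h1

end basic

end Vale.Agent.P114
end
end

section

/-!
T10, weighted z-adic entropy: the digit gain, telescoped.
-/

open scoped Classical

noncomputable section

namespace Vale.Agent.P114

open FinProb

/-- one digit of `hz_all_w` -/
lemma hz_step_w {Λ : Type} [Fintype Λ] (P : FinProb Λ) (wt : Λ → ℕ) (sg : Λ → ℤ)
    (hwt : ∀ i, 1 ≤ wt i) {ι : Type} (x : Λ → ℕ → (ι → ℤ))
    {Ω : Type} [Fintype Ω] (PA : FinProb Ω) (U : Ω → ℕ → (ι → ℤ)) (A m N : ℕ) (hAm : A ≤ m)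
    (hN : m + 1 ≤ A + N) (σ : ℤ) (hσ : σ = 1 ∨ σ = -1) (a' : ℝ) (ha' : 0 ≤ a')
    (hinc : ∀ s, gW wt sg x P (s + 1) - gW wt sg x P s ≤ a') (k : ℕ) (hk0 : 0 < k)
    (hk : a' + 1 ≤ hzBin k) (T : ℝ) (hT : 0 ≤ T) :
    PA.H (fun ω => tru (m + 1) (U ω)) - PA.H (fun ω => tru m (U ω))
      ≤ (T * k + 1 + a' * k) * (((PA.prod (P.pi N)).H
          (fun y => tru (m + 1) (U y.1 + σ • hzShift A (zsumW wt sg x (List.ofFn y.2))))
          - (PA.prod (P.pi N)).H
          (fun y => tru m (U y.1 + σ • hzShift A (zsumW wt sg x (List.ofFn y.2)))))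
          - (gW wt sg x P (m + 1 - A) - gW wt sg x P (m - A))) + Real.exp (-T) := by
  set PB := P.pi N with hPB
  set K : ℝ := T * k + 1 + a' * k with hK
  have hK0 : 0 ≤ K := by (clear * - hT hk0 ha'; positivity)
  set W : (Fin N → Λ) → (ℕ → ι → ℤ) := fun v =>
    σ • hzShift A (zsumW wt sg x (List.ofFn v)) with hW
  set h : Ω → (ℕ → ι → ℤ) := fun w => tru m (U w) with hh
  set f1 : Ω → (ℕ → ι → ℤ) := fun w => tru (m + 1) (U w) with hf1
  set F1 : Ω × (Fin N → Λ) → (ℕ → ι → ℤ) := fun y =>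
    tru (m + 1) (U y.1 + W y.2) with hF1
  set F0 : Ω × (Fin N → Λ) → (ℕ → ι → ℤ) := fun y =>
    tru m (U y.1 + W y.2) with hF0
  have hF1' : F1 = fun y => f1 y.1 + tru (m + 1) (W y.2) := by
    funext y
    simp only [hF1, hf1, hz_tru_add]
  have hg1 : PB.H (fun v => tru (m + 1) (W v)) = gW wt sg x P (m + 1 - A) :=
    gW_shift wt sg x P hwt σ hσ A (m + 1) N (by omega)
  have hg0 : PB.H (fun v => tru m (W v)) = gW wt sg x P (m - A) :=
    gW_shift wt sg x P hwt σ hσ A m N (by omega)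
  have h1 : PA.H f1 = PA.H h + ∑ w, PA.w w * (PA.cond h (h w)).H f1 := by
    rw [← PA.H_pair_eq_cond f1 h]
    exact PA.H_congr_det fun v w => by
      constructor
      · intro h; exact (Prod.mk.inj h).1
      · intro h2
        have h3 : h v = h w := by
          simp only [hh]
          rw [← hz_tru_tru m (m + 1) (by omega) (U v),
            ← hz_tru_tru m (m + 1) (by omega) (U w)]
          simp only [hf1] at h2
          rw [h2]
        rw [h2, h3]
  have h2 : ∀ w, 0 < PA.w w → (PA.cond h (h w)).H f1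
      ≤ K * (((PA.cond h (h w)).prod PB).H F1 - gW wt sg x P (m + 1 - A)) + Real.exp (-T) := by
    intro w hw
    have e1 := hz_gain_supp (hz_truHom ι m) (PA.cond h (h w)) PB
      (fun v => tru (m + 1) (W v)) a' k ha' hk0 hk (by
        rw [hg1]
        have e2 : PB.H (fun b => (hz_truHom ι m) (tru (m + 1) (W b)))
            = gW wt sg x P (m - A) := by
          rw [← hg0]
          exact H_congr_det _ fun v w => by
            rw [hz_truHom_apply, hz_truHom_apply, hz_tru_tru m (m + 1) (by omega),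
              hz_tru_tru m (m + 1) (by omega)]
        rw [e2]
        have e3 := hinc (m - A)
        rw [show m - A + 1 = m + 1 - A by omega] at e3
        linarith only [e3]) f1 (h w) (fun w' hw' => by
        have e4 := PA.cond_supp h w hw w' hw'
        rw [hz_truHom_apply, ← e4]
        simp only [hf1, hh]
        rw [hz_tru_tru m (m + 1) (by omega)]) T hT
    rw [hg1] at e1
    rw [hF1']
    exact e1
  have h3 := PA.prod_cond_mix PB h F1 F0 (fun y z hyz => by
    have e1 : ∀ y, F0 y = tru m (F1 y) := by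
      intro y
      simp only [hF0, hF1]
      rw [hz_tru_tru m (m + 1) (by omega)]
    rw [e1, e1, hyz])
  have h4 : ∀ w, 0 < PA.w w → ((PA.cond h (h w)).prod PB).H F0 = gW wt sg x P (m - A) := by
    intro w hw
    rw [← hg0, ← (PA.cond h (h w)).H_prod_snd PB]
    rw [((PA.cond h (h w)).prod PB).H_congr_supp F0 (fun y => h w
      + tru m (W y.2)) (fun y hy => ?_)]
    · exact H_congr_det _ fun v w => by rw [add_right_inj]
    · have e1 : 0 < (PA.cond h (h w)).w y.1 := by
        rcases (PA.cond h (h w)).w_zero_or_pos y.1 with e2 | e2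
        · rw [prod_w, e2, zero_mul] at hy
          exact absurd hy (lt_irrefl _)
        · exact e2
      have e4 := PA.cond_supp h w hw y.1 e1
      simp only [hF0]
      rw [← e4, hz_tru_add]
  have h5 : ∑ w, PA.w w * (PA.cond h (h w)).H f1
      ≤ K * (∑ w, PA.w w * (((PA.cond h (h w)).prod PB).H F1 - ((PA.cond h (h w)).prod PB).H F0)
        + gW wt sg x P (m - A) - gW wt sg x P (m + 1 - A)) + Real.exp (-T) := by
    have e1 : ∀ w, PA.w w * (PA.cond h (h w)).H f1
        ≤ K * (PA.w w * (((PA.cond h (h w)).prod PB).H F1 - ((PA.cond h (h w)).prod PB).H F0))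
          + PA.w w * (K * (gW wt sg x P (m - A) - gW wt sg x P (m + 1 - A)) + Real.exp (-T)) := by
      intro w
      rcases PA.w_zero_or_pos w with hw | hw
      · rw [hw]
        simp only [zero_mul, mul_zero, add_zero, Std.le_refl]
      · have e2 := mul_le_mul_of_nonneg_left (h2 w hw) hw.le
        rw [h4 w hw]
        refine e2.trans (le_of_eq ?_)
        ring
    refine (Finset.sum_le_sum fun w _ => e1 w).trans (le_of_eq ?_)
    rw [Finset.sum_add_distrib, ← Finset.mul_sum, PA.sum_const]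
    ring
  rw [h1]
  have h6 := mul_le_mul_of_nonneg_left h3 hK0
  have h7 : K * (∑ w, PA.w w * (((PA.cond h (h w)).prod PB).H F1
        - ((PA.cond h (h w)).prod PB).H F0)
        + gW wt sg x P (m - A) - gW wt sg x P (m + 1 - A))
      = K * (∑ w, PA.w w * (((PA.cond h (h w)).prod PB).H F1
        - ((PA.cond h (h w)).prod PB).H F0))
        + K * (gW wt sg x P (m - A) - gW wt sg x P (m + 1 - A)) := by ring
  rw [h7] at h5
  have h8 : K * ((PA.prod PB).H F1 - (PA.prod PB).H F0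
      - (gW wt sg x P (m + 1 - A) - gW wt sg x P (m - A)))
      = K * ((PA.prod PB).H F1 - (PA.prod PB).H F0)
        + K * (gW wt sg x P (m - A) - gW wt sg x P (m + 1 - A)) := by ring
  rw [h8]
  linarith only [h5, h6]

/-- Template: `hz_step` and `hz_all` in `HomZ.lean`. Here the law `PA` of `U` is arbitrary, the
tail is `σ • hzShift A (zsumW ..)` with `N` letters (`N ≥ M - A`), and the entropies of the sums
are kept. One digit (`A ≤ m < M`, `F m y = tru m (U y.1 + σ • hzShift A (zsumW (ofFn y.2)))`):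
`PA.H (tru (m+1) U) - PA.H (tru m U) ≤ K * ((H (F (m+1)) - H (F m)) - (gW (m+1-A) - gW (m-A)))
+ exp (-T)` (condition on `tru m U`, `hz_gain_supp` with `hz_truHom ι m`, `gW_shift`,
`prod_cond_mix`); sum over `m`; `F A` and `tru A U` have the same entropy
(`hz_tru_shift_ge`). -/
theorem hz_all_w {Λ : Type} [Fintype Λ] (P : FinProb Λ) (wt : Λ → ℕ) (sg : Λ → ℤ)
    (hwt : ∀ i, 1 ≤ wt i) {ι : Type} (x : Λ → ℕ → (ι → ℤ))
    {Ω : Type} [Fintype Ω] (PA : FinProb Ω) (U : Ω → ℕ → (ι → ℤ)) (A M N : ℕ) (hAM : A ≤ M)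
    (hN : M ≤ A + N) (σ : ℤ) (hσ : σ = 1 ∨ σ = -1) (a' : ℝ) (ha' : 0 ≤ a')
    (hinc : ∀ s, gW wt sg x P (s + 1) - gW wt sg x P s ≤ a') (k : ℕ) (hk0 : 0 < k)
    (hk : a' + 1 ≤ hzBin k) (T : ℝ) (hT : 0 ≤ T) :
    PA.H (fun ω => tru M (U ω)) ≤ PA.H (fun ω => tru A (U ω))
      + (T * k + 1 + a' * k) * ((PA.prod (P.pi N)).H
          (fun y => tru M (U y.1 + σ • hzShift A (zsumW wt sg x (List.ofFn y.2))))
          - PA.H (fun ω => tru A (U ω)) - gW wt sg x P (M - A))
      + (M - A : ℕ) * Real.exp (-T) := by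
  obtain ⟨d, rfl⟩ := Nat.exists_eq_add_of_le hAM
  clear hAM
  induction d with
  | zero =>
    have e1 : (PA.prod (P.pi N)).H
        (fun y => tru (A + 0) (U y.1 + σ • hzShift A (zsumW wt sg x (List.ofFn y.2))))
        = PA.H (fun ω => tru A (U ω)) := by
      rw [← PA.H_prod_fst (P.pi N) (fun ω => tru A (U ω))]
      congr 1
      funext y
      rw [add_zero, hz_tru_add, hz_tru_smul, hz_tru_shift_self, smul_zero, add_zero]
    rw [e1]
    simp only [add_zero, Nat.sub_self, gW_zero, Nat.cast_zero, zero_mul, sub_self, mul_zero,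
      le_refl]
  | succ d ih =>
    have h0 := ih (by omega)
    have h1 := hz_step_w P wt sg hwt x PA U A (A + d) N (by omega) (by omega) σ hσ a' ha' hinc k
      hk0 hk T hT
    rw [show A + d + 1 - A = d + 1 by omega, show A + d - A = d by omega] at h1
    rw [show A + d - A = d by omega] at h0
    rw [show A + (d + 1) - A = d + 1 by omega, show A + (d + 1) = A + d + 1 by omega]
    push_cast
    generalize (T * k + 1 + a' * k) = K at *
    generalize (PA.prod (P.pi N)).H
          (fun y => tru (A + d + 1) (U y.1 + σ • hzShift A (zsumW wt sg x (List.ofFn y.2)))) = a1 at *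
    generalize (PA.prod (P.pi N)).H
          (fun y => tru (A + d) (U y.1 + σ • hzShift A (zsumW wt sg x (List.ofFn y.2)))) = a0 at *
    generalize PA.H (fun ω => tru A (U ω)) = b at *
    generalize PA.H (fun ω => tru (A + d) (U ω)) = b0 at *
    generalize PA.H (fun ω => tru (A + d + 1) (U ω)) = b1 at *
    linarith only [h0, h1]

end Vale.Agent.P114
end
end
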