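import Vale.Agent.P114.MathlibUsed
import Vale.Agent.P114.Bdl.B1
attribute [-instance] ProperSMul.toContinuousSMul IsTopologicalTorsor.toContinuousSMul IdemSemiring.toCanonicallyOrderedAdd IdemSemiring.toMulLeftMono IdemSemiring.toMulRightMono AddQuantale.instAddLeftMono AddQuantale.instAddRightMono Quantale.instMulLeftMono Quantale.instMulRightMono FiniteDimensional.rclike_to_real IsScalarTower.complexToReal FiniteDimensional.complexToReal

set_option linter.all false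

section

/-!
T12-C1. Reverse inequality, mixture and change of level for a system (contaminated shifts).
Templates: Dio/Detect1.lean.
-/

open scoped Classical

noncomputable section

namespace Vale.Agent.P114

open FinProb

variable {Λ : Type} [Fintype Λ] {C : Type*} [Fintype C]

namespace Sys
variable (S : Sys Λ)

/-- `ovlC` of the words following the prefix `v`. -/
lemma c1_ovlC_prefix (t : Λ → ℝ) {m : ℕ} (n : ℕ) (v : Fin m → Λ) (Q Q' : FinProb C)
    (u u' : C → ℝ) (γ K : ℝ) :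
    ovlC (S.P.pi n) (fun w => tr S.r t w) Q Q' (fun c => u c / sl S.r v)
        (fun c => u' c / sl S.r v) γ (K * |sl S.r v|)
      = ovlC (S.P.pi n) (fun w => tr S.r t v + sl S.r v * tr S.r t w) Q Q' u u' γ K := by
  have h1 : sl S.r v ≠ 0 := abs_pos.1 (S.abs_sl_pos v)
  rw [← ovlC_affine (S.P.pi n) (fun w => tr S.r t w) Q Q' u u' (b := tr S.r t v) h1]
  simp only [add_comm]

theorem rev_sysC (t : Λ → ℝ) (m n j d : ℕ) (Q Q' : FinProb C) (u u' : C → ℝ)
    (γ Dm K τ η : ℝ) (hγ : 0 ≤ γ) (hK : 0 < K) (hη : 0 < η)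
    (hu : ∀ c, 0 < Q.w c → |u c| ≤ Dm) (hu' : ∀ c, 0 < Q'.w c → |u' c| ≤ Dm) :
    ∑ v, (S.P.pi m).w v * ovlC (S.P.pi n) (fun w => tr S.r t w) Q Q'
        (fun c => u c / sl S.r v) (fun c => u' c / sl S.r v) γ (K * |sl S.r v|)
      ≤ ovlC (S.P.pi (m + n)) (fun w => tr S.r t w) Q Q' u u' γ (2 * K)
        + (1 + γ) * (2 * K / 2 ^ (d + j)
          + ((S.Im t m n (d + j) τ - S.Im t m n j τ) / η + η)
          + ∑ w, (S.P.pi (m + n)).w w * (if |(2 : ℝ) ^ j * (tr S.r t w + τ)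
            - round ((2 : ℝ) ^ j * (tr S.r t w + τ))| ≤ 2 ^ j * (Dm + 1 / K) then 1 else 0)) := by
  have h := ovlC_reverse (S.P.pi m) (S.P.pi n) Q Q'
    (fun x => tr S.r t x.1 + sl S.r x.1 * tr S.r t x.2) u u' γ Dm K ((2 : ℝ) ^ j) τ η d hγ hK
    (by positivity) hη hu hu'
  rw [ovlC_append, d1_sum_append]
  simp only [c1_ovlC_prefix, tr_append, Sys.Im]
  simp only [← mul_assoc, ← pow_add] at h ⊢
  exact h

/-- Mixture over the first `m` letters. -/
theorem ovlC_mix_sys (t : Λ → ℝ) (m n : ℕ) (Q Q' : FinProb C) (u u' : C → ℝ) (γ K : ℝ)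
    (hγ : 0 ≤ γ) (hK : 0 ≤ K) :
    ovlC (S.P.pi (m + n)) (fun w => tr S.r t w) Q Q' u u' γ K
      ≤ ∑ v, (S.P.pi m).w v
        * ovlC (S.P.pi n) (fun w => tr S.r t w) Q Q' (fun c => u c / sl S.r v)
          (fun c => u' c / sl S.r v) γ (K * |sl S.r v|) := by
  rw [ovlC_append]
  simp only [c1_ovlC_prefix, tr_append]
  exact ovlC_prod_le (S.P.pi m) Q Q' u u' (S.P.pi n)
    (fun x => tr S.r t x.1 + sl S.r x.1 * tr S.r t x.2) hγ hK

/-- Change of level (`tr (append u v) - tr u = sl u * tr v`). -/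
theorem ovlC_level (t : Λ → ℝ) (n m : ℕ) (Q Q' : FinProb C) (u u' : C → ℝ) (γ K : ℝ)
    (hγ : 0 ≤ γ) (hK : 0 ≤ K) :
    |ovlC (S.P.pi (n + m)) (fun w => tr S.r t w) Q Q' u u' γ K
      - ovlC (S.P.pi n) (fun w => tr S.r t w) Q Q' u u' γ K|
      ≤ (1 + γ) * (K * (S.D t * S.ρ ^ n)) := by
  rw [ovlC_append]
  simp only [tr_append]
  rw [← ovlC_prod_fst (S.P.pi n) (fun w => tr S.r t w) Q Q' u u' (S.P.pi m)]
  have hb : ∀ x : (Fin n → Λ) × (Fin m → Λ),
      |tr S.r t x.1 + sl S.r x.1 * tr S.r t x.2 - tr S.r t x.1| ≤ S.D t * S.ρ ^ n := by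
    intro x
    rw [add_sub_cancel_left, abs_mul, mul_comm (S.D t)]
    exact mul_le_mul (S.abs_sl_le x.1) (S.abs_tr_le t x.2) (abs_nonneg _)
      (pow_nonneg S.ρ_pos.le _)
  have h1 := ovlC_perturb ((S.P.pi n).prod (S.P.pi m))
    (fun x => tr S.r t x.1 + sl S.r x.1 * tr S.r t x.2) Q Q' u u' hγ hK
    (fun x => tr S.r t x.1) u u' (δ := S.D t * S.ρ ^ n) (δ' := S.D t * S.ρ ^ n)
    (fun x c _ => by
      have e : tr S.r t x.1 + sl S.r x.1 * tr S.r t x.2 + u c - (tr S.r t x.1 + u c)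
        = tr S.r t x.1 + sl S.r x.1 * tr S.r t x.2 - tr S.r t x.1 := by ring
      rw [e]; exact hb x)
    (fun x c _ => by
      have e : tr S.r t x.1 + sl S.r x.1 * tr S.r t x.2 + u' c - (tr S.r t x.1 + u' c)
        = tr S.r t x.1 + sl S.r x.1 * tr S.r t x.2 - tr S.r t x.1 := by ring
      rw [e]; exact hb x)
  have h2 := ovlC_perturb ((S.P.pi n).prod (S.P.pi m)) (fun x => tr S.r t x.1) Q Q' u u' hγ hK
    (fun x => tr S.r t x.1 + sl S.r x.1 * tr S.r t x.2) u u' (δ := S.D t * S.ρ ^ n)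
    (δ' := S.D t * S.ρ ^ n)
    (fun x c _ => by
      have e : tr S.r t x.1 + u c - (tr S.r t x.1 + sl S.r x.1 * tr S.r t x.2 + u c)
        = tr S.r t x.1 - (tr S.r t x.1 + sl S.r x.1 * tr S.r t x.2) := by ring
      rw [e, abs_sub_comm]; exact hb x)
    (fun x c _ => by
      have e : tr S.r t x.1 + u' c - (tr S.r t x.1 + sl S.r x.1 * tr S.r t x.2 + u' c)
        = tr S.r t x.1 - (tr S.r t x.1 + sl S.r x.1 * tr S.r t x.2) := by ring
      rw [e, abs_sub_comm]; exact hb x)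
  rw [abs_le]
  constructor <;> linarith only [h1, h2]

end Sys

end Vale.Agent.P114
end
end

section

/-!
T11-C. Bad scales and offsets.
-/

open scoped Classical

noncomputable section

namespace Vale.Agent.P114

open FinProb

/-- Telescoping over windows of a bounded monotone function. -/
lemma window_sum (Φ : ℕ → ℝ) (h0 : ∀ j, 0 ≤ Φ j) (B : ℝ) (hB : ∀ j, Φ j ≤ B) (T l : ℕ) :
    ∀ l' : ℕ, ∑ s ∈ Finset.range T, (Φ (s + l') - Φ (s - l)) ≤ (l + l') * B := by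
  intro l'
  induction l' with
  | zero =>
    induction l with
    | zero => simp only [add_zero, tsub_zero, sub_self, Finset.sum_const_zero, CharP.cast_eq_zero, zero_mul, Std.le_refl]
    | succ c ih =>
      have h1 : ∀ s, Φ (s + 0) - Φ (s - (c + 1))
          = (Φ (s + 0) - Φ (s - c)) + (Φ (s + 1 - (c + 1)) - Φ (s - (c + 1))) := by
        intro s
        have : s + 1 - (c + 1) = s - c := by omega
        rw [this]; ring
      rw [Finset.sum_congr rfl fun s _ => h1 s, Finset.sum_add_distrib,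
        Finset.sum_range_sub (fun s => Φ (s - (c + 1))) T]
      have h2 := hB (T - (c + 1))
      have h3 : Φ (0 - (c + 1)) = Φ 0 := by simp only [zero_tsub]
      have h4 := h0 0
      rw [h3]
      push_cast at ih ⊢
      linarith only [h2, h4, ih]
  | succ c ih =>
    have h1 : ∀ s, Φ (s + (c + 1)) - Φ (s - l)
        = (Φ (s + c) - Φ (s - l)) + (Φ (s + 1 + c) - Φ (s + c)) := by
      intro s
      have : s + (c + 1) = s + 1 + c := by omega
      rw [this]; ring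
    rw [Finset.sum_congr rfl fun s _ => h1 s, Finset.sum_add_distrib,
      Finset.sum_range_sub (fun s => Φ (s + c)) T]
    have h2 := hB (T + c)
    have h3 := h0 (0 + c)
    push_cast at ih ⊢
    linarith only [ih, h2, h3]

/-- Few windows of a bounded monotone function have a large increment
(compare `telescope_trunc`). -/
theorem bad_windows (Φ : ℕ → ℝ) (hmono : Monotone Φ) (h0 : ∀ j, 0 ≤ Φ j) (B : ℝ)
    (hB : ∀ j, Φ j ≤ B) (l l' : ℕ) (ε : ℝ) (hε : 0 < ε) (T : ℕ) :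
    (((Finset.range T).filter (fun Sc => l ≤ Sc ∧ ε < Φ (Sc + l') - Φ (Sc - l))).card : ℝ)
      ≤ (l + l') * B / ε := by
  rw [le_div_iff₀ hε]
  refine le_trans ?_ (window_sum Φ h0 B hB T l l')
  calc (((Finset.range T).filter (fun Sc => l ≤ Sc ∧ ε < Φ (Sc + l') - Φ (Sc - l))).card : ℝ) * ε
      = ∑ _s ∈ (Finset.range T).filter (fun Sc => l ≤ Sc ∧ ε < Φ (Sc + l') - Φ (Sc - l)), ε := by
        rw [Finset.sum_const, nsmul_eq_mul]
    _ ≤ ∑ s ∈ (Finset.range T).filter (fun Sc => l ≤ Sc ∧ ε < Φ (Sc + l') - Φ (Sc - l)),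
          (Φ (s + l') - Φ (s - l)) :=
        Finset.sum_le_sum fun s hs => (Finset.mem_filter.1 hs).2.2.le
    _ ≤ ∑ s ∈ Finset.range T, (Φ (s + l') - Φ (s - l)) :=
        Finset.sum_le_sum_of_subset_of_nonneg (Finset.filter_subset _ _) fun s _ _ =>
          sub_nonneg.2 (hmono (by omega))

/-- The number of points of a grid of mesh `1 / M` close to a given point. -/
lemma near_count (M : ℕ) (hM : 0 < M) (y c δ : ℝ) (hδ : 0 ≤ δ) :
    (((Finset.range M).filter (fun a : ℕ => |y + (a : ℝ) / M - c| ≤ δ)).card : ℝ)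
      ≤ 2 * δ * M + 1 := by
  have hM' : (0 : ℝ) < M := by exact_mod_cast hM
  have h1 : ((Finset.range M).filter (fun a : ℕ => |y + (a : ℝ) / M - c| ≤ δ)).card
      ≤ (Finset.Icc ⌈(c - y - δ) * M⌉ ⌊(c - y + δ) * M⌋).card := by
    refine Finset.card_le_card_of_injOn (fun a : ℕ => (a : ℤ)) ?_ ?_
    · intro a ha
      have h2 := (Finset.mem_filter.1 (Finset.mem_coe.1 ha)).2
      obtain ⟨h3, h4⟩ := abs_le.1 h2
      have h5 : (a : ℝ) / M * M = a := div_mul_cancel₀ _ hM'.ne'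
      simp only [Finset.coe_Icc, Set.mem_Icc]
      constructor
      · rw [Int.ceil_le]
        push_cast
        rw [← h5]
        exact mul_le_mul_of_nonneg_right (by linarith only [h3]) hM'.le
      · rw [Int.le_floor]
        push_cast
        rw [← h5]
        exact mul_le_mul_of_nonneg_right (by (clear * - h4; linarith)) hM'.le
    · intro a _ b _ hab
      exact Int.ofNat.inj hab
  have h2 : ((Finset.Icc ⌈(c - y - δ) * M⌉ ⌊(c - y + δ) * M⌋).card : ℝ) ≤ 2 * δ * M + 1 := by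
    rw [Int.card_Icc]
    have h3 : ((⌊(c - y + δ) * M⌋ + 1 - ⌈(c - y - δ) * M⌉ : ℤ) : ℝ) ≤ 2 * δ * M + 1 := by
      push_cast
      have h4 := Int.floor_le ((c - y + δ) * M)
      have h5 := Int.le_ceil ((c - y - δ) * M)
      linarith only [h4, h5]
    have h6 : (0 : ℝ) ≤ 2 * δ * M + 1 := by (clear * - hδ hM; positivity)
    rcases le_total 0 (⌊(c - y + δ) * M⌋ + 1 - ⌈(c - y - δ) * M⌉) with h | h
    · have : ((⌊(c - y + δ) * M⌋ + 1 - ⌈(c - y - δ) * M⌉).toNat : ℝ)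
          = ((⌊(c - y + δ) * M⌋ + 1 - ⌈(c - y - δ) * M⌉ : ℤ) : ℝ) := by
        exact_mod_cast congrArg (Int.cast : ℤ → ℝ) (Int.toNat_of_nonneg h)
      rw [this]
      exact h3
    · rw [Int.toNat_of_nonpos h]
      simpa only [CharP.cast_eq_zero, ge_iff_le] using h6
  exact (Nat.cast_le.2 h1).trans h2

/-- The number of points of a grid of mesh `1 / M` in a unit interval close to an integer. -/
lemma near_int_count (M : ℕ) (hM : 0 < M) (y δ : ℝ) (hδ : 0 ≤ δ) :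
    (((Finset.range M).filter (fun a : ℕ =>
      |y + (a : ℝ) / M - round (y + (a : ℝ) / M)| ≤ δ)).card : ℝ) ≤ 4 * δ * M + 2 := by
  have hM' : (0 : ℝ) < M := by exact_mod_cast hM
  have hsub : (Finset.range M).filter (fun a : ℕ =>
      |y + (a : ℝ) / M - round (y + (a : ℝ) / M)| ≤ δ)
      ⊆ (Finset.range M).filter (fun a : ℕ => |y + (a : ℝ) / M - (round y : ℝ)| ≤ δ)
        ∪ (Finset.range M).filter (fun a : ℕ => |y + (a : ℝ) / M - ((round y : ℝ) + 1)| ≤ δ) := by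
    intro a ha
    obtain ⟨ha1, ha2⟩ := Finset.mem_filter.1 ha
    have haM : (a : ℝ) < M := by exact_mod_cast Finset.mem_range.1 ha1
    have h0 : 0 ≤ (a : ℝ) / M := by (clear * - hM; positivity)
    have h1 : (a : ℝ) / M ≤ 1 := (div_le_one hM').2 haM.le
    have h2 : round y ≤ round (y + (a : ℝ) / M) := by
      rw [round_eq, round_eq]
      exact Int.floor_le_floor (by linarith only [h0])
    have h3 : round (y + (a : ℝ) / M) ≤ round y + 1 := by
      rw [← round_add_one, round_eq, round_eq]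
      exact Int.floor_le_floor (by linarith only [h1])
    rw [Finset.mem_union, Finset.mem_filter, Finset.mem_filter]
    rcases eq_or_lt_of_le h2 with h4 | h4
    · left
      refine ⟨ha1, ?_⟩
      rw [h4]
      exact ha2
    · right
      refine ⟨ha1, ?_⟩
      have h5 : round (y + (a : ℝ) / M) = round y + 1 := le_antisymm h3 h4
      rw [h5] at ha2
      push_cast at ha2
      exact ha2
  have h1 := (Finset.card_le_card hsub).trans (Finset.card_union_le _ _)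
  have h2 := near_count M hM y (round y : ℝ) δ hδ
  have h3 := near_count M hM y ((round y : ℝ) + 1) δ hδ
  have h4 : (((Finset.range M).filter (fun a : ℕ =>
      |y + (a : ℝ) / M - round (y + (a : ℝ) / M)| ≤ δ)).card : ℝ)
      ≤ ((Finset.range M).filter (fun a : ℕ => |y + (a : ℝ) / M - (round y : ℝ)| ≤ δ)).card
        + ((Finset.range M).filter (fun a : ℕ =>
            |y + (a : ℝ) / M - ((round y : ℝ) + 1)| ≤ δ)).card := by
    exact_mod_cast h1
  linarith only [h4, h3, h2]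

/-- Few offsets put a given point near the boundary of a cell. -/
theorem offset_count (T0 j : ℕ) (hj : j ≤ T0) (x δ : ℝ) (hδ : 0 ≤ δ) :
    (((Finset.range (2 ^ T0)).filter (fun i : ℕ =>
      |(2 : ℝ) ^ j * (x + (i : ℝ) / 2 ^ T0) - round ((2 : ℝ) ^ j * (x + (i : ℝ) / 2 ^ T0))|
        ≤ δ)).card : ℝ) ≤ 4 * δ * 2 ^ T0 + 2 * 2 ^ j := by
  obtain ⟨d, rfl⟩ := Nat.exists_eq_add_of_le hj
  have hM : 0 < 2 ^ d := by positivity
  have key : ∀ i : ℕ, (2 : ℝ) ^ j * (x + (i : ℝ) / 2 ^ (j + d))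
      = ((2 : ℝ) ^ j * x + ((i % 2 ^ d : ℕ) : ℝ) / ((2 ^ d : ℕ) : ℝ)) + ((i / 2 ^ d : ℕ) : ℝ) := by
    intro i
    have h1 : (i : ℝ) = ((i % 2 ^ d : ℕ) : ℝ) + ((2 ^ d : ℕ) : ℝ) * ((i / 2 ^ d : ℕ) : ℝ) := by
      exact_mod_cast (Nat.mod_add_div i (2 ^ d)).symm
    have h2 : (2 : ℝ) ^ j ≠ 0 := by positivity
    have h3 : (2 : ℝ) ^ d ≠ 0 := by positivity
    conv_lhs => rw [h1]
    push_cast
    rw [pow_add]
    field_simp
    ring
  have h1 : ((Finset.range (2 ^ (j + d))).filter (fun i : ℕ =>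
      |(2 : ℝ) ^ j * (x + (i : ℝ) / 2 ^ (j + d))
        - round ((2 : ℝ) ^ j * (x + (i : ℝ) / 2 ^ (j + d)))| ≤ δ)).card
      ≤ (((Finset.range (2 ^ d)).filter (fun a : ℕ =>
      |(2 : ℝ) ^ j * x + (a : ℝ) / ((2 ^ d : ℕ) : ℝ)
        - round ((2 : ℝ) ^ j * x + (a : ℝ) / ((2 ^ d : ℕ) : ℝ))| ≤ δ))
        ×ˢ Finset.range (2 ^ j)).card := by
    refine Finset.card_le_card_of_injOn (fun i : ℕ => (i % 2 ^ d, i / 2 ^ d)) ?_ ?_
    · intro i hi
      obtain ⟨hi1, hi2⟩ := Finset.mem_filter.1 (Finset.mem_coe.1 hi)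
      rw [Finset.mem_range] at hi1
      rw [key i, round_add_natCast, Int.cast_add, Int.cast_natCast, add_sub_add_right_eq_sub] at hi2
      rw [Finset.mem_coe, Finset.mem_product, Finset.mem_filter]
      refine ⟨⟨Finset.mem_range.2 (Nat.mod_lt _ hM), hi2⟩, ?_⟩
      rw [Finset.mem_range]
      refine Nat.div_lt_of_lt_mul ?_
      rw [← pow_add, add_comm d j]
      exact hi1
    · intro a _ b _ hab
      have h1 : a % 2 ^ d = b % 2 ^ d := congrArg Prod.fst hab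
      have h2 : a / 2 ^ d = b / 2 ^ d := congrArg Prod.snd hab
      rw [← Nat.mod_add_div a (2 ^ d), ← Nat.mod_add_div b (2 ^ d), h1, h2]
  rw [Finset.card_product, Finset.card_range] at h1
  have h2 := near_int_count (2 ^ d) hM ((2 : ℝ) ^ j * x) δ hδ
  have h3 : (((Finset.range (2 ^ (j + d))).filter (fun i : ℕ =>
      |(2 : ℝ) ^ j * (x + (i : ℝ) / 2 ^ (j + d))
        - round ((2 : ℝ) ^ j * (x + (i : ℝ) / 2 ^ (j + d)))| ≤ δ)).card : ℝ)
      ≤ (((Finset.range (2 ^ d)).filter (fun a : ℕ =>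
      |(2 : ℝ) ^ j * x + (a : ℝ) / ((2 ^ d : ℕ) : ℝ)
        - round ((2 : ℝ) ^ j * x + (a : ℝ) / ((2 ^ d : ℕ) : ℝ))| ≤ δ)).card : ℝ) * 2 ^ j := by
    exact_mod_cast h1
  have h4 : (0 : ℝ) < 2 ^ j := by positivity
  calc _ ≤ _ := h3
    _ ≤ (4 * δ * ((2 ^ d : ℕ) : ℝ) + 2) * 2 ^ j := mul_le_mul_of_nonneg_right h2 h4.le
    _ = 4 * δ * 2 ^ (j + d) + 2 * 2 ^ j := by
      push_cast
      rw [pow_add]
      ring

variable {Λ : Type} [Fintype Λ]

namespace Sys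
variable (S : Sys Λ)

lemma Im_mono (t : Λ → ℝ) (m n : ℕ) (τ : ℝ) : Monotone (fun j => S.Im t m n j τ) := by
  intro j j' hjj
  obtain ⟨d, rfl⟩ := Nat.exists_eq_add_of_le hjj
  simp only [Im, mI]
  set P := (S.P.pi m).prod (S.P.pi n) with hP
  set Z : (Fin m → Λ) × (Fin n → Λ) → ℝ :=
    fun x => tr S.r t x.1 + sl S.r x.1 * tr S.r t x.2 + τ with hZ
  have hdet : ∀ x y, ⌊(2 : ℝ) ^ (j + d) * Z x⌋ = ⌊(2 : ℝ) ^ (j + d) * Z y⌋ →
      ⌊(2 : ℝ) ^ j * Z x⌋ = ⌊(2 : ℝ) ^ j * Z y⌋ := by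
    intro x y h
    rw [← floor_mul_ediv ((2 : ℝ) ^ j * Z x) d, ← floor_mul_ediv ((2 : ℝ) ^ j * Z y) d,
      ← mul_assoc, ← mul_assoc, ← pow_add, add_comm d j, h]
  have h1 := P.H_submod (fun x => x.1) (fun x => ⌊(2 : ℝ) ^ (j + d) * Z x⌋)
    (fun x => ⌊(2 : ℝ) ^ j * Z x⌋)
  have h2 : P.H (fun x => (⌊(2 : ℝ) ^ (j + d) * Z x⌋, ⌊(2 : ℝ) ^ j * Z x⌋))
      = P.H (fun x => ⌊(2 : ℝ) ^ (j + d) * Z x⌋) := by
    refine P.H_congr_det fun x y => ⟨fun h => ?_, fun h => (Prod.mk.inj h).1⟩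
    rw [h, hdet x y h]
  have h3 : P.H (fun x => (x.1, ⌊(2 : ℝ) ^ (j + d) * Z x⌋, ⌊(2 : ℝ) ^ j * Z x⌋))
      = P.H (fun x => (x.1, ⌊(2 : ℝ) ^ (j + d) * Z x⌋)) := by
    refine P.H_congr_det fun x y => ⟨fun h => ?_, fun h => ?_⟩
    · obtain ⟨h4, h5⟩ := Prod.mk.inj h
      rw [h4, h5, hdet x y h5]
    · obtain ⟨h4, h5⟩ := Prod.mk.inj h
      rw [h4, (Prod.mk.inj h5).1]
  linarith

lemma Im_nonneg (t : Λ → ℝ) (m n j : ℕ) (τ : ℝ) : 0 ≤ S.Im t m n j τ := by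
  simp only [Im, mI]
  set P := (S.P.pi m).prod (S.P.pi n) with hP
  set g : (Fin m → Λ) × (Fin n → Λ) → ℤ :=
    fun x => ⌊(2 : ℝ) ^ j * (tr S.r t x.1 + sl S.r x.1 * tr S.r t x.2 + τ)⌋ with hg
  have h1 := P.H_submod (fun x => x.1) g (fun _ => ())
  have h2 := P.H_nonneg (fun _ => ())
  have h3 : P.H (fun x => (x.1, g x)) ≤ P.H (fun x => (x.1, g x, ())) :=
    P.H_le_of_det fun x y h => by
      obtain ⟨h4, h5⟩ := Prod.mk.inj h
      rw [h4, (Prod.mk.inj h5).1]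
  have h4 : P.H (fun x => (x.1, ())) ≤ P.H (fun x => x.1) :=
    P.H_le_of_det fun x y h => by rw [h]
  have h5 : P.H (fun x => (g x, ())) ≤ P.H g :=
    P.H_le_of_det fun x y h => by rw [h]
  linarith only [h1, h2, h3, h4, h5]

lemma Im_le (t : Λ → ℝ) (m n j : ℕ) (τ : ℝ) :
    S.Im t m n j τ ≤ m * Real.log (Fintype.card Λ) := by
  simp only [Im, mI]
  set P := (S.P.pi m).prod (S.P.pi n) with hP
  set g : (Fin m → Λ) × (Fin n → Λ) → ℤ :=
    fun x => ⌊(2 : ℝ) ^ j * (tr S.r t x.1 + sl S.r x.1 * tr S.r t x.2 + τ)⌋ with hg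
  have h1 : P.H g ≤ P.H (fun x => (x.1, g x)) :=
    P.H_le_of_det fun x y h => (Prod.mk.inj h).2
  have h2 : P.H (fun x => x.1) ≤ Real.log (Finset.univ : Finset (Fin m → Λ)).card :=
    P.H_le_log_card (fun x => x.1) Finset.univ fun x => Finset.mem_univ _
  have h3 : Real.log (Finset.univ : Finset (Fin m → Λ)).card
      = m * Real.log (Fintype.card Λ) := by
    rw [Finset.card_univ, Fintype.card_fun, Fintype.card_fin]
    push_cast
    rw [Real.log_pow]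
  linarith only [h1, h2, h3]

end Sys

end Vale.Agent.P114
end
end

section

/-!
T11-G2. The two averaged inequalities.
-/

open scoped Classical

noncomputable section

namespace Vale.Agent.P114

open FinProb

variable {Λ : Type} [Fintype Λ]

namespace Sys
variable (S : Sys Λ)

/-- Total information in the cells of size `2 ^ (-j)`. -/
def PhiI (t : Λ → ℝ) (N m0 T0 j : ℕ) : ℝ :=
  ∑ m ∈ Finset.Ico m0 (2 * m0), ∑ i ∈ Finset.range (2 ^ T0),
    S.Im t m (N - m) j ((i : ℝ) / 2 ^ T0)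

lemma PhiI_mono (t : Λ → ℝ) (N m0 T0 : ℕ) : Monotone (S.PhiI t N m0 T0) := by
  intro j j' hjj
  exact Finset.sum_le_sum fun m _ => Finset.sum_le_sum fun i _ => S.Im_mono t m (N - m) _ hjj

lemma PhiI_nonneg (t : Λ → ℝ) (N m0 T0 j : ℕ) : 0 ≤ S.PhiI t N m0 T0 j :=
  Finset.sum_nonneg fun m _ => Finset.sum_nonneg fun _ _ => S.Im_nonneg t m (N - m) j _

lemma PhiI_le (t : Λ → ℝ) (N m0 T0 j : ℕ) :
    S.PhiI t N m0 T0 j ≤ m0 * 2 ^ T0 * (2 * m0 * Real.log (Fintype.card Λ)) := by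
  have hlog : 0 ≤ Real.log (Fintype.card Λ) := Real.log_natCast_nonneg _
  have h1 : ∀ m ∈ Finset.Ico m0 (2 * m0), ∀ i ∈ Finset.range (2 ^ T0),
      S.Im t m (N - m) j ((i : ℝ) / 2 ^ T0) ≤ 2 * m0 * Real.log (Fintype.card Λ) := by
    intro m hm i _
    refine (S.Im_le t m (N - m) j _).trans (mul_le_mul_of_nonneg_right ?_ hlog)
    have h2 := (Finset.mem_Ico.1 hm).2.le
    exact_mod_cast h2
  calc S.PhiI t N m0 T0 j
      ≤ ∑ m ∈ Finset.Ico m0 (2 * m0), ∑ i ∈ Finset.range (2 ^ T0),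
        2 * (m0 : ℝ) * Real.log (Fintype.card Λ) :=
        Finset.sum_le_sum fun m hm => Finset.sum_le_sum fun i hi => h1 m hm i hi
    _ = m0 * 2 ^ T0 * (2 * m0 * Real.log (Fintype.card Λ)) := by
      rw [Finset.sum_const, Finset.sum_const, Nat.card_Ico, Finset.card_range, nsmul_eq_mul,
        nsmul_eq_mul, show 2 * m0 - m0 = m0 by omega]
      push_cast
      ring

lemma le_avg {m0 : ℕ} (hm : 1 ≤ m0) {c : ℝ} {f : ℕ → ℝ}
    (h : ∀ m ∈ Finset.Ico m0 (2 * m0), c ≤ f m) :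
    c ≤ (∑ m ∈ Finset.Ico m0 (2 * m0), f m) / m0 := by
  have h0 : (0 : ℝ) < m0 := by exact_mod_cast hm
  rw [le_div_iff₀ h0]
  have h1 := Finset.card_nsmul_le_sum _ _ _ h
  rw [Nat.card_Ico, nsmul_eq_mul, show 2 * m0 - m0 = m0 by omega] at h1
  (clear * - h1; linarith)

lemma cAvg_const (m : ℕ) (c : ℝ) : ∑ v, (S.P.pi m).w v * c = c := by
  rw [← Finset.sum_mul, (S.P.pi m).sum_one, one_mul]

end Sys

end Vale.Agent.P114
end
end

section

/-!
T12-C2. The two averaged inequalities (contaminated shifts). Templates: Dio/Detect2.lean.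
-/

open scoped Classical

noncomputable section

namespace Vale.Agent.P114

open FinProb

variable {Λ : Type} [Fintype Λ] {C : Type*} [Fintype C]

namespace Sys
variable (S : Sys Λ)

lemma c2_ovlC_cast (t : Λ → ℝ) {N N' : ℕ} (h : N = N') (Q Q' : FinProb C) (u u' : C → ℝ)
    (γ K : ℝ) :
    ovlC (S.P.pi N) (fun w => tr S.r t w) Q Q' u u' γ K
      = ovlC (S.P.pi N') (fun w => tr S.r t w) Q Q' u u' γ K := by
  subst h
  rfl

lemma c2_level_le (t : Λ → ℝ) (m n : ℕ) (Q Q' : FinProb C) (u u' : C → ℝ) (γ K : ℝ)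
    (hγ : 0 ≤ γ) (hK : 0 ≤ K) (v : Fin m → Λ) :
    |ovlC (S.P.pi (m + n)) (fun w => tr S.r t w) Q Q' (fun c => u c / sl S.r v)
        (fun c => u' c / sl S.r v) γ (K * |sl S.r v|)
      - ovlC (S.P.pi n) (fun w => tr S.r t w) Q Q' (fun c => u c / sl S.r v)
        (fun c => u' c / sl S.r v) γ (K * |sl S.r v|)|
      ≤ (1 + γ) * (K * (S.D t * S.ρ ^ n)) := by
  have h1 := S.ovlC_level t n m Q Q' (fun c => u c / sl S.r v) (fun c => u' c / sl S.r v) γ
    (K * |sl S.r v|) hγ (by positivity)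
  rw [S.c2_ovlC_cast t (Nat.add_comm n m)] at h1
  refine h1.trans ?_
  have h2 : |sl S.r v| ≤ 1 :=
    (S.abs_sl_le v).trans (pow_le_one₀ S.ρ_pos.le S.ρ_lt.le)
  have h3 : 0 ≤ S.D t * S.ρ ^ n := mul_nonneg (S.D_nonneg t) (pow_nonneg S.ρ_pos.le _)
  have h4 : K * |sl S.r v| ≤ K := mul_le_of_le_one_right hK h2
  exact mul_le_mul_of_nonneg_left (mul_le_mul_of_nonneg_right h4 h3) (by linarith only [hγ])

/-- One value of `m`. -/
lemma c2_le_one_m (t : Λ → ℝ) (m n : ℕ) (Q Q' : FinProb C) (u u' : C → ℝ) (γ K a : ℝ)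
    (hγ : 0 ≤ γ) (hK : 0 ≤ K) (ha0 : 0 < a) :
    ovlC (S.P.pi (m + n)) (fun w => tr S.r t w) Q Q' (fun c => a * u c) (fun c => a * u' c) γ
        (K / a)
      ≤ S.cAvg m (fun z => S.gOC t (m + n) Q Q' u u' γ K (z / a))
        + (1 + γ) * (K / a * (S.D t * S.ρ ^ n)) := by
  have hKa0 : 0 ≤ K / a := by positivity
  calc ovlC (S.P.pi (m + n)) (fun w => tr S.r t w) Q Q' (fun c => a * u c) (fun c => a * u' c) γ
        (K / a)
      ≤ ∑ v, (S.P.pi m).w v * ovlC (S.P.pi n) (fun w => tr S.r t w) Q Q'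
        (fun c => a * u c / sl S.r v) (fun c => a * u' c / sl S.r v) γ
        (K / a * |sl S.r v|) :=
        S.ovlC_mix_sys t m n Q Q' (fun c => a * u c) (fun c => a * u' c) γ (K / a) hγ hKa0
    _ ≤ ∑ v, (S.P.pi m).w v * (S.gOC t (m + n) Q Q' u u' γ K (sl S.r v / a)
        + (1 + γ) * (K / a * (S.D t * S.ρ ^ n))) := by
      refine Finset.sum_le_sum fun v _ => mul_le_mul_of_nonneg_left ?_ ((S.P.pi m).nonneg v)
      have h1 := (abs_le.1 (S.c2_level_le t m n Q Q' (fun c => a * u c) (fun c => a * u' c) γ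
        (K / a) hγ hKa0 v)).1
      have h3 : sl S.r v ≠ 0 := abs_pos.1 (S.abs_sl_pos v)
      have h2 : S.gOC t (m + n) Q Q' u u' γ K (sl S.r v / a) =
          ovlC (S.P.pi (m + n)) (fun w => tr S.r t w) Q Q' (fun c => a * u c / sl S.r v)
            (fun c => a * u' c / sl S.r v) γ (K / a * |sl S.r v|) := by
        unfold gOC
        have e1 : (fun c => u c / (sl S.r v / a)) = fun c => a * u c / sl S.r v := by
          funext c
          field_simp
        have e2 : (fun c => u' c / (sl S.r v / a)) = fun c => a * u' c / sl S.r v := by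
          funext c
          (clear * - ha0 h3; field_simp)
        have e3 : K * |sl S.r v / a| = K / a * |sl S.r v| := by
          rw [abs_div, abs_of_pos ha0]
          ring
        rw [e1, e2, e3]
      rw [h2]
      linarith only [h1]
    _ = _ := by
      simp only [mul_add, Finset.sum_add_distrib]
      congr 1
      exact S.cAvg_const m _

/-- The new error term. -/
lemma c2_contam (t : Λ → ℝ) (N : ℕ) (Q Q' : FinProb C) (u u' : C → ℝ) (γ D K a δ : ℝ)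
    (hγ : 0 ≤ γ) (hK : 0 ≤ K) (ha0 : 0 < a) (ha1 : a ≤ 1)
    (hu : ∀ c, 0 < Q.w c → |u c - D| ≤ δ) (hu' : ∀ c, 0 < Q'.w c → |u' c| ≤ δ) :
    ovlC (S.P.pi N) (fun w => tr S.r t w) Q Q' (fun c => a * D + (u c - D)) u' γ K
      ≤ ovlC (S.P.pi N) (fun w => tr S.r t w) Q Q' (fun c => a * u c) (fun c => a * u' c) γ
        (K / a) + (1 + γ) * (K / a * ((1 - a) * δ)) := by
  have hKa : K ≤ K / a := by
    rw [le_div_iff₀ ha0]
    exact mul_le_of_le_one_right hK ha1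
  have hKa0 : 0 ≤ K / a := by positivity
  have h1 : 0 ≤ 1 - a := by linarith only [ha1]
  have h2 := ovlC_perturb (S.P.pi N) (fun w => tr S.r t w) Q Q' (fun c => a * D + (u c - D)) u'
    hγ hKa0 (fun w => tr S.r t w) (fun c => a * u c) (fun c => a * u' c)
    (δ := (1 - a) * δ) (δ' := (1 - a) * δ)
    (fun ω c hc => by
      have e : tr S.r t ω + (a * D + (u c - D)) - (tr S.r t ω + a * u c)
        = (1 - a) * (u c - D) := by ring
      rw [e, abs_mul, abs_of_nonneg h1]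
      exact mul_le_mul_of_nonneg_left (hu c hc) h1)
    (fun ω c hc => by
      have e : tr S.r t ω + u' c - (tr S.r t ω + a * u' c) = (1 - a) * u' c := by ring
      rw [e, abs_mul, abs_of_nonneg h1]
      exact mul_le_mul_of_nonneg_left (hu' c hc) h1)
  have h3 := ovlC_mono (S.P.pi N) (fun w => tr S.r t w) Q Q' (fun c => a * D + (u c - D)) u'
    hγ hK hKa
  linarith

/-- The overlap of `a D + (u - D)` is bounded by the average overlap (mixture, change of level,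
content shift `cBar_shift_pow`, `ovlC_mono` as `K ≤ K / a`, and `ovlC_perturb`:
`(a D + (u - D)) - a u = (1 - a) (u - D)`, `u' - a u' = (1 - a) u'`). -/
theorem ovlC_le_cBar (t : Λ → ℝ) (i j : Λ) (p : ℝ) (hp : 0 < p) (hi : p ≤ S.P.w i)
    (hj : p ≤ S.P.w j) (m0 N x y : ℕ) (hm : 1 ≤ m0) (hN : 2 * m0 ≤ N) (Q Q' : FinProb C)
    (u u' : C → ℝ) (γ D K a δ : ℝ) (hγ : 0 ≤ γ) (hK : 0 ≤ K) (hδ : 0 ≤ δ)
    (ha : a = S.r i ^ (2 * x) / S.r j ^ (2 * y)) (ha1 : a ≤ 1)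
    (hu : ∀ c, 0 < Q.w c → |u c - D| ≤ δ) (hu' : ∀ c, 0 < Q'.w c → |u' c| ≤ δ) :
    ovlC (S.P.pi N) (fun w => tr S.r t w) Q Q' (fun c => a * D + (u c - D)) u' γ K
      ≤ S.cBar m0 (S.gOC t N Q Q' u u' γ K)
        + (2 * x + 2 * y) * (1 / Real.sqrt (m0 * p) + 1 / m0)
        + (1 + γ) * (K / a * (S.D t * S.ρ ^ (N - 2 * m0)))
        + (1 + γ) * (K / a * ((1 - a) * δ)) := by
  have hne : ∀ l, S.r l ≠ 0 := fun l => abs_pos.1 (S.κ_pos.trans_le (S.κ_le l))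
  have ha0 : 0 < a := by
    rw [ha, pow_mul, pow_mul]
    have h1 := sq_pos_of_ne_zero (hne i)
    have h2 := sq_pos_of_ne_zero (hne j)
    (clear * - h1 h2; positivity)
  have h0 := S.c2_contam t N Q Q' u u' γ D K a δ hγ hK ha0 ha1 hu hu'
  have h1 : ∀ m ∈ Finset.Ico m0 (2 * m0),
      ovlC (S.P.pi N) (fun w => tr S.r t w) Q Q' (fun c => a * u c) (fun c => a * u' c) γ (K / a)
        - (1 + γ) * (K / a * (S.D t * S.ρ ^ (N - 2 * m0)))
      ≤ S.cAvg m (fun z => S.gOC t N Q Q' u u' γ K (z / a)) := by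
    intro m hmm
    have hm2 := (Finset.mem_Ico.1 hmm).2
    obtain ⟨n, rfl⟩ := Nat.exists_eq_add_of_le (show m ≤ N by omega)
    have h2 := S.c2_le_one_m t m n Q Q' u u' γ K a hγ hK ha0
    have h3 : S.ρ ^ n ≤ S.ρ ^ (m + n - 2 * m0) :=
      pow_le_pow_of_le_one S.ρ_pos.le S.ρ_lt.le (by omega)
    have h4 : (1 + γ) * (K / a * (S.D t * S.ρ ^ n))
        ≤ (1 + γ) * (K / a * (S.D t * S.ρ ^ (m + n - 2 * m0))) :=
      mul_le_mul_of_nonneg_left (mul_le_mul_of_nonneg_left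
        (mul_le_mul_of_nonneg_left h3 (S.D_nonneg t)) (by (clear * - hK ha0; positivity))) (by linarith only [hγ])
    linarith only [h2, h4]
  have h2 := le_avg hm h1
  have h3 := S.cBar_shift_pow i j p hp hi hj m0 hm (2 * x) (2 * y) (S.gOC t N Q Q' u u' γ K)
    (fun z => ovlC_nonneg _ _ _ _ _ _ hγ (by (clear * - hK; positivity)))
    (fun z => ovlC_le_one _ _ _ _ _ _ hγ (by (clear * - hK; positivity)))
  rw [← ha] at h3
  have h4 := (abs_le.1 h3).2
  have h5 : S.cBar m0 (fun z => S.gOC t N Q Q' u u' γ K (z / a)) =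
    (∑ m ∈ Finset.Ico m0 (2 * m0), S.cAvg m (fun z => S.gOC t N Q Q' u u' γ K (z / a))) / m0 :=
    rfl
  rw [← h5] at h2
  push_cast at h4
  linarith only [h0, h2, h4]

/-- One value of `m`, one offset. -/
lemma c2_avg_le_one (t : Λ → ℝ) (m n j d : ℕ) (Q Q' : FinProb C) (u u' : C → ℝ)
    (γ Dm K τ η : ℝ) (hγ : 0 ≤ γ) (hK : 0 < K) (hη : 0 < η)
    (hu : ∀ c, 0 < Q.w c → |u c| ≤ Dm) (hu' : ∀ c, 0 < Q'.w c → |u' c| ≤ Dm) :
    S.cAvg m (S.gOC t (m + n) Q Q' u u' γ K)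
      ≤ ovlC (S.P.pi (m + n)) (fun w => tr S.r t w) Q Q' u u' γ (2 * K)
        + (1 + γ) * (2 * K / 2 ^ (d + j)
          + ((S.Im t m n (d + j) τ - S.Im t m n j τ) / η + η))
        + (1 + γ) * (∑ w, (S.P.pi (m + n)).w w * (if |(2 : ℝ) ^ j * (tr S.r t w + τ)
            - round ((2 : ℝ) ^ j * (tr S.r t w + τ))| ≤ 2 ^ j * (Dm + 1 / K) then 1 else 0))
        + (1 + γ) * (K * (S.D t * S.ρ ^ n)) := by
  have h1 := S.rev_sysC t m n j d Q Q' u u' γ Dm K τ η hγ hK hη hu hu'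
  have h2 : S.cAvg m (S.gOC t (m + n) Q Q' u u' γ K) ≤ ∑ v, (S.P.pi m).w v
      * (ovlC (S.P.pi n) (fun w => tr S.r t w) Q Q' (fun c => u c / sl S.r v)
          (fun c => u' c / sl S.r v) γ (K * |sl S.r v|)
        + (1 + γ) * (K * (S.D t * S.ρ ^ n))) := by
    refine Finset.sum_le_sum fun v _ => mul_le_mul_of_nonneg_left ?_ ((S.P.pi m).nonneg v)
    have h3 := (abs_le.1 (S.c2_level_le t m n Q Q' u u' γ K hγ hK.le v)).2
    unfold gOC
    linarith only [h3]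
  have h4 : ∑ v, (S.P.pi m).w v
      * (ovlC (S.P.pi n) (fun w => tr S.r t w) Q Q' (fun c => u c / sl S.r v)
          (fun c => u' c / sl S.r v) γ (K * |sl S.r v|)
        + (1 + γ) * (K * (S.D t * S.ρ ^ n))) =
      ∑ v, (S.P.pi m).w v
        * ovlC (S.P.pi n) (fun w => tr S.r t w) Q Q' (fun c => u c / sl S.r v)
          (fun c => u' c / sl S.r v) γ (K * |sl S.r v|)
        + (1 + γ) * (K * (S.D t * S.ρ ^ n)) := by
    rw [← S.cAvg_const m ((1 + γ) * (K * (S.D t * S.ρ ^ n))), ← Finset.sum_add_distrib]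
    exact Finset.sum_congr rfl fun v _ => by rw [mul_add, S.cAvg_const]
  rw [mul_add (1 + γ) (2 * K / 2 ^ (d + j) + ((S.Im t m n (d + j) τ - S.Im t m n j τ) / η + η))]
    at h1
  linarith

/-- One value of `m`. -/
lemma c2_cAvg_le_m (t : Λ → ℝ) (m n T0 j d : ℕ) (hj : j ≤ T0) (Q Q' : FinProb C)
    (u u' : C → ℝ) (γ Dm K η : ℝ) (hγ : 0 ≤ γ) (hK : 0 < K) (hη : 0 < η) (hDm : 0 ≤ Dm)
    (hu : ∀ c, 0 < Q.w c → |u c| ≤ Dm) (hu' : ∀ c, 0 < Q'.w c → |u' c| ≤ Dm) :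
    S.cAvg m (S.gOC t (m + n) Q Q' u u' γ K)
      ≤ ovlC (S.P.pi (m + n)) (fun w => tr S.r t w) Q Q' u u' γ (2 * K)
        + (1 + γ) * (2 * K / 2 ^ (d + j)
          + ((∑ i ∈ Finset.range (2 ^ T0), (S.Im t m n (d + j) ((i : ℝ) / 2 ^ T0)
            - S.Im t m n j ((i : ℝ) / 2 ^ T0))) / 2 ^ T0 / η + η))
        + (1 + γ) * (4 * (2 ^ j * (Dm + 1 / K)) + 2 * 2 ^ j / 2 ^ T0)
        + (1 + γ) * (K * (S.D t * S.ρ ^ n)) := by
  have hA : (0 : ℝ) < 2 ^ T0 := by positivity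
  have h1 := Finset.sum_le_sum fun i (_ : i ∈ Finset.range (2 ^ T0)) =>
    S.c2_avg_le_one t m n j d Q Q' u u' γ Dm K ((i : ℝ) / 2 ^ T0) η hγ hK hη hu hu'
  simp only [Finset.sum_const, Finset.card_range, nsmul_eq_mul, Finset.sum_add_distrib, ← Finset.mul_sum] at h1
  have h2 : ∑ i ∈ Finset.range (2 ^ T0), ∑ w, (S.P.pi (m + n)).w w
      * (if |(2 : ℝ) ^ j * (tr S.r t w + (i : ℝ) / 2 ^ T0)
            - round ((2 : ℝ) ^ j * (tr S.r t w + (i : ℝ) / 2 ^ T0))|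
            ≤ 2 ^ j * (Dm + 1 / K) then (1 : ℝ) else 0)
      ≤ 4 * (2 ^ j * (Dm + 1 / K)) * 2 ^ T0 + 2 * 2 ^ j := by
    rw [Finset.sum_comm]
    calc _ ≤ ∑ w, (S.P.pi (m + n)).w w * (4 * (2 ^ j * (Dm + 1 / K)) * 2 ^ T0 + 2 * 2 ^ j) := by
          refine Finset.sum_le_sum fun w _ => ?_
          rw [← Finset.mul_sum]
          refine mul_le_mul_of_nonneg_left ?_ ((S.P.pi (m + n)).nonneg w)
          rw [Finset.sum_boole]
          exact offset_count T0 j hj (tr S.r t w) _ (by positivity)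
      _ = _ := S.cAvg_const (m + n) _
  have h2' := mul_le_mul_of_nonneg_left h2 (show 0 ≤ 1 + γ by linarith only [hγ])
  push_cast at h1
  have h3 : ∑ i ∈ Finset.range (2 ^ T0), (S.Im t m n (d + j) ((i : ℝ) / 2 ^ T0)
        - S.Im t m n j ((i : ℝ) / 2 ^ T0)) / η =
      (∑ i ∈ Finset.range (2 ^ T0), (S.Im t m n (d + j) ((i : ℝ) / 2 ^ T0)
        - S.Im t m n j ((i : ℝ) / 2 ^ T0))) / η := by
    rw [Finset.sum_div]
  rw [h3] at h1
  set I := ∑ i ∈ Finset.range (2 ^ T0), (S.Im t m n (d + j) ((i : ℝ) / 2 ^ T0)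
        - S.Im t m n j ((i : ℝ) / 2 ^ T0))
  refine le_of_mul_le_mul_left (h1.trans ?_) hA
  have h4 : (2 : ℝ) ^ T0 * (ovlC (S.P.pi (m + n)) (fun w => tr S.r t w) Q Q' u u' γ (2 * K)
        + (1 + γ) * (2 * K / 2 ^ (d + j) + (I / 2 ^ T0 / η + η))
        + (1 + γ) * (4 * (2 ^ j * (Dm + 1 / K)) + 2 * 2 ^ j / 2 ^ T0)
        + (1 + γ) * (K * (S.D t * S.ρ ^ n))) =
      2 ^ T0 * ovlC (S.P.pi (m + n)) (fun w => tr S.r t w) Q Q' u u' γ (2 * K)
        + (1 + γ) * (2 ^ T0 * (2 * K / 2 ^ (d + j)) + (I / η + 2 ^ T0 * η))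
        + (1 + γ) * (4 * (2 ^ j * (Dm + 1 / K)) * 2 ^ T0 + 2 * 2 ^ j)
        + 2 ^ T0 * ((1 + γ) * (K * (S.D t * S.ρ ^ n))) := by
    field_simp
  rw [h4]
  linarith only [h2']

/-- The average overlap is bounded by the overlap of `u`, `u'` (`rev_sysC`, averaged over `m` and
over the offsets `i / 2 ^ T0`; `offset_count`; `ovlC_level`). -/
theorem cBar_le_ovlC (t : Λ → ℝ) (m0 N T0 j d : ℕ) (hm : 1 ≤ m0) (hN : 2 * m0 ≤ N)
    (hj : j ≤ T0) (Q Q' : FinProb C) (u u' : C → ℝ) (γ Dm K η : ℝ) (hγ : 0 ≤ γ) (hK : 0 < K)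
    (hη : 0 < η) (hDm : 0 ≤ Dm) (hu : ∀ c, 0 < Q.w c → |u c| ≤ Dm)
    (hu' : ∀ c, 0 < Q'.w c → |u' c| ≤ Dm) :
    S.cBar m0 (S.gOC t N Q Q' u u' γ K)
      ≤ ovlC (S.P.pi N) (fun w => tr S.r t w) Q Q' u u' γ (2 * K)
        + (1 + γ) * (2 * K / 2 ^ (d + j)
          + ((S.PhiI t N m0 T0 (d + j) - S.PhiI t N m0 T0 j) / (m0 * 2 ^ T0) / η + η)
          + (4 * (2 ^ j * (Dm + 1 / K)) + 2 * 2 ^ j / 2 ^ T0))
        + (1 + γ) * (K * (S.D t * S.ρ ^ (N - 2 * m0))) := by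
  have h0 : (0 : ℝ) < m0 := by exact_mod_cast hm
  have h1 : ∀ m ∈ Finset.Ico m0 (2 * m0), S.cAvg m (S.gOC t N Q Q' u u' γ K)
      ≤ (ovlC (S.P.pi N) (fun w => tr S.r t w) Q Q' u u' γ (2 * K)
        + (1 + γ) * (2 * K / 2 ^ (d + j) + η)
        + (1 + γ) * (4 * (2 ^ j * (Dm + 1 / K)) + 2 * 2 ^ j / 2 ^ T0)
        + (1 + γ) * (K * (S.D t * S.ρ ^ (N - 2 * m0))))
        + (1 + γ) / (2 ^ T0 * η) * ∑ i ∈ Finset.range (2 ^ T0),
          (S.Im t m (N - m) (d + j) ((i : ℝ) / 2 ^ T0)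
            - S.Im t m (N - m) j ((i : ℝ) / 2 ^ T0)) := by
    intro m hmm
    have hm2 := (Finset.mem_Ico.1 hmm).2
    obtain ⟨n, rfl⟩ := Nat.exists_eq_add_of_le (show m ≤ N by omega)
    have h2 := S.c2_cAvg_le_m t m n T0 j d hj Q Q' u u' γ Dm K η hγ hK hη hDm hu hu'
    have h3 : S.ρ ^ n ≤ S.ρ ^ (m + n - 2 * m0) :=
      pow_le_pow_of_le_one S.ρ_pos.le S.ρ_lt.le (by omega)
    have h4 : (1 + γ) * (K * (S.D t * S.ρ ^ n))
        ≤ (1 + γ) * (K * (S.D t * S.ρ ^ (m + n - 2 * m0))) :=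
      mul_le_mul_of_nonneg_left (mul_le_mul_of_nonneg_left
        (mul_le_mul_of_nonneg_left h3 (S.D_nonneg t)) hK.le) (by linarith only [hγ])
    rw [show m + n - m = n by omega]
    refine h2.trans ?_
    set I := ∑ i ∈ Finset.range (2 ^ T0), (S.Im t m n (d + j) ((i : ℝ) / 2 ^ T0)
            - S.Im t m n j ((i : ℝ) / 2 ^ T0))
    have h5 : (1 + γ) * (2 * K / 2 ^ (d + j) + (I / 2 ^ T0 / η + η)) =
        (1 + γ) * (2 * K / 2 ^ (d + j) + η) + (1 + γ) / (2 ^ T0 * η) * I := by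
      field_simp
      ring
    rw [h5]
    linarith only [h4]
  have h2 := Finset.sum_le_sum h1
  rw [Finset.sum_add_distrib, Finset.sum_const, Nat.card_Ico, nsmul_eq_mul,
    show 2 * m0 - m0 = m0 by omega, ← Finset.mul_sum] at h2
  have h3 : ∑ m ∈ Finset.Ico m0 (2 * m0), ∑ i ∈ Finset.range (2 ^ T0),
          (S.Im t m (N - m) (d + j) ((i : ℝ) / 2 ^ T0)
            - S.Im t m (N - m) j ((i : ℝ) / 2 ^ T0)) =
      S.PhiI t N m0 T0 (d + j) - S.PhiI t N m0 T0 j := by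
    unfold PhiI
    simp only [Finset.sum_sub_distrib]
  rw [h3] at h2
  have h4 : S.cBar m0 (S.gOC t N Q Q' u u' γ K) =
    (∑ m ∈ Finset.Ico m0 (2 * m0), S.cAvg m (S.gOC t N Q Q' u u' γ K)) / m0 := rfl
  rw [h4, div_le_iff₀ h0]
  refine h2.trans (le_of_eq ?_)
  field_simp
  ring

end Sys

end Vale.Agent.P114
end
end

section

/-!
T12-E. Transfer of the overlaps along the arithmetic progression.
-/

open scoped Classical

noncomputable section

namespace Vale.Agent.P114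

open FinProb

variable {Λ : Type} [Fintype Λ]

/-- exponential decay. -/
lemma tE_pow (B e : ℝ) (he : 0 < e) :
    ∃ W₁ : ℕ, ∀ W : ℕ, W₁ ≤ W → B * (2 : ℝ) ^ (-((1 / 2 : ℝ) * W)) ≤ e := by
  have h1 : (2 : ℝ) ^ (-(1 / 2 : ℝ)) < 1 :=
    Real.rpow_lt_one_of_one_lt_of_neg (by norm_num) (by norm_num)
  have h0 : (0 : ℝ) ≤ (2 : ℝ) ^ (-(1 / 2 : ℝ)) := Real.rpow_nonneg (by norm_num) _
  have h2 := (tendsto_pow_atTop_nhds_zero_of_lt_one h0 h1).const_mul B
  rw [mul_zero] at h2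
  obtain ⟨W₁, hW₁⟩ := (h2.eventually (gt_mem_nhds he)).exists_forall_of_atTop
  refine ⟨W₁, fun W hW => ?_⟩
  have h4 := (hW₁ W hW).le
  have h5 : (2 : ℝ) ^ (-((1 / 2 : ℝ) * W)) = ((2 : ℝ) ^ (-(1 / 2 : ℝ))) ^ W := by
    rw [← Real.rpow_natCast, ← Real.rpow_mul (by norm_num)]
    congr 1
    ring
  rw [h5]
  exact h4

/-- geometric decay. -/
lemma tE_geom (ρ B e : ℝ) (h0 : 0 ≤ ρ) (h1 : ρ < 1) (he : 0 < e) :
    ∃ N₁ : ℕ, ∀ N : ℕ, N₁ ≤ N → B * ρ ^ N ≤ e := by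
  have h2 := (tendsto_pow_atTop_nhds_zero_of_lt_one h0 h1).const_mul B
  rw [mul_zero] at h2
  obtain ⟨N₁, hN₁⟩ := (h2.eventually (gt_mem_nhds he)).exists_forall_of_atTop
  exact ⟨N₁, fun N hN => (hN₁ N hN).le⟩

/-- choice of the number of letters. -/
lemma tE_m0 (B e p : ℝ) (hB : 0 < B) (he : 0 < e) (hp : 0 < p) :
    ∃ Cm : ℕ, 1 ≤ Cm ∧ ∀ (W X Y : ℕ), (X : ℝ) + Y ≤ B * 4 ^ W →
      (2 * (X : ℝ) + 2 * (Y : ℝ)) * (1 / Real.sqrt (((Cm * 16 ^ W : ℕ) : ℝ) * p)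
        + 1 / ((Cm * 16 ^ W : ℕ) : ℝ)) ≤ e := by
  set u : ℝ := 4 * B / e with hu
  have hu0 : 0 < u := by positivity
  obtain ⟨Cm, hCm⟩ := exists_nat_ge (u ^ 2 / p + u + 1)
  have h0 : 0 ≤ u ^ 2 / p := by positivity
  have hC1 : (1 : ℝ) ≤ Cm := by linarith only [hu0, hCm, h0]
  have hC2 : u ≤ (Cm : ℝ) := by linarith only [h0, hCm]
  have hC3 : u ^ 2 ≤ (Cm : ℝ) * p := by
    have : u ^ 2 / p ≤ (Cm : ℝ) := by linarith only [hu0, hCm]
    rwa [div_le_iff₀ hp] at this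
  refine ⟨Cm, by exact_mod_cast hC1, fun W X Y hXY => ?_⟩
  have hW : (0 : ℝ) < 4 ^ W := by positivity
  have hW1 : (1 : ℝ) ≤ 4 ^ W := one_le_pow₀ (by norm_num)
  have h4 : (16 : ℝ) ^ W = 4 ^ W * 4 ^ W := by
    rw [← mul_pow]; norm_num
  have e1 : (((Cm * 16 ^ W : ℕ) : ℝ)) = Cm * (4 ^ W * 4 ^ W) := by
    push_cast
    rw [h4]
  have e2 : Real.sqrt (((Cm * 16 ^ W : ℕ) : ℝ) * p) = 4 ^ W * Real.sqrt (Cm * p) := by
    rw [e1]
    have : (Cm : ℝ) * (4 ^ W * 4 ^ W) * p = (4 ^ W) ^ 2 * (Cm * p) := by ring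
    rw [this, Real.sqrt_mul (by positivity), Real.sqrt_sq hW.le]
  have e3 : u ≤ Real.sqrt (Cm * p) := Real.le_sqrt_of_sq_le hC3
  have hXY2 : 2 * (X : ℝ) + 2 * (Y : ℝ) ≤ 2 * (B * 4 ^ W) := by linarith only [hXY]
  have f1 : 1 / Real.sqrt (((Cm * 16 ^ W : ℕ) : ℝ) * p) ≤ 1 / (4 ^ W * u) := by
    rw [e2]
    exact one_div_le_one_div_of_le (by positivity) (mul_le_mul_of_nonneg_left e3 hW.le)
  have f2 : 1 / ((Cm * 16 ^ W : ℕ) : ℝ) ≤ 1 / (4 ^ W * u) := by
    rw [e1]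
    refine one_div_le_one_div_of_le (by positivity) ?_
    have h6 : 4 ^ W * u ≤ 4 ^ W * (Cm : ℝ) := mul_le_mul_of_nonneg_left hC2 hW.le
    have h5 : 4 ^ W * (Cm : ℝ) ≤ 4 ^ W * (Cm : ℝ) * 4 ^ W :=
      le_mul_of_one_le_right (by (clear * - hC1; positivity)) hW1
    calc _ ≤ _ := h6
      _ ≤ _ := h5
      _ = _ := by ring
  calc _ ≤ (2 * (B * 4 ^ W)) * (1 / (4 ^ W * u) + 1 / (4 ^ W * u)) := by
        apply mul_le_mul hXY2 (add_le_add f1 f2) _ (by positivity)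
        (clear * -; positivity)
    _ = e := by
        rw [hu]
        field_simp
        ring

/-- growth of `γ`. -/
lemma tE_gamma (c7 : ℝ) (hc7 : 0 < c7) (hc71 : c7 ≤ 1 / 8) (W : ℕ) :
    1 ≤ (2 : ℝ) ^ (c7 * W) ∧
    (4 * (W : ℝ) + 1) * ((2 : ℝ) ^ (c7 * W)) ^ 2 ≤ 20 * 2 ^ W ∧
    (2 : ℝ) ^ (c7 * W) * ((2 : ℝ) ^ W)⁻¹ ≤ (2 : ℝ) ^ (-((1 / 2 : ℝ) * W)) := by
  have hW0 : (0 : ℝ) ≤ W := Nat.cast_nonneg _
  refine ⟨Real.one_le_rpow (by norm_num) (by positivity), ?_, ?_⟩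
  · have h1 : ((2 : ℝ) ^ (c7 * W)) ^ 2 ≤ (2 : ℝ) ^ ((1 / 4 : ℝ) * W) := by
      rw [← Real.rpow_natCast, ← Real.rpow_mul (by norm_num)]
      refine Real.rpow_le_rpow_of_exponent_le (by norm_num) ?_
      push_cast
      nlinarith
    have h2 : 1 + (1 / 2 : ℝ) * W ≤ (2 : ℝ) ^ ((3 / 4 : ℝ) * W) := by
      rw [Real.rpow_def_of_pos (by norm_num)]
      have h3 := Real.add_one_le_exp (Real.log 2 * ((3 / 4 : ℝ) * W))
      have h4 := Real.log_two_gt_d9
      nlinarith only [h3, h4]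
    have h5 : (2 : ℝ) ^ W = (2 : ℝ) ^ ((1 / 4 : ℝ) * W) * (2 : ℝ) ^ ((3 / 4 : ℝ) * W) := by
      rw [← Real.rpow_add (by norm_num), ← Real.rpow_natCast]
      congr 1
      ring
    have h6 : (0 : ℝ) < (2 : ℝ) ^ ((1 / 4 : ℝ) * W) := Real.rpow_pos_of_pos (by norm_num) _
    rw [h5]
    calc (4 * (W : ℝ) + 1) * ((2 : ℝ) ^ (c7 * W)) ^ 2
        ≤ (4 * (W : ℝ) + 1) * (2 : ℝ) ^ ((1 / 4 : ℝ) * W) :=
          mul_le_mul_of_nonneg_left h1 (by (clear * -; positivity))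
      _ ≤ (20 * (2 : ℝ) ^ ((3 / 4 : ℝ) * W)) * (2 : ℝ) ^ ((1 / 4 : ℝ) * W) :=
          mul_le_mul_of_nonneg_right (by linarith only [h2]) h6.le
      _ = _ := by ring
  · rw [← Real.rpow_natCast, ← Real.rpow_neg (by norm_num), ← Real.rpow_add (by norm_num)]
    refine Real.rpow_le_rpow_of_exponent_le (by norm_num) ?_
    nlinarith only [hc71]

/-- the number of bad scales. -/
lemma tE_count (W R Cm : ℕ) (lg e γ : ℝ) (hlg : 0 ≤ lg) (he : 0 < e) (hγ1 : 1 ≤ γ)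
    (hγ2 : (4 * (W : ℝ) + 1) * γ ^ 2 ≤ 20 * 2 ^ W) :
    (W : ℝ) + ((R : ℝ) + 4 * W) * (2 * Cm * lg / e ^ 2 * (16 ^ W * (1 + γ) ^ 2))
      ≤ (1 + 160 * Cm * lg / e ^ 2) * ((R : ℝ) + 1) * 2 ^ (5 * W) := by
  have h7 : (W : ℝ) ≤ 2 ^ W := by
    exact_mod_cast (Nat.lt_two_pow_self (n := W)).le
  have hRn : (0 : ℝ) ≤ R := Nat.cast_nonneg _
  have hWn : (0 : ℝ) ≤ W := Nat.cast_nonneg _
  have hRW : 0 ≤ (R : ℝ) * W := mul_nonneg hRn hWn
  have h5W : (2 : ℝ) ^ (5 * W) = 2 ^ W * 16 ^ W := by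
    rw [show (16 : ℝ) = 2 ^ 4 by norm_num, ← pow_mul, ← pow_add]
    congr 1
    ring
  have h8 : ((R : ℝ) + 4 * W) * (16 ^ W * (1 + γ) ^ 2)
      ≤ 80 * (((R : ℝ) + 1) * 2 ^ (5 * W)) := by
    have g1 : (R : ℝ) + 4 * W ≤ ((R : ℝ) + 1) * (4 * W + 1) := by linarith only [hRW]
    have g2 : (1 + γ) ^ 2 ≤ 4 * γ ^ 2 := by
      have : (1 + γ) ^ 2 ≤ (2 * γ) ^ 2 := pow_le_pow_left₀ (by linarith) (by linarith) 2
      linarith only [this]
    calc ((R : ℝ) + 4 * W) * (16 ^ W * (1 + γ) ^ 2)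
        ≤ (((R : ℝ) + 1) * (4 * W + 1)) * (16 ^ W * (4 * γ ^ 2)) := by
          apply mul_le_mul g1 _ (by positivity) (by (clear * -; positivity))
          exact mul_le_mul_of_nonneg_left g2 (by positivity)
      _ = 4 * ((R : ℝ) + 1) * 16 ^ W * ((4 * W + 1) * γ ^ 2) := by ring
      _ ≤ 4 * ((R : ℝ) + 1) * 16 ^ W * (20 * 2 ^ W) :=
          mul_le_mul_of_nonneg_left hγ2 (by positivity)
      _ = _ := by rw [h5W]; ring
  have h9 : (W : ℝ) ≤ ((R : ℝ) + 1) * 2 ^ (5 * W) := by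
    have g3 : (W : ℝ) ≤ 2 ^ (5 * W) :=
      h7.trans (pow_le_pow_right₀ (by norm_num) (by (clear * -; omega)))
    have g4 : (0 : ℝ) ≤ R * 2 ^ (5 * W) := by (clear * -; positivity)
    linarith only [g3, g4]
  have h10 : 0 ≤ 2 * Cm * lg / e ^ 2 := by (clear * - hlg he; positivity)
  have h11 := mul_le_mul_of_nonneg_left h8 h10
  have h12 : ((R : ℝ) + 4 * W) * (2 * Cm * lg / e ^ 2 * (16 ^ W * (1 + γ) ^ 2))
      = 2 * Cm * lg / e ^ 2 * (((R : ℝ) + 4 * W) * (16 ^ W * (1 + γ) ^ 2)) := by ring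
  rw [h12]
  calc (W : ℝ) + 2 * Cm * lg / e ^ 2 * (((R : ℝ) + 4 * W) * (16 ^ W * (1 + γ) ^ 2))
      ≤ ((R : ℝ) + 1) * 2 ^ (5 * W)
        + 2 * Cm * lg / e ^ 2 * (80 * (((R : ℝ) + 1) * 2 ^ (5 * W))) := add_le_add h9 h11
    _ = _ := by ring

/-- error of the cut. -/
lemma tE_err1 (W R Sc : ℕ) (K a γ e : ℝ) (hγ0 : 0 < γ)
    (hK2 : K ≤ 2 ^ (Sc + R + W + 2)) (ha0 : 0 < a) (haL : 1 / a ≤ 3)
    (ha1 : 1 - a ≤ (2 : ℝ)⁻¹ ^ R) (ha2 : 0 ≤ 1 - a)
    (hH1 : 24 * ((1 + γ) * ((2 : ℝ) ^ W)⁻¹) ≤ e) :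
    (1 + γ) * (K / a * ((1 - a) * (2 : ℝ)⁻¹ ^ (Sc + 4 * W))) ≤ e := by
  have h2W1 : (1 : ℝ) ≤ 2 ^ W := one_le_pow₀ (by norm_num)
  have h2Wi : ((2 : ℝ) ^ W)⁻¹ ≤ 1 := inv_le_one_of_one_le₀ h2W1
  have h2Wi0 : 0 < ((2 : ℝ) ^ W)⁻¹ := by positivity
  have h3 : K / a ≤ 2 ^ (Sc + R + W + 2) * 3 := by
    rw [div_eq_mul_one_div]
    exact mul_le_mul hK2 haL (by positivity) (by positivity)
  have h4 : (1 - a) * (2 : ℝ)⁻¹ ^ (Sc + 4 * W) ≤ (2 : ℝ)⁻¹ ^ R * (2 : ℝ)⁻¹ ^ (Sc + 4 * W) :=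
    mul_le_mul_of_nonneg_right ha1 (by positivity)
  have h5 : K / a * ((1 - a) * (2 : ℝ)⁻¹ ^ (Sc + 4 * W))
      ≤ 2 ^ (Sc + R + W + 2) * 3 * ((2 : ℝ)⁻¹ ^ R * (2 : ℝ)⁻¹ ^ (Sc + 4 * W)) :=
    mul_le_mul h3 h4 (mul_nonneg ha2 (by positivity)) (by positivity)
  have h6 : (2 : ℝ) ^ (Sc + R + W + 2) * 3 * ((2 : ℝ)⁻¹ ^ R * (2 : ℝ)⁻¹ ^ (Sc + 4 * W))
      = 12 * (((2 : ℝ) ^ W)⁻¹ * (((2 : ℝ) ^ W)⁻¹ * ((2 : ℝ) ^ W)⁻¹)) := by
    rw [pow_add, pow_add, pow_add, pow_add, inv_pow, inv_pow, inv_pow, mul_comm 4 W,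
      pow_mul (2 : ℝ) W 4]
    field_simp
    ring
  have h7 : ((2 : ℝ) ^ W)⁻¹ * (((2 : ℝ) ^ W)⁻¹ * ((2 : ℝ) ^ W)⁻¹) ≤ ((2 : ℝ) ^ W)⁻¹ := by
    have : ((2 : ℝ) ^ W)⁻¹ * ((2 : ℝ) ^ W)⁻¹ ≤ 1 := mul_le_one₀ h2Wi h2Wi0.le h2Wi
    exact mul_le_of_le_one_right h2Wi0.le this
  have h8 : K / a * ((1 - a) * (2 : ℝ)⁻¹ ^ (Sc + 4 * W)) ≤ 12 * ((2 : ℝ) ^ W)⁻¹ := by
    rw [h6] at h5
    linarith only [h5, h7]
  have h9 := mul_le_mul_of_nonneg_left h8 (by linarith only [hγ0] : (0 : ℝ) ≤ 1 + γ)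
  have h11 : 0 < (1 + γ) * ((2 : ℝ) ^ W)⁻¹ := by (clear * - hγ0; positivity)
  linarith only [hH1, h9, h11]

/-- errors of the comparison. -/
lemma tE_err2 (W R Sc T : ℕ) (K γ e : ℝ) (hγ0 : 0 < γ) (hK1 : 2 ^ Sc ≤ K)
    (hK2 : K ≤ 2 ^ (Sc + R + W + 2)) (hW : W ≤ Sc) (hT : Sc ≤ T)
    (hH1 : 24 * ((1 + γ) * ((2 : ℝ) ^ W)⁻¹) ≤ e) :
    (1 + γ) * (2 * K / 2 ^ (Sc + (R + 3 * W))) ≤ e ∧
    (1 + γ) * (4 * (2 ^ (Sc - W) * (2 * (2 : ℝ)⁻¹ ^ Sc + 1 / K))) ≤ e ∧
    (1 + γ) * (2 * 2 ^ (Sc - W) / 2 ^ (T + W)) ≤ e := by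
  have h2W : (0 : ℝ) < 2 ^ W := by positivity
  have h2W1 : (1 : ℝ) ≤ 2 ^ W := one_le_pow₀ (by norm_num)
  have h1γ : (0 : ℝ) ≤ 1 + γ := by linarith only [hγ0]
  have hH0 : 0 < (1 + γ) * ((2 : ℝ) ^ W)⁻¹ := by positivity
  have hpw : (2 : ℝ) ^ Sc = 2 ^ (Sc - W) * 2 ^ W := by
    rw [← pow_add]
    congr 1
    (clear * - hW; omega)
  have hScW0 : (0 : ℝ) < 2 ^ (Sc - W) := by positivity
  have hinv : (2 : ℝ)⁻¹ ^ Sc = ((2 : ℝ) ^ Sc)⁻¹ := by rw [inv_pow]
  refine ⟨?_, ?_, ?_⟩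
  · have h1 : 2 * K / 2 ^ (Sc + (R + 3 * W)) ≤ 8 * ((2 : ℝ) ^ W)⁻¹ := by
      rw [div_le_iff₀ (by positivity)]
      have h2 : (2 : ℝ) ^ (Sc + (R + 3 * W)) = 2 ^ (Sc + R + W) * (2 ^ W * 2 ^ W) := by
        rw [← pow_add, ← pow_add]
        congr 1
        ring
      have h3 : 8 * ((2 : ℝ) ^ W)⁻¹ * 2 ^ (Sc + (R + 3 * W))
          = 8 * (2 ^ (Sc + R + W) * 2 ^ W) := by
        rw [h2]
        field_simp
      rw [h3]
      have h4 : K ≤ 2 ^ (Sc + R + W) * 4 := by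
        refine hK2.trans (le_of_eq ?_)
        rw [pow_add]
        norm_num
      have h5 : (2 : ℝ) ^ (Sc + R + W) ≤ 2 ^ (Sc + R + W) * 2 ^ W :=
        le_mul_of_one_le_right (by positivity) h2W1
      linarith only [h4, h5]
    have h9 := mul_le_mul_of_nonneg_left h1 h1γ
    linarith only [hH1, hH0, h9]
  · have h1 : 1 / K ≤ (2 : ℝ)⁻¹ ^ Sc := by
      rw [hinv, ← one_div]
      exact one_div_le_one_div_of_le (by positivity) hK1
    have h2 : 2 ^ (Sc - W) * (2 * (2 : ℝ)⁻¹ ^ Sc + 1 / K) ≤ 3 * ((2 : ℝ) ^ W)⁻¹ := by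
      calc 2 ^ (Sc - W) * (2 * (2 : ℝ)⁻¹ ^ Sc + 1 / K)
          ≤ 2 ^ (Sc - W) * (3 * (2 : ℝ)⁻¹ ^ Sc) :=
            mul_le_mul_of_nonneg_left (by linarith only [h1]) hScW0.le
        _ = 3 * ((2 : ℝ) ^ W)⁻¹ := by
            rw [hinv, hpw]
            (clear * -; field_simp)
    have h9 := mul_le_mul_of_nonneg_left h2 h1γ
    linarith only [hH1, hH0, h9]
  · have h5 : 2 * (2 : ℝ) ^ (Sc - W) / 2 ^ (T + W) ≤ 2 * ((2 : ℝ) ^ W)⁻¹ := by
      rw [div_le_iff₀ (by positivity)]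
      have h6 : (2 : ℝ) ^ (Sc - W) * 2 ^ W ≤ 2 ^ (T + W) := by
        rw [← hpw]
        exact pow_le_pow_right₀ (by norm_num) (by (clear * - hT; omega))
      calc 2 * (2 : ℝ) ^ (Sc - W) = 2 * ((2 : ℝ) ^ W)⁻¹ * (2 ^ (Sc - W) * 2 ^ W) := by
            (clear * -; field_simp)
        _ ≤ 2 * ((2 : ℝ) ^ W)⁻¹ * 2 ^ (T + W) := mul_le_mul_of_nonneg_left h6 (by positivity)
    have h9 := mul_le_mul_of_nonneg_left h5 h1γ
    linarith only [h9, hH0, hH1]

namespace Sys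
variable (S : Sys Λ)

lemma tE_abs (i : Λ) : 0 < |S.r i| ∧ |S.r i| < 1 :=
  ⟨S.κ_pos.trans_le (S.κ_le i), (S.le_ρ i).trans_lt S.ρ_lt⟩

/-- the multiples are quotients of even powers. -/
lemma tE_ax (i j : Λ) (X Y : ℕ) :
    Real.exp (-(2 * (X : ℝ) * (-Real.log |S.r i|) - 2 * (Y : ℝ) * (-Real.log |S.r j|)))
      = S.r i ^ (2 * X) / S.r j ^ (2 * Y) := by
  have e1 : ∀ (k : Λ) (m : ℕ), S.r k ^ (2 * m) = Real.exp (2 * m * Real.log |S.r k|) := by
    intro k m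
    obtain ⟨hk0, _⟩ := S.tE_abs k
    have : Real.exp (2 * m * Real.log |S.r k|) = Real.exp (Real.log |S.r k|) ^ (2 * m) := by
      rw [← Real.exp_nat_mul]
      push_cast
      rfl
    rw [this, Real.exp_log hk0, pow_mul, pow_mul, sq_abs]
  rw [e1, e1, ← Real.exp_sub]
  congr 1
  ring

/-- one term. -/
lemma tE_one (t : Λ → ℝ) (i j : Λ) (p : ℝ) (hp : 0 < p) (hi : p ≤ S.P.w i)
    (hj : p ≤ S.P.w j) (m0 N x y l : ℕ) (hm : 1 ≤ m0) (hN : 2 * m0 ≤ N) {C : Type} [Fintype C]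
    (Q Q' : FinProb C) (u u' : C → ℝ) (γ D K β δ : ℝ) (hγ : 0 ≤ γ) (hK : 0 ≤ K) (hδ : 0 ≤ δ)
    (hβ : 0 ≤ β)
    (heq : β = 2 * x * (-Real.log |S.r i|) - 2 * y * (-Real.log |S.r j|) ∨
      β = 2 * y * (-Real.log |S.r j|) - 2 * x * (-Real.log |S.r i|))
    (hu : ∀ c, 0 < Q.w c → |u c - D| ≤ δ) (hu' : ∀ c, 0 < Q'.w c → |u' c| ≤ δ) :
    ovlC (S.P.pi N) (fun w => tr S.r t w) Q Q'
        (fun c => Real.exp (-(l * β)) * D + (u c - D)) u' γ K
      ≤ S.cBar m0 (S.gOC t N Q Q' u u' γ K)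
        + (2 * ((l * x : ℕ) : ℝ) + 2 * ((l * y : ℕ) : ℝ)) * (1 / Real.sqrt (m0 * p) + 1 / m0)
        + (1 + γ) * (K / Real.exp (-(l * β)) * (S.D t * S.ρ ^ (N - 2 * m0)))
        + (1 + γ) * (K / Real.exp (-(l * β)) * ((1 - Real.exp (-(l * β))) * δ)) := by
  have ha1 : Real.exp (-(l * β)) ≤ 1 := by
    refine Real.exp_le_one_iff.2 ?_
    have : 0 ≤ (l : ℝ) * β := by (clear * - hβ; positivity)
    linarith only [this]
  rcases heq with h | h
  · have ha : Real.exp (-(l * β)) = S.r i ^ (2 * (l * x)) / S.r j ^ (2 * (l * y)) := by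
      rw [← S.tE_ax i j (l * x) (l * y), h]
      congr 1
      push_cast
      ring
    exact S.ovlC_le_cBar t i j p hp hi hj m0 N (l * x) (l * y) hm hN Q Q' u u' γ D K
      (Real.exp (-(l * β))) δ hγ hK hδ ha ha1 hu hu'
  · have ha : Real.exp (-(l * β)) = S.r j ^ (2 * (l * y)) / S.r i ^ (2 * (l * x)) := by
      rw [← S.tE_ax j i (l * y) (l * x), h]
      congr 1
      push_cast
      ring
    have h2 := S.ovlC_le_cBar t j i p hp hj hi m0 N (l * y) (l * x) hm hN Q Q' u u' γ D K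
      (Real.exp (-(l * β))) δ hγ hK hδ ha ha1 hu hu'
    have h3 : 2 * ((l * x : ℕ) : ℝ) + 2 * ((l * y : ℕ) : ℝ)
        = 2 * ((l * y : ℕ) : ℝ) + 2 * ((l * x : ℕ) : ℝ) := by ring
    rw [h3]
    exact h2

/-- Parameters: `γ = 2 ^ (c7 W)`, `p = min (w i) (w j)`, `m0 = ⌈Cm⌉ * 2 ^ (4 W)` (`Cm` large
depending on `δ`, `p`, `Cx`), coarse depth `j = Sc - W` (so `Sc < W` is bad), fine depth
`d + j = Sc + R + 3 W`, offsets `T0' = T0 + W` in `cBar_le_ovlC` and `PhiI`, `η = δ / (C γ)`, bad: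
`PhiI (Sc + R + 3 W) - PhiI (Sc - W) > η ^ 2 * m0 * 2 ^ T0'` (`bad_windows`, `PhiI_le`), at most
`(R + 4 W) * 2 * m0 * log|Λ| / η ^ 2 ≤ Cb (R + 1) 2 ^ (5 W)` as `c7 ≤ 1/8`; `Dm = 2 * 2⁻¹ ^ Sc`;
`a_l = exp (-(l β)) ≥ exp (-1)`, `1 - a_l ≤ 2 ^ (W - w0) β ≤ 2⁻¹ ^ R`;
`a_l = r_i ^ (2 x l) / r_j ^ (2 y l)` or with `i`, `j` exchanged (`Spr.eq`). -/
theorem transfer (t : Λ → ℝ) (i j : Λ) (hi : 0 < S.P.w i) (hj : 0 < S.P.w j) (w0 : ℕ) (Cx : ℝ)
    (R : ℕ → ℕ) (β : ℕ → ℝ) (x y : ℕ → ℕ)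
    (hS : Spr (-Real.log |S.r i|) (-Real.log |S.r j|) w0 Cx R β x y) (c7 δ : ℝ) (hc7 : 0 < c7)
    (hc71 : c7 ≤ 1 / 8) (hδ : 0 < δ) :
    ∃ (Cb : ℝ) (W₀ : ℕ), 0 ≤ Cb ∧ w0 ≤ W₀ ∧ ∀ W ≥ W₀, ∀ T0 : ℕ, ∃ N₀ : ℕ, ∀ N ≥ N₀,
      ∃ Bad : Finset ℕ, (Bad.card : ℝ) ≤ Cb * ((R W : ℝ) + 1) * 2 ^ (5 * W) ∧
        ∀ Sc ≤ T0, Sc ∉ Bad → ∀ {C : Type} [Fintype C] (Q Q' : FinProb C) (u u' : C → ℝ)
          (D K : ℝ), |D| ≤ (2 : ℝ)⁻¹ ^ Sc → 2 ^ Sc ≤ K → K ≤ 2 ^ (Sc + R W + W + 2) →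
          (∀ c, 0 < Q.w c → |u c - D| ≤ (2 : ℝ)⁻¹ ^ (Sc + 4 * W)) →
          (∀ c, 0 < Q'.w c → |u' c| ≤ (2 : ℝ)⁻¹ ^ (Sc + 4 * W)) →
          (∑ l ∈ Finset.range (2 ^ (W - w0)), ovlC (S.P.pi N) (fun w => tr S.r t w) Q Q'
              (fun c => Real.exp (-(l * β W)) * D + (u c - D)) u' ((2 : ℝ) ^ (c7 * W)) K)
              / 2 ^ (W - w0)
            ≤ ovlC (S.P.pi N) (fun w => tr S.r t w) Q Q' u u' ((2 : ℝ) ^ (c7 * W)) (2 * K)
              + δ := by
  set e : ℝ := δ / 20 with he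
  have he0 : 0 < e := by positivity
  set p := min (S.P.w i) (S.P.w j) with hp
  have hp0 : 0 < p := lt_min hi hj
  set B0 : ℝ := |Cx| + 1 with hB0
  have hB00 : 0 < B0 := by (clear * -; positivity)
  obtain ⟨Cm, hCm1, hCm⟩ := tE_m0 B0 e p hB00 he0 hp0
  obtain ⟨W1, hW1⟩ := tE_pow 48 e he0
  have hcard : (1 : ℝ) ≤ Fintype.card Λ := by
    have : Nonempty Λ := S.nonempty
    exact_mod_cast Fintype.card_pos
  have hlog : 0 ≤ Real.log (Fintype.card Λ) := Real.log_nonneg hcard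
  set Cb : ℝ := 1 + 160 * Cm * Real.log (Fintype.card Λ) / e ^ 2 with hCb
  have hCb0 : 0 ≤ Cb := by (clear * - hCm1 hδ; positivity)
  refine ⟨Cb, max w0 W1, hCb0, le_max_left _ _, fun W hW T0 => ?_⟩
  have hWw0 : w0 ≤ W := (le_max_left _ _).trans hW
  have hWW1 : W1 ≤ W := (le_max_right _ _).trans hW
  set γ : ℝ := (2 : ℝ) ^ (c7 * W) with hγ
  obtain ⟨hγ1, hγ2, hγ3⟩ := tE_gamma c7 hc7 hc71 W
  rw [← hγ] at hγ1 hγ2 hγ3
  have hγ0 : 0 < γ := by linarith only [hγ1]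
  have h2W : (0 : ℝ) < 2 ^ W := by positivity
  have h2W1 : (1 : ℝ) ≤ 2 ^ W := one_le_pow₀ (by norm_num)
  have h2Wi : ((2 : ℝ) ^ W)⁻¹ ≤ 1 := inv_le_one_of_one_le₀ h2W1
  have h2Wi0 : 0 < ((2 : ℝ) ^ W)⁻¹ := by positivity
  set H : ℝ := (1 + γ) * ((2 : ℝ) ^ W)⁻¹ with hH
  have hH0 : 0 < H := by positivity
  have hH1 : 24 * H ≤ e := by
    have h1 := hW1 W hWW1
    have h2 : H ≤ 2 * (γ * ((2 : ℝ) ^ W)⁻¹) := by
      rw [hH]
      have : (1 + γ) ≤ 2 * γ := by linarith only [hγ1]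
      calc (1 + γ) * ((2 : ℝ) ^ W)⁻¹ ≤ (2 * γ) * ((2 : ℝ) ^ W)⁻¹ :=
            mul_le_mul_of_nonneg_right this h2Wi0.le
        _ = _ := by ring
    linarith only [hγ3, h1, h2]
  -- the spread
  have hβ0 : 0 < β W := hS.pos W hWw0
  have hR2 := hS.R2 W hWw0
  have hxy := hS.le W hWw0
  -- number of letters
  set m0 : ℕ := Cm * 16 ^ W with hm0
  have hm01 : 1 ≤ m0 := by
    rw [hm0]
    exact Nat.one_le_iff_ne_zero.2 (by (clear * - hCm1; positivity))
  have hm0' : (0 : ℝ) < m0 := by exact_mod_cast hm01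
  set η : ℝ := e / (1 + γ) with hη
  have hη0 : 0 < η := by positivity
  set ε : ℝ := η * (e / (1 + γ)) with hε
  have hε0 : 0 < ε := by positivity
  have hD1 := S.one_le_D t
  set Mx : ℝ := (1 + γ) * (2 ^ (T0 + R W + W + 2) * 3 * S.D t) with hMx
  obtain ⟨N1, hN1⟩ := tE_geom S.ρ Mx e S.ρ_pos.le S.ρ_lt he0
  refine ⟨2 * m0 + N1, fun N hN => ?_⟩
  have hN2 : 2 * m0 ≤ N := by omega
  have hρN : Mx * S.ρ ^ (N - 2 * m0) ≤ e := hN1 _ (by omega)
  have hρ0 : 0 < S.ρ ^ (N - 2 * m0) := pow_pos S.ρ_pos _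
  set T0' := T0 + W with hT0'
  set Φ := S.PhiI t N m0 T0' with hΦ
  set B : ℝ := m0 * 2 ^ T0' * (2 * m0 * Real.log (Fintype.card Λ)) with hB
  set ε' : ℝ := ε * (m0 * 2 ^ T0') with hε'
  have hε'0 : 0 < ε' := by positivity
  have hbad := bad_windows Φ (S.PhiI_mono t N m0 T0') (S.PhiI_nonneg t N m0 T0') B
    (S.PhiI_le t N m0 T0') W (R W + 3 * W) ε' hε'0 (T0 + 1)
  refine ⟨Finset.range W ∪ (Finset.range (T0 + 1)).filter
    (fun Sc => W ≤ Sc ∧ ε' < Φ (Sc + (R W + 3 * W)) - Φ (Sc - W)), ?_, ?_⟩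
  · have h1 : (((Finset.range W ∪ (Finset.range (T0 + 1)).filter
        (fun Sc => W ≤ Sc ∧ ε' < Φ (Sc + (R W + 3 * W)) - Φ (Sc - W))).card : ℕ) : ℝ)
        ≤ W + (W + (R W + 3 * W : ℕ)) * B / ε' := by
      have h2 := Finset.card_union_le (Finset.range W) ((Finset.range (T0 + 1)).filter
        (fun Sc => W ≤ Sc ∧ ε' < Φ (Sc + (R W + 3 * W)) - Φ (Sc - W)))
      rw [Finset.card_range] at h2
      have h3 : (((Finset.range W ∪ (Finset.range (T0 + 1)).filter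
        (fun Sc => W ≤ Sc ∧ ε' < Φ (Sc + (R W + 3 * W)) - Φ (Sc - W))).card : ℕ) : ℝ) ≤
          ((W + ((Finset.range (T0 + 1)).filter
        (fun Sc => W ≤ Sc ∧ ε' < Φ (Sc + (R W + 3 * W)) - Φ (Sc - W))).card : ℕ) : ℝ) := by
        exact_mod_cast h2
      rw [Nat.cast_add] at h3
      exact h3.trans (add_le_add_right hbad _)
    refine h1.trans ?_
    set lg := Real.log (Fintype.card Λ) with hlg
    have hBε : B / ε' = 2 * Cm * lg / e ^ 2 * (16 ^ W * (1 + γ) ^ 2) := by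
      have h4 : (m0 : ℝ) = Cm * 16 ^ W := by
        rw [hm0]
        push_cast
        ring
      rw [hB, hε', hε, hη, h4]
      have h5 : (Cm : ℝ) ≠ 0 := by positivity
      (clear * - hγ1 he0 h5; field_simp)
    have h6 : ((W : ℝ) + ((R W + 3 * W : ℕ) : ℝ)) * B / ε'
        = ((R W : ℝ) + 4 * W) * (2 * Cm * lg / e ^ 2 * (16 ^ W * (1 + γ) ^ 2)) := by
      rw [mul_div_assoc, hBε]
      push_cast
      ring
    rw [h6, hCb]
    exact tE_count W (R W) Cm lg e γ hlog he0 hγ1 hγ2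
  · intro Sc hSc hScB C _ Q Q' u u' D K hD hK1 hK2 hu hu'
    have hWSc : W ≤ Sc := by
      by_contra hc
      exact hScB (Finset.mem_union_left _ (Finset.mem_range.2 (by omega)))
    have hwin : Φ (Sc + (R W + 3 * W)) - Φ (Sc - W) ≤ ε' := by
      by_contra hc
      refine hScB (Finset.mem_union_right _ (Finset.mem_filter.2 ⟨Finset.mem_range.2 (by omega),
        hWSc, not_le.1 hc⟩))
    have hK0 : 0 < K := lt_of_lt_of_le (by positivity) hK1
    have hKle : K ≤ 2 ^ (T0 + R W + W + 2) :=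
      hK2.trans (pow_le_pow_right₀ (by norm_num) (by (clear * - hSc; omega)))
    set δ' : ℝ := (2 : ℝ)⁻¹ ^ (Sc + 4 * W) with hδ'
    have hδ'0 : 0 < δ' := by positivity
    have hδ'1 : δ' ≤ (2 : ℝ)⁻¹ ^ Sc :=
      pow_le_pow_of_le_one (by norm_num) (by norm_num) (by omega)
    have hSc0 : (0 : ℝ) < (2 : ℝ)⁻¹ ^ Sc := by positivity
    have hinv : (2 : ℝ)⁻¹ ^ Sc = ((2 : ℝ) ^ Sc)⁻¹ := by rw [inv_pow]
    -- every term
    have hterm : ∀ l ∈ Finset.range (2 ^ (W - w0)),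
        ovlC (S.P.pi N) (fun w => tr S.r t w) Q Q'
              (fun c => Real.exp (-(l * β W)) * D + (u c - D)) u' γ K
          ≤ S.cBar m0 (S.gOC t N Q Q' u u' γ K) + 3 * e := by
      intro l hl
      have hl' : (l : ℝ) ≤ 2 ^ (W - w0) := by
        have := (Finset.mem_range.1 hl).le
        exact_mod_cast this
      have hlβ : (l : ℝ) * β W ≤ (2 : ℝ)⁻¹ ^ R W :=
        (mul_le_mul_of_nonneg_right hl' hβ0.le).trans hR2
      have hR1 : (2 : ℝ)⁻¹ ^ R W ≤ 1 := pow_le_one₀ (by norm_num) (by norm_num)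
      have h1 := S.tE_one t i j p hp0 (min_le_left _ _) (min_le_right _ _) m0 N (x W) (y W) l
        hm01 hN2 Q Q' u u' γ D K (β W) δ' hγ0.le hK0.le hδ'0.le hβ0.le (hS.eq W hWw0) hu hu'
      set a : ℝ := Real.exp (-(l * β W)) with ha
      have ha0 : 0 < a := Real.exp_pos _
      have hlβ0 : 0 ≤ (l : ℝ) * β W := by (clear * - hβ0; positivity)
      have haL : 1 / a ≤ 3 := by
        rw [div_le_iff₀ ha0, ha]
        have h3 : Real.exp (-1) ≤ Real.exp (-(l * β W)) := by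
          apply Real.exp_le_exp.2
          linarith only [hlβ, hR1]
        have h4 : 1 ≤ 3 * Real.exp (-1) := by
          rw [Real.exp_neg, ← div_eq_mul_inv, le_div_iff₀ (Real.exp_pos _)]
          have := Real.exp_one_lt_d9
          linarith only [this]
        linarith only [h3, h4]
      have ha1 : 1 - a ≤ (2 : ℝ)⁻¹ ^ R W := by
        have := Real.add_one_le_exp (-(l * β W))
        rw [← ha] at this
        linarith only [hlβ, this]
      have ha2 : 0 ≤ 1 - a := by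
        have : a ≤ 1 := Real.exp_le_one_iff.2 (by linarith only [hlβ0])
        linarith only [this]
      -- letters
      have g1 : (2 * ((l * x W : ℕ) : ℝ) + 2 * ((l * y W : ℕ) : ℝ))
          * (1 / Real.sqrt (m0 * p) + 1 / m0) ≤ e := by
        refine hCm W (l * x W) (l * y W) ?_
        have h5 : (((l * x W : ℕ) : ℝ)) + ((l * y W : ℕ) : ℝ) = l * ((x W : ℝ) + y W) := by
          push_cast
          ring
        rw [h5]
        have h6 : (l : ℝ) ≤ 2 ^ W :=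
          hl'.trans (pow_le_pow_right₀ (by norm_num) (Nat.sub_le _ _))
        have h7 : (x W : ℝ) + y W ≤ B0 * 2 ^ W := by
          refine hxy.trans (mul_le_mul_of_nonneg_right ?_ h2W.le)
          have := le_abs_self Cx
          linarith only [this]
        have h8 : (4 : ℝ) ^ W = 2 ^ W * 2 ^ W := by
          rw [← mul_pow]; norm_num
        calc (l : ℝ) * ((x W : ℝ) + y W) ≤ 2 ^ W * (B0 * 2 ^ W) :=
              mul_le_mul h6 h7 (by (clear * -; positivity)) h2W.le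
          _ = _ := by rw [h8]; ring
      have g2 : (1 + γ) * (K / a * (S.D t * S.ρ ^ (N - 2 * m0))) ≤ e := by
        refine le_trans ?_ hρN
        have h3 : K / a ≤ 2 ^ (T0 + R W + W + 2) * 3 := by
          rw [div_eq_mul_one_div]
          exact mul_le_mul hKle haL (by positivity) (by positivity)
        have h4 : K / a * (S.D t * S.ρ ^ (N - 2 * m0))
            ≤ 2 ^ (T0 + R W + W + 2) * 3 * (S.D t * S.ρ ^ (N - 2 * m0)) :=
          mul_le_mul_of_nonneg_right h3 (by (clear * - hD1 hρ0; positivity))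
        have h5 := mul_le_mul_of_nonneg_left h4 (by linarith only [hγ1] : (0 : ℝ) ≤ 1 + γ)
        calc _ ≤ _ := h5
          _ = _ := by rw [hMx]; ring
      have g3 : (1 + γ) * (K / a * ((1 - a) * δ')) ≤ e := by
        exact tE_err1 W (R W) Sc K a γ e hγ0 hK2 ha0 haL ha1 ha2 hH1
      linarith only [h1, g1, g2, g3]
    have hjd : (R W + 4 * W) + (Sc - W) = Sc + (R W + 3 * W) := by (clear * - hWSc; omega)
    have hcb := S.cBar_le_ovlC t m0 N T0' (Sc - W) (R W + 4 * W) hm01 hN2 (by omega) Q Q' u u' γ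
      (2 * (2 : ℝ)⁻¹ ^ Sc) K η hγ0.le hK0 hη0 (by positivity)
      (by
        intro c hc
        have h1 := hu c hc
        have h2 : |u c| ≤ |u c - D| + |D| := by
          have := abs_add_le (u c - D) D
          rwa [sub_add_cancel] at this
        linarith only [hD, hδ'1, h1, h2])
      (by
        intro c hc
        have h1 := hu' c hc
        linarith only [hδ'0, hδ'1, h1])
    have hE2 : (1 + γ) * (2 * K / 2 ^ (R W + 4 * W + (Sc - W))
          + ((S.PhiI t N m0 T0' (R W + 4 * W + (Sc - W)) - S.PhiI t N m0 T0' (Sc - W))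
            / (m0 * 2 ^ T0') / η + η)
          + (4 * (2 ^ (Sc - W) * (2 * (2 : ℝ)⁻¹ ^ Sc + 1 / K)) + 2 * 2 ^ (Sc - W) / 2 ^ T0'))
        + (1 + γ) * (K * (S.D t * S.ρ ^ (N - 2 * m0))) ≤ 6 * e := by
      obtain ⟨g1, g4, g5⟩ := tE_err2 W (R W) Sc T0 K γ e hγ0 hK1 hK2 hWSc hSc hH1
      rw [← hjd] at g1
      have g2 : (1 + γ) * ((S.PhiI t N m0 T0' (R W + 4 * W + (Sc - W))
            - S.PhiI t N m0 T0' (Sc - W)) / (m0 * 2 ^ T0') / η) ≤ e := by
        have h1 : (S.PhiI t N m0 T0' (R W + 4 * W + (Sc - W)) - S.PhiI t N m0 T0' (Sc - W))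
            / (m0 * 2 ^ T0') / η ≤ e / (1 + γ) := by
          rw [hjd, div_div, div_le_iff₀ (by positivity)]
          refine hwin.trans (le_of_eq ?_)
          rw [hε', hε]
          ring
        calc _ ≤ (1 + γ) * (e / (1 + γ)) :=
              mul_le_mul_of_nonneg_left h1 (by linarith only [hγ1])
          _ = e := by (clear * - hγ1 he0; field_simp)
      have g3 : (1 + γ) * η ≤ e := by
        rw [hη]
        exact le_of_eq (by (clear * - hγ1 he0; field_simp))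
      have g6 : (1 + γ) * (K * (S.D t * S.ρ ^ (N - 2 * m0))) ≤ e := by
        refine le_trans ?_ hρN
        have h3 : K ≤ 2 ^ (T0 + R W + W + 2) * 3 :=
          hKle.trans (le_mul_of_one_le_right (by positivity) (by norm_num))
        have h4 : K * (S.D t * S.ρ ^ (N - 2 * m0))
            ≤ 2 ^ (T0 + R W + W + 2) * 3 * (S.D t * S.ρ ^ (N - 2 * m0)) :=
          mul_le_mul_of_nonneg_right h3 (by (clear * - hD1 hρ0; positivity))
        have h5 := mul_le_mul_of_nonneg_left h4 (by linarith only [hγ1] : (0 : ℝ) ≤ 1 + γ)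
        calc _ ≤ _ := h5
          _ = _ := by rw [hMx]; ring
      rw [mul_add, mul_add, mul_add, mul_add]
      linarith only [g1, g4, g5, g2, g3, g6]
    have h5 := Finset.sum_le_sum hterm
    rw [Finset.sum_const, Finset.card_range, nsmul_eq_mul] at h5
    have hJ : (0 : ℝ) < 2 ^ (W - w0) := by positivity
    rw [div_le_iff₀ hJ]
    push_cast at h5
    refine h5.trans ?_
    rw [mul_comm]
    refine mul_le_mul_of_nonneg_right ?_ hJ.le
    have : 9 * e ≤ δ := by rw [he]; linarith only [hδ]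
    linarith only [he, hH0, hH1, hcb, hE2]

end Sys

end Vale.Agent.P114
end
end

section

/-!
T11-F. Heavy cells.
-/

open scoped Classical

noncomputable section

namespace Vale.Agent.P114

open FinProb

namespace HeavyAux

variable {Ω : Type*} [Fintype Ω]

/-- Markov: the probability of the heavy cells. -/
lemma prob_heavy (P : FinProb Ω) (F Z : Ω → ℤ) (hdet : ∀ ω ω', F ω = F ω' → Z ω = Z ω')
    (c L : ℝ) (hL : 0 < L) (h : P.H F - P.H Z ≤ c) :
    1 - c / L ≤ ∑ ω, if Real.exp (-L) * P.p Z (Z ω) ≤ P.p F (F ω) then P.w ω else 0 := by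
  have h1 : P.H F - P.H Z = ∑ ω, P.w ω * (Real.log (P.p Z (Z ω)) - Real.log (P.p F (F ω))) := by
    unfold FinProb.H
    rw [← Finset.sum_sub_distrib]
    refine Finset.sum_congr rfl fun ω _ => ?_
    ring
  have h2 : L * (∑ ω, if Real.exp (-L) * P.p Z (Z ω) ≤ P.p F (F ω) then 0 else P.w ω)
      ≤ P.H F - P.H Z := by
    rw [h1, Finset.mul_sum]
    refine Finset.sum_le_sum fun ω _ => ?_
    rcases P.w_zero_or_pos ω with hw | hw
    · simp only [hw, ite_self, mul_zero, zero_mul, Std.le_refl]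
    · have hF : 0 < P.p F (F ω) := P.p_pos hw F
      have hZ : 0 < P.p Z (Z ω) := P.p_pos hw Z
      have hle : P.p F (F ω) ≤ P.p Z (Z ω) := P.p_mono_of_det hdet ω
      have hlog := Real.log_le_log hF hle
      split_ifs with hh
      · rw [mul_zero]; exact mul_nonneg hw.le (by linarith only [hlog])
      · push Not at hh
        have h3 := Real.log_lt_log hF hh
        rw [Real.log_mul (Real.exp_pos _).ne' hZ.ne', Real.log_exp] at h3
        nlinarith only [hw, h3]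
  have h4 : (∑ ω, if Real.exp (-L) * P.p Z (Z ω) ≤ P.p F (F ω) then P.w ω else 0)
      + (∑ ω, if Real.exp (-L) * P.p Z (Z ω) ≤ P.p F (F ω) then 0 else P.w ω) = 1 := by
    rw [← Finset.sum_add_distrib, ← P.sum_one]
    refine Finset.sum_congr rfl fun ω _ => ?_
    split_ifs <;> simp
  have h5 : (∑ ω, if Real.exp (-L) * P.p Z (Z ω) ≤ P.p F (F ω) then 0 else P.w ω) ≤ c / L := by
    rw [le_div_iff₀ hL]
    linarith only [h, h2]
  linarith only [h4, h5]

/-- Number of heavy fine cells in a coarse cell. -/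
lemma count_heavy (P : FinProb Ω) (F Z : Ω → ℤ) (M : ℤ) (hZ : ∀ ω, Z ω = F ω / M) (θ : ℝ)
    (z : ℤ) (T : Finset ℤ) (hT : ∀ k ∈ T, k / M = z)
    (hT2 : ∀ k ∈ T, θ * P.p Z z ≤ P.p F k) (hz : 0 < P.p Z z) : (T.card : ℝ) * θ ≤ 1 := by
  have h1 : ∑ k ∈ T, P.p F k ≤ P.p Z z := by
    unfold FinProb.p
    rw [Finset.sum_comm]
    refine Finset.sum_le_sum fun ω _ => ?_
    by_cases h : F ω ∈ T
    · have h0 : (∑ x ∈ T, if F ω = x then P.w ω else 0) = P.w ω := by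
        rw [Finset.sum_ite_eq T (F ω) (fun _ => P.w ω), if_pos h]
      rw [if_pos ((hZ ω).trans (hT _ h))]
      exact le_of_eq (by convert h0)
    · have h0 : (∑ x ∈ T, if F ω = x then P.w ω else 0) = 0 := by
        rw [Finset.sum_ite_eq T (F ω) (fun _ => P.w ω), if_neg h]
      refine le_trans (b := (0 : ℝ)) (le_of_eq (by convert h0)) ?_
      split_ifs
      · exact P.nonneg ω
      · exact le_rfl
  have h2 : (T.card : ℝ) * (θ * P.p Z z) ≤ ∑ k ∈ T, P.p F k := by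
    rw [← nsmul_eq_mul]
    exact Finset.card_nsmul_le_sum T _ _ hT2
  have h3 : ((T.card : ℝ) * θ) * P.p Z z ≤ 1 * P.p Z z := by
    calc ((T.card : ℝ) * θ) * P.p Z z = (T.card : ℝ) * (θ * P.p Z z) := by ring
      _ ≤ P.p Z z := h2.trans h1
      _ = 1 * P.p Z z := (one_mul _).symm
  exact le_of_mul_le_mul_right h3 hz

/-- The test function. -/
def tst (K : ℝ) (B : Set ℝ) (x : ℝ) : ℝ := max 0 (min 1 (3 / 2 - Metric.infDist (K * x) B))

lemma tst_lip {K : ℝ} (hK : 0 ≤ K) (B : Set ℝ) : LipT K (tst K B) := by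
  refine ⟨fun x => le_max_left _ _, fun x => max_le zero_le_one (min_le_left _ _), fun x y => ?_⟩
  unfold tst
  have h1 := Metric.lipschitz_infDist_pt B
  have h2 := h1.dist_le_mul (K * x) (K * y)
  rw [Real.dist_eq, Real.dist_eq, NNReal.coe_one, one_mul, ← mul_sub, abs_mul,
    abs_of_nonneg hK] at h2
  refine le_trans ?_ h2
  have h3 : ∀ a b c : ℝ, |max 0 (min 1 (c - a)) - max 0 (min 1 (c - b))| ≤ |a - b| := by
    intro a b c
    have h4 := abs_max_sub_max_le_max 0 (min 1 (c - a)) 0 (min 1 (c - b))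
    have h5 := abs_min_sub_min_le_max 1 (c - a) 1 (c - b)
    rw [sub_self, abs_zero, max_eq_right (abs_nonneg (min 1 (c - a) - min 1 (c - b)))] at h4
    rw [sub_self, abs_zero, max_eq_right (abs_nonneg (c - a - (c - b)))] at h5
    rw [show c - a - (c - b) = -(a - b) by ring, abs_neg] at h5
    exact h4.trans h5
  exact h3 _ _ _

lemma lipT_shift {K : ℝ} {f : ℝ → ℝ} (h : LipT K f) (c : ℝ) : LipT K (fun y => f (y - c)) :=
  ⟨fun x => h.nonneg _, fun x => h.le_one _, fun x y => by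
    have := h.lip (x - c) (y - c)
    rwa [show x - c - (y - c) = x - y by ring] at this⟩

lemma tst_eq_one {K : ℝ} {B : Set ℝ} {x b : ℝ} (hb : b ∈ B) (h : |K * x - b| ≤ 1 / 2) :
    tst K B x = 1 := by
  unfold tst
  have h1 := Metric.infDist_le_dist_of_mem (x := K * x) hb
  rw [Real.dist_eq] at h1
  rw [min_eq_left (by linarith), max_eq_right zero_le_one]

lemma tst_pos {K : ℝ} {B : Set ℝ} (hB : B.Nonempty) {x : ℝ} (h : 0 < tst K B x) :
    ∃ b ∈ B, |K * x - b| < 3 / 2 := by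
  unfold tst at h
  have h1 : Metric.infDist (K * x) B < 3 / 2 := by
    by_contra hc
    push Not at hc
    rw [min_eq_right (by linarith only [hc]), max_eq_left (by linarith only [hc])] at h
    exact lt_irrefl _ h
  obtain ⟨b, hb, hd⟩ := (Metric.infDist_lt_iff hB).1 h1
  exact ⟨b, hb, by rwa [Real.dist_eq] at hd⟩

/-- The sum of the test function over the translations, for a fixed point. -/
lemma sum_tst_le (Hv : Finset ℤ) (hne : Hv.Nonempty) (m : ℕ) (hm : 1 ≤ m) (K s D E Ca : ℝ)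
    (hK : K = m * s) (q : ℕ) (a : ℕ → ℝ) (X : ℝ)
    (hD1 : (m : ℝ) / 2 ≤ K * |D|) (hD2 : K * |D| ≤ m) (hK0 : 0 < K)
    (hq : (q : ℝ) ≤ m) (hCa : 0 ≤ Ca)
    (hH : ∀ z : ℤ, (((Hv.filter (fun k => k / (m : ℤ) = z)).card : ℕ) : ℝ) ≤ E)
    (ha : ∀ x, 0 < a x ∧ a x ≤ 1)
    (hcount : ∀ u v : ℝ, u ≤ v → (((Finset.range q).filter
        (fun x : ℕ => u ≤ a x ∧ a x ≤ v)).card : ℝ) ≤ Ca * (q * (v - u) + 1)) :
    ∑ x ∈ Finset.range q, tst K ((fun k : ℤ => (k : ℝ) + 1 / 2) '' (Hv : Set ℤ)) (X - a x * D)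
      ≤ 35 * Ca * E := by
  set B : Set ℝ := (fun k : ℤ => (k : ℝ) + 1 / 2) '' (Hv : Set ℤ) with hB
  have hBne : B.Nonempty := by
    obtain ⟨k, hk⟩ := hne
    exact ⟨_, k, hk, rfl⟩
  have hm0 : (0 : ℝ) < m := by exact_mod_cast hm
  have hD0 : 0 < |D| := by
    by_contra hc
    have : |D| = 0 := le_antisymm (not_lt.1 hc) (abs_nonneg D)
    rw [this, mul_zero] at hD1
    linarith only [hD1, hm0]
  have hDne : D ≠ 0 := abs_pos.1 hD0
  set z0 : ℤ := ⌊s * X⌋ with hz0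
  set T : Finset ℤ := Hv.filter (fun k => k / (m : ℤ) ∈ Finset.Icc (z0 - 2) (z0 + 2)) with hT
  have hTcard : (T.card : ℝ) ≤ 5 * E := by
    have h1 : T = (Finset.Icc (z0 - 2) (z0 + 2)).biUnion
        (fun z => Hv.filter (fun k => k / (m : ℤ) = z)) := by
      ext k
      simp only [hT, Finset.mem_filter, Finset.mem_biUnion]
      constructor
      · rintro ⟨h1, h2⟩
        exact ⟨_, h2, h1, rfl⟩
      · rintro ⟨z, h2, h1, h3⟩
        exact ⟨h1, h3 ▸ h2⟩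
    have h2 : T.card ≤ ∑ z ∈ Finset.Icc (z0 - 2) (z0 + 2),
        (Hv.filter (fun k => k / (m : ℤ) = z)).card := by
      rw [h1]; exact Finset.card_biUnion_le
    have h3 : ((T.card : ℕ) : ℝ) ≤ ∑ z ∈ Finset.Icc (z0 - 2) (z0 + 2),
        (((Hv.filter (fun k => k / (m : ℤ) = z)).card : ℕ) : ℝ) := by exact_mod_cast h2
    refine h3.trans ((Finset.sum_le_sum fun z _ => hH z).trans ?_)
    have h5 : (Finset.Icc (z0 - 2) (z0 + 2)).card = 5 := by
      rw [Int.card_Icc, show z0 + 2 + 1 - (z0 - 2) = 5 by ring]; rfl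
    rw [Finset.sum_const, h5, nsmul_eq_mul]
    norm_num
  -- each translation
  have hx : ∀ x ∈ Finset.range q, tst K B (X - a x * D)
      ≤ ∑ k ∈ T, if |K * (X - a x * D) - (k + 1 / 2)| < 3 / 2 then (1 : ℝ) else 0 := by
    intro x _
    by_cases hg : 0 < tst K B (X - a x * D)
    · obtain ⟨b, ⟨k, hk, rfl⟩, hd⟩ := tst_pos hBne hg
      have hkT : k ∈ T := by
        rw [hT, Finset.mem_filter]
        refine ⟨hk, ?_⟩
        have e1 : |K * (a x * D)| ≤ m := by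
          rw [abs_mul, abs_mul, abs_of_pos hK0, abs_of_pos (ha x).1]
          calc K * (a x * |D|) = a x * (K * |D|) := by ring
            _ ≤ 1 * (K * |D|) := by
                have := (ha x).2
                have := hK0.le
                (clear Hv hne s E Ca hK X hD2 hq hCa hH hcount B hB hBne z0 hz0 T hT hTcard hg k hk hd this; gcongr)
            _ ≤ m := by linarith only [hD2]
        have e2 := abs_lt.1 hd
        have e3 := abs_le.1 e1
        have e4 : K * (X - a x * D) = K * X - K * (a x * D) := by ring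
        simp only at e2
        rw [e4] at e2
        have e5 : K * X = m * (s * X) := by rw [hK]; ring
        have e6 : (z0 : ℝ) ≤ s * X := Int.floor_le _
        have e7 : s * X < z0 + 1 := Int.lt_floor_add_one _
        have e8 : (m : ℝ) * z0 ≤ K * X := by rw [e5]; (clear * - e6 hm; gcongr)
        have e9 : K * X < m * (z0 + 1) := by rw [e5]; (clear * - e7 hm; gcongr)
        have e10 : ((m : ℤ) * (z0 - 2) : ℝ) < k + 1 := by
          push_cast
          have : (1 : ℝ) ≤ m := by exact_mod_cast hm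
          nlinarith only [e2, e3, e8, this]
        have e11 : ((k : ℤ) : ℝ) < (m : ℤ) * (z0 + 3) := by
          push_cast
          have : (1 : ℝ) ≤ m := by exact_mod_cast hm
          linarith
        have e12 : (m : ℤ) * (z0 - 2) < k + 1 := by exact_mod_cast e10
        have e13 : k < (m : ℤ) * (z0 + 3) := by exact_mod_cast e11
        have hmz : (0 : ℤ) < (m : ℤ) := by exact_mod_cast hm
        rw [Finset.mem_Icc]
        constructor
        · rw [Int.le_ediv_iff_mul_le hmz, mul_comm]; (clear * - e12; omega)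
        · have : k / (m : ℤ) < z0 + 3 := by
            rw [Int.ediv_lt_iff_lt_mul hmz, mul_comm]; exact e13
          omega
      have h1 := Finset.single_le_sum
        (f := fun k : ℤ => if |K * (X - a x * D) - ((k : ℝ) + 1 / 2)| < 3 / 2
        then (1 : ℝ) else 0) (fun _ _ => by split_ifs <;> norm_num) hkT
      rw [if_pos hd] at h1
      exact (max_le zero_le_one (min_le_left _ _)).trans h1
    · refine (not_lt.1 hg).trans (Finset.sum_nonneg fun _ _ => by split_ifs <;> norm_num)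
  refine (Finset.sum_le_sum hx).trans ?_
  rw [Finset.sum_comm]
  have hk : ∀ k ∈ T, ∑ x ∈ Finset.range q,
      (if |K * (X - a x * D) - ((k : ℝ) + 1 / 2)| < 3 / 2 then (1 : ℝ) else 0) ≤ 7 * Ca := by
    intro k _
    set c : ℝ := (K * X - k - 1 / 2) / (K * D) with hc
    set r : ℝ := 3 / 2 / (K * |D|) with hr
    have hKD : 0 < K * |D| := mul_pos hK0 hD0
    have hr0 : 0 ≤ r := by (clear * - hK0 hDne; positivity)
    have h1 : ∑ x ∈ Finset.range q,
        (if |K * (X - a x * D) - ((k : ℝ) + 1 / 2)| < 3 / 2 then (1 : ℝ) else 0)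
        ≤ (((Finset.range q).filter (fun x : ℕ => c - r ≤ a x ∧ a x ≤ c + r)).card : ℝ) := by
      rw [Finset.card_filter, Nat.cast_sum]
      refine Finset.sum_le_sum fun x _ => ?_
      split_ifs with h2 h3
      · simp
      · exfalso
        apply h3
        have h4 : K * (X - a x * D) - ((k : ℝ) + 1 / 2) = (K * D) * (c - a x) := by
          have : K * D ≠ 0 := mul_ne_zero hK0.ne' hDne
          rw [hc]; field_simp; ring
        rw [h4, abs_mul, abs_mul, abs_of_pos hK0] at h2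
        have h5 : |c - a x| < r := by
          rw [hr, lt_div_iff₀ hKD, mul_comm]; exact h2
        have h6 := abs_lt.1 h5
        constructor <;> linarith only [h6]
      · positivity
      · simp
    refine h1.trans ((hcount _ _ (by linarith only [hr0])).trans ?_)
    have h2 : c + r - (c - r) = 3 / (K * |D|) := by rw [hr]; ring
    rw [h2]
    have h3 : (q : ℝ) * (3 / (K * |D|)) ≤ 6 := by
      rw [mul_div_assoc', div_le_iff₀ hKD]
      linarith only [hD1, hq]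
    calc Ca * (q * (3 / (K * |D|)) + 1) ≤ Ca * (6 + 1) := by (clear * - h3 hCa; gcongr)
      _ = 7 * Ca := by ring
  refine (Finset.sum_le_sum hk).trans ?_
  rw [Finset.sum_const, nsmul_eq_mul]
  calc (T.card : ℝ) * (7 * Ca) ≤ (5 * E) * (7 * Ca) := by (clear * - hTcard hCa; gcongr)
    _ = 35 * Ca * E := by ring

end HeavyAux

variable {Λ : Type} [Fintype Λ]

namespace Sys
variable (S : Sys Λ)

open HeavyAux

end Sys

end Vale.Agent.P114
end
end

section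

/-!
T12-F. Heavy cells (contaminated shifts).
-/

open scoped Classical

noncomputable section

namespace Vale.Agent.P114

open FinProb HeavyAux

/-- Shifting the variable changes the entropy of the cell by at most `log 2`. -/
lemma hC_shift {Ω : Type*} [Fintype Ω] (P : FinProb Ω) (Y : Ω → ℤ) (n : ℤ) (j : ℕ) :
    P.H (fun ω => (n + Y ω) / 2 ^ j) ≤ P.H (fun ω => Y ω / 2 ^ j) + Real.log 2 := by
  have hpos : (0 : ℤ) < 2 ^ j := by positivity
  refine P.H_le_add_log_card (fun ω => (n + Y ω) / 2 ^ j) (fun ω => Y ω / 2 ^ j)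
    (fun b => {n / 2 ^ j + b, n / 2 ^ j + b + 1}) 2 ?_ ?_
  · intro ω
    rw [Finset.mem_insert, Finset.mem_singleton]
    have h1 := Int.mul_ediv_add_emod n (2 ^ j)
    have h2 := Int.mul_ediv_add_emod (Y ω) (2 ^ j)
    have h3 := Int.emod_nonneg n hpos.ne'
    have h4 := Int.emod_lt_of_pos n hpos
    have h5 := Int.emod_nonneg (Y ω) hpos.ne'
    have h6 := Int.emod_lt_of_pos (Y ω) hpos
    have e : n + Y ω = (n % 2 ^ j + Y ω % 2 ^ j) + 2 ^ j * (n / 2 ^ j + Y ω / 2 ^ j) := by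
      rw [mul_add]; linarith only [h1, h2]
    rw [e, Int.add_mul_ediv_left _ _ hpos.ne']
    by_cases hc : n % 2 ^ j + Y ω % 2 ^ j < 2 ^ j
    · left
      rw [Int.ediv_eq_zero_of_lt (by linarith only [h3, h5]) hc, zero_add]
    · right
      have h7 : (n % 2 ^ j + Y ω % 2 ^ j) / 2 ^ j = 1 := by
        push Not at hc
        have h8 : n % 2 ^ j + Y ω % 2 ^ j = (n % 2 ^ j + Y ω % 2 ^ j - 2 ^ j) + 2 ^ j * 1 := by ring
        rw [h8, Int.add_mul_ediv_left _ _ hpos.ne', Int.ediv_eq_zero_of_lt (by linarith only [hc]) (by linarith only [h4, h6]),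
          zero_add]
      rw [h7]
      ring
  · intro b
    exact Finset.card_le_two

lemma hC_shift' {Ω : Type*} [Fintype Ω] (P : FinProb Ω) (Y : Ω → ℤ) (n : ℤ) (j : ℕ) :
    P.H (fun ω => Y ω / 2 ^ j) ≤ P.H (fun ω => (n + Y ω) / 2 ^ j) + Real.log 2 := by
  have h := hC_shift P (fun ω => n + Y ω) (-n) j
  have e : (fun ω => (-n + (n + Y ω)) / (2 : ℤ) ^ j) = fun ω => Y ω / 2 ^ j := by
    funext ω
    congr 1
    ring
  rw [e] at h
  exact h

/-- The progression is separated. -/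
lemma hC_sep {β : ℝ} {R J : ℕ} (hβ : 0 < β) (h1 : (2 : ℝ)⁻¹ ^ (R + 1) < J * β)
    (h2 : J * β ≤ (2 : ℝ)⁻¹ ^ R) {l l' : ℕ} (hl : l ≤ l') (hJ : l' < J) :
    ((l' : ℝ) - l) / (12 * J) ≤
      2 ^ R / 2 * (Real.exp (-(l * β)) - Real.exp (-(l' * β))) := by
  have hJ0 : (0 : ℝ) < J := by
    have : 0 < J := by omega
    exact_mod_cast this
  have hR : (0 : ℝ) < 2 ^ R := by positivity
  have hRR : (2 : ℝ) ^ R * (2 : ℝ)⁻¹ ^ R = 1 := by
    rw [inv_pow, mul_inv_cancel₀ hR.ne']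
  have hR1 : (2 : ℝ)⁻¹ ^ R ≤ 1 := pow_le_one₀ (by norm_num) (by norm_num)
  have hll : (0 : ℝ) ≤ (l' : ℝ) - l := by
    have : (l : ℝ) ≤ l' := by exact_mod_cast hl
    linarith only [this]
  have hlJ : (l' : ℝ) * β ≤ 1 := by
    have h3 : (l' : ℝ) ≤ J := by exact_mod_cast hJ.le
    calc (l' : ℝ) * β ≤ J * β := mul_le_mul_of_nonneg_right h3 hβ.le
      _ ≤ 1 := h2.trans hR1
  have he : (1 : ℝ) / 3 ≤ Real.exp (-(l' * β)) := by
    have h4 : Real.exp (-1) ≤ Real.exp (-(l' * β)) := Real.exp_le_exp.2 (by linarith only [hlJ])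
    have h5 : (1 : ℝ) / 3 ≤ Real.exp (-1) := by
      rw [Real.exp_neg, one_div]
      have := Real.exp_one_lt_three
      exact inv_anti₀ (Real.exp_pos 1) this.le
    linarith only [h4, h5]
  have h6 : Real.exp (-(l' * β)) * (1 + ((l' : ℝ) - l) * β) ≤ Real.exp (-(l * β)) := by
    have h7 : Real.exp (-(l * β)) = Real.exp (-(l' * β)) * Real.exp (((l' : ℝ) - l) * β) := by
      rw [← Real.exp_add]
      congr 1
      ring
    rw [h7]
    refine mul_le_mul_of_nonneg_left ?_ (Real.exp_pos _).le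
    have := Real.add_one_le_exp (((l' : ℝ) - l) * β)
    linarith only [this]
  have h8 : 1 / 3 * (((l' : ℝ) - l) * β) ≤ Real.exp (-(l * β)) - Real.exp (-(l' * β)) := by
    have h9 : 1 / 3 * (((l' : ℝ) - l) * β) ≤ Real.exp (-(l' * β)) * (((l' : ℝ) - l) * β) :=
      mul_le_mul_of_nonneg_right he (by (clear * - hll hβ; positivity))
    linarith only [h6, h9]
  have h10 : 1 / (2 * J) ≤ 2 ^ R * β := by
    have h11 : (1 : ℝ) / 2 < 2 ^ R * (J * β) := by
      have h12 := mul_lt_mul_of_pos_left h1 hR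
      rw [pow_succ, ← mul_assoc, hRR] at h12
      norm_num at h12
      linarith only [h12]
    rw [div_le_iff₀ (by (clear * - hJ0; positivity))]
    linarith only [h11]
  calc ((l' : ℝ) - l) / (12 * J) = 1 / 6 * ((l' : ℝ) - l) * (1 / (2 * J)) := by
        field_simp
        ring
    _ ≤ 1 / 6 * ((l' : ℝ) - l) * (2 ^ R * β) := mul_le_mul_of_nonneg_left h10 (by (clear * - hll; positivity))
    _ = 2 ^ R / 2 * (1 / 3 * (((l' : ℝ) - l) * β)) := by ring
    _ ≤ _ := mul_le_mul_of_nonneg_left h8 (by positivity)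

/-- Number of points of the progression in an interval. -/
lemma hC_count {β : ℝ} {R J : ℕ} (hβ : 0 < β) (h1 : (2 : ℝ)⁻¹ ^ (R + 1) < J * β)
    (h2 : J * β ≤ (2 : ℝ)⁻¹ ^ R) (u v : ℝ) (huv : u ≤ v) :
    (((Finset.range J).filter (fun l : ℕ =>
      u ≤ 1 - (1 - Real.exp (-(l * β))) * 2 ^ R / 2 ∧
        1 - (1 - Real.exp (-(l * β))) * 2 ^ R / 2 ≤ v)).card : ℝ) ≤ 12 * (J * (v - u) + 1) := by
  set T := (Finset.range J).filter (fun l : ℕ =>
      u ≤ 1 - (1 - Real.exp (-(l * β))) * 2 ^ R / 2 ∧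
        1 - (1 - Real.exp (-(l * β))) * 2 ^ R / 2 ≤ v) with hT
  have hJ0 : (0 : ℝ) ≤ J := Nat.cast_nonneg _
  have hvu : 0 ≤ v - u := by linarith only [huv]
  rcases T.eq_empty_or_nonempty with h0 | h0
  · rw [h0]
    simp only [Finset.card_empty, Nat.cast_zero]
    (clear * - huv; positivity)
  · set l := T.min' h0 with hl
    set l' := T.max' h0 with hl'
    have hmem := T.min'_mem h0
    have hmem' := T.max'_mem h0
    rw [← hl] at hmem
    rw [← hl'] at hmem'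
    rw [hT, Finset.mem_filter, Finset.mem_range] at hmem hmem'
    have hll : l ≤ l' := T.min'_le _ (T.max'_mem h0)
    have hsub : T ⊆ Finset.Icc l l' := fun i hi => by
      rw [Finset.mem_Icc]
      exact ⟨T.min'_le _ hi, T.le_max' _ hi⟩
    have hcard : (T.card : ℝ) ≤ (l' : ℝ) - l + 1 := by
      have h3 := Finset.card_le_card hsub
      rw [Nat.card_Icc] at h3
      have h4 : T.card + l ≤ l' + 1 := by omega
      have h5 : (T.card : ℝ) + l ≤ l' + 1 := by exact_mod_cast h4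
      linarith only [h5]
    have hJpos : (0 : ℝ) < J := by
      have : 0 < J := by omega
      exact_mod_cast this
    have hsep := hC_sep hβ h1 h2 hll hmem'.1
    have h6 : ((l' : ℝ) - l) / (12 * J) ≤ v - u := by
      refine hsep.trans ?_
      have h7 := hmem.2.2
      have h8 := hmem'.2.1
      have e : 2 ^ R / 2 * (Real.exp (-(l * β)) - Real.exp (-(l' * β))) =
        (1 - (1 - Real.exp (-(l * β))) * 2 ^ R / 2) -
          (1 - (1 - Real.exp (-(l' * β))) * 2 ^ R / 2) := by ring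
      rw [e]
      linarith only [hmem, hmem']
    rw [div_le_iff₀ (by positivity)] at h6
    linarith only [hcard, h6]

lemma hC_range {β : ℝ} {R J : ℕ} (hβ : 0 < β) (h2 : J * β ≤ (2 : ℝ)⁻¹ ^ R) {l : ℕ} (hl : l < J) :
    0 < 1 - (1 - Real.exp (-(l * β))) * 2 ^ R / 2 ∧
      1 - (1 - Real.exp (-(l * β))) * 2 ^ R / 2 ≤ 1 := by
  have hR : (0 : ℝ) < 2 ^ R := by positivity
  have hRR : (2 : ℝ) ^ R * (2 : ℝ)⁻¹ ^ R = 1 := by
    rw [inv_pow, mul_inv_cancel₀ hR.ne']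
  have h3 : (l : ℝ) ≤ J := by exact_mod_cast hl.le
  have h4 : (l : ℝ) * β ≤ (2 : ℝ)⁻¹ ^ R := (mul_le_mul_of_nonneg_right h3 hβ.le).trans h2
  have h5 := Real.add_one_le_exp (-(l * β))
  have h6 : 1 - Real.exp (-(l * β)) ≤ (2 : ℝ)⁻¹ ^ R := by linarith only [h4, h5]
  have h7 : (1 - Real.exp (-(l * β))) * 2 ^ R ≤ 1 := by
    have := mul_le_mul_of_nonneg_right h6 hR.le
    rw [mul_comm ((2 : ℝ)⁻¹ ^ R), hRR] at this
    exact this
  have h8 : 0 ≤ 1 - Real.exp (-(l * β)) := by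
    have : Real.exp (-(l * β)) ≤ 1 := Real.exp_le_one_iff.2 (by
      have : 0 ≤ (l : ℝ) * β := by (clear * - hβ; positivity)
      linarith only [this])
    linarith only [this]
  have h9 : 0 ≤ (1 - Real.exp (-(l * β))) * 2 ^ R := by (clear * - h8; positivity)
  constructor <;> linarith only [h7, h9]

/-- `α' = (1 + α) / 2`, `kf = k - R - W`, `kc = k - R`. `O c ω = U c + ⌊x ω⌋`, fine cell
`F = O / 2 ^ kf`, coarse cell `Z = O / 2 ^ kc` (`= F / 2 ^ W`).
(1) `H F - H Z ≤ JU kf - JU kc + ∑ Q (H(F | c) - H(Z | c)) ≤ c' W + α W log 2 + C₀ + 2 log 2`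
(for a fixed `c` the cells of `U c + Y` and of `Y` of the same size determine each other up to two
values: `H ((n + Y)/2^j) ≤ H (Y/2^j) + log 2` and conversely).
(2) `B` = the set of the fine cells `e` with `P(F = e) ≥ 2^{-α' W} P(Z = e / 2^W)`; by Markov for
`log (P(Z = F/2^W) / P(F))` : `P(F ∈ B) ≥ 1 - (α W log 2 + C₀ + 2 log 2 + c' W)/(α' W log 2)
≥ (1 - α) / 4` for `c' = (1-α) α' log 2 / 8` and `W` large; at most `2^{α' W}` elements of `B` in
each coarse cell.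
(3) `g y = sup` over `e ∈ B` of `max 0 (1 - dist (y / 2^kf, [e, e+1]))`, i.e.
`max 0 (1 - 2^{-kf} dist(y, ∪ cells))`, `LipT (2⁻¹ ^ kf)`, `g ≥ 1` on the cells, and `g y > 0` only
if `⌊y / 2^kf⌋ ∈ B + {-1,0,1}`. Test function for `l`: `f_l y = g (y + z + (1 - a_l) D)`,
`a_l = exp (-(l β))`: first term `E g (x + U) ≥ P(F ∈ B)` (`⌊(x + U)/2^kf⌋ = (⌊x⌋ + U)/2^kf`),
second term `E g (x + U + (1 - a_l) D)` (law `Q'`).
(4) for a fixed real `v = x + U`: the points `v + (1 - a_l) D`, `l < J = 2^(W-w0)`, are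
`≥ (β/e) 2^k ≥ 2^(kf - 3)`-separated (`a_l - a_{l+1} ≥ β / (2 e)`..) and lie in an interval of
length `≤ J β 2^(k+1) ≤ 2 * 2^kc`; so at most `C 2^{α' W}` indices `l` give a nonzero value. -/
theorem heavyC (α C₀ : ℝ) (hα0 : 0 ≤ α) (hα1 : α < 1) (hC₀ : 0 ≤ C₀) (w0 : ℕ) :
    ∃ (Ch c' : ℝ) (W₀ : ℕ), 0 ≤ Ch ∧ 0 < c' ∧ w0 ≤ W₀ ∧
      ∀ {Ω C : Type} [Fintype Ω] [Fintype C] (P : FinProb Ω) (x : Ω → ℝ) (Q Q' : FinProb C)
        (U : C → ℤ) (z D : ℤ) (W k R : ℕ) (β γ : ℝ), W₀ ≤ W → R + W ≤ k → 0 ≤ γ →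
        P.H (fun ω => ⌊x ω⌋ / 2 ^ (k - R - W)) - P.H (fun ω => ⌊x ω⌋ / 2 ^ (k - R))
          ≤ α * (W * Real.log 2) + C₀ →
        JU Q P U (fun ω => ⌊x ω⌋) (k - R - W) - JU Q P U (fun ω => ⌊x ω⌋) (k - R) ≤ c' * W →
        2 ^ k ≤ |D| → |D| < 2 ^ (k + 1) → 0 < β → (2 : ℝ)⁻¹ ^ (R + 1) < 2 ^ (W - w0) * β →
        2 ^ (W - w0) * β ≤ (2 : ℝ)⁻¹ ^ R →
        (1 - α) / 4 - γ * (Ch * (2 : ℝ) ^ (-((1 - α) / 2 * W)))
          ≤ (∑ l ∈ Finset.range (2 ^ (W - w0)), ovlC P x Q Q'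
              (fun c => Real.exp (-(l * β)) * D + ((U c : ℝ) - z - D)) (fun c => (U c : ℝ) - z) γ
              ((2 : ℝ)⁻¹ ^ (k - R - W))) / 2 ^ (W - w0) := by
  have hlog2 : 0 < Real.log 2 := Real.log_pos (by norm_num)
  have h1α : 0 < 1 - α := by linarith
  refine ⟨1680 * 2 ^ w0, (1 - α) * Real.log 2 / 16,
    max w0 (⌈16 * (C₀ + 2 * Real.log 2) / ((1 - α) * Real.log 2)⌉₊ + 1), by positivity,
    by positivity, le_max_left _ _, ?_⟩
  intro Ω C _ _ P x Q Q' U z D W k R β γ hW hRW hγ hwin hJU hD1 hD2 hβ hR1 hR2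
  have hww : w0 ≤ W := (le_max_left _ _).trans hW
  have hWn : ⌈16 * (C₀ + 2 * Real.log 2) / ((1 - α) * Real.log 2)⌉₊ + 1 ≤ W :=
    (le_max_right _ _).trans hW
  have hW1 : 1 ≤ W := by omega
  have hWpos : (0 : ℝ) < W := by exact_mod_cast hW1
  have hWr : 16 * (C₀ + 2 * Real.log 2) / ((1 - α) * Real.log 2) ≤ W := by
    refine (Nat.le_ceil _).trans ?_
    exact_mod_cast (by omega : ⌈16 * (C₀ + 2 * Real.log 2) / ((1 - α) * Real.log 2)⌉₊ ≤ W)
  have hWr' : 16 * (C₀ + 2 * Real.log 2) ≤ W * ((1 - α) * Real.log 2) := by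
    rwa [div_le_iff₀ (by positivity)] at hWr
  obtain ⟨kf, hkf⟩ : ∃ kf, kf = k - R - W := ⟨_, rfl⟩
  have hkc : k - R = kf + W := by omega
  have hkk : k = kf + W + R := by omega
  rw [← hkf] at hwin hJU ⊢
  rw [hkc] at hwin hJU
  set J : ℕ := 2 ^ (W - w0) with hJdef
  have hJcast : ((2 : ℝ) ^ (W - w0)) = (J : ℝ) := by rw [hJdef]; push_cast; rfl
  rw [hJcast] at hR1 hR2 ⊢
  set K : ℝ := (2 : ℝ)⁻¹ ^ kf with hK
  have hK0 : 0 < K := by positivity
  have hKinv : (2 : ℝ) ^ kf * K = 1 := by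
    rw [hK, inv_pow, mul_inv_cancel₀ (by positivity)]
  set PX := Q.prod P with hPX
  set F : C × Ω → ℤ := fun a => (U a.1 + ⌊x a.2⌋) / 2 ^ kf with hF
  set Z : C × Ω → ℤ := fun a => (U a.1 + ⌊x a.2⌋) / 2 ^ (kf + W) with hZ
  have hZF : ∀ a, Z a = F a / ((2 ^ W : ℕ) : ℤ) := by
    intro a
    simp only [hZ, hF]
    push_cast
    rw [Int.ediv_ediv_of_nonneg (by positivity), ← pow_add]
  have hFfl : ∀ a, F a = ⌊K * (x a.2 + U a.1)⌋ := by
    intro a
    have h3 := floor_mul_ediv (K * (x a.2 + U a.1)) kf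
    rw [← mul_assoc, hKinv, one_mul, Int.floor_add_intCast] at h3
    rw [← h3]
    simp only [hF]
    congr 1
    ring
  -- entropy
  have hent : PX.H F - PX.H Z ≤ α * (W * Real.log 2)
      + (C₀ + 2 * Real.log 2 + (1 - α) * Real.log 2 / 16 * W) := by
    have e1 : PX.H F - PX.H Z = (JU Q P U (fun ω => ⌊x ω⌋) kf - JU Q P U (fun ω => ⌊x ω⌋) (kf + W))
        + ∑ c, Q.w c * (P.H (fun ω => (U c + ⌊x ω⌋) / 2 ^ kf)
          - P.H (fun ω => (U c + ⌊x ω⌋) / 2 ^ (kf + W))) := by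
      simp only [mul_sub, Finset.sum_sub_distrib]
      unfold JU
      ring
    have e2 : ∑ c, Q.w c * (P.H (fun ω => (U c + ⌊x ω⌋) / 2 ^ kf)
          - P.H (fun ω => (U c + ⌊x ω⌋) / 2 ^ (kf + W)))
        ≤ α * (W * Real.log 2) + C₀ + 2 * Real.log 2 := by
      calc _ ≤ ∑ c, Q.w c * (α * (W * Real.log 2) + C₀ + 2 * Real.log 2) := by
            refine Finset.sum_le_sum fun c _ => mul_le_mul_of_nonneg_left ?_ (Q.nonneg c)
            have h3 := hC_shift P (fun ω => ⌊x ω⌋) (U c) kf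
            have h4 := hC_shift' P (fun ω => ⌊x ω⌋) (U c) (kf + W)
            linarith only [hwin, h3, h4]
        _ = _ := by rw [← Finset.sum_mul, Q.sum_one, one_mul]
    rw [e1]
    linarith only [hJU, e2]
  set L : ℝ := (1 + α) / 2 * (W * Real.log 2) with hL
  have hL0 : 0 < L := by (clear * - hα0 hW1; positivity)
  have hprob := prob_heavy PX F Z (fun w w' h => by rw [hZF, hZF, h]) _ L hL0 hent
  have hbeta : (1 - α) / 4 ≤ 1 - (α * (W * Real.log 2)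
      + (C₀ + 2 * Real.log 2 + (1 - α) * Real.log 2 / 16 * W)) / L := by
    have h3 : (α * (W * Real.log 2) + (C₀ + 2 * Real.log 2 + (1 - α) * Real.log 2 / 16 * W)) / L
        ≤ 1 - (1 - α) / 4 := by
      rw [div_le_iff₀ hL0, hL]
      have h2 : 0 < W * Real.log 2 := by positivity
      have h4 : 8 * (C₀ + 2 * Real.log 2 + (1 - α) * Real.log 2 / 16 * W)
          ≤ (1 - α) * (W * Real.log 2) := by linarith only [hWr']
      (clear * - hWr' hα1 h2; nlinarith [mul_nonneg (mul_nonneg (by linarith : (0:ℝ) ≤ 1 - α)         (by linarith : (0:ℝ) ≤ 2 - α)) h2.le])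
    linarith only [h3]
  set G : C × Ω → Prop := fun w => Real.exp (-L) * PX.p Z (Z w) ≤ PX.p F (F w) with hG
  set Hv : Finset ℤ := (Finset.univ.filter (fun w => 0 < PX.w w ∧ G w)).image F with hHv
  have hPG : (1 - α) / 4 ≤ ∑ w, if G w then PX.w w else 0 := hbeta.trans hprob
  have hne : Hv.Nonempty := by
    by_contra hc
    rw [Finset.not_nonempty_iff_eq_empty, hHv, Finset.image_eq_empty, Finset.filter_eq_empty_iff]
      at hc
    have h1 : (∑ w, if G w then PX.w w else 0) ≤ 0 := by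
      refine Finset.sum_nonpos fun w hw => ?_
      split_ifs with h2
      · have h3 := hc hw
        push Not at h3
        by_contra h4
        exact h3 (not_le.1 h4) h2
      · exact le_rfl
    linarith only [hα1, hprob, hbeta, h1]
  set B : Set ℝ := (fun k : ℤ => (k : ℝ) + 1 / 2) '' (Hv : Set ℤ) with hB
  have hg1 : (1 - α) / 4 ≤ ∑ w, PX.w w * tst K B (x w.2 + U w.1) := by
    refine hPG.trans (Finset.sum_le_sum fun w _ => ?_)
    split_ifs with h2
    · rcases PX.w_zero_or_pos w with hw | hw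
      · simp [hw]
      · have h3 : F w ∈ Hv := by
          rw [hHv]
          exact Finset.mem_image_of_mem F (by simp only [Finset.mem_filter, Finset.mem_univ, hw, h2, and_self])
        have h4 : tst K B (x w.2 + U w.1) = 1 := by
          refine tst_eq_one (b := (F w : ℝ) + 1 / 2) ⟨F w, h3, rfl⟩ ?_
          rw [hFfl w]
          have h5 := Int.floor_le (K * (x w.2 + U w.1))
          have h6 := Int.lt_floor_add_one (K * (x w.2 + U w.1))
          rw [abs_le]; constructor <;> linarith only [h5, h6]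
        rw [h4, mul_one]
    · exact mul_nonneg (PX.nonneg w) (tst_lip hK0.le B |>.nonneg _)
  -- heavy cells in a coarse cell
  have hHcount1 : ∀ z : ℤ, (((Hv.filter (fun k => k / ((2 ^ W : ℕ) : ℤ) = z)).card : ℕ) : ℝ)
      ≤ Real.exp L := by
    intro z
    rcases (Hv.filter (fun k => k / ((2 ^ W : ℕ) : ℤ) = z)).eq_empty_or_nonempty with h0 | h0
    · rw [h0]; simp [(Real.exp_pos L).le]
    · obtain ⟨k0, hk0⟩ := h0
      rw [Finset.mem_filter, hHv, Finset.mem_image] at hk0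
      obtain ⟨⟨w0, hw0, hFw0⟩, hk0z⟩ := hk0
      rw [Finset.mem_filter] at hw0
      have hzpos : 0 < PX.p Z z := by
        have h1 := PX.p_pos hw0.2.1 Z
        rwa [hZF w0, hFw0, hk0z] at h1
      have h2 := count_heavy PX F Z ((2 ^ W : ℕ) : ℤ) hZF (Real.exp (-L)) z
        (Hv.filter (fun k => k / ((2 ^ W : ℕ) : ℤ) = z))
        (fun k hk => (Finset.mem_filter.1 hk).2)
        (fun k hk => by
          obtain ⟨hk1, hk2⟩ := Finset.mem_filter.1 hk
          rw [hHv, Finset.mem_image] at hk1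
          obtain ⟨w1, hw1, hFw1⟩ := hk1
          rw [Finset.mem_filter] at hw1
          have h3 : Real.exp (-L) * PX.p Z (Z w1) ≤ PX.p F (F w1) := hw1.2.2
          rwa [hZF w1, hFw1, hk2] at h3) hzpos
      rw [Real.exp_neg] at h2
      have h3 := Real.exp_pos L
      rw [← div_eq_mul_inv, div_le_one h3] at h2
      exact h2
  have hHcount : ∀ z : ℤ, (((Hv.filter (fun k => k / ((4 * 2 ^ W : ℕ) : ℤ) = z)).card : ℕ) : ℝ)
      ≤ 4 * Real.exp L := by
    intro z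
    have hsub : Hv.filter (fun k => k / ((4 * 2 ^ W : ℕ) : ℤ) = z) ⊆
        (Finset.Icc (4 * z) (4 * z + 3)).biUnion
          (fun y => Hv.filter (fun k => k / ((2 ^ W : ℕ) : ℤ) = y)) := by
      intro k hk
      obtain ⟨h3, h4⟩ := Finset.mem_filter.1 hk
      rw [Finset.mem_biUnion]
      refine ⟨k / ((2 ^ W : ℕ) : ℤ), ?_, Finset.mem_filter.2 ⟨h3, rfl⟩⟩
      have h5 : k / ((4 * 2 ^ W : ℕ) : ℤ) = k / ((2 ^ W : ℕ) : ℤ) / 4 := by
        rw [Int.ediv_ediv_of_nonneg (by positivity)]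
        congr 1
        push_cast
        ring
      rw [h5] at h4
      rw [Finset.mem_Icc]
      omega
    have h3 : ((Hv.filter (fun k => k / ((4 * 2 ^ W : ℕ) : ℤ) = z)).card : ℕ) ≤
        ∑ y ∈ Finset.Icc (4 * z) (4 * z + 3), (Hv.filter (fun k => k / ((2 ^ W : ℕ) : ℤ) = y)).card :=
      (Finset.card_le_card hsub).trans Finset.card_biUnion_le
    have h4 : (((Hv.filter (fun k => k / ((4 * 2 ^ W : ℕ) : ℤ) = z)).card : ℕ) : ℝ) ≤
        ∑ y ∈ Finset.Icc (4 * z) (4 * z + 3),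
          (((Hv.filter (fun k => k / ((2 ^ W : ℕ) : ℤ) = y)).card : ℕ) : ℝ) := by exact_mod_cast h3
    refine h4.trans ((Finset.sum_le_sum fun y _ => hHcount1 y).trans ?_)
    have h5 : (Finset.Icc (4 * z) (4 * z + 3)).card = 4 := by
      rw [Int.card_Icc, show 4 * z + 3 + 1 - 4 * z = 4 by ring]; rfl
    rw [Finset.sum_const, h5, nsmul_eq_mul]
    norm_num
  -- the rescaled translation
  set D' : ℝ := 2 * (2 : ℝ)⁻¹ ^ R * D with hD'
  have hDabs : (2 : ℝ) ^ k ≤ |(D : ℝ)| := by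
    have : ((2 ^ k : ℤ) : ℝ) ≤ ((|D| : ℤ) : ℝ) := by exact_mod_cast hD1
    push_cast at this
    exact this
  have hDabs2 : |(D : ℝ)| ≤ 2 ^ (k + 1) := by
    have : ((|D| : ℤ) : ℝ) ≤ ((2 ^ (k + 1) : ℤ) : ℝ) := by exact_mod_cast hD2.le
    push_cast at this
    exact this
  have hKD : K * |D'| = 2 * (2 : ℝ)⁻¹ ^ R * K * |(D : ℝ)| := by
    rw [hD', abs_mul, abs_of_pos (by positivity : (0 : ℝ) < 2 * (2 : ℝ)⁻¹ ^ R)]
    ring
  have hpowk : (2 : ℝ)⁻¹ ^ R * K * 2 ^ k = 2 ^ W := by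
    rw [hK, hkk, pow_add, pow_add, inv_pow, inv_pow]
    field_simp
  have hm1 : ((4 * 2 ^ W : ℕ) : ℝ) / 2 ≤ K * |D'| := by
    rw [hKD]
    push_cast
    calc (4 * (2 : ℝ) ^ W) / 2 = 2 * ((2 : ℝ)⁻¹ ^ R * K * 2 ^ k) := by rw [hpowk]; ring
      _ = 2 * (2 : ℝ)⁻¹ ^ R * K * 2 ^ k := by ring
      _ ≤ 2 * (2 : ℝ)⁻¹ ^ R * K * |(D : ℝ)| := mul_le_mul_of_nonneg_left hDabs (by positivity)
  have hm2 : K * |D'| ≤ ((4 * 2 ^ W : ℕ) : ℝ) := by
    rw [hKD]
    push_cast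
    calc 2 * (2 : ℝ)⁻¹ ^ R * K * |(D : ℝ)| ≤ 2 * (2 : ℝ)⁻¹ ^ R * K * 2 ^ (k + 1) :=
          mul_le_mul_of_nonneg_left hDabs2 (by positivity)
      _ = 4 * ((2 : ℝ)⁻¹ ^ R * K * 2 ^ k) := by rw [pow_succ]; ring
      _ = 4 * 2 ^ W := by rw [hpowk]
  set a : ℕ → ℝ := fun l => if l < J then 1 - (1 - Real.exp (-(l * β))) * 2 ^ R / 2 else 1 with ha
  have har : ∀ l, 0 < a l ∧ a l ≤ 1 := by
    intro l
    simp only [ha]
    split_ifs with h3
    · exact hC_range hβ hR2 h3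
    · exact ⟨one_pos, le_rfl⟩
  have hacount : ∀ u v : ℝ, u ≤ v → (((Finset.range J).filter
        (fun l : ℕ => u ≤ a l ∧ a l ≤ v)).card : ℝ) ≤ 12 * (J * (v - u) + 1) := by
    intro u v huv
    have h3 : (Finset.range J).filter (fun l : ℕ => u ≤ a l ∧ a l ≤ v) =
        (Finset.range J).filter (fun l : ℕ =>
          u ≤ 1 - (1 - Real.exp (-(l * β))) * 2 ^ R / 2 ∧
          1 - (1 - Real.exp (-(l * β))) * 2 ^ R / 2 ≤ v) := by
      refine Finset.filter_congr fun l hl => ?_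
      rw [Finset.mem_range] at hl
      simp only [ha, if_pos hl]
    rw [h3]
    exact hC_count hβ hR1 hR2 u v huv
  have hJW : (J : ℝ) ≤ ((4 * 2 ^ W : ℕ) : ℝ) := by
    have h3 : J ≤ 2 ^ W := Nat.pow_le_pow_right (by norm_num) (by (clear * - hww hkf hkc; omega))
    have h4 : J ≤ 4 * 2 ^ W := by omega
    exact_mod_cast h4
  have hRR : (2 : ℝ) ^ R * (2 : ℝ)⁻¹ ^ R = 1 := by
    rw [inv_pow, mul_inv_cancel₀ (by positivity)]
  have hsum : ∀ v : ℝ, ∑ l ∈ Finset.range J, tst K B (v + (1 - Real.exp (-(l * β))) * D)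
      ≤ 1680 * Real.exp L := by
    intro v
    have h3 := sum_tst_le Hv hne (4 * 2 ^ W) (by
      have := Nat.one_le_two_pow (n := W)
      omega) K (K / ((4 * 2 ^ W : ℕ) : ℝ)) D' (4 * Real.exp L) 12 (by
        have : ((4 * 2 ^ W : ℕ) : ℝ) ≠ 0 := by positivity
        field_simp) J a (v + D') hm1 hm2 hK0 hJW (by norm_num) hHcount har hacount
    have h4 : ∑ l ∈ Finset.range J, tst K B (v + (1 - Real.exp (-(l * β))) * D) =
        ∑ l ∈ Finset.range J, tst K ((fun k : ℤ => (k : ℝ) + 1 / 2) '' (Hv : Set ℤ))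
          (v + D' - a l * D') := by
      refine Finset.sum_congr rfl fun l hl => ?_
      rw [Finset.mem_range] at hl
      rw [← hB]
      congr 1
      simp only [ha, if_pos hl, hD']
      have e : (1 - Real.exp (-(l * β))) * (D : ℝ) =
        (2 ^ R * (2 : ℝ)⁻¹ ^ R) * ((1 - Real.exp (-(l * β))) * D) := by rw [hRR, one_mul]
      rw [e]
      ring
    rw [h4]
    refine h3.trans (le_of_eq ?_)
    ring
  -- the gaps
  have hgap : ∀ l : ℕ, (∑ w, PX.w w * tst K B (x w.2 + U w.1))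
        - γ * (∑ ω, P.w ω * ∑ c, Q'.w c *
          tst K B (x ω + U c + (1 - Real.exp (-(l * β))) * D))
      ≤ ovlC P x Q Q' (fun c => Real.exp (-(l * β)) * D + ((U c : ℝ) - z - D))
          (fun c => (U c : ℝ) - z) γ K := by
    intro l
    have h1 := le_ovlC P x Q Q' (fun c => Real.exp (-(l * β)) * D + ((U c : ℝ) - z - D))
      (fun c => (U c : ℝ) - z) hγ
      (lipT_shift (tst_lip hK0.le B) (-(z + (1 - Real.exp (-(l * β))) * D)))
    refine le_trans (le_of_eq ?_) h1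
    unfold gapC
    have e1 : ∑ w, PX.w w * tst K B (x w.2 + U w.1) =
        ∑ ω, P.w ω * ∑ c, Q.w c * tst K B (x ω + U c) := by
      rw [Fintype.sum_prod_type, Finset.sum_comm]
      refine Finset.sum_congr rfl fun ω _ => ?_
      rw [Finset.mul_sum]
      refine Finset.sum_congr rfl fun c _ => ?_
      rw [hPX, FinProb.prod_w]
      ring
    rw [e1, Finset.mul_sum, ← Finset.sum_sub_distrib]
    refine Finset.sum_congr rfl fun ω _ => ?_
    have e2 : ∀ c, x ω + (Real.exp (-(l * β)) * D + ((U c : ℝ) - z - D))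
        - -(z + (1 - Real.exp (-(l * β))) * D) = x ω + U c := fun c => by ring
    have e3 : ∀ c, x ω + ((U c : ℝ) - z)
        - -(z + (1 - Real.exp (-(l * β))) * D) = x ω + U c + (1 - Real.exp (-(l * β))) * D :=
      fun c => by ring
    simp only [e2, e3]
    ring
  have hJpos : (0 : ℝ) < J := by
    have : 0 < J := by rw [hJdef]; positivity
    exact_mod_cast this
  rw [le_div_iff₀ hJpos]
  have hfin : (J : ℝ) * (∑ w, PX.w w * tst K B (x w.2 + U w.1))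
      - γ * (∑ l ∈ Finset.range J, ∑ ω, P.w ω * ∑ c, Q'.w c *
          tst K B (x ω + U c + (1 - Real.exp (-(l * β))) * D))
      ≤ ∑ l ∈ Finset.range J, ovlC P x Q Q'
          (fun c => Real.exp (-(l * β)) * D + ((U c : ℝ) - z - D)) (fun c => (U c : ℝ) - z) γ K := by
    refine le_trans (le_of_eq ?_) (Finset.sum_le_sum fun l _ => hgap l)
    rw [Finset.sum_sub_distrib, Finset.sum_const, Finset.card_range, nsmul_eq_mul,
      ← Finset.mul_sum]
  refine le_trans ?_ hfin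
  have hsw : ∑ l ∈ Finset.range J, ∑ ω, P.w ω * ∑ c, Q'.w c *
          tst K B (x ω + U c + (1 - Real.exp (-(l * β))) * D) ≤ 1680 * Real.exp L := by
    rw [Finset.sum_comm]
    calc ∑ ω, ∑ l ∈ Finset.range J, P.w ω * ∑ c, Q'.w c *
          tst K B (x ω + U c + (1 - Real.exp (-(l * β))) * D)
        = ∑ ω, P.w ω * ∑ c, Q'.w c * ∑ l ∈ Finset.range J,
          tst K B (x ω + U c + (1 - Real.exp (-(l * β))) * D) := by
          refine Finset.sum_congr rfl fun ω _ => ?_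
          rw [← Finset.mul_sum, Finset.sum_comm]
          congr 1
          refine Finset.sum_congr rfl fun c _ => ?_
          rw [Finset.mul_sum]
      _ ≤ ∑ ω, P.w ω * ∑ c, Q'.w c * (1680 * Real.exp L) :=
          Finset.sum_le_sum fun ω _ => mul_le_mul_of_nonneg_left
            (Finset.sum_le_sum fun c _ => mul_le_mul_of_nonneg_left (hsum _) (Q'.nonneg c))
            (P.nonneg ω)
      _ = 1680 * Real.exp L := by
          simp only [← Finset.sum_mul, Q'.sum_one, one_mul, P.sum_one]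
  have hexp : Real.exp L = 2 ^ w0 * J * (2 : ℝ) ^ (-((1 - α) / 2 * W)) := by
    have h1 : Real.exp L = 2 ^ W * (2 : ℝ) ^ (-((1 - α) / 2 * W)) := by
      rw [← Real.rpow_natCast 2 W, ← Real.rpow_add (by norm_num : (0:ℝ) < 2),
        Real.rpow_def_of_pos (by norm_num : (0:ℝ) < 2), hL]
      congr 1
      ring
    rw [h1, hJdef]
    push_cast
    rw [← pow_add]
    congr 3
    omega
  have h9 : γ * (∑ l ∈ Finset.range J, ∑ ω, P.w ω * ∑ c, Q'.w c *
          tst K B (x ω + U c + (1 - Real.exp (-(l * β))) * D))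
      ≤ γ * (1680 * (2 ^ w0 * J * (2 : ℝ) ^ (-((1 - α) / 2 * W)))) := by
    refine mul_le_mul_of_nonneg_left ?_ hγ
    rw [← hexp]
    exact hsw
  have h10 : (1 - α) / 4 * J ≤ J * (∑ w, PX.w w * tst K B (x w.2 + U w.1)) := by
    rw [mul_comm]
    exact mul_le_mul_of_nonneg_left hg1 hJpos.le
  calc ((1 - α) / 4 - γ * (1680 * 2 ^ w0 * (2 : ℝ) ^ (-((1 - α) / 2 * W)))) * J
      = (1 - α) / 4 * J - γ * (1680 * (2 ^ w0 * J * (2 : ℝ) ^ (-((1 - α) / 2 * W)))) := by ring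
    _ ≤ _ := by linarith only [h9, h10]

end Vale.Agent.P114
end
end

section

/-!
T11-G3. Detection of all translations outside few scales.
-/

open scoped Classical

noncomputable section

namespace Vale.Agent.P114

open FinProb

variable {Λ : Type} [Fintype Λ]

namespace Sys
variable (S : Sys Λ)

end Sys

end Vale.Agent.P114
end
end

section

/-!
T11-H. Integer form of the detection.
-/

open scoped Classical

noncomputable section

namespace Vale.Agent.P114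

open FinProb

variable {Λ : Type} [Fintype Λ]

lemma LipT.const_nonneg {K : ℝ} {f : ℝ → ℝ} (hf : LipT K f) : 0 ≤ K := by
  have h := hf.lip 1 0
  have h1 := abs_nonneg (f 1 - f 0)
  norm_num at h
  linarith only [h1, h]

/-- The test function for large translations. -/
def bigF (D : ℤ) (y : ℤ) : ℝ := max 0 (min 1 (2 * |(y : ℝ)| / |(D : ℝ)| - 1 / 2))

lemma bigF_nonneg (D y : ℤ) : 0 ≤ bigF D y := le_max_left _ _

lemma bigF_le_one (D y : ℤ) : bigF D y ≤ 1 := max_le zero_le_one (min_le_left _ _)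

lemma bigF_small (D y : ℤ) (hD : 0 < |(D : ℝ)|) (h : |(y : ℝ)| ≤ |(D : ℝ)| / 4) :
    bigF D y = 0 := by
  unfold bigF
  have : 2 * |(y : ℝ)| / |(D : ℝ)| ≤ 1 / 2 := by
    rw [div_le_iff₀ hD]
    linarith
  rw [max_eq_left]
  exact (min_le_right _ _).trans (by linarith only [this])

lemma bigF_large (D y : ℤ) (hD : 0 < |(D : ℝ)|) (h : 3 / 4 * |(D : ℝ)| ≤ |(y : ℝ)|) :
    bigF D y = 1 := by
  unfold bigF
  have : 3 / 2 ≤ 2 * |(y : ℝ)| / |(D : ℝ)| := by
    rw [le_div_iff₀ hD]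
    linarith
  rw [min_eq_left (by linarith only [this])]
  simp only [zero_le_one, sup_of_le_right]

namespace Sys
variable (S : Sys Λ)

end Sys

end Vale.Agent.P114
end
end

section

/-!
T12-G. Contaminated detection for the rescaled measures.
-/

open scoped Classical

noncomputable section

namespace Vale.Agent.P114

open FinProb

variable {Λ : Type} [Fintype Λ]

/-- Rounding the variable. -/
lemma gZ_of_gapC {Ω C : Type*} [Fintype Ω] [Fintype C] (P : FinProb Ω) (X : Ω → ℝ)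
    (Q Q' : FinProb C) (U : C → ℤ) (z : ℤ) (A L γ : ℝ) (hA : A ≠ 0) (hγ : 0 ≤ γ) (f : ℝ → ℝ)
    (hf : LipT L f) :
    gapC P X Q Q' (fun c => ((U c : ℝ) - z) / A) (fun c => ((U c : ℝ) - z) / A) γ f
        - (1 + γ) * (L / |A|)
      ≤ Ef Q P U (fun ω => ⌊A * X ω⌋) (fun y => f (((y : ℝ) - z) / A))
        - γ * Ef Q' P U (fun ω => ⌊A * X ω⌋) (fun y => f (((y : ℝ) - z) / A)) := by
  have hL : 0 ≤ L := hf.const_nonneg
  have hA' : 0 < |A| := abs_pos.2 hA
  have hpt : ∀ ω c, |f (((U c + ⌊A * X ω⌋ : ℤ) - z : ℝ) / A) - f (X ω + ((U c : ℝ) - z) / A)|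
      ≤ L / |A| := by
    intro ω c
    refine (hf.lip _ _).trans ?_
    have e : (((U c + ⌊A * X ω⌋ : ℤ) - z : ℝ) / A) - (X ω + ((U c : ℝ) - z) / A)
        = (⌊A * X ω⌋ - A * X ω) / A := by
      push_cast
      field_simp
      ring
    rw [e, abs_div]
    have h2 : |(⌊A * X ω⌋ : ℝ) - A * X ω| ≤ 1 := by
      rw [abs_le]
      have h3 := Int.floor_le (A * X ω)
      have h4 := Int.lt_floor_add_one (A * X ω)
      constructor <;> linarith only [h3, h4]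
    calc L * (|(⌊A * X ω⌋ : ℝ) - A * X ω| / |A|) ≤ L * (1 / |A|) :=
          mul_le_mul_of_nonneg_left (div_le_div_of_nonneg_right h2 hA'.le) hL
      _ = L / |A| := by ring
  have hsw : ∀ R : FinProb C, Ef R P U (fun ω => ⌊A * X ω⌋) (fun y => f (((y : ℝ) - z) / A))
      = ∑ ω, P.w ω * ∑ c, R.w c * f (((U c + ⌊A * X ω⌋ : ℤ) - z : ℝ) / A) := by
    intro R
    unfold Ef
    simp only [Finset.mul_sum]
    rw [Finset.sum_comm]
    refine Finset.sum_congr rfl fun ω _ => Finset.sum_congr rfl fun c _ => ?_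
    ring
  have h1 : ∑ ω, P.w ω * ∑ c, Q.w c * f (X ω + ((U c : ℝ) - z) / A) - L / |A|
      ≤ Ef Q P U (fun ω => ⌊A * X ω⌋) (fun y => f (((y : ℝ) - z) / A)) := by
    rw [hsw]
    have e : L / |A| = ∑ ω, P.w ω * (∑ c, Q.w c * (L / |A|)) := by
      rw [← Finset.sum_mul, ← Finset.sum_mul, P.sum_one, Q.sum_one, one_mul, one_mul]
    rw [e, ← Finset.sum_sub_distrib]
    refine Finset.sum_le_sum fun ω _ => ?_
    rw [← mul_sub, ← Finset.sum_sub_distrib]
    refine mul_le_mul_of_nonneg_left (Finset.sum_le_sum fun c _ => ?_) (P.nonneg ω)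
    rw [← mul_sub]
    refine mul_le_mul_of_nonneg_left ?_ (Q.nonneg c)
    have := (abs_le.1 (hpt ω c)).1
    linarith only [this]
  have h2 : Ef Q' P U (fun ω => ⌊A * X ω⌋) (fun y => f (((y : ℝ) - z) / A))
      ≤ ∑ ω, P.w ω * ∑ c, Q'.w c * f (X ω + ((U c : ℝ) - z) / A) + L / |A| := by
    rw [hsw]
    have e : L / |A| = ∑ ω, P.w ω * (∑ c, Q'.w c * (L / |A|)) := by
      rw [← Finset.sum_mul, ← Finset.sum_mul, P.sum_one, Q'.sum_one, one_mul, one_mul]
    rw [e, ← Finset.sum_add_distrib]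
    refine Finset.sum_le_sum fun ω _ => ?_
    rw [← mul_add, ← Finset.sum_add_distrib]
    refine mul_le_mul_of_nonneg_left (Finset.sum_le_sum fun c _ => ?_) (P.nonneg ω)
    rw [← mul_add]
    refine mul_le_mul_of_nonneg_left ?_ (Q'.nonneg c)
    have := (abs_le.1 (hpt ω c)).2
    linarith only [this]
  have h3 : gapC P X Q Q' (fun c => ((U c : ℝ) - z) / A) (fun c => ((U c : ℝ) - z) / A) γ f
      = ∑ ω, P.w ω * ∑ c, Q.w c * f (X ω + ((U c : ℝ) - z) / A)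
        - γ * ∑ ω, P.w ω * ∑ c, Q'.w c * f (X ω + ((U c : ℝ) - z) / A) := by
    unfold gapC
    simp only [mul_sub, Finset.sum_sub_distrib]
    congr 1
    rw [Finset.mul_sum]
    exact Finset.sum_congr rfl fun ω _ => by ring
  rw [h3]
  have h4 := mul_le_mul_of_nonneg_left h2 hγ
  linarith only [h1, h4]

/-- The rounding error. -/
lemma cz_err (α c7 : ℝ) (hc71 : c7 ≤ 1) (h1α : 0 < 1 - α) (W kf : ℕ)
    (hkf3 : 3 * W ≤ kf) (h10 : 128 / (1 - α) < (2 : ℝ) ^ W) :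
    (1 + (2 : ℝ) ^ (c7 * W)) * (2 * (2 : ℝ)⁻¹ ^ kf) ≤ (1 - α) / 32 := by
  have hγW : (2 : ℝ) ^ (c7 * W) ≤ 2 ^ W := by
    rw [← Real.rpow_natCast 2 W]
    refine Real.rpow_le_rpow_of_exponent_le (by norm_num) ?_
    have : (0 : ℝ) ≤ W := by positivity
    nlinarith only [hc71]
  have h5 : (1 : ℝ) ≤ 2 ^ W := one_le_pow₀ (by norm_num)
  have h6 : (2 : ℝ)⁻¹ ^ kf ≤ (2 : ℝ)⁻¹ ^ (3 * W) :=
    pow_le_pow_of_le_one (by norm_num) (by norm_num) hkf3
  have h7 : (2 : ℝ)⁻¹ ^ (3 * W) = (2 : ℝ)⁻¹ ^ W * (2 : ℝ)⁻¹ ^ W * (2 : ℝ)⁻¹ ^ W := by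
    rw [← pow_add, ← pow_add]
    congr 1
    ring
  have h8 : (2 : ℝ)⁻¹ ^ W * 2 ^ W = 1 := by rw [← mul_pow]; norm_num
  have h9 : (2 : ℝ)⁻¹ ^ W ≤ (1 - α) / 128 := by
    rw [div_lt_iff₀ h1α] at h10
    have h11 : (0 : ℝ) < (2 : ℝ)⁻¹ ^ W := by positivity
    have h12 := mul_lt_mul_of_pos_left h10 h11
    rw [← mul_assoc, h8, one_mul] at h12
    linarith only [h12]
  have h10 : (2 : ℝ)⁻¹ ^ W ≤ 1 := pow_le_one₀ (by norm_num) (by norm_num)
  have h11 : (0 : ℝ) < (2 : ℝ)⁻¹ ^ W := by positivity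
  calc (1 + (2 : ℝ) ^ (c7 * W)) * (2 * (2 : ℝ)⁻¹ ^ kf)
      ≤ (2 * 2 ^ W) * (2 * (2 : ℝ)⁻¹ ^ (3 * W)) :=
        mul_le_mul (by linarith only [hγW, h5]) (by linarith only [h6]) (by positivity) (by positivity)
    _ = 4 * ((2 : ℝ)⁻¹ ^ W * 2 ^ W) * ((2 : ℝ)⁻¹ ^ W * (2 : ℝ)⁻¹ ^ W) := by rw [h7]; ring
    _ = 4 * ((2 : ℝ)⁻¹ ^ W * (2 : ℝ)⁻¹ ^ W) := by rw [h8]; ring
    _ ≤ 4 * ((1 - α) / 128 * 1) := by
        refine mul_le_mul_of_nonneg_left ?_ (by norm_num)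
        exact mul_le_mul h9 h10 h11.le (by positivity)
    _ = (1 - α) / 32 := by ring

namespace Sys
variable (S : Sys Λ)

/-- Large translations (template `detZ_big`): `f x = bigF D (x - z)`. -/
lemma detC_big (t : Λ → ℝ) (N b M : ℕ) (s c7 c' : ℝ) (W k R : ℕ) (hW : 2 ≤ W) (hk : 4 * W ≤ k)
    (hbig : 16 * (S.D t * |(2 : ℝ) ^ (b + M) * s|) ≤ 2 ^ k) :
    DetC (S.P.pi N) (S.Yt t N b M s) 1 c7 c' W k R := by
  intro A _ PA PA' U z D hD1 hD2 hU hU' _
  have hD1' : (2 : ℝ) ^ k ≤ |(D : ℝ)| := by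
    have : ((2 ^ k : ℤ) : ℝ) ≤ ((|D| : ℤ) : ℝ) := by exact_mod_cast hD1
    simpa only [ge_iff_le, Int.cast_pow, Int.cast_ofNat, Int.cast_abs] using this
  have hk8 : (256 : ℝ) ≤ 2 ^ k := by
    calc (256 : ℝ) = 2 ^ 8 := by norm_num
      _ ≤ 2 ^ k := pow_le_pow_right₀ (by norm_num) (by (clear * - hW hk; omega))
  have hDpos : 0 < |(D : ℝ)| := by linarith only [hD1', hk8]
  have hsm : (2 : ℝ) ^ (k - 4 * W) ≤ |(D : ℝ)| / 256 := by
    have h1 : (2 : ℝ) ^ k = 2 ^ (k - 4 * W) * 2 ^ (4 * W) := by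
      rw [← pow_add]
      congr 1
      omega
    have h2 : (256 : ℝ) ≤ 2 ^ (4 * W) := by
      calc (256 : ℝ) = 2 ^ 8 := by norm_num
        _ ≤ 2 ^ (4 * W) := pow_le_pow_right₀ (by norm_num) (by omega)
    have h3 : (0 : ℝ) < 2 ^ (k - 4 * W) := by positivity
    linarith only [mul_nonneg (sub_nonneg.2 h2) (le_of_lt (sub_pos.2 h3)), h1, hD1']
  have hY : ∀ v, |((S.Yt t N b M s v : ℤ) : ℝ)| ≤ |(D : ℝ)| / 16 + |(D : ℝ)| / 256 := by
    intro v
    unfold Yt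
    have h3 := Int.floor_le ((2 : ℝ) ^ (b + M) * (s * tr S.r t v))
    have h4 := Int.lt_floor_add_one ((2 : ℝ) ^ (b + M) * (s * tr S.r t v))
    have h5 : |(2 : ℝ) ^ (b + M) * (s * tr S.r t v)| ≤ |(D : ℝ)| / 16 := by
      rw [← mul_assoc, abs_mul]
      have := mul_le_mul_of_nonneg_left (S.abs_tr_le t v)
        (abs_nonneg ((2 : ℝ) ^ (b + M) * s))
      linarith only [this, hD1', hbig]
    rw [abs_le] at h5 ⊢
    constructor
    · have := h5.1
      linarith only [hD1', hk8, h4, h5]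
    · have := h5.2
      linarith only [h3, h5]
  refine ⟨fun x => bigF D (x - z), fun x => bigF_nonneg D _, fun x => bigF_le_one D _, ?_⟩
  have h1 : Ef PA (S.P.pi N) U (S.Yt t N b M s) (fun x => bigF D (x - z)) = 1 := by
    unfold Ef
    have : ∀ a, PA.w a * ∑ v, (S.P.pi N).w v * bigF D (U a + S.Yt t N b M s v - z) = PA.w a := by
      intro a
      rcases PA.w_zero_or_pos a with ha | ha
      · simp only [ha, pi_w, zero_mul]
      · have h2 : ∀ v, bigF D (U a + S.Yt t N b M s v - z) = 1 := by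
          intro v
          refine bigF_large D _ hDpos ?_
          have h3 : |((U a : ℝ) - z - D)| ≤ 2 ^ (k - 4 * W) := by
            have := hU a ha
            have h4 : ((|U a - z - D| : ℤ) : ℝ) ≤ ((2 ^ (k - 4 * W) : ℤ) : ℝ) := by
              exact_mod_cast this
            push_cast at h4
            exact h4
          have h5 := hY v
          push_cast
          have e : ((U a : ℝ) + S.Yt t N b M s v - z)
              = D + (((U a : ℝ) - z - D) + S.Yt t N b M s v) := by ring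
          rw [e]
          have h6 := abs_sub_abs_le_abs_sub (D : ℝ) (-(((U a : ℝ) - z - D) + S.Yt t N b M s v))
          rw [abs_neg, sub_neg_eq_add] at h6
          have h7 := abs_add_le ((U a : ℝ) - z - D) (S.Yt t N b M s v : ℝ)
          linarith only [h7, h6, h5, h3, hsm, hk8, hD1']
        rw [Finset.sum_congr rfl fun v _ => by rw [h2 v, mul_one], (S.P.pi N).sum_one, mul_one]
    rw [Finset.sum_congr rfl fun a _ => this a, PA.sum_one]
  have h2 : Ef PA' (S.P.pi N) U (S.Yt t N b M s) (fun x => bigF D (x - z)) = 0 := by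
    unfold Ef
    refine Finset.sum_eq_zero fun a _ => ?_
    rcases PA'.w_zero_or_pos a with ha | ha
    · simp only [ha, pi_w, zero_mul]
    · have h2 : ∀ v, bigF D (U a + S.Yt t N b M s v - z) = 0 := by
        intro v
        refine bigF_small D _ hDpos ?_
        have h3 : |((U a : ℝ) - z)| ≤ 2 ^ (k - 4 * W) := by
          have := hU' a ha
          have h4 : ((|U a - z| : ℤ) : ℝ) ≤ ((2 ^ (k - 4 * W) : ℤ) : ℝ) := by
            exact_mod_cast this
          push_cast at h4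
          exact h4
        have h5 := hY v
        push_cast
        have e : ((U a : ℝ) + S.Yt t N b M s v - z)
            = ((U a : ℝ) - z) + S.Yt t N b M s v := by ring
        rw [e]
        have h7 := abs_add_le ((U a : ℝ) - z) (S.Yt t N b M s v : ℝ)
        linarith only [hD1', hk8, hsm, h3, h5, h7]
      have h8 : ∑ v, (S.P.pi N).w v * bigF D (U a + S.Yt t N b M s v - z) = 0 :=
        Finset.sum_eq_zero fun v _ => by rw [h2 v, mul_zero]
      rw [h8, mul_zero]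
  rw [h1, h2]
  norm_num

/-- Small translations. -/
lemma detC_small (t : Λ → ℝ) (N b M : ℕ) (s α c7 c' : ℝ) (W k R Sc w0 : ℕ) (β : ℝ)
    (hs0 : s ≠ 0) (hk : R + 4 * W ≤ k) (hA1 : (2 : ℝ) ^ (Sc + k + 1) ≤ |(2 : ℝ) ^ (b + M) * s|)
    (hA2 : |(2 : ℝ) ^ (b + M) * s| < (2 : ℝ) ^ (Sc + k + 2))
    (hT : ∀ (C : Type) [Fintype C] (Q Q' : FinProb C) (u u' : C → ℝ)
          (D K : ℝ), |D| ≤ (2 : ℝ)⁻¹ ^ Sc → 2 ^ Sc ≤ K → K ≤ 2 ^ (Sc + R + W + 2) →
          (∀ c, 0 < Q.w c → |u c - D| ≤ (2 : ℝ)⁻¹ ^ (Sc + 4 * W)) →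
          (∀ c, 0 < Q'.w c → |u' c| ≤ (2 : ℝ)⁻¹ ^ (Sc + 4 * W)) →
          (∑ l ∈ Finset.range (2 ^ (W - w0)), ovlC (S.P.pi N) (fun w => tr S.r t w) Q Q'
              (fun c => Real.exp (-(l * β)) * D + (u c - D)) u' ((2 : ℝ) ^ (c7 * W)) K)
              / 2 ^ (W - w0)
            ≤ ovlC (S.P.pi N) (fun w => tr S.r t w) Q Q' u u' ((2 : ℝ) ^ (c7 * W)) (2 * K)
              + (1 - α) / 16)
    (hH : ∀ (C : Type) [Fintype C] (Q Q' : FinProb C) (U : C → ℤ) (z D : ℤ),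
        JU Q (S.P.pi N) U (S.Yt t N b M s) (k - R - W) - JU Q (S.P.pi N) U (S.Yt t N b M s) (k - R)
          ≤ c' * W →
        2 ^ k ≤ |D| → |D| < 2 ^ (k + 1) →
        (1 - α) / 8 + (1 - α) / 16
          ≤ (∑ l ∈ Finset.range (2 ^ (W - w0)), ovlC (S.P.pi N)
              (fun v => ((2 : ℝ) ^ (b + M) * s) * tr S.r t v) Q Q'
              (fun c => Real.exp (-(l * β)) * D + ((U c : ℝ) - z - D)) (fun c => (U c : ℝ) - z)
              ((2 : ℝ) ^ (c7 * W)) ((2 : ℝ)⁻¹ ^ (k - R - W))) / 2 ^ (W - w0))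
    (herr : (1 + (2 : ℝ) ^ (c7 * W)) * (2 * (2 : ℝ)⁻¹ ^ (k - R - W)) ≤ (1 - α) / 32)
    (h1α : 0 < 1 - α) :
    DetC (S.P.pi N) (S.Yt t N b M s) ((1 - α) / 32) c7 c' W k R := by
  set A : ℝ := (2 : ℝ) ^ (b + M) * s with hA
  have hA0 : A ≠ 0 := mul_ne_zero (by positivity) hs0
  have hApos : 0 < |A| := abs_pos.2 hA0
  have hYt' : S.Yt t N b M s = fun v => ⌊A * tr S.r t v⌋ := by
    funext v
    unfold Yt
    rw [hA, mul_assoc]
  intro A' _ PA PA' U z D hD1 hD2 hU hU' hJU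
  have hD1' : (2 : ℝ) ^ k ≤ |(D : ℝ)| := by
    have : ((2 ^ k : ℤ) : ℝ) ≤ ((|D| : ℤ) : ℝ) := by exact_mod_cast hD1
    simpa only [ge_iff_le, Int.cast_pow, Int.cast_ofNat, Int.cast_abs] using this
  have hD2' : |(D : ℝ)| < (2 : ℝ) ^ (k + 1) := by
    have : ((|D| : ℤ) : ℝ) < ((2 ^ (k + 1) : ℤ) : ℝ) := by exact_mod_cast hD2
    simpa using this
  obtain ⟨kf, hkf⟩ : ∃ kf, kf = k - R - W := ⟨_, rfl⟩
  have hkk : k = kf + W + R := by omega
  set K : ℝ := (2 : ℝ)⁻¹ ^ kf * |A| with hK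
  have hK0 : 0 < K := by (clear * - hs0; positivity)
  have hinv : (2 : ℝ)⁻¹ ^ kf * 2 ^ kf = 1 := by rw [← mul_pow]; norm_num
  have hK1 : (2 : ℝ) ^ Sc ≤ K := by
    have h1 : (2 : ℝ) ^ (Sc + k + 1) = 2 ^ kf * 2 ^ (Sc + R + W + 1) := by
      rw [← pow_add]
      congr 1
      omega
    have h2 : (2 : ℝ) ^ Sc ≤ 2 ^ (Sc + R + W + 1) :=
      pow_le_pow_right₀ (by norm_num) (by (clear * -; omega))
    calc (2 : ℝ) ^ Sc ≤ 2 ^ (Sc + R + W + 1) := h2
      _ = (2 : ℝ)⁻¹ ^ kf * (2 : ℝ) ^ (Sc + k + 1) := by rw [h1, ← mul_assoc, hinv, one_mul]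
      _ ≤ K := mul_le_mul_of_nonneg_left hA1 (by positivity)
  have hK2 : K ≤ (2 : ℝ) ^ (Sc + R + W + 2) := by
    have h1 : (2 : ℝ) ^ (Sc + k + 2) = 2 ^ kf * 2 ^ (Sc + R + W + 2) := by
      rw [← pow_add]
      congr 1
      (clear * - hkf hkk; omega)
    calc K ≤ (2 : ℝ)⁻¹ ^ kf * (2 : ℝ) ^ (Sc + k + 2) :=
          mul_le_mul_of_nonneg_left hA2.le (by positivity)
      _ = (2 : ℝ) ^ (Sc + R + W + 2) := by rw [h1, ← mul_assoc, hinv, one_mul]
  have hDA : |(D : ℝ) / A| ≤ (2 : ℝ)⁻¹ ^ Sc := by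
    rw [abs_div, div_le_iff₀ hApos]
    have h1 : (2 : ℝ)⁻¹ ^ Sc * 2 ^ Sc = 1 := by rw [← mul_pow]; norm_num
    calc |(D : ℝ)| ≤ 2 ^ (k + 1) := hD2'.le
      _ = (2 : ℝ)⁻¹ ^ Sc * (2 : ℝ) ^ (Sc + k + 1) := by
          rw [add_assoc, pow_add 2 Sc, ← mul_assoc, h1, one_mul]
      _ ≤ (2 : ℝ)⁻¹ ^ Sc * |A| := mul_le_mul_of_nonneg_left hA1 (by positivity)
  have hsm : ∀ v : ℝ, |v| ≤ 2 ^ (k - 4 * W) → |v / A| ≤ (2 : ℝ)⁻¹ ^ (Sc + 4 * W) := by
    intro v hv
    rw [abs_div, div_le_iff₀ hApos]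
    have h1 : (2 : ℝ)⁻¹ ^ (Sc + 4 * W) * 2 ^ (Sc + 4 * W) = 1 := by
      rw [← mul_pow]; norm_num
    have h2 : (2 : ℝ) ^ (Sc + k + 1) = 2 ^ (Sc + 4 * W) * 2 ^ (k - 4 * W + 1) := by
      rw [← pow_add]
      congr 1
      (clear * - hk hkf hkk; omega)
    calc |v| ≤ 2 ^ (k - 4 * W) := hv
      _ ≤ 2 ^ (k - 4 * W + 1) := pow_le_pow_right₀ (by norm_num) (by omega)
      _ = (2 : ℝ)⁻¹ ^ (Sc + 4 * W) * (2 : ℝ) ^ (Sc + k + 1) := by
          rw [h2, ← mul_assoc, h1, one_mul]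
      _ ≤ (2 : ℝ)⁻¹ ^ (Sc + 4 * W) * |A| := mul_le_mul_of_nonneg_left hA1 (by positivity)
  have hUr : ∀ c, 0 < PA.w c → |((U c : ℝ) - z) / A - (D : ℝ) / A|
      ≤ (2 : ℝ)⁻¹ ^ (Sc + 4 * W) := by
    intro c hc
    rw [← sub_div]
    refine hsm _ ?_
    have h4 : ((|U c - z - D| : ℤ) : ℝ) ≤ ((2 ^ (k - 4 * W) : ℤ) : ℝ) := by
      exact_mod_cast hU c hc
    push_cast at h4
    exact h4
  have hUr' : ∀ c, 0 < PA'.w c → |((U c : ℝ) - z) / A| ≤ (2 : ℝ)⁻¹ ^ (Sc + 4 * W) := by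
    intro c hc
    refine hsm _ ?_
    have h4 : ((|U c - z| : ℤ) : ℝ) ≤ ((2 ^ (k - 4 * W) : ℤ) : ℝ) := by
      exact_mod_cast hU' c hc
    push_cast at h4
    exact h4
  set γ : ℝ := (2 : ℝ) ^ (c7 * W) with hγ
  have hγ0 : 0 ≤ γ := by positivity
  have hT1 := hT A' PA PA' (fun c => ((U c : ℝ) - z) / A)
    (fun c => ((U c : ℝ) - z) / A) ((D : ℝ) / A) K hDA hK1 hK2 hUr hUr'
  have hH1 := hH A' PA PA' U z D hJU hD1 hD2
  have hov : ∀ l : ℕ, ovlC (S.P.pi N) (fun v => A * tr S.r t v) PA PA'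
      (fun c => Real.exp (-(l * β)) * D + ((U c : ℝ) - z - D)) (fun c => (U c : ℝ) - z) γ
      ((2 : ℝ)⁻¹ ^ (k - R - W))
      = ovlC (S.P.pi N) (fun w => tr S.r t w) PA PA'
        (fun c => Real.exp (-(l * β)) * ((D : ℝ) / A) + (((U c : ℝ) - z) / A - (D : ℝ) / A))
        (fun c => ((U c : ℝ) - z) / A) γ K := by
    intro l
    have h1 := ovlC_affine (S.P.pi N) (fun w => tr S.r t w) PA PA'
      (fun c => Real.exp (-(l * β)) * D + ((U c : ℝ) - z - D)) (fun c => (U c : ℝ) - z)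
      (γ := γ) (K := (2 : ℝ)⁻¹ ^ kf) (b := 0) hA0
    simp only [add_zero] at h1
    rw [← hkf, h1]
    congr 1
    funext c
    ring
  have hlow : (1 - α) / 8 ≤ ovlC (S.P.pi N) (fun w => tr S.r t w) PA PA'
      (fun c => ((U c : ℝ) - z) / A) (fun c => ((U c : ℝ) - z) / A) γ (2 * K) := by
    rw [Finset.sum_congr rfl fun l _ => hov l] at hH1
    linarith only [hH1, hT1]
  obtain ⟨f, hf, hgap⟩ := exists_gapC (S.P.pi N) (fun w => tr S.r t w) PA PA'
    (fun c => ((U c : ℝ) - z) / A) (fun c => ((U c : ℝ) - z) / A) (γ := γ) (K := 2 * K)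
    (c := (1 - α) / 16) (by (clear * - hs0; positivity)) (by linarith only [h1α, hlow])
  refine ⟨fun y => f (((y : ℝ) - z) / A), fun y => hf.nonneg _, fun y => hf.le_one _, ?_⟩
  have h1 := gZ_of_gapC (S.P.pi N) (fun w => tr S.r t w) PA PA' U z A (2 * K) γ hA0 hγ0 f hf
  have herr' : (1 + γ) * (2 * K / |A|) ≤ (1 - α) / 32 := by
    have e : 2 * K / |A| = 2 * (2 : ℝ)⁻¹ ^ (k - R - W) := by
      rw [hK, ← hkf]
      (clear * - hA0; field_simp)
    rw [e]
    exact herr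
  rw [hYt']
  linarith only [hgap, h1, herr']

/-- `A = 2^(b+M) s`, `x = A tr`, `Y = ⌊x⌋` (`Yt`). For `2^k` larger than `|A|` times a constant:
`detC_big`; the `O(1)` scales around `|A|` are bad. Otherwise let `Sc` be such that
`2⁻¹^(Sc+1) < 2^(k+1)/|A| ≤ 2⁻¹^Sc` (`Sc ≤ b + M`, injective in `k`), `k` is bad if `Sc ∈ Bad`
(`transfer` with `T0 = b + M`). `transfer` with `u = (U - z)/A`, `u' = (U - z)/A` (law `PA'`),
`D/A`, `K = |A| 2⁻¹^(k-R-W) / 1` (`2^Sc ≤ K ≤ 2^(Sc+R+W+2)`), `ovlC_affine` (`b = 0`), `heavyC`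
(window bound `Yt_window_gen` for `N` large): `ovlC (tr) (u) (u') γ (2K) ≥ (1-α)/4 - γ Ch 2^(-(1-α)/2 W)
- δ ≥ (1-α)/16` with `γ = 2^(c7 W)`, `c7 = (1-α)/8`, `δ = (1-α)/16`; `exists_gapC` gives a test
function `f`; `f_ℤ o = f ((o - z)/A)`, error `(1+γ) 2K/|A| ≤ (1+γ) 2 2⁻¹^(3W)`
(`k - R - W ≥ 3 W`), `⌊x⌋ + U`. -/
theorem detectCZ (t : Λ → ℝ) (hα : S.alpha t < 1) (i j : Λ) (hi : 0 < S.P.w i)
    (hj : 0 < S.P.w j) (w0 : ℕ) (Cx : ℝ) (R : ℕ → ℕ) (β : ℕ → ℝ) (x y : ℕ → ℕ)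
    (hS : Spr (-Real.log |S.r i|) (-Real.log |S.r j|) w0 Cx R β x y) :
    ∃ (c c7 c' Cb : ℝ) (W₀ : ℕ), 0 < c ∧ 0 < c7 ∧ c7 ≤ 1 ∧ 0 < c' ∧ 0 ≤ Cb ∧ w0 ≤ W₀ ∧
      ∀ (b M W1 : ℕ) (s : ℝ), s ≠ 0 → |s| ≤ 1 → ∃ N₀ : ℕ, ∀ N' ≥ N₀, ∃ Bad : ℕ → Finset ℕ,
        ∀ W, W₀ ≤ W → W ≤ W1 → ((Bad W).card : ℝ) ≤ Cb * ((R W : ℝ) + 1) * 2 ^ (5 * W) ∧
          ∀ k, R W + 4 * W ≤ k → k ∉ Bad W →
            DetC (S.P.pi N') (S.Yt t N' b M s) c c7 c' W k (R W) := by
  have hα0 := S.alpha_nonneg t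
  have h1α : 0 < 1 - S.alpha t := by linarith
  obtain ⟨C₀, hC₀, hwin⟩ := S.Yt_window_gen t
  obtain ⟨Ch, c', Wh, hCh, hc', hWh, hheavy⟩ := heavyC (S.alpha t) C₀ hα0 hα hC₀ w0
  obtain ⟨Cb0, Wt, hCb0, hWt, htr⟩ := S.transfer t i j hi hj w0 Cx R β x y hS
    ((1 - S.alpha t) / 8) ((1 - S.alpha t) / 16) (by positivity) (by linarith only [hα0]) (by positivity)
  obtain ⟨C1, hC1⟩ : ∃ C1 : ℕ, 32 * S.D t < 2 ^ C1 := pow_unbounded_of_one_lt _ (by norm_num)
  obtain ⟨W2, hW2⟩ : ∃ W2 : ℕ, ∀ W ≥ W2, (2 : ℝ) ^ ((1 - S.alpha t) / 8 * W)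
      * (Ch * (2 : ℝ) ^ (-((1 - S.alpha t) / 2 * W))) ≤ (1 - S.alpha t) / 16 := by
    obtain ⟨W2, hW2⟩ := tE_geom ((2 : ℝ) ^ (-((1 - S.alpha t) * (3 / 8)))) Ch
      ((1 - S.alpha t) / 16) (by positivity)
      (Real.rpow_lt_one_of_one_lt_of_neg (by norm_num) (by linarith only [h1α])) (by positivity)
    refine ⟨W2, fun W hW => le_trans (le_of_eq ?_) (hW2 W hW)⟩
    have e : ((2 : ℝ) ^ (-((1 - S.alpha t) * (3 / 8)))) ^ W
        = (2 : ℝ) ^ ((1 - S.alpha t) / 8 * W) * (2 : ℝ) ^ (-((1 - S.alpha t) / 2 * W)) := by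
      rw [← Real.rpow_add (by norm_num : (0 : ℝ) < 2), ← Real.rpow_natCast, ← Real.rpow_mul
        (by norm_num)]
      congr 1
      ring
    rw [e]
    ring
  obtain ⟨W3, hW3⟩ : ∃ W3 : ℕ, 128 / (1 - S.alpha t) < 2 ^ W3 :=
    pow_unbounded_of_one_lt _ (by norm_num)
  set c7 : ℝ := (1 - S.alpha t) / 8 with hc7
  have hc70 : 0 < c7 := by positivity
  have hc71 : c7 ≤ 1 := by rw [hc7]; linarith only [hα0]
  refine ⟨(1 - S.alpha t) / 32, c7, c', Cb0 + C1, max (max Wh Wt) (max (max W2 W3) 2),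
    by (clear * - hα; positivity), hc70, hc71, hc', by (clear * - hCb0; positivity),
    hWh.trans ((le_max_left _ _).trans (le_max_left _ _)), ?_⟩
  intro b M W1 s hs0 hs1
  set A : ℝ := (2 : ℝ) ^ (b + M) * s with hA
  have hA0 : A ≠ 0 := mul_ne_zero (by positivity) hs0
  have hApos : 0 < |A| := abs_pos.2 hA0
  have hAle : |A| ≤ 2 ^ (b + M) := by
    rw [hA, abs_mul, abs_of_nonneg (by positivity : (0 : ℝ) ≤ 2 ^ (b + M))]
    exact mul_le_of_le_one_right (by positivity) hs1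
  have hd : ∀ W : ℕ, ∃ N₀ : ℕ, ∀ N ≥ N₀, ∃ Bad : Finset ℕ, Wt ≤ W →
      ((Bad.card : ℝ) ≤ Cb0 * ((R W : ℝ) + 1) * 2 ^ (5 * W) ∧
        ∀ Sc ≤ b + M, Sc ∉ Bad → ∀ {C : Type} [Fintype C] (Q Q' : FinProb C) (u u' : C → ℝ)
          (D K : ℝ), |D| ≤ (2 : ℝ)⁻¹ ^ Sc → 2 ^ Sc ≤ K → K ≤ 2 ^ (Sc + R W + W + 2) →
          (∀ c, 0 < Q.w c → |u c - D| ≤ (2 : ℝ)⁻¹ ^ (Sc + 4 * W)) →
          (∀ c, 0 < Q'.w c → |u' c| ≤ (2 : ℝ)⁻¹ ^ (Sc + 4 * W)) →
          (∑ l ∈ Finset.range (2 ^ (W - w0)), ovlC (S.P.pi N) (fun w => tr S.r t w) Q Q'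
              (fun c => Real.exp (-(l * β W)) * D + (u c - D)) u' ((2 : ℝ) ^ (c7 * W)) K)
              / 2 ^ (W - w0)
            ≤ ovlC (S.P.pi N) (fun w => tr S.r t w) Q Q' u u' ((2 : ℝ) ^ (c7 * W)) (2 * K)
              + (1 - S.alpha t) / 16) := by
    intro W
    by_cases h : Wt ≤ W
    · obtain ⟨N₀, hN₀⟩ := htr W h (b + M)
      refine ⟨N₀, fun N hN => ?_⟩
      obtain ⟨Bad, hB⟩ := hN₀ N hN
      exact ⟨Bad, fun _ => hB⟩
    · exact ⟨0, fun _ _ => ⟨∅, fun h' => absurd h' h⟩⟩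
  choose N0 hN0 using hd
  obtain ⟨N1, hN1⟩ : ∃ N1 : ℕ, ∀ N ≥ N1, S.D t * S.ρ ^ N * 2 ^ (b + M) ≤ 1 := by
    obtain ⟨N1, hN1⟩ := tE_geom S.ρ (S.D t * 2 ^ (b + M)) 1 S.ρ_pos.le S.ρ_lt one_pos
    refine ⟨N1, fun N hN => le_trans (le_of_eq ?_) (hN1 N hN)⟩
    ring
  refine ⟨max ((Finset.range (W1 + 1)).sup N0) N1, fun N hN => ?_⟩
  have hB : ∀ W : ℕ, ∃ Bad : Finset ℕ, Wt ≤ W → W ≤ W1 →
      ((Bad.card : ℝ) ≤ Cb0 * ((R W : ℝ) + 1) * 2 ^ (5 * W) ∧
        ∀ Sc ≤ b + M, Sc ∉ Bad → ∀ {C : Type} [Fintype C] (Q Q' : FinProb C) (u u' : C → ℝ)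
          (D K : ℝ), |D| ≤ (2 : ℝ)⁻¹ ^ Sc → 2 ^ Sc ≤ K → K ≤ 2 ^ (Sc + R W + W + 2) →
          (∀ c, 0 < Q.w c → |u c - D| ≤ (2 : ℝ)⁻¹ ^ (Sc + 4 * W)) →
          (∀ c, 0 < Q'.w c → |u' c| ≤ (2 : ℝ)⁻¹ ^ (Sc + 4 * W)) →
          (∑ l ∈ Finset.range (2 ^ (W - w0)), ovlC (S.P.pi N) (fun w => tr S.r t w) Q Q'
              (fun c => Real.exp (-(l * β W)) * D + (u c - D)) u' ((2 : ℝ) ^ (c7 * W)) K)
              / 2 ^ (W - w0)
            ≤ ovlC (S.P.pi N) (fun w => tr S.r t w) Q Q' u u' ((2 : ℝ) ^ (c7 * W)) (2 * K)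
              + (1 - S.alpha t) / 16) := by
    intro W
    by_cases h : W ≤ W1
    · have h1 : N0 W ≤ N :=
        (Finset.le_sup (f := N0) (Finset.mem_range.2 (Nat.lt_succ_of_le h))).trans
          ((le_max_left _ _).trans hN)
      obtain ⟨Bad, hB⟩ := hN0 W N h1
      exact ⟨Bad, fun h' _ => hB h'⟩
    · exact ⟨∅, fun _ h' => absurd h' h⟩
  choose Bad0 hBad0 using hB
  have hwinN := hwin b M N s hs0 hs1 (hN1 N ((le_max_right _ _).trans hN))
  set a : ℤ := Int.log 2 |A| with ha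
  have ha1 : (2 : ℝ) ^ a ≤ |A| := by
    have := Int.zpow_log_le_self (b := 2) (by norm_num) hApos
    simpa using this
  have ha2 : |A| < (2 : ℝ) ^ (a + 1) := by
    have := Int.lt_zpow_succ_log_self (b := 2) (by norm_num) |A|
    simpa using this
  have ha3 : a ≤ (b + M : ℕ) := by
    have : (2 : ℝ) ^ a ≤ (2 : ℝ) ^ ((b + M : ℕ) : ℤ) := by
      rw [zpow_natCast]
      exact ha1.trans hAle
    exact (zpow_le_zpow_iff_right₀ (by norm_num)).1 this
  refine ⟨fun W => (Bad0 W).image (fun Sc : ℕ => (a - Sc - 1).toNat)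
    ∪ (Finset.range C1).image (fun i : ℕ => (a + i).toNat), fun W hW hW1 => ⟨?_, ?_⟩⟩
  · have h1 : ((((Bad0 W).image (fun Sc : ℕ => (a - Sc - 1).toNat)
        ∪ (Finset.range C1).image (fun i : ℕ => (a + i).toNat)).card : ℕ) : ℝ)
        ≤ ((Bad0 W).card : ℝ) + C1 := by
      have h2 : (((Bad0 W).image (fun Sc : ℕ => (a - Sc - 1).toNat)
        ∪ (Finset.range C1).image (fun i : ℕ => (a + i).toNat)).card : ℕ)
        ≤ (Bad0 W).card + C1 := by
        refine (Finset.card_union_le _ _).trans (add_le_add Finset.card_image_le ?_)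
        exact Finset.card_image_le.trans (by rw [Finset.card_range])
      exact_mod_cast h2
    have h2 := (hBad0 W ((le_max_right _ _).trans ((le_max_left _ _).trans hW)) hW1).1
    have h3 : (1 : ℝ) ≤ ((R W : ℝ) + 1) * 2 ^ (5 * W) := by
      have h4 : (1 : ℝ) ≤ 2 ^ (5 * W) := one_le_pow₀ (by norm_num)
      have h5 : (0 : ℝ) ≤ R W := Nat.cast_nonneg _
      nlinarith only [h4]
    refine h1.trans ?_
    have h5 : (C1 : ℝ) * 1 ≤ C1 * (((R W : ℝ) + 1) * 2 ^ (5 * W)) :=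
      mul_le_mul_of_nonneg_left h3 (by (clear * -; positivity))
    calc ((Bad0 W).card : ℝ) + C1 ≤ Cb0 * ((R W : ℝ) + 1) * 2 ^ (5 * W)
          + C1 * (((R W : ℝ) + 1) * 2 ^ (5 * W)) := by linarith only [h2, h5]
      _ = (Cb0 + C1) * ((R W : ℝ) + 1) * 2 ^ (5 * W) := by ring
  · intro k hk hkB
    simp only [Finset.mem_union, Finset.mem_image, Finset.mem_range, not_or, not_exists, not_and] at hkB
    obtain ⟨hk1, hk3⟩ := hkB
    have hWWh : Wh ≤ W := (le_max_left _ _).trans ((le_max_left _ _).trans hW)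
    have hWWt : Wt ≤ W := (le_max_right _ _).trans ((le_max_left _ _).trans hW)
    have hWW2 : W2 ≤ W := (le_max_left _ _).trans ((le_max_left _ _).trans
      ((le_max_right _ _).trans hW))
    have hWW3 : W3 ≤ W := (le_max_right _ _).trans ((le_max_left _ _).trans
      ((le_max_right _ _).trans hW))
    have hW2' : 2 ≤ W := (le_max_right _ _).trans ((le_max_right _ _).trans hW)
    have hWw0 : w0 ≤ W := hWh.trans hWWh
    have hYt : ∀ v : Fin N → Λ, S.Yt t N b M s v = ⌊A * tr S.r t v⌋ := by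
      intro v
      unfold Yt
      rw [hA, mul_assoc]
    have hYt' : S.Yt t N b M s = fun v => ⌊A * tr S.r t v⌋ := funext hYt
    rcases lt_or_ge (k : ℤ) a with hka | hka
    · -- small translations
      have hScz : ((a - k - 1).toNat : ℤ) = a - k - 1 := by omega
      have hSc2 : (a - k - 1).toNat ∉ Bad0 W := by
        intro hmem
        exact hk1 _ hmem (by omega)
      have hA1 : (2 : ℝ) ^ ((a - k - 1).toNat + k + 1) ≤ |A| := by
        have e : (((a - k - 1).toNat + k + 1 : ℕ) : ℤ) = a := by push_cast; omega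
        rw [← zpow_natCast, e]
        exact ha1
      have hA2 : |A| < (2 : ℝ) ^ ((a - k - 1).toNat + k + 2) := by
        have e : (((a - k - 1).toNat + k + 2 : ℕ) : ℤ) = a + 1 := by push_cast; omega
        rw [← zpow_natCast, e]
        exact ha2
      have hB2 := (hBad0 W hWWt hW1).2
      have hScM : (a - k - 1).toNat ≤ b + M := by omega
      refine @detC_small _ _ S t N b M s (S.alpha t) c7 c' W k (R W) (a - k - 1).toNat w0 (β W) hs0
        hk hA1 hA2 (fun C _ Q Q' u u' D K => hB2 _ hScM hSc2 Q Q' u u' D K) ?_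
        (cz_err (S.alpha t) c7 hc71 h1α W (k - R W - W) (by omega)
          (hW3.trans_le (pow_le_pow_right₀ (by norm_num) hWW3))) h1α
      intro C _ Q Q' U z D hJU hD1 hD2
      have hH := hheavy (S.P.pi N) (fun v => A * tr S.r t v) Q Q' U z D W k (R W) (β W)
        ((2 : ℝ) ^ (c7 * W)) hWWh (by (clear * - hk hW2'; omega)) (by positivity) (by
          have h1 := hwinN (k - R W - W) W
          rw [hYt', show k - R W - W + W = k - R W by (clear * - hk hW2'; omega)] at h1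
          exact h1)
        (by rw [hYt'] at hJU; exact hJU) hD1 hD2 (hS.pos W hWw0) (hS.R1 W hWw0) (hS.R2 W hWw0)
      have h2 := hW2 W hWW2
      refine le_trans ?_ hH
      linarith only [h2]
    · -- large translations
      have hbig : 16 * (S.D t * |(2 : ℝ) ^ (b + M) * s|) ≤ 2 ^ k := by
        have h1 : (C1 : ℤ) ≤ k - a := by
          by_contra hlt
          exact hk3 (k - a).toNat (by omega) (by omega)
        have h2 : (2 : ℝ) ^ (C1 : ℤ) * (2 : ℝ) ^ a ≤ 2 ^ (k : ℤ) := by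
          rw [← zpow_add₀ (by norm_num : (2 : ℝ) ≠ 0)]
          exact zpow_le_zpow_right₀ (by norm_num) (by omega)
        rw [zpow_natCast, zpow_natCast] at h2
        have h3 : (2 : ℝ) ^ (a + 1) = 2 ^ a * 2 := by
          rw [zpow_add₀ (by norm_num : (2 : ℝ) ≠ 0), zpow_one]
        have h4 : |A| ≤ 2 ^ a * 2 := by rw [← h3]; exact ha2.le
        have hD := S.one_le_D t
        calc 16 * (S.D t * |(2 : ℝ) ^ (b + M) * s|) ≤ 16 * (S.D t * (2 ^ a * 2)) := by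
              rw [← hA]
              have := mul_le_mul_of_nonneg_left h4 (S.D_nonneg t)
              linarith only [this]
          _ = (32 * S.D t) * 2 ^ a := by ring
          _ ≤ 2 ^ C1 * 2 ^ a := mul_le_mul_of_nonneg_right hC1.le (by positivity)
          _ ≤ 2 ^ k := h2
      have h := @detC_big _ _ S t N b M s c7 c' W k (R W) hW2' (by omega) hbig
      intro A' _ PA PA' U z D hD1 hD2 hU hU' hJU
      obtain ⟨f, h1, h2, h3⟩ := h PA PA' U z D hD1 hD2 hU hU' hJU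
      refine ⟨f, h1, h2, le_trans ?_ h3⟩
      linarith only [hα0]

end Sys

end Vale.Agent.P114
end
end

section

/-! Definitions for the commensurable case: `r i = sg i * lam ^ wt i`. -/

open scoped Classical
open Polynomial

noncomputable section

namespace Vale.Agent.P114.Com

open FinProb

/-- Weights (exponents) and signs of the letters. -/
class Wts (Λ : Type) where
  wt : Λ → ℕ
  sg : Λ → ℤ
  A : ℕ
  wt_pos : ∀ i, 1 ≤ wt i
  wt_le : ∀ i, wt i ≤ A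
  sg_sq : ∀ i, sg i * sg i = 1

/-- weight of a letter -/
def wt {Λ : Type} [Wts Λ] (i : Λ) : ℕ := Wts.wt i

/-- sign of a letter -/
def sg {Λ : Type} [Wts Λ] (i : Λ) : ℤ := Wts.sg i

/-- bound for the weights -/
def wA (Λ : Type) [Wts Λ] : ℕ := Wts.A Λ

section

variable {Λ : Type} [Wts Λ]

lemma wt_pos (i : Λ) : 1 ≤ wt i := Wts.wt_pos i

lemma wt_le (i : Λ) : wt i ≤ wA Λ := Wts.wt_le i

lemma sg_sq (i : Λ) : sg i * sg i = 1 := Wts.sg_sq i

/-- weight of a word -/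
def wtL : List Λ → ℕ
  | [] => 0
  | a :: w => wt a + wtL w

/-- sign of a word -/
def sgL : List Λ → ℤ
  | [] => 1
  | a :: w => sg a * sgL w

/-- Coefficient polynomial of a word. -/
def cpoly : List Λ → Λ → ℤ[X]
  | [], _ => 0
  | j :: w, i => (if j = i then 1 else 0) + C (sg j) * X ^ (wt j) * cpoly w i

/-- Difference of the coefficient polynomials of a pair of words. -/
def dpoly (x : List Λ × List Λ) (i : Λ) : ℤ[X] := cpoly x.1 i - cpoly x.2 i

/-- Power series of an infinite word. -/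
def psu (u : ℕ → Λ) (i : Λ) : PowerSeries ℤ :=
  PowerSeries.mk fun m => (cpoly (pre u (m + 1)) i).coeff m

/-- Difference power series. -/
def ps (u u' : ℕ → Λ) (i : Λ) : PowerSeries ℤ := psu u i - psu u' i

/-- Value vector of a pair of infinite words. -/
def bv (lam : ℝ) (u u' : ℕ → Λ) (i : Λ) : ℝ := evS lam (ps u u' i)

/-- Value vector of a pair of finite words. -/
def dval (lam : ℝ) (x : List Λ × List Λ) (i : Λ) : ℝ := aeval lam (dpoly x i)

/-- `k+1` minors of difference polynomials -/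
def detP {k : ℕ} (x : Fin (k + 1) → List Λ × List Λ) (ι : Fin (k + 1) → Λ) : ℤ[X] :=
  (Matrix.of fun r s => dpoly (x r) (ι s)).det

/-- `∑ sg z^wt x_{w_l}` for sequences. -/
def zsum {G : Type} [AddCommGroup G] (x : Λ → ℕ → G) : List Λ → ℕ → G
  | [], _ => 0
  | a :: w, m => x a m + (if m < wt a then 0 else sg a • zsum x w (m - wt a))

end

section

variable {Λ : Type} [Fintype Λ] [Wts Λ]

/-- The value vectors of the tails are small on `V`. -/
def TinyLev (U : Ultrafilter ℕ) (lam : ℝ) (X : ℕ → Lev Λ) (V : Submodule ℝ (Λ → ℝ)) : Prop :=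
  ∀ v ∈ V, ∀ ε > 0, ∀ᶠ i in (U : Filter ℕ), ∀ x ∈ (X i).Tails, |dval lam x ⬝ᵥ v| ≤ ε

/-- All `k+1` minors of the difference series of branches vanish. -/
def Degenerate (U : Ultrafilter ℕ) (P : FinProb Λ) (X : ℕ → Lev Λ) (k : ℕ) : Prop :=
  ∀ (u u' : Fin (k + 1) → ℕ → Λ), (∀ r, Branch U P X (u r) (u' r)) →
    ∀ ι : Fin (k + 1) → Λ, (Matrix.of fun r s => ps (u r) (u' r) (ι s)).det = 0

/-- The tails are `2^{-N i}`-small on `V`. -/
def QTiny (U : Ultrafilter ℕ) (lam : ℝ) (X : ℕ → Lev Λ) (V : Submodule ℝ (Λ → ℝ))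
    (N : ℕ → ℝ) : Prop :=
  ∀ᶠ i in (U : Filter ℕ), ∀ x ∈ (X i).Tails, ∀ v ∈ V, |dval lam x ⬝ᵥ v| ≤ (2 : ℝ) ^ (-N i) * ‖v‖

/-- The ratios of the system are signed powers of `lam`. -/
structure IsCom (S : Sys Λ) (lam : ℝ) : Prop where
  pos : 0 < lam
  lt_one : lam < 1
  eq : ∀ i, S.r i = (sg i : ℝ) * lam ^ wt i

/-- mean weight -/
def wbar (P : FinProb Λ) : ℝ := ∑ i, P.w i * wt i

/-- probability of the words with property `B` -/
def prB (P : FinProb Λ) (n : ℕ) (B : List Λ → Prop) : ℝ :=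
  ∑ w : Fin n → Λ, if B (List.ofFn w) then (P.pi n).w w else 0

end

end Vale.Agent.P114.Com
end
end

section

/-! Basic facts on the weighted coefficient polynomials. -/

open scoped Classical
open Polynomial

noncomputable section

namespace Vale.Agent.P114.Com

open FinProb

section words

variable {Λ : Type} [Wts Λ]

lemma wtL_append (u v : List Λ) : wtL (u ++ v) = wtL u + wtL v := by
  induction u with
  | nil => simp only [List.nil_append, wtL, zero_add]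
  | cons a u ih => simp only [List.cons_append, wtL, ih]; ring

lemma sgL_append (u v : List Λ) : sgL (u ++ v) = sgL u * sgL v := by
  induction u with
  | nil => simp only [List.nil_append, sgL, one_mul]
  | cons a u ih => simp only [List.cons_append, sgL, ih]; ring

lemma sgL_sq (u : List Λ) : sgL u * sgL u = 1 := by
  induction u with
  | nil => simp only [sgL, mul_one]
  | cons a u ih =>
    have h : sg a * sgL u * (sg a * sgL u) = (sg a * sg a) * (sgL u * sgL u) := by ring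
    rw [sgL, h, ih, sg_sq]; rfl

lemma sgL_cases (u : List Λ) : sgL u = 1 ∨ sgL u = -1 := by
  have h := sgL_sq u
  have h2 : (sgL u - 1) * (sgL u + 1) = 0 := by ring_nf; rw [sq, h]; ring
  rcases mul_eq_zero.1 h2 with h3 | h3
  · left; omega
  · right; omega

lemma abs_sgL (u : List Λ) : |sgL u| = 1 := by
  rcases sgL_cases u with h | h <;> simp [h]

lemma length_le_wtL (u : List Λ) : u.length ≤ wtL u := by
  induction u with
  | nil => simp
  | cons a u ih => have := wt_pos a; simp only [List.length_cons, wtL]; omega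

lemma wtL_le (u : List Λ) : wtL u ≤ wA Λ * u.length := by
  induction u with
  | nil => simp [wtL]
  | cons a u ih =>
    have := wt_le a
    simp only [List.length_cons, wtL]
    calc wt a + wtL u ≤ wA Λ + wA Λ * u.length := by omega
      _ = _ := by ring

lemma one_le_wA (i : Λ) : 1 ≤ wA Λ := (wt_pos i).trans (wt_le i)

lemma cpoly_cons_coeff (j : Λ) (w : List Λ) (i : Λ) (m : ℕ) :
    (cpoly (j :: w) i).coeff m
      = (if m = 0 ∧ j = i then 1 else 0)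
        + (if wt j ≤ m then sg j * (cpoly w i).coeff (m - wt j) else 0) := by
  rw [cpoly, coeff_add, mul_assoc, coeff_C_mul, coeff_X_pow_mul']
  congr 1
  · by_cases h : j = i
    · simp [h, coeff_one]
    · simp [h]
  · split_ifs <;> simp

/-- Coefficients vanish from the weight on. -/
lemma cpoly_coeff_zero (w : List Λ) (i : Λ) (m : ℕ) (h : wtL w ≤ m) : (cpoly w i).coeff m = 0 := by
  induction w generalizing m with
  | nil => simp only [cpoly, coeff_zero]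
  | cons j w ih =>
    have h0 := wt_pos j
    rw [wtL] at h
    rw [cpoly_cons_coeff, if_neg (by omega), if_pos (by omega), ih (m - wt j) (by omega)]
    simp

lemma cpoly_natDegree_le (w : List Λ) (i : Λ) : (cpoly w i).natDegree ≤ wtL w := by
  rw [natDegree_le_iff_coeff_eq_zero]
  intro m hm
  exact cpoly_coeff_zero w i m hm.le

lemma cpoly_append (u v : List Λ) (i : Λ) :
    cpoly (u ++ v) i = cpoly u i + C (sgL u) * X ^ wtL u * cpoly v i := by
  induction u with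
  | nil => simp only [List.nil_append, cpoly, sgL, eq_intCast, Int.cast_one, wtL, pow_zero, mul_one, one_mul, zero_add]
  | cons j u ih =>
    rw [List.cons_append, cpoly, cpoly, ih, sgL, wtL, pow_add, map_mul]
    ring

lemma cpoly_coeff_abs_le (w : List Λ) (i : Λ) (m : ℕ) : |(cpoly w i).coeff m| ≤ 1 := by
  induction w generalizing m with
  | nil => simp [cpoly]
  | cons j w ih =>
    rw [cpoly_cons_coeff]
    have h0 := wt_pos j
    rcases Nat.eq_zero_or_pos m with h | h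
    · subst h
      rw [if_neg (by omega : ¬ wt j ≤ 0)]
      by_cases h1 : j = i <;> simp [h1]
    · rw [if_neg (by omega), zero_add]
      split_ifs with h2
      · rw [abs_mul]
        have h3 : |sg j| = 1 := by
          have := abs_sgL [j]
          simpa [sgL] using this
        rw [h3, one_mul]
        exact ih _
      · simp only [abs_zero, zero_le_one]

/-- Below the weight of the prefix only the prefix matters. -/
lemma cpoly_coeff_append (u v : List Λ) (i : Λ) (m : ℕ) (h : m < wtL u) :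
    (cpoly (u ++ v) i).coeff m = (cpoly u i).coeff m := by
  rw [cpoly_append, coeff_add, mul_assoc, coeff_C_mul, coeff_X_pow_mul', if_neg (by omega)]
  simp

/-- Above the weight of the prefix only the rest matters. -/
lemma cpoly_coeff_append' (u v : List Λ) (i : Λ) (m : ℕ) :
    (cpoly (u ++ v) i).coeff (wtL u + m) = sgL u * (cpoly v i).coeff m := by
  rw [cpoly_append, coeff_add, cpoly_coeff_zero u i _ (by omega), zero_add, mul_assoc, coeff_C_mul,
    coeff_X_pow_mul', if_pos (by omega), Nat.add_sub_cancel_left]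

lemma cpoly_coeff_prefix (u w : List Λ) (h : u <+: w) (i : Λ) (m : ℕ) (hm : m < wtL u) :
    (cpoly w i).coeff m = (cpoly u i).coeff m := by
  obtain ⟨v, rfl⟩ := h
  exact cpoly_coeff_append u v i m hm

lemma pre_length' (u : ℕ → Λ) (L : ℕ) : (pre u L).length = L := by simp [pre]

lemma pre_prefix (u : ℕ → Λ) {K L : ℕ} (h : K ≤ L) : pre u K <+: pre u L := by
  rw [List.prefix_iff_eq_take]
  refine List.ext_getElem ?_ fun n h1 h2 => ?_
  · rw [List.length_take, pre_length', pre_length', min_eq_left h]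
  · simp [pre]

lemma coeff_psu (u : ℕ → Λ) (i : Λ) (m : ℕ) :
    PowerSeries.coeff m (psu u i) = (cpoly (pre u (m + 1)) i).coeff m := by
  rw [psu, PowerSeries.coeff_mk]

/-- The coefficients of an infinite word agree with those of its prefixes. -/
lemma coeff_psu_of_prefix (u : ℕ → Λ) (L : ℕ) (w : List Λ) (h : pre u L <+: w) (i : Λ) (m : ℕ)
    (hm : m < L) : (cpoly w i).coeff m = PowerSeries.coeff m (psu u i) := by
  rw [coeff_psu]
  refine cpoly_coeff_prefix _ _ ((pre_prefix u (by omega)).trans h) i m ?_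
  have := length_le_wtL (pre u (m + 1))
  rw [pre_length'] at this
  omega

lemma dpoly_coeff (x : List Λ × List Λ) (i : Λ) (m : ℕ) :
    (dpoly x i).coeff m = (cpoly x.1 i).coeff m - (cpoly x.2 i).coeff m := by
  rw [dpoly, coeff_sub]

lemma dpoly_coeff_abs_le (x : List Λ × List Λ) (i : Λ) (m : ℕ) : |(dpoly x i).coeff m| ≤ 2 := by
  rw [dpoly_coeff]
  have h1 := cpoly_coeff_abs_le x.1 i m
  have h2 := cpoly_coeff_abs_le x.2 i m
  have h3 := abs_sub ((cpoly x.1 i).coeff m) ((cpoly x.2 i).coeff m)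
  omega

lemma dpoly_natDegree_le (x : List Λ × List Λ) (i : Λ) {n : ℕ} (h1 : x.1.length ≤ n)
    (h2 : x.2.length ≤ n) : (dpoly x i).natDegree ≤ wA Λ * n := by
  rw [natDegree_le_iff_coeff_eq_zero]
  intro m hm
  have e1 := (wtL_le x.1).trans (Nat.mul_le_mul_left (wA Λ) h1)
  have e2 := (wtL_le x.2).trans (Nat.mul_le_mul_left (wA Λ) h2)
  rw [dpoly_coeff, cpoly_coeff_zero _ _ _ (by omega), cpoly_coeff_zero _ _ _ (by omega), sub_zero]

lemma coeff_ps (u u' : ℕ → Λ) (i : Λ) (m : ℕ) :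
    PowerSeries.coeff m (ps u u' i)
      = PowerSeries.coeff m (psu u i) - PowerSeries.coeff m (psu u' i) := by
  rw [ps, map_sub]

lemma coeff_dpoly_of_prefix {u u' : ℕ → Λ} {L : ℕ} {x : List Λ × List Λ}
    (h : pre u L <+: x.1) (h' : pre u' L <+: x.2) (i : Λ) {m : ℕ} (hm : m < L) :
    (dpoly x i).coeff m = PowerSeries.coeff m (ps u u' i) := by
  rw [dpoly_coeff, coeff_ps, coeff_psu_of_prefix u L _ h i m hm,
    coeff_psu_of_prefix u' L _ h' i m hm]

lemma abs_coeff_psu_le (u : ℕ → Λ) (i : Λ) (m : ℕ) : |PowerSeries.coeff m (psu u i)| ≤ 1 := by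
  rw [coeff_psu]; exact cpoly_coeff_abs_le _ _ _

lemma abs_coeff_ps_le (u u' : ℕ → Λ) (i : Λ) (m : ℕ) :
    |PowerSeries.coeff m (ps u u' i)| ≤ 2 := by
  rw [coeff_ps]
  have h1 := abs_coeff_psu_le u i m
  have h2 := abs_coeff_psu_le u' i m
  have h3 := abs_sub (PowerSeries.coeff m (psu u i)) (PowerSeries.coeff m (psu u' i))
  omega

variable [Fintype Λ]

/-- Sum of the squares of all coefficients: one for each letter. -/
lemma sum_cpoly_sq (w : List Λ) (N : ℕ) (hN : wtL w ≤ N) :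
    ∑ a, ∑ q ∈ Finset.range N, ((cpoly w a).coeff q) ^ 2 = w.length := by
  induction w generalizing N with
  | nil => simp only [cpoly, coeff_zero, ne_eq, OfNat.ofNat_ne_zero, not_false_eq_true, zero_pow, Finset.sum_const_zero, List.length_nil, CharP.cast_eq_zero]
  | cons j w ih =>
    have hj := wt_pos j
    rw [wtL] at hN
    obtain ⟨M, rfl⟩ : ∃ M, N = wt j + M := ⟨N - wt j, by omega⟩
    have key : ∀ a, ∑ q ∈ Finset.range (wt j + M), ((cpoly (j :: w) a).coeff q) ^ 2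
        = (if j = a then 1 else 0) + ∑ q ∈ Finset.range M, ((cpoly w a).coeff q) ^ 2 := by
      intro a
      rw [Finset.sum_range_add]
      congr 1
      · rw [Finset.sum_eq_single 0]
        · rw [cpoly_cons_coeff, if_neg (by omega : ¬ wt j ≤ 0)]
          by_cases h : j = a <;> simp [h]
        · intro q hq h0
          rw [Finset.mem_range] at hq
          rw [cpoly_cons_coeff, if_neg (fun h => h0 h.1), if_neg (by omega)]
          simp
        · intro h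
          exact absurd (Finset.mem_range.2 (by omega)) h
      · refine Finset.sum_congr rfl fun q _ => ?_
        rw [cpoly_cons_coeff, if_neg (by omega), if_pos (by omega), zero_add,
          Nat.add_sub_cancel_left, mul_pow, sq (sg j), sg_sq, one_mul]
    rw [Finset.sum_congr rfl fun a _ => key a, Finset.sum_add_distrib, ih M (by omega),
      Finset.sum_ite_eq, if_pos (Finset.mem_univ _), List.length_cons]
    push_cast
    ring

end words

section sys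

variable {Λ : Type} [Fintype Λ] [Wts Λ] {S : Sys Λ} {lam : ℝ} (hr : IsCom S lam)

include hr

lemma IsCom.abs_lt : |lam| < 1 := by
  rw [abs_of_pos hr.pos]; exact hr.lt_one

lemma IsCom.ne_zero : lam ≠ 0 := hr.pos.ne'

lemma IsCom.slL_eq (w : List Λ) : slL S.r w = (sgL w : ℝ) * lam ^ wtL w := by
  induction w with
  | nil => simp [slL, sgL, wtL]
  | cons a w ih =>
    rw [slL, ih, hr.eq, sgL, wtL, pow_add]
    push_cast
    ring

lemma IsCom.abs_slL (w : List Λ) : |slL S.r w| = lam ^ wtL w := by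
  have h : |(sgL w : ℝ)| = 1 := by
    have := abs_sgL w
    exact_mod_cast this
  rw [hr.slL_eq, abs_mul, h, one_mul, abs_of_pos (pow_pos hr.pos _)]

lemma IsCom.aeval_cpoly (w : List Λ) (i : Λ) : aeval lam (cpoly w i) = coefL S.r w i := by
  induction w with
  | nil => simp [cpoly, coefL]
  | cons j w ih =>
    rw [cpoly, coefL, map_add, map_mul, map_mul, map_pow, aeval_X, ih, hr.eq]
    congr 1
    · by_cases h : j = i <;> simp [h]
    · simp

lemma IsCom.dval_dot (x : List Λ × List Λ) (y : Λ → ℝ) :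
    dval lam x ⬝ᵥ y = trL S.r y x.1 - trL S.r y x.2 := by
  rw [trL_eq_sum, trL_eq_sum, ← Finset.sum_sub_distrib]
  unfold dotProduct
  refine Finset.sum_congr rfl fun i _ => ?_
  rw [dval, dpoly, map_sub, hr.aeval_cpoly, hr.aeval_cpoly]
  ring

/-- The Lyapunov exponent. -/
lemma IsCom.chi_eq : S.χ = wbar S.P * Real.log (1 / lam) := by
  unfold Sys.χ wbar
  rw [Finset.sum_mul, ← Finset.sum_neg_distrib]
  refine Finset.sum_congr rfl fun i _ => ?_
  have h1 : |S.r i| = lam ^ wt i := by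
    have := hr.abs_slL [i]
    simpa only [slL, mul_one, wtL, add_zero] using this
  rw [h1, Real.log_pow, one_div, Real.log_inv]
  ring

end sys

section dev

variable {Λ : Type} [Fintype Λ] [Wts Λ] (P : FinProb Λ)

lemma one_le_wbar : 1 ≤ wbar P := by
  unfold wbar
  rw [← P.sum_one]
  refine Finset.sum_le_sum fun i _ => ?_
  have h1 : (1 : ℝ) ≤ wt i := by exact_mod_cast wt_pos i
  have := mul_le_mul_of_nonneg_left h1 (P.nonneg i)
  linarith

omit [Fintype Λ] in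
lemma wtL_ofFn {n : ℕ} (w : Fin n → Λ) : (wtL (List.ofFn w) : ℝ) = ∑ k, (wt (w k) : ℝ) := by
  induction n with
  | zero => simp [wtL]
  | succ n ih =>
    rw [List.ofFn_succ, wtL, Fin.sum_univ_succ, Nat.cast_add, ih]

/-- First absolute moment of the deviation of the weight. -/
lemma wt_dev (n : ℕ) :
    ∑ w : Fin n → Λ, (P.pi n).w w * |(wtL (List.ofFn w) : ℝ) - wbar P * n|
      ≤ wA Λ * Real.sqrt n := by
  refine (P.pi n).abs_moment_le _ _ (mul_nonneg (Nat.cast_nonneg _) (Real.sqrt_nonneg _)) ?_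
  have h1 := P.second_moment n (fun _ i => (wt i : ℝ) - wbar P) (by
    intro _
    simp only [mul_sub]
    rw [Finset.sum_sub_distrib, P.sum_const]
    unfold wbar
    ring)
  have h2 : ∀ w : Fin n → Λ, (wtL (List.ofFn w) : ℝ) - wbar P * n
      = ∑ k, ((wt (w k) : ℝ) - wbar P) := by
    intro w
    rw [wtL_ofFn, Finset.sum_sub_distrib]
    simp only [mul_comm, Finset.sum_const, Finset.card_univ, Fintype.card_fin, nsmul_eq_mul]
  simp only [h2]
  rw [h1, mul_pow, Real.sq_sqrt (Nat.cast_nonneg n)]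
  have hb : ∀ i : Λ, |(wt i : ℝ) - wbar P| ≤ wA Λ := by
    intro i
    have e1 : (wt i : ℝ) ≤ wA Λ := by exact_mod_cast wt_le i
    have e2 : (0 : ℝ) ≤ wt i := Nat.cast_nonneg _
    have e3 : wbar P ≤ wA Λ := by
      unfold wbar
      rw [← P.sum_const (wA Λ : ℝ)]
      refine P.sum_mono fun k => ?_
      exact_mod_cast wt_le k
    have e4 := one_le_wbar P
    rw [abs_le]
    constructor <;> linarith only [e1, e4, e3]
  calc ∑ _i : Fin n, ∑ ω, P.w ω * ((wt ω : ℝ) - wbar P) ^ 2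
      ≤ ∑ _i : Fin n, (wA Λ : ℝ) ^ 2 := by
        refine Finset.sum_le_sum fun _ _ => ?_
        rw [← P.sum_const ((wA Λ : ℝ) ^ 2)]
        refine P.sum_mono fun i => ?_
        rw [← sq_abs]
        exact pow_le_pow_left₀ (abs_nonneg _) (hb i) 2
    _ = (wA Λ : ℝ) ^ 2 * n := by simp only [Finset.sum_const, Finset.card_univ, Fintype.card_fin, nsmul_eq_mul, mul_comm]

/-- Words of small weight are rare. -/
lemma prB_small (ε : ℝ) (hε : 0 < ε) (n : ℕ) :
    prB P n (fun w => (wtL w : ℝ) < (wbar P - ε) * n) * n ≤ wA Λ * Real.sqrt n / ε := by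
  rcases Nat.eq_zero_or_pos n with h0 | h0
  · subst h0
    simp
  have hn : (0 : ℝ) < n := by exact_mod_cast h0
  have h1 : prB P n (fun w => (wtL w : ℝ) < (wbar P - ε) * n)
      ≤ (wA Λ * Real.sqrt n) / (ε * n) := by
    refine le_trans ?_ (((P.pi n).markov (fun w => (wtL (List.ofFn w) : ℝ) - wbar P * n) (ε * n)
      (by positivity)).trans (div_le_div_of_nonneg_right (wt_dev P n) (by positivity)))
    unfold prB
    refine Finset.sum_le_sum fun w _ => ?_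
    by_cases h : (wtL (List.ofFn w) : ℝ) < (wbar P - ε) * n
    · rw [if_pos h, if_pos]
      rw [lt_abs]
      right
      linarith only [h]
    · rw [if_neg h]
      split_ifs
      exacts [(P.pi n).nonneg w, le_rfl]
  calc prB P n (fun w => (wtL w : ℝ) < (wbar P - ε) * n) * n
      ≤ (wA Λ * Real.sqrt n) / (ε * n) * n := mul_le_mul_of_nonneg_right h1 hn.le
    _ = wA Λ * Real.sqrt n / ε := by (clear * - h0 hε; field_simp)

lemma prB_nonneg (n : ℕ) (B : List Λ → Prop) : 0 ≤ prB P n B :=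
  Finset.sum_nonneg fun w _ => by split_ifs; exacts [(P.pi n).nonneg w, le_rfl]

lemma prB_le_one (n : ℕ) (B : List Λ → Prop) : prB P n B ≤ 1 := by
  rw [← (P.pi n).sum_one]
  exact Finset.sum_le_sum fun w _ => by split_ifs; exacts [le_rfl, (P.pi n).nonneg w]

lemma prB_mono (n : ℕ) (B B' : List Λ → Prop) (h : ∀ w, B w → B' w) : prB P n B ≤ prB P n B' :=
  Finset.sum_le_sum fun w _ => by
    by_cases h1 : B (List.ofFn w)
    · rw [if_pos h1, if_pos (h _ h1)]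
    · rw [if_neg h1]; split_ifs; exacts [(P.pi n).nonneg w, le_rfl]

end dev

end Vale.Agent.P114.Com
end
end
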