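import Vale.Agent.P114.MathlibUsed
import Vale.Agent.P114.Bdl.B2
import Vale.Agent.P114.Bdl.B1
import Vale.Agent.P114.Bdl.B3
attribute [-instance] ProperSMul.toContinuousSMul IsTopologicalTorsor.toContinuousSMul IdemSemiring.toCanonicallyOrderedAdd IdemSemiring.toMulLeftMono IdemSemiring.toMulRightMono AddQuantale.instAddLeftMono AddQuantale.instAddRightMono Quantale.instMulLeftMono Quantale.instMulRightMono FiniteDimensional.rclike_to_real IsScalarTower.complexToReal FiniteDimensional.complexToReal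

set_option linter.all false

section

/-!
T12-J. Information gained at the good exits, contaminated version. Template: Dio/Seg2.lean.
-/

open scoped Classical

noncomputable section

namespace Vale.Agent.P114

open FinProb

section

variable {A : Type*} [Fintype A] (PA : FinProb A) (U : A → ℤ) (z : ℤ) (ms g : ℕ)

lemma segC_lab_iff {j : ℕ} (hj : ms ≤ j) {a : A} (h1 : 2 ^ j ≤ |U a - z|)
    (h2 : |U a - z| < 2 ^ (j + 1)) (x : A) :
    labN PA U z ms g x = labN PA U z ms g a ↔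
      seg2V PA U z ms g j x = seg2V PA U z ms g j a ∧ |U x - z| < 2 ^ (j + 1) := by
  have hp : (2 : ℤ) ^ ms ≤ 2 ^ j := pow_le_pow_right₀ (by norm_num) hj
  have hms : 2 ^ ms ≤ |U a - z| := hp.trans h1
  have hlog : Nat.log 2 (U a - z).natAbs = j := seg2_log h1 h2
  constructor
  · intro h
    have hx : 2 ^ ms ≤ |U x - z| := by
      by_contra hcon
      push Not at hcon
      rw [seg2_lab PA U z ms g hms] at h
      unfold labN at h
      rw [if_pos hcon] at h
      have := (Prod.mk.inj h).1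
      omega
    have hlx : Nat.log 2 (U x - z).natAbs = j := by
      have h3 := h
      rw [seg2_lab PA U z ms g hms, seg2_lab PA U z ms g hx] at h3
      have := (Prod.mk.inj h3).1
      omega
    have hne : U x - z ≠ 0 := by
      intro h0
      rw [h0, abs_zero] at hx
      have : (0 : ℤ) < 2 ^ ms := by positivity
      omega
    have hx1 := seg2_ge hlx hne
    have hx2 := seg2_lt hlx
    refine ⟨?_, hx2⟩
    rw [seg2V_some PA U z ms g hx1, seg2V_some PA U z ms g h1, h]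
  · rintro ⟨h, -⟩
    exact ((seg2V_eq PA U z ms g h1 h.symm).2).symm

/-- Conditioning twice. -/
lemma segC_cond_cond {τ₁ τ₂ τ₃ : Type*} (T : A → τ₁) (V : A → τ₂) (N : A → τ₃) {a : A}
    (ha : 0 < PA.w a) (h : ∀ y, N y = N a ↔ V y = V a ∧ T y = T a) (x : A) :
    ((PA.cond T (T a)).cond V (V a)).w x = (PA.cond N (N a)).w x := by
  have hpT : 0 < PA.p T (T a) := PA.p_pos ha T
  have hw : ∀ y, (PA.cond T (T a)).w y = (if T y = T a then PA.w y else 0) / PA.p T (T a) :=
    fun y => PA.cond_w T (T a) hpT y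
  have hkey : ∀ y, (if V y = V a then (PA.cond T (T a)).w y else 0)
      = (if N y = N a then PA.w y else 0) / PA.p T (T a) := by
    intro y
    rw [hw y]
    by_cases h3 : N y = N a
    · obtain ⟨h4, h5⟩ := (h y).1 h3
      rw [if_pos h4, if_pos h3, if_pos h5]
    · rw [if_neg h3, zero_div]
      by_cases h4 : V y = V a
      · rw [if_pos h4, if_neg (fun h6 => h3 ((h y).2 ⟨h4, h6⟩)), zero_div]
      · rw [if_neg h4]
  have hp1 : (PA.cond T (T a)).p V (V a) = PA.p N (N a) / PA.p T (T a) := by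
    have e1 : (PA.cond T (T a)).p V (V a)
        = ∑ y, if V y = V a then (PA.cond T (T a)).w y else 0 := rfl
    have e2 : PA.p N (N a) = ∑ y, if N y = N a then PA.w y else 0 := rfl
    rw [e1, e2, Finset.sum_div]
    exact Finset.sum_congr rfl fun y _ => hkey y
  have hpN : 0 < PA.p N (N a) := PA.p_pos ha N
  have hp2 : 0 < (PA.cond T (T a)).p V (V a) := by
    rw [hp1]; (clear * - hpN hpT; positivity)
  rw [(PA.cond T (T a)).cond_w V (V a) hp2 x, PA.cond_w N (N a) hpN x, hkey x, hp1]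
  field_simp

/-- The conditional law given a label of the annulus `j`. -/
lemma segC_cond {j : ℕ} (hj : ms ≤ j) {a : A} (ha : 0 < PA.w a) (h1 : 2 ^ j ≤ |U a - z|)
    (h2 : |U a - z| < 2 ^ (j + 1)) (x : A) :
    ((PA.cond (seg2V PA U z ms g (j + 1)) none).cond (seg2V PA U z ms g j)
        (seg2V PA U z ms g j a)).w x
      = (PA.cond (labN PA U z ms g) (labN PA U z ms g a)).w x := by
  have hTa : seg2V PA U z ms g (j + 1) a = none := (seg2V_none PA U z ms g (j + 1) a).2 h2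
  rw [← hTa]
  refine segC_cond_cond PA _ _ _ ha (fun y => ?_) x
  rw [hTa, seg2V_none]
  exact segC_lab_iff PA U z ms g hj h1 h2 y

end

/-- One step of the chain. -/
lemma segC_step (c c7 c' : ℝ) (hc : 0 < c) (hc7 : 0 < c7) (hc' : 0 < c') (W₁ : ℕ)
    (hone : ∀ {A B τ : Type} [Fintype A] [Fintype B] (PA : FinProb A) (PB : FinProb B)
      (U : A → ℤ) (Y : B → ℤ) (V : A → τ) (z : ℤ) (m W R : ℕ), W₁ ≤ W → 4 * W ≤ m →
      (∀ a, 0 < PA.w a → |U a - z| < 2 ^ (m + 1)) → DetC PB Y c c7 c' W m R →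
      (∀ a a', 0 < PA.w a → 0 < PA.w a' → 2 ^ m ≤ |U a - z| → V a = V a' →
        2 ^ m ≤ |U a' - z| ∧ |U a - U a'| ≤ 2 ^ (m - 4 * W)) →
      (∑ a, if (2 : ℤ) ^ (m - 4 * W) ≤ |U a - z| then PA.w a else 0)
        ≤ (16 * (W : ℝ) + 4) * (2 : ℝ)⁻¹ ^ (2 * W) →
      c / 2 * (c7 * W * Real.log 2) * (∑ a, if (2 : ℤ) ^ m ≤ |U a - z| ∧
          JU (PA.cond V (V a)) PB U Y (m - R - W) - JU (PA.cond V (V a)) PB U Y (m - R) ≤ c' * W
          then PA.w a else 0)
        ≤ info PA PB U V Y)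
    {A B : Type} [Fintype A] [Fintype B] (PA : FinProb A) (PB : FinProb B)
    (U : A → ℤ) (Y : B → ℤ) (z : ℤ) (ms g j : ℕ) (Bad : ℕ → Finset ℕ) (R : ℕ → ℕ)
    (hms : 1 / 2 ≤ balP PA U z ms) (hj : ms ≤ j)
    (hann : ∀ m, ms ≤ m → annP PA U z m ≤ (2 : ℝ)⁻¹ ^ (8 * W₁))
    (hgood : GoodM (annP PA U z) Bad ms j)
    (hdet : DetC PB Y c c7 c' (Wd (annP PA U z j)) j (R (Wd (annP PA U z j)))) :
    c / 2 * (c7 * Real.log 2) * ((Wd (annP PA U z j) : ℝ) * annP PA U z j)
      ≤ HO PA PB U Y (seg2V PA U z ms g (j + 1)) - HO PA PB U Y (seg2V PA U z ms g j)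
        + c / 2 * (c7 * Real.log 2) / c' * ∑ a, (if 2 ^ j ≤ |U a - z| ∧ |U a - z| < 2 ^ (j + 1)
          then PA.w a * ∑ t ∈ winC R (Wd (annP PA U z j)) j,
            xU (PA.cond (labN PA U z ms g) (labN PA U z ms g a)) PB U Y t else 0) := by
  have hlog2 : 0 < Real.log 2 := Real.log_pos (by norm_num)
  obtain ⟨hp0, hmW, -, hdom⟩ := hgood
  set W := Wd (annP PA U z j) with hW
  set b := balP PA U z (j + 1) with hb
  set T := seg2V PA U z ms g (j + 1) with hT
  set V := seg2V PA U z ms g j with hV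
  set N := labN PA U z ms g with hN
  set K := c / 2 * (c7 * Real.log 2) with hK
  have hK0 : 0 < K := by positivity
  have hb2 : 1 / 2 ≤ b := hms.trans (seg2_balP_mono PA U z (by omega))
  have hb0 : 0 < b := by linarith only [hb2]
  have hpT : PA.p T none = b := seg2V_p PA U z ms g (j + 1)
  have hpT0 : 0 < PA.p T none := by rw [hpT]; exact hb0
  have hw : ∀ a, (PA.cond T none).w a = (if |U a - z| < 2 ^ (j + 1) then PA.w a else 0) / b := by
    intro a
    rw [PA.cond_w T none hpT0 a, hpT]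
    congr 1
    by_cases h : |U a - z| < 2 ^ (j + 1)
    · rw [if_pos h, if_pos ((seg2V_none PA U z ms g (j + 1) a).2 h)]
    · rw [if_neg h, if_neg (fun h' => h ((seg2V_none PA U z ms g (j + 1) a).1 h'))]
  have hws : ∀ a, 0 < (PA.cond T none).w a → |U a - z| < 2 ^ (j + 1) := by
    intro a ha
    by_contra hcon
    rw [hw a, if_neg hcon, zero_div] at ha
    exact lt_irrefl _ ha
  rw [HO_sub PA PB U Y T V (fun a a' h => seg2V_det PA U z ms g hj a a' h)]
  -- the class `none`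
  have h1 : b * info (PA.cond T none) PB U V Y
      ≤ ∑ a, PA.w a * info (PA.cond T (T a)) PB U V Y := by
    rw [hb]
    unfold balP
    rw [Finset.sum_mul]
    refine Finset.sum_le_sum fun a _ => ?_
    by_cases h : |U a - z| < 2 ^ (j + 1)
    · rw [if_pos h]
      have : T a = none := (seg2V_none PA U z ms g (j + 1) a).2 h
      rw [this]
    · rw [if_neg h, zero_mul]
      exact mul_nonneg (PA.nonneg a) (info_nonneg _ _ _ _ _)
  refine le_trans ?_ (add_le_add_left h1 _)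
  have hq : ∀ l : ℕ, (∑ a, if (2 : ℤ) ^ l ≤ |U a - z| then (PA.cond T none).w a else 0)
      = (∑ a, if (2 : ℤ) ^ l ≤ |U a - z| ∧ |U a - z| < 2 ^ (j + 1) then PA.w a else 0) / b := by
    intro l
    rw [Finset.sum_div]
    refine Finset.sum_congr rfl fun a _ => ?_
    rw [hw a]
    by_cases h2 : (2 : ℤ) ^ l ≤ |U a - z|
    · by_cases h3 : |U a - z| < 2 ^ (j + 1)
      · rw [if_pos h2, if_pos h3, if_pos ⟨h2, h3⟩]
      · rw [if_pos h2, if_neg h3, if_neg (fun h => h3 h.2)]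
    · rw [if_neg h2, if_neg (fun h => h2 h.1), zero_div]
  have hW1 : W₁ ≤ W := Wd_ge _ _ hp0 (hann j hj)
  have hW0 : (0 : ℝ) ≤ W := Nat.cast_nonneg W
  have hmass : (∑ a, if (2 : ℤ) ^ (j - 4 * W) ≤ |U a - z| then (PA.cond T none).w a else 0)
      ≤ (16 * (W : ℝ) + 4) * (2 : ℝ)⁻¹ ^ (2 * W) := by
    rw [hq]
    have h2 := seg2_annuli PA U z (j - 4 * W) j
    have h3 : ∑ m ∈ Finset.Ico (j - 4 * W) (j + 1), annP PA U z m
        ≤ (4 * W : ℝ) * (2 : ℝ)⁻¹ ^ (2 * W) + (2 : ℝ)⁻¹ ^ (2 * W) := by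
      rw [Finset.sum_Ico_succ_top (by (clear * - hmW hW1; omega))]
      refine add_le_add ?_ ?_
      · have h4 : ∑ m ∈ Finset.Ico (j - 4 * W) j, annP PA U z m
            ≤ ∑ m ∈ Finset.Ico (j - 4 * W) j, (2 : ℝ)⁻¹ ^ (2 * W) := by
          refine Finset.sum_le_sum fun m hm => ?_
          rw [Finset.mem_Ico] at hm
          exact (hdom m (by omega) hm.2 (by omega)).le
        refine h4.trans (le_of_eq ?_)
        rw [Finset.sum_const, Nat.card_Ico, nsmul_eq_mul]
        have : j - (j - 4 * W) = 4 * W := by (clear * - hmW hW1; omega)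
        rw [this]
        push_cast
        ring
      · have h4 := (Wd_bounds (annP PA U z j) hp0 (seg2_annP_le_one PA U z j)).2
        refine h4.trans ?_
        exact pow_le_pow_of_le_one (by norm_num) (by norm_num) (by omega)
    rw [div_le_iff₀ hb0]
    refine (h2.trans h3).trans ?_
    have h5 : 0 ≤ (16 * (W : ℝ) + 4) * (2 : ℝ)⁻¹ ^ (2 * W) := by (clear * -; positivity)
    have h6 : (16 * (W : ℝ) + 4) * (2 : ℝ)⁻¹ ^ (2 * W) * (1 / 2)
        ≤ (16 * (W : ℝ) + 4) * (2 : ℝ)⁻¹ ^ (2 * W) * b := mul_le_mul_of_nonneg_left hb2 h5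
    refine le_trans ?_ h6
    have h7 : 0 ≤ (2 : ℝ)⁻¹ ^ (2 * W) := by positivity
    have h8 : 0 ≤ (W : ℝ) * (2 : ℝ)⁻¹ ^ (2 * W) := by (clear * -; positivity)
    linarith only [h5]
  have key := hone (PA.cond T none) PB U Y V z j W (R W) hW1 (by omega) hws hdet
    (fun a a' ha _ h2 he => seg2V_cell PA U z ms g hj h2 (hws a ha) he) hmass
  have key2 := mul_le_mul_of_nonneg_left key hb0.le
  refine le_trans ?_ (add_le_add_left key2 _)
  set F : A → ℝ := fun a => ∑ t ∈ winC R W j, xU (PA.cond N (N a)) PB U Y t with hF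
  have hF0 : ∀ a, 0 ≤ F a := fun a => Finset.sum_nonneg fun t _ => xU_nonneg _ _ _ _ _
  -- the excess of a label in the annulus
  have hexc : ∀ a, 0 < PA.w a → 2 ^ j ≤ |U a - z| → |U a - z| < 2 ^ (j + 1) →
      JU ((PA.cond T none).cond V (V a)) PB U Y (j - R W - W)
        - JU ((PA.cond T none).cond V (V a)) PB U Y (j - R W) = F a := by
    intro a ha h2 h3
    have hc1 := fun t => JU_congr ((PA.cond T none).cond V (V a)) PB U Y
      (PA.cond N (N a)) (segC_cond PA U z ms g hj ha h2 h3) t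
    rw [hc1, hc1, ← sum_xU (PA.cond N (N a)) PB U Y _ _ (Nat.sub_le _ _)]
    rfl
  have hterm : ∀ a, K * (W * (if 2 ^ j ≤ |U a - z| ∧ |U a - z| < 2 ^ (j + 1)
        then PA.w a else 0))
      ≤ b * (K * (W * (if (2 : ℤ) ^ j ≤ |U a - z| ∧
          JU ((PA.cond T none).cond V (V a)) PB U Y (j - R W - W)
            - JU ((PA.cond T none).cond V (V a)) PB U Y (j - R W) ≤ c' * W
          then (PA.cond T none).w a else 0)))
        + K / c' * (if 2 ^ j ≤ |U a - z| ∧ |U a - z| < 2 ^ (j + 1) then PA.w a * F a else 0) := by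
    intro a
    have hwn := (PA.cond T none).nonneg a
    have hnn1 : 0 ≤ b * (K * (W * (if (2 : ℤ) ^ j ≤ |U a - z| ∧
          JU ((PA.cond T none).cond V (V a)) PB U Y (j - R W - W)
            - JU ((PA.cond T none).cond V (V a)) PB U Y (j - R W) ≤ c' * W
          then (PA.cond T none).w a else 0))) := by
      refine mul_nonneg hb0.le (mul_nonneg hK0.le (mul_nonneg hW0 ?_))
      split_ifs
      exacts [hwn, le_rfl]
    by_cases h2 : 2 ^ j ≤ |U a - z| ∧ |U a - z| < 2 ^ (j + 1)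
    · rw [if_pos h2, if_pos h2]
      rcases PA.w_zero_or_pos a with ha | ha
      · rw [ha]
        simpa only [mul_zero, tsub_le_iff_right, mul_ite, zero_mul, add_zero, ge_iff_le] using hnn1
      rw [hexc a ha h2.1 h2.2]
      by_cases h3 : F a ≤ c' * W
      · rw [if_pos ⟨h2.1, h3⟩, hw a, if_pos h2.2]
        have h4 : b * (K * (W * (PA.w a / b))) = K * (W * PA.w a) := by (clear * - hb2 ha hK0; field_simp)
        rw [h4]
        have : 0 ≤ K / c' * (PA.w a * F a) :=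
          mul_nonneg (by positivity) (mul_nonneg ha.le (hF0 a))
        linarith only [this]
      · rw [if_neg (fun h => h3 h.2)]
        push Not at h3
        have h5 : K * (W * PA.w a) ≤ K / c' * (PA.w a * F a) := by
          rw [div_mul_eq_mul_div, le_div_iff₀ hc']
          have := mul_le_mul_of_nonneg_left h3.le (mul_nonneg hK0.le ha.le)
          linarith only [this]
        simpa only [mul_zero, zero_add, ge_iff_le] using h5
    · rw [if_neg h2, if_neg h2]
      simpa only [mul_zero, tsub_le_iff_right, mul_ite, add_zero, ge_iff_le] using hnn1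
  have hsum := Finset.sum_le_sum fun a (_ : a ∈ Finset.univ) => hterm a
  rw [Finset.sum_add_distrib, ← Finset.mul_sum, ← Finset.mul_sum, ← Finset.mul_sum,
    ← Finset.mul_sum, ← Finset.mul_sum, ← Finset.mul_sum] at hsum
  have e1 : (∑ a, if (2 : ℤ) ^ j ≤ |U a - z| ∧ |U a - z| < 2 ^ (j + 1) then PA.w a else 0)
      = annP PA U z j := rfl
  rw [e1] at hsum
  refine hsum.trans (le_of_eq ?_)
  rw [hK]
  ring

/-- All the exits. Template `exit_gain`. For a good annulus `m`, `W = Wd (annP m)`: the labels with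
excess `> c' W` contribute `W * w ≤ w * excess / c'`. `excess = ∑ t ∈ winC R W m, xU (cond) t`
(`sum_xU`); the conditional law of `PA.cond T none` given `V j = some n` is `PA.cond N n`. -/
theorem exit_gainC (c c7 c' : ℝ) (hc : 0 < c) (hc7 : 0 < c7) (hc71 : c7 ≤ 1) (hc' : 0 < c') :
    ∃ W₁ : ℕ, ∀ {A B : Type} [Fintype A] [Fintype B] (PA : FinProb A) (PB : FinProb B)
      (U : A → ℤ) (Y : B → ℤ) (z : ℤ) (ms g M : ℕ) (Bad : ℕ → Finset ℕ) (R : ℕ → ℕ),
      1 / 2 ≤ balP PA U z ms → ms ≤ M →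
      (∀ m, ms ≤ m → annP PA U z m ≤ (2 : ℝ)⁻¹ ^ (8 * W₁)) →
      (∀ a, 0 < PA.w a → |U a - z| < 2 ^ M) →
      (∀ m, ms ≤ m → m < M → GoodM (annP PA U z) Bad ms m →
        DetC PB Y c c7 c' (Wd (annP PA U z m)) m (R (Wd (annP PA U z m)))) →
      c / 2 * (c7 * Real.log 2) * (∑ m ∈ Finset.Ico ms M,
        (if GoodM (annP PA U z) Bad ms m then (Wd (annP PA U z m) : ℝ) * annP PA U z m else 0))
        ≤ ((PA.prod PB).H (fun x => U x.1 + Y x.2) - HO PA PB U Y (labN PA U z ms g))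
          + c / 2 * (c7 * Real.log 2) / c' * ∑ a, PA.w a * ∑ t ∈ TwC PA U z ms Bad R a,
            xU (PA.cond (labN PA U z ms g) (labN PA U z ms g a)) PB U Y t := by
  obtain ⟨W₁, hone⟩ := exit_oneC c c7 c' hc hc7 hc71
  refine ⟨W₁, ?_⟩
  intro A B _ _ PA PB U Y z ms g M Bad R hms hM hann _ hdet
  have hlog2 : 0 < Real.log 2 := Real.log_pos (by norm_num)
  have h1 := HO_le PA PB U Y (seg2V PA U z ms g M)
  have h2 := HO_mono PA PB U Y (seg2V PA U z ms g ms) (labN PA U z ms g)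
    (fun a a' h => seg2V_ms PA U z ms g a a' h)
  set X : A → ℕ → ℝ := fun a t =>
    xU (PA.cond (labN PA U z ms g) (labN PA U z ms g a)) PB U Y t with hX
  have hX0 : ∀ a t, 0 ≤ X a t := fun a t => xU_nonneg _ _ _ _ _
  have h3 : ∀ N, ms ≤ N → N ≤ M → c / 2 * (c7 * Real.log 2) * (∑ m ∈ Finset.Ico ms N,
        (if GoodM (annP PA U z) Bad ms m then (Wd (annP PA U z m) : ℝ) * annP PA U z m else 0))
        ≤ HO PA PB U Y (seg2V PA U z ms g N) - HO PA PB U Y (seg2V PA U z ms g ms)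
          + c / 2 * (c7 * Real.log 2) / c' * ∑ m ∈ Finset.Ico ms N, ∑ a,
            (if GoodM (annP PA U z) Bad ms m ∧ 2 ^ m ≤ |U a - z| ∧ |U a - z| < 2 ^ (m + 1)
              then PA.w a * ∑ t ∈ winC R (Wd (annP PA U z m)) m, X a t else 0) := by
    intro N hN
    induction N, hN using Nat.le_induction with
    | base => intro _; simp only [Std.le_refl, Finset.Ico_eq_empty_of_le, Finset.sum_empty, mul_zero, sub_self, add_zero]
    | succ N hN ih =>
      intro hNM
      have ih' := ih (by omega)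
      rw [Finset.sum_Ico_succ_top hN, mul_add, Finset.sum_Ico_succ_top hN, mul_add]
      have h4 : c / 2 * (c7 * Real.log 2) * (if GoodM (annP PA U z) Bad ms N then
          (Wd (annP PA U z N) : ℝ) * annP PA U z N else 0)
          ≤ HO PA PB U Y (seg2V PA U z ms g (N + 1)) - HO PA PB U Y (seg2V PA U z ms g N)
            + c / 2 * (c7 * Real.log 2) / c' * ∑ a,
            (if GoodM (annP PA U z) Bad ms N ∧ 2 ^ N ≤ |U a - z| ∧ |U a - z| < 2 ^ (N + 1)
              then PA.w a * ∑ t ∈ winC R (Wd (annP PA U z N)) N, X a t else 0) := by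
        by_cases hg : GoodM (annP PA U z) Bad ms N
        · rw [if_pos hg]
          have := segC_step c c7 c' hc hc7 hc' W₁ hone PA PB U Y z ms g N Bad R hms hN hann hg
            (hdet N hN (by omega) hg)
          simp only [hg, true_and]
          exact this
        · rw [if_neg hg, mul_zero]
          have := HO_mono PA PB U Y (seg2V PA U z ms g (N + 1)) (seg2V PA U z ms g N)
            (fun a a' h => seg2V_det PA U z ms g hN a a' h)
          simp only [hg, false_and, if_false, Finset.sum_const_zero, mul_zero, add_zero]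
          linarith only [this]
      linarith only [ih', h4]
  have h5 := h3 M hM le_rfl
  have h6 : ∑ m ∈ Finset.Ico ms M, ∑ a,
      (if GoodM (annP PA U z) Bad ms m ∧ 2 ^ m ≤ |U a - z| ∧ |U a - z| < 2 ^ (m + 1)
        then PA.w a * ∑ t ∈ winC R (Wd (annP PA U z m)) m, X a t else 0)
      ≤ ∑ a, PA.w a * ∑ t ∈ TwC PA U z ms Bad R a, X a t := by
    rw [Finset.sum_comm]
    refine Finset.sum_le_sum fun a _ => ?_
    have hR : 0 ≤ PA.w a * ∑ t ∈ TwC PA U z ms Bad R a, X a t :=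
      mul_nonneg (PA.nonneg a) (Finset.sum_nonneg fun t _ => hX0 a t)
    set m₀ := Nat.log 2 (U a - z).natAbs with hm₀
    have h7 : ∀ m ∈ Finset.Ico ms M,
        (if GoodM (annP PA U z) Bad ms m ∧ 2 ^ m ≤ |U a - z| ∧ |U a - z| < 2 ^ (m + 1)
          then PA.w a * ∑ t ∈ winC R (Wd (annP PA U z m)) m, X a t else 0)
        ≤ if m = m₀ then PA.w a * ∑ t ∈ TwC PA U z ms Bad R a, X a t else 0 := by
      intro m hm
      have hmm := (Finset.mem_Ico.1 hm).1
      split_ifs with h8 h9 h9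
      · obtain ⟨hg, ha1, ha2⟩ := h8
        have hp : (2 : ℤ) ^ ms ≤ 2 ^ m := pow_le_pow_right₀ (by norm_num) hmm
        have h10 : TwC PA U z ms Bad R a = winC R (Wd (annP PA U z m)) m := by
          unfold TwC
          rw [if_neg (not_lt.2 (hp.trans ha1)), ← hm₀, ← h9, if_pos hg]
        rw [h10]
      · exact absurd (seg2_log h8.2.1 h8.2.2).symm h9
      · exact hR
      · exact le_rfl
    refine (Finset.sum_le_sum h7).trans ?_
    rw [Finset.sum_ite_eq']
    split_ifs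
    exacts [le_rfl, hR]
  have h7 := mul_le_mul_of_nonneg_left h6
    (show 0 ≤ c / 2 * (c7 * Real.log 2) / c' by positivity)
  linarith only [h7, h5, h2, h1]

end Vale.Agent.P114
end
end

section

/-!
T12-K1. One segment of the gain lemma with contaminated detection.
-/

open scoped Classical

noncomputable section

namespace Vale.Agent.P114

open FinProb

/-- Sums over the annuli. -/
lemma GainC_ann_sum {A : Type*} [Fintype A] (PA : FinProb A) (U : A → ℤ) (z : ℤ) (ms M : ℕ)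
    (F : ℕ → ℝ) (hF : ∀ m, 0 ≤ F m) (hM : ∀ a, 0 < PA.w a → |U a - z| < 2 ^ M) :
    ∑ a, PA.w a * (if |U a - z| < 2 ^ ms then 0 else F (Nat.log 2 (U a - z).natAbs))
      ≤ ∑ m ∈ Finset.Ico ms M, F m * annP PA U z m := by
  unfold annP
  simp_rw [Finset.mul_sum]
  rw [Finset.sum_comm]
  refine Finset.sum_le_sum fun a _ => ?_
  have hnn : ∀ m, 0 ≤ F m * (if 2 ^ m ≤ |U a - z| ∧ |U a - z| < 2 ^ (m + 1) then PA.w a else 0) := by
    intro m
    refine mul_nonneg (hF m) ?_
    split_ifs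
    exacts [PA.nonneg a, le_rfl]
  rcases PA.w_zero_or_pos a with h0 | h0
  · rw [h0, zero_mul]
    refine Finset.sum_nonneg fun m _ => ?_
    have := hnn m
    rwa [h0] at this
  · split_ifs with h1
    · rw [mul_zero]
      exact Finset.sum_nonneg fun m _ => hnn m
    · have hne : U a - z ≠ 0 := by
        intro h2
        apply h1
        rw [h2, abs_zero]
        positivity
      have h2 := log_annulus (U a - z) hne
      set m0 := Nat.log 2 (U a - z).natAbs with hm0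
      have h3 : m0 ∈ Finset.Ico ms M := by
        rw [Finset.mem_Ico]
        constructor
        · by_contra h4
          push Not at h4
          have : (2 : ℤ) ^ (m0 + 1) ≤ 2 ^ ms := pow_le_pow_right₀ (by norm_num) (by omega)
          exact h1 (lt_of_lt_of_le h2.2 this)
        · by_contra h5
          push Not at h5
          have h6 : (2 : ℤ) ^ M ≤ 2 ^ m0 := pow_le_pow_right₀ (by norm_num) h5
          have h7 := hM a h0
          linarith only [h2, h6, h7]
      refine le_trans (le_of_eq ?_) (Finset.single_le_sum (f := fun m =>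
        F m * (if 2 ^ m ≤ |U a - z| ∧ |U a - z| < 2 ^ (m + 1) then PA.w a else 0))
        (fun m _ => hnn m) h3)
      simp only [h2, and_self, if_true]
      ring

/-- Good annuli: entropy against depth. -/
lemma GainC_good (x : ℝ) (g1 : 0 < x) (hx1 : x ≤ 1) (h4 : 1 ≤ Wd x) :
    Real.negMulLog x ≤ 16 * Real.log 2 * ((Wd x : ℝ) * x) := by
  have h3 := (Wd_bounds x g1 hx1).1
  have h5 := Real.log_lt_log (by positivity) h3
  rw [Real.log_pow, Real.log_inv] at h5
  push_cast at h5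
  have h4' : (1 : ℝ) ≤ Wd x := by exact_mod_cast h4
  have hlog2 : 0 < Real.log 2 := Real.log_pos (by norm_num)
  have h6 : -Real.log x ≤ 16 * Real.log 2 * (Wd x : ℝ) := by linarith only [mul_nonneg (sub_nonneg.2 h4') (le_of_lt (sub_pos.2 hlog2)), h5]
  have h7 : Real.negMulLog x = x * (-Real.log x) := by
    unfold Real.negMulLog; ring
  rw [h7]
  calc x * (-Real.log x) ≤ x * (16 * Real.log 2 * (Wd x : ℝ)) :=
        mul_le_mul_of_nonneg_left h6 g1.le
    _ = _ := by ring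

/-- The number of charged scales. -/
lemma GainC_card {A : Type*} [Fintype A] (PA : FinProb A) (U : A → ℤ) (z : ℤ) (ms M : ℕ)
    (Bad : ℕ → Finset ℕ) (R : ℕ → ℕ) (hsupp : ∀ a, 0 < PA.w a → |U a - z| < 2 ^ M) :
    ∑ a, PA.w a * ((TwC PA U z ms Bad R a).card : ℝ)
      ≤ ∑ m ∈ Finset.Ico ms M, (if GoodM (annP PA U z) Bad ms m
        then (Wd (annP PA U z m) : ℝ) * annP PA U z m else 0) := by
  have h1 := GainC_ann_sum PA U z ms M (fun m => if GoodM (annP PA U z) Bad ms m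
    then ((winC R (Wd (annP PA U z m)) m).card : ℝ) else 0)
    (fun m => by split_ifs <;> positivity) hsupp
  have h2 : ∑ a, PA.w a * ((TwC PA U z ms Bad R a).card : ℝ)
      = ∑ a, PA.w a * (if |U a - z| < 2 ^ ms then 0 else
        (fun m => if GoodM (annP PA U z) Bad ms m
          then ((winC R (Wd (annP PA U z m)) m).card : ℝ) else 0)
            (Nat.log 2 (U a - z).natAbs)) := by
    refine Finset.sum_congr rfl fun a _ => ?_
    unfold TwC
    dsimp only
    split_ifs <;> simp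
  rw [h2]
  refine h1.trans ?_
  refine Finset.sum_le_sum fun m _ => ?_
  split_ifs
  · refine mul_le_mul_of_nonneg_right ?_ (annP_nonneg PA U z m)
    unfold winC
    rw [Nat.card_Ico]
    exact_mod_cast (by omega : m - R (Wd (annP PA U z m))
      - (m - R (Wd (annP PA U z m)) - Wd (annP PA U z m)) ≤ Wd (annP PA U z m))
  · rw [zero_mul]

/-- The charges. -/
lemma GainC_chg {A : Type*} [Fintype A] (PA : FinProb A) (U : A → ℤ) (z : ℤ) (ms M W₁ K' : ℕ)
    (Bad : ℕ → Finset ℕ) (R : ℕ → ℕ) (hsupp : ∀ a, 0 < PA.w a → |U a - z| < 2 ^ M)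
    (h1' : ∀ m, ms ≤ m → annP PA U z m ≤ 1)
    (hWge : ∀ m, ms ≤ m → 0 < annP PA U z m → W₁ ≤ Wd (annP PA U z m))
    (hK : ∀ m, 0 < annP PA U z m → (2 : ℝ)⁻¹ ^ K' ≤ annP PA U z m) (t : ℕ) :
    ∑ a, PA.w a * (if t ∈ TwC PA U z ms Bad R a then (1 : ℝ) else 0)
      ≤ ∑ m ∈ Finset.Ico ms M, chg R W₁ K' t m := by
  have hF0 : ∀ m, 0 ≤ (fun m => if GoodM (annP PA U z) Bad ms m ∧
      t ∈ winC R (Wd (annP PA U z m)) m then (1 : ℝ) else 0) m := fun m => by
    dsimp only
    split_ifs <;> norm_num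
  have h1 := GainC_ann_sum PA U z ms M (fun m => if GoodM (annP PA U z) Bad ms m ∧
      t ∈ winC R (Wd (annP PA U z m)) m then (1 : ℝ) else 0) hF0 hsupp
  have h2 : ∑ a, PA.w a * (if t ∈ TwC PA U z ms Bad R a then (1 : ℝ) else 0)
      = ∑ a, PA.w a * (if |U a - z| < 2 ^ ms then 0 else
        (fun m => if GoodM (annP PA U z) Bad ms m ∧
          t ∈ winC R (Wd (annP PA U z m)) m then (1 : ℝ) else 0)
            (Nat.log 2 (U a - z).natAbs)) := by
    refine Finset.sum_congr rfl fun a _ => ?_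
    congr 1
    unfold TwC
    dsimp only
    by_cases h3 : |U a - z| < 2 ^ ms
    · simp only [if_pos h3, Finset.notMem_empty, if_false]
    · by_cases h4 : GoodM (annP PA U z) Bad ms (Nat.log 2 (U a - z).natAbs)
      · simp only [if_neg h3, h4, if_true, true_and]
      · simp only [if_neg h3, h4, false_and, Finset.notMem_empty, if_false]
  rw [h2]
  refine h1.trans ?_
  refine Finset.sum_le_sum fun m hm => ?_
  have hm1 := (Finset.mem_Ico.1 hm).1
  split_ifs with h3
  · have g1 := h3.1.1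
    have h4 := annP_le_chg (annP PA U z m) g1 (h1' m hm1) R W₁ K' t m (hWge m hm1 g1) (hK m g1)
    rw [if_pos h3.2] at h4
    linarith only [h4]
  · rw [zero_mul]
    exact chg_nonneg _ _ _ _ _

/-- Sums over the scales between the ball and the child. -/
lemma GainC_ball {A : Type*} [Fintype A] (PA : FinProb A) (U : A → ℤ) (z : ℤ) (ms M : ℕ)
    (μ : A → ℕ) (hb : 1 / 2 ≤ balP PA U z ms) (hμ : ∀ a, |U a - z| < 2 ^ ms → μ a ≤ ms)
    (f : ℕ → ℝ) (hf : ∀ m, 0 ≤ f m) :
    ∑ m ∈ Finset.Ico ms M, f m ≤ 2 * ∑ a, PA.w a * ∑ m ∈ Finset.Ico (μ a) M, f m := by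
  set Sb := ∑ m ∈ Finset.Ico ms M, f m with hSb
  have hSb0 : 0 ≤ Sb := Finset.sum_nonneg fun m _ => hf m
  have h1 : balP PA U z ms * Sb ≤ ∑ a, PA.w a * ∑ m ∈ Finset.Ico (μ a) M, f m := by
    unfold balP
    rw [Finset.sum_mul]
    refine Finset.sum_le_sum fun a _ => ?_
    split_ifs with h2
    · refine mul_le_mul_of_nonneg_left ?_ (PA.nonneg a)
      refine Finset.sum_le_sum_of_subset_of_nonneg ?_ fun m _ _ => hf m
      intro m hm
      rw [Finset.mem_Ico] at hm ⊢
      exact ⟨(hμ a h2).trans hm.1, hm.2⟩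
    · rw [zero_mul]
      exact mul_nonneg (PA.nonneg a) (Finset.sum_nonneg fun m _ => hf m)
  have h2 : 1 / 2 * Sb ≤ balP PA U z ms * Sb := mul_le_mul_of_nonneg_right hb hSb0
  linarith

/-- One segment. -/
theorem segmentC (α C₀ c c7 c' : ℝ) (W₀ : ℕ) (hα0 : 0 ≤ α) (hα1 : α < 1) (hC₀ : 0 ≤ C₀)
    (hc : 0 < c) (hc7 : 0 < c7) (hc71 : c7 ≤ 1) (hc' : 0 < c') :
    ∃ (Ce : ℝ) (Wm g : ℕ), 0 ≤ Ce ∧ W₀ ≤ Wm ∧ ∀ W₁ : ℕ, Wm ≤ W₁ → ∃ C₂ : ℝ, 0 ≤ C₂ ∧
      ∀ (M K' Rm : ℕ) (A B : Type) [Fintype A] [Fintype B]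
      (PA : FinProb A) (PB : FinProb B) (U : A → ℤ) (Y : B → ℤ) (Bad : ℕ → Finset ℕ)
      (R : ℕ → ℕ) (lo : ℤ),
      (∀ a, 0 < PA.w a → lo ≤ U a ∧ U a < lo + 2 ^ M) →
      (∀ j W : ℕ, PB.H (fun b => Y b / 2 ^ j) - PB.H (fun b => Y b / 2 ^ (j + W))
        ≤ α * (W * Real.log 2) + C₀) →
      (∀ W, W ≤ K' → R W ≤ Rm) →
      (∀ W k, W₀ ≤ W → W ≤ K' → R W + 4 * W ≤ k → k ∉ Bad W → DetC PB Y c c7 c' W k (R W)) →
      (∀ a, PA.w a = 0 ∨ (2 : ℝ)⁻¹ ^ K' ≤ PA.w a) →
      (∀ a a', 0 < PA.w a → 0 < PA.w a' → U a ≠ U a' → 2 ^ (Rm + 4 * K' + g) ≤ |U a - U a'|) →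
      Rm + 4 * K' + g < M →
      ∃ (N : A → ℕ × ℤ) (μ : A → ℕ) (Tw : A → Finset ℕ),
        (∀ a, 0 < PA.w a → μ a < M ∧ ∃ lo' : ℤ, ∀ a', 0 < PA.w a' → N a' = N a →
          lo' ≤ U a' ∧ U a' < lo' + 2 ^ μ a) ∧
        (∀ a, 0 < PA.w a → ∀ t ∈ Tw a, t < M) ∧
        PA.H N + ∑ a, PA.w a * ((Tw a).card : ℝ)
          ≤ C₂ * ((PA.prod PB).H (fun x => U x.1 + Y x.2) - HO PA PB U Y N)
          + Ce * ∑ a, PA.w a * ∑ t ∈ Tw a, xU (PA.cond N (N a)) PB U Y t
          + Ce * ∑ a, PA.w a * ∑ m ∈ Finset.Ico (μ a) M, badW Bad W₁ K' m ∧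
        ∀ t, ∑ a, PA.w a * (if t ∈ Tw a then (1 : ℝ) else 0)
          ≤ 2 * ∑ a, PA.w a * ∑ m ∈ Finset.Ico (μ a) M, chg R W₁ K' t m := by
  obtain ⟨g0, Wb, cL, hcL, hbasic⟩ := basic_gain α C₀ hα0 hα1 hC₀
  obtain ⟨We, hexit⟩ := exit_gainC c c7 c' hc hc7 hc71 hc'
  have hlog2 : 0 < Real.log 2 := Real.log_pos (by norm_num)
  have hlog21 : Real.log 2 ≤ 1 := by
    have := Real.log_two_lt_d9
    linarith only [this]
  obtain ⟨g, hg⟩ : ∃ g : ℕ, g = g0 + 1 := ⟨_, rfl⟩
  refine ⟨129 / c' + 16, W₀ + Wb + We + 4, g, by positivity, by omega, ?_⟩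
  intro W₁ hW₁
  obtain ⟨κ, hκ⟩ : ∃ κ : ℝ, κ = (2 : ℝ)⁻¹ ^ (8 * W₁) := ⟨_, rfl⟩
  have hκ0 : 0 < κ := by rw [hκ]; positivity
  have hκ1 : κ ≤ 1 / 2 := by
    rw [hκ]
    calc (2 : ℝ)⁻¹ ^ (8 * W₁) ≤ (2 : ℝ)⁻¹ ^ 1 :=
          pow_le_pow_of_le_one (by norm_num) (by norm_num) (by omega)
      _ = 1 / 2 := by norm_num
  refine ⟨256 / (c * c7) + 2 / (c * c7 * Real.log 2) + (16 + ((g : ℝ) + 2)) / (cL * κ),
    by (clear * - hc hc7 hcL hκ0; positivity), ?_⟩
  intro M K' Rm A B _ _ PA PB U Y Bad R lo hlo hY hR hDet hw hsep hM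
  obtain ⟨a1, ha1⟩ := PA.exists_w_pos
  -- the scale `ms` and the centre
  have hex : ∃ m : ℕ, ∃ a0, 0 < PA.w a0 ∧ 1 - κ ≤ balP PA U (U a0) m := by
    refine ⟨M, a1, ha1, ?_⟩
    have h1 : balP PA U (U a1) M = 1 := by
      unfold balP
      rw [← PA.sum_one]
      refine Finset.sum_congr rfl fun a _ => ?_
      rcases PA.w_zero_or_pos a with h0 | h0
      · simp [h0]
      · have h2 := hlo a h0
        have h3 := hlo a1 ha1
        rw [if_pos]
        rw [abs_lt]; constructor <;> linarith only [h2, h3]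
    rw [h1]; linarith only [hκ0]
  classical
  obtain ⟨ms, hmsdef⟩ : ∃ ms, ms = Nat.find hex := ⟨_, rfl⟩
  obtain ⟨a0, ha0, hball⟩ := Nat.find_spec hex
  rw [← hmsdef] at hball
  have hmin : ∀ m < ms, ∀ a, 0 < PA.w a → balP PA U (U a) m < 1 - κ := by
    intro m hm a ha
    rw [hmsdef] at hm
    have := Nat.find_min hex hm
    push Not at this
    exact this a ha
  have hmsM : ms ≤ M := by
    rw [hmsdef]
    refine Nat.find_min' hex ⟨a1, ha1, ?_⟩
    have h1 : balP PA U (U a1) M = 1 := by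
      unfold balP
      rw [← PA.sum_one]
      refine Finset.sum_congr rfl fun a _ => ?_
      rcases PA.w_zero_or_pos a with h0 | h0
      · simp [h0]
      · have h2 := hlo a h0
        have h3 := hlo a1 ha1
        rw [if_pos]
        rw [abs_lt]; constructor <;> linarith only [h2, h3]
    rw [h1]; linarith only [hκ0]
  set z : ℤ := U a0 with hz
  have hsupp : ∀ a, 0 < PA.w a → |U a - z| < 2 ^ M := by
    intro a ha
    have h2 := hlo a ha
    have h3 := hlo a0 ha0
    rw [abs_lt, hz]; constructor <;> linarith only [h2, h3]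
  have hsmall : ∀ m, ms ≤ m → annP PA U z m ≤ κ := by
    intro m hm
    have := balP_add_annP_le PA U z ms m hm
    linarith only [hball, this]
  have hK : ∀ m, 0 < annP PA U z m → (2 : ℝ)⁻¹ ^ K' ≤ annP PA U z m := by
    intro m hm
    obtain ⟨a, ha, h1, h2⟩ := annP_pos_iff PA U z m hm
    rcases hw a with h | h
    · linarith only [ha, h]
    · exact h.trans (w_le_annP PA U z m a h1 h2)
  have hWge : ∀ m, ms ≤ m → 0 < annP PA U z m → W₁ ≤ Wd (annP PA U z m) := by
    intro m hm hp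
    refine Wd_ge _ _ hp ?_
    rw [← hκ]
    exact hsmall m hm
  have hms : ms = 0 ∨ Rm + 4 * K' + g < ms := by
    by_contra hcon
    push Not at hcon
    obtain ⟨h1, h2⟩ := hcon
    have h3 := hmin 0 (Nat.pos_of_ne_zero h1) a0 ha0
    have h4 : balP PA U z ms = balP PA U z 0 := by
      unfold balP
      refine Finset.sum_congr rfl fun a _ => ?_
      rcases PA.w_zero_or_pos a with h0 | h0
      · simp [h0]
      · have h5 : |U a - z| < 2 ^ ms ↔ |U a - z| < 2 ^ 0 := by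
          constructor
          · intro h6
            by_contra h7
            have h8 : U a ≠ U a0 := by
              intro h9
              apply h7
              rw [hz, h9, sub_self, abs_zero]
              norm_num
            have h9 := hsep a a0 h0 ha0 h8
            have h10 : (2 : ℤ) ^ ms ≤ 2 ^ (Rm + 4 * K' + g) := pow_le_pow_right₀ (by norm_num) h2
            rw [← hz] at h9
            linarith only [h6, h9, h10]
          · intro h6
            refine h6.trans_le ?_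
            exact pow_le_pow_right₀ (by norm_num) (Nat.zero_le _)
        simp only [h5]
    rw [← hz] at h3
    linarith only [hball, h3, h4]
  have hzero : ms = 0 → ∀ m, m < Rm + 4 * K' + g → annP PA U z m = 0 := by
    intro _ m hm
    by_contra hne
    obtain ⟨a, ha, h1, h2⟩ := annP_pos_iff PA U z m
      (lt_of_le_of_ne (annP_nonneg PA U z m) (Ne.symm hne))
    have h3 : U a ≠ U a0 := by
      intro h4
      rw [hz, h4, sub_self, abs_zero] at h1
      have : (0 : ℤ) < 2 ^ m := by positivity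
      linarith only [h1, this]
    have h4 := hsep a a0 ha ha0 h3
    rw [← hz] at h4
    have h5 : (2 : ℤ) ^ (m + 1) ≤ 2 ^ (Rm + 4 * K' + g) := pow_le_pow_right₀ (by norm_num) (by (clear * - hg hex hm; omega))
    linarith only [h2, h4, h5]
  have hWpos : ∀ m, ms ≤ m → 0 < annP PA U z m → 1 ≤ Wd (annP PA U z m) := fun m h1 h2 => by
    have := hWge m h1 h2
    omega
  -- the label
  set N : A → ℕ × ℤ := labN PA U z ms g with hN
  set μ : A → ℕ := fun a => if |U a - z| < 2 ^ ms then ms - g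
    else Nat.log 2 (U a - z).natAbs - 4 * Wd (annP PA U z (Nat.log 2 (U a - z).natAbs)) with hμ
  have hne0 : ∀ a, ¬ |U a - z| < 2 ^ ms → U a - z ≠ 0 := by
    intro a h1 h2
    apply h1
    rw [h2, abs_zero]
    positivity
  -- the scales that are charged
  have hTwlt : ∀ a, 0 < PA.w a → ∀ t ∈ TwC PA U z ms Bad R a, t < M := by
    intro a ha t ht
    unfold TwC at ht
    split_ifs at ht with h1 h2
    · simp at ht
    · have h3 := log_annulus (U a - z) (hne0 a h1)
      have h4 := hsupp a ha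
      have h5 : Nat.log 2 (U a - z).natAbs < M := by
        by_contra h5
        push Not at h5
        have : (2 : ℤ) ^ M ≤ 2 ^ (Nat.log 2 (U a - z).natAbs) :=
          pow_le_pow_right₀ (by norm_num) h5
        linarith only [h3, h4, this]
      unfold winC at ht
      rw [Finset.mem_Ico] at ht
      omega
    · simp at ht
  have hball6 : ∀ f : ℕ → ℝ, (∀ m, 0 ≤ f m) → ∑ m ∈ Finset.Ico ms M, f m
      ≤ 2 * ∑ a, PA.w a * ∑ m ∈ Finset.Ico (μ a) M, f m :=
    GainC_ball PA U z ms M μ (by linarith only [hκ1, hball]) fun a h2 => by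
      simp only [hμ, if_pos h2]
      omega
  refine ⟨N, μ, TwC PA U z ms Bad R, fun a ha => ⟨?_, ?_⟩, ?_, ?_, ?_⟩
  · simp only [hμ]
    split_ifs with h1
    · rcases hms with h2 | h2 <;> omega
    · have h2 := log_annulus (U a - z) (hne0 a h1)
      have h3 := hsupp a ha
      have h4 : Nat.log 2 (U a - z).natAbs < M := by
        by_contra h5
        push Not at h5
        have : (2 : ℤ) ^ M ≤ 2 ^ (Nat.log 2 (U a - z).natAbs) :=
          pow_le_pow_right₀ (by norm_num) h5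
        linarith only [h2, h3, this]
      omega
  · by_cases h1 : |U a - z| < 2 ^ ms
    · refine ⟨(U a / 2 ^ (ms - g)) * 2 ^ (ms - g), fun a' ha' hNN => ?_⟩
      have h2 : |U a' - z| < 2 ^ ms := by
        by_contra h3
        simp only [hN, labN, if_pos h1, if_neg h3, Prod.mk.injEq] at hNN
        omega
      simp only [hN, labN, if_pos h1, if_pos h2, Prod.mk.injEq, true_and] at hNN
      simp only [hμ, if_pos h1]
      exact mem_cell _ _ _ hNN
    · have h2 : ∀ a', N a' = N a → ¬ |U a' - z| < 2 ^ ms := by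
        intro a' hNN h3
        simp only [hN, labN, if_pos h3, if_neg h1, Prod.mk.injEq] at hNN
        omega
      refine ⟨(U a / 2 ^ (Nat.log 2 (U a - z).natAbs
          - 4 * Wd (annP PA U z (Nat.log 2 (U a - z).natAbs)))) * 2 ^ (Nat.log 2 (U a - z).natAbs
          - 4 * Wd (annP PA U z (Nat.log 2 (U a - z).natAbs))), fun a' ha' hNN => ?_⟩
      have h3 := h2 a' hNN
      simp only [hN, labN, if_neg h1, if_neg h3, Prod.mk.injEq, add_left_inj] at hNN
      obtain ⟨h4, h5⟩ := hNN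
      rw [h4] at h5
      simp only [hμ, if_neg h1]
      exact mem_cell _ _ _ h5
  · exact hTwlt
  · -- the inequality
    set G : ℝ := (PA.prod PB).H (fun x => U x.1 + Y x.2) - HO PA PB U Y N with hG
    have hG0 : 0 ≤ G := by
      rw [hG, ← info_eq_HO]
      exact info_nonneg _ _ _ _ _
    set p : ℕ → ℝ := fun m => if ms ≤ m then annP PA U z m else 0 with hp
    have hpe : ∀ m, ms ≤ m → p m = annP PA U z m := fun m hm => by simp only [hp, if_pos hm]
    have hp0 : ∀ m, 0 ≤ p m := by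
      intro m
      simp only [hp]
      split_ifs
      exacts [annP_nonneg _ _ _ _, le_rfl]
    have hp1 : ∀ m, p m ≤ (2 : ℝ)⁻¹ ^ (8 * W₁) := by
      intro m
      simp only [hp]
      split_ifs with h
      · rw [← hκ]; exact hsmall m h
      · positivity
    have hpK : ∀ m, 0 < p m → (2 : ℝ)⁻¹ ^ K' ≤ p m := by
      intro m hm
      simp only [hp] at hm ⊢
      split_ifs with h
      · rw [if_pos h] at hm; exact hK m hm
      · rw [if_neg h] at hm; exact absurd hm (lt_irrefl _)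
    have hgood : ∀ m, ms ≤ m → (GoodM p Bad ms m ↔ GoodM (annP PA U z) Bad ms m) := by
      intro m hm
      unfold GoodM
      rw [hpe m hm]
      constructor
      · rintro ⟨h1, h2, h3, h4⟩
        refine ⟨h1, h2, h3, fun m' h5 h6 h7 => ?_⟩
        rw [← hpe m' h5]
        exact h4 m' h5 h6 h7
      · rintro ⟨h1, h2, h3, h4⟩
        refine ⟨h1, h2, h3, fun m' h5 h6 h7 => ?_⟩
        rw [hpe m' h5]
        exact h4 m' h5 h6 h7
    -- entropy of the label
    have s1 := labN_entropy PA U z ms g M W₁ (by omega) hsupp hmsM (fun m hm => by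
      rw [← hκ]; exact hsmall m hm)
    rw [← hN] at s1
    have s2 := seq_sum W₁ K' ms M (by omega) p hp0 hp1 hpK Bad
    have e1 : ∑ m ∈ Finset.Ico ms M, Real.negMulLog (annP PA U z m)
        = ∑ m ∈ Finset.Ico ms M, Real.negMulLog (p m) :=
      Finset.sum_congr rfl fun m hm => by rw [hpe m (Finset.mem_Ico.1 hm).1]
    rw [e1] at s1
    -- near annuli
    have s3 : ∑ m ∈ Finset.Ico ms M, (if m < ms + 4 * Wd (p m) then Real.negMulLog (p m) else 0)
        ≤ if ms = 0 then 0 else 2 := by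
      split_ifs with h0
      · refine le_of_eq (Finset.sum_eq_zero fun m hm => ?_)
        split_ifs with h1
        · rcases (hp0 m).eq_or_lt with h2 | h2
          · rw [← h2, Real.negMulLog_zero]
          · have h3 := Wd_le (p m) K' (hpK m h2)
            have h4 := hzero h0 m (by (clear * - hg hex hmsdef h0 h1 h3; omega))
            rw [hpe m (Finset.mem_Ico.1 hm).1, h4, Real.negMulLog_zero]
        · rfl
      · exact near_sum W₁ ms M (by omega) p hp0 hp1
    set X : ℝ := ∑ a, PA.w a * ∑ t ∈ TwC PA U z ms Bad R a, xU (PA.cond N (N a)) PB U Y t with hX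
    have hX0 : 0 ≤ X := by
      rw [hX]
      refine Finset.sum_nonneg fun a _ => mul_nonneg (PA.nonneg a) ?_
      exact Finset.sum_nonneg fun t _ => xU_nonneg (PA.cond N (N a)) PB U Y t
    set Sg := ∑ m ∈ Finset.Ico ms M, (if GoodM (annP PA U z) Bad ms m
        then (Wd (annP PA U z m) : ℝ) * annP PA U z m else 0) with hSg
    have hSgle : Sg ≤ 2 / (c * c7 * Real.log 2) * G + X / c' := by
      have h1 := hexit PA PB U Y z ms g M Bad R (by linarith only [hκ1, hball]) hmsM (fun m hm => by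
          refine (hsmall m hm).trans ?_
          rw [hκ]
          exact pow_le_pow_of_le_one (by norm_num) (by norm_num) (by omega)) hsupp
        (by
          intro m hm hmM hgd
          obtain ⟨g1, g2, g3, _⟩ := hgd
          have h2 := hWge m hm g1
          have h3 := Wd_le _ K' (hK m g1)
          have h4 := hR _ h3
          have h8 : R (Wd (annP PA U z m)) + 4 * Wd (annP PA U z m) ≤ m := by
            rcases hms with h5 | h5
            · have h6 : ¬ m < Rm + 4 * K' + g := by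
                intro h7
                have := hzero h5 m h7
                linarith only [g1, this]
              omega
            · omega
          exact @hDet _ m (by omega) h3 h8 g3)
      rw [← hN, ← hG, ← hSg, ← hX] at h1
      have hq : 0 < c / 2 * (c7 * Real.log 2) := by positivity
      have h2 : Sg ≤ (G + c / 2 * (c7 * Real.log 2) / c' * X) / (c / 2 * (c7 * Real.log 2)) := by
        rw [le_div_iff₀ hq]
        linarith only [h1]
      refine h2.trans_eq ?_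
      (clear * - hc' hc7 hc; field_simp)
    -- good annuli
    have s4 : ∑ m ∈ Finset.Ico ms M, (if GoodM p Bad ms m then Real.negMulLog (p m) else 0)
        ≤ 32 / (c * c7) * G + 16 * (X / c') := by
      have h2 : ∑ m ∈ Finset.Ico ms M, (if GoodM p Bad ms m then Real.negMulLog (p m) else 0)
          ≤ 16 * Real.log 2 * Sg := by
        rw [hSg, Finset.mul_sum]
        refine Finset.sum_le_sum fun m hm => ?_
        have hm1 := (Finset.mem_Ico.1 hm).1
        by_cases hgd : GoodM p Bad ms m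
        · rw [if_pos hgd, if_pos ((hgood m hm1).1 hgd)]
          have g1 := hgd.1
          rw [hpe m hm1] at g1 ⊢
          exact GainC_good _ g1 ((hsmall m hm1).trans (by linarith only [hκ1])) (hWpos m hm1 g1)
        · rw [if_neg hgd]
          split_ifs
          · have := annP_nonneg PA U z m
            (clear * - this; positivity)
          · simp
      have h3 : 16 * Real.log 2 * Sg
          ≤ 16 * Real.log 2 * (2 / (c * c7 * Real.log 2) * G + X / c') :=
        mul_le_mul_of_nonneg_left hSgle (by positivity)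
      have h4 : 16 * Real.log 2 * (2 / (c * c7 * Real.log 2) * G + X / c')
          = 32 / (c * c7) * G + 16 * (Real.log 2 * (X / c')) := by
        field_simp
        ring
      have h5 : Real.log 2 * (X / c') ≤ 1 * (X / c') :=
        mul_le_mul_of_nonneg_right hlog21 (by (clear * - hX0 hc'; positivity))
      linarith only [h2, h3, h4, h5]
    -- the cardinals
    have s9 : ∑ a, PA.w a * ((TwC PA U z ms Bad R a).card : ℝ) ≤ Sg :=
      GainC_card PA U z ms M Bad R hsupp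
    -- basic gain
    have s5 : (if ms = 0 then (0 : ℝ) else 1) ≤ G / (cL * κ) := by
      split_ifs with h0
      · (clear * - hG0 hcL hκ0; positivity)
      · rw [le_div_iff₀ (by (clear * - hcL hκ0; positivity)), one_mul]
        have hms' : Rm + 4 * K' + g < ms := by
          rcases hms with h | h
          · exact absurd h h0
          · exact h
        have h1 := hbasic κ hκ0 hκ1 PA PB U Y z ms hY (by (clear * - hg hex hmsdef hms'; omega)) (by omega) hball
          (fun a ha => hmin (ms - 1) (by omega) a ha) (fun m hm hpm => by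
            have := hWge m hm hpm
            omega)
        rw [info_eq_HO] at h1
        have h2 : HO PA PB U Y N ≤ HO PA PB U Y (labN PA U z ms g0) := by
          refine HO_mono PA PB U Y (labN PA U z ms g0) N fun a a' hNN => ?_
          by_cases h3 : |U a - z| < 2 ^ ms
          · have h4 : |U a' - z| < 2 ^ ms := by
              by_contra h5
              simp only [hN, labN, if_pos h3, if_neg h5, Prod.mk.injEq] at hNN
              omega
            simp only [hN, labN, if_pos h3, if_pos h4, Prod.mk.injEq, true_and] at hNN ⊢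
            have h5 : ms - g0 = (ms - g) + 1 := by (clear * - hg hex hmsdef hms'; omega)
            rw [h5, ediv_pow_add, ediv_pow_add, hNN]
          · have h4 : ¬ |U a' - z| < 2 ^ ms := by
              intro h5
              simp only [hN, labN, if_neg h3, if_pos h5, Prod.mk.injEq] at hNN
              omega
            simp only [hN, labN, if_neg h3, if_neg h4] at hNN ⊢
            exact hNN
        rw [hG]
        linarith only [h1, h2]
    -- price of the bad scales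
    have s6 := hball6 (fun m => badW Bad W₁ K' m) (fun m => badW_nonneg _ _ _ _)
    set Sw := ∑ a, PA.w a * ∑ m ∈ Finset.Ico (μ a) M, badW Bad W₁ K' m with hSw
    have hSw0 : 0 ≤ Sw := by
      refine Finset.sum_nonneg fun a _ => mul_nonneg (PA.nonneg a) ?_
      exact Finset.sum_nonneg fun m _ => badW_nonneg _ _ _ _
    have s7 : (if ms = 0 then (0 : ℝ) else ((g : ℝ) + 2) * Real.log 2)
        ≤ ((g : ℝ) + 2) * (G / (cL * κ)) := by
      have h1 : (if ms = 0 then (0 : ℝ) else ((g : ℝ) + 2) * Real.log 2)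
          ≤ ((g : ℝ) + 2) * (if ms = 0 then (0 : ℝ) else 1) := by
        split_ifs
        · simp
        · rw [mul_one]
          calc ((g : ℝ) + 2) * Real.log 2 ≤ ((g : ℝ) + 2) * 1 := by (clear * - hlog21; gcongr)
            _ = _ := mul_one _
      exact h1.trans (mul_le_mul_of_nonneg_left s5 (by (clear * -; positivity)))
    have s8 : (if ms = 0 then (0 : ℝ) else 2) ≤ 2 * (G / (cL * κ)) := by
      have h1 : (if ms = 0 then (0 : ℝ) else 2) = 2 * (if ms = 0 then (0 : ℝ) else 1) := by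
        split_ifs <;> simp
      rw [h1]
      exact mul_le_mul_of_nonneg_left s5 (by norm_num)
    have e2 : (16 + ((g : ℝ) + 2)) / (cL * κ) * G
        = 16 * (G / (cL * κ)) + ((g : ℝ) + 2) * (G / (cL * κ)) := by ring
    have e3 : 256 / (c * c7) * G = 8 * (32 / (c * c7) * G) := by ring
    have h9 : PA.H N ≤ 8 * (32 / (c * c7) * G + 16 * (X / c')) + 16 * Sw + 16 * (G / (cL * κ))
        + ((g : ℝ) + 2) * (G / (cL * κ)) := by linarith only [s1, s2, s3, s4, s6, s7, s8]
    have e4 : (256 / (c * c7) + 2 / (c * c7 * Real.log 2) + (16 + ((g : ℝ) + 2)) / (cL * κ)) * G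
        + (129 / c' + 16) * X + (129 / c' + 16) * Sw
        = 256 / (c * c7) * G + 2 / (c * c7 * Real.log 2) * G + (16 + ((g : ℝ) + 2)) / (cL * κ) * G
          + 129 * (X / c') + 16 * X + (129 / c' * Sw + 16 * Sw) := by ring
    have h10 : 0 ≤ 129 / c' * Sw := by (clear * - hc' hSw0; positivity)
    rw [e4, e2, e3]
    linarith only [s1, s2, s3, hX0, hSgle, s4, s9, s6, s7, s8, h10]
  · -- charges
    intro t
    exact (GainC_chg PA U z ms M W₁ K' Bad R hsupp (fun m hm => (hsmall m hm).trans (by linarith only [hκ1]))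
      hWge hK t).trans (hball6 (fun m => chg R W₁ K' t m) fun m => chg_nonneg _ _ _ _ _)

end Vale.Agent.P114
end
end

section

set_option linter.all false

/-!
T12-K. The gain lemma with contaminated detection. Template: Dio/Gain2.lean.
-/

open scoped Classical

noncomputable section

namespace Vale.Agent.P114

open FinProb

theorem gain3_alg (w H J Ce B Z L S X Y I Q k K : ℝ)
    (h1 : w * H ≤ w * (J + Ce * B + Ce * (Z + L * S)))
    (h2 : Ce * w * (X + (Z + L * S)) ≤ Ce * w * (Y + L * I + L * (Q + k * K))) :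
    w * H + Ce * (w * X) ≤ w * J + Ce * (w * B) + Ce * (w * Y) + Ce * (L * (w * I))
      + Ce * (L * (w * Q)) + Ce * L * k * (w * K) := by
  have e1 : w * (J + Ce * B + Ce * (Z + L * S)) = w * J + Ce * (w * B) + Ce * w * (Z + L * S) := by
    ring
  have e2 : Ce * w * (X + (Z + L * S)) = Ce * (w * X) + Ce * w * (Z + L * S) := by ring
  have e3 : Ce * w * (Y + L * I + L * (Q + k * K)) = Ce * (w * Y) + Ce * (L * (w * I))
      + Ce * (L * (w * Q)) + Ce * L * k * (w * K) := by ring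
  linarith only [h1, h2]

theorem gain3_alg2 (HU HN S1 D1 D2 Ce X B1 B2 Y Y' L I Q Q' k K : ℝ)
    (h1 : HU ≤ HN + S1)
    (g1 : S1 + Ce * X ≤ D1 + Ce * B1 + Ce * Y + Ce * (L * I) + Ce * (L * Q) + Ce * L * k * K)
    (h2 : HN + K ≤ D2 + Ce * X + Ce * B2) (h3 : Ce * L * k * K ≤ K) (h4 : Ce * Y ≤ Ce * Y')
    (h5 : Ce * L * (I + Q) ≤ Ce * L * Q') :
    HU ≤ D2 + D1 + (Ce * B2 + Ce * B1) + Ce * (Y' + L * Q') := by
  have e1 : Ce * L * (I + Q) = Ce * (L * I) + Ce * (L * Q) := by ring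
  have e2 : Ce * (Y' + L * Q') = Ce * Y' + Ce * L * Q' := by ring
  linarith

/-- The gain lemma. Induction on `M` for all `Qs ⊆ range M₀` (the used scales):
`H U ≤ C₂ JU 0 + 2 Ce ∑_{m<M} badW m + Ce (∑_{t < M₀, t ∉ Qs} xU t
  + log 2 * ∑_{t ∈ Qs} ∑_{m<M} 2 chg t m)`,
for the child of `a` use `Qs ∪ Tw a`; `W₁` is chosen with `Ce * log 2 * 4 * 2 * 2⁻¹ ^ W₁ ≤ 1`
(`chg_sum`). -/
theorem gain3 (α C₀ c c7 c' Cb : ℝ) (W₀ : ℕ) (hα0 : 0 ≤ α) (hα1 : α < 1) (hC₀ : 0 ≤ C₀)
    (hc : 0 < c) (hc7 : 0 < c7) (hc71 : c7 ≤ 1) (hc' : 0 < c') (hCb : 0 ≤ Cb) :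
    ∃ (C₁ : ℝ) (g : ℕ), 0 ≤ C₁ ∧ ∀ (M K' Rm : ℕ) (A B : Type) [Fintype A] [Fintype B]
      (PA : FinProb A) (PB : FinProb B) (U : A → ℤ) (Y : B → ℤ) (Bad : ℕ → Finset ℕ)
      (R : ℕ → ℕ),
      (∀ a, 0 ≤ U a ∧ U a < 2 ^ M) →
      (∀ j W : ℕ, PB.H (fun b => Y b / 2 ^ j) - PB.H (fun b => Y b / 2 ^ (j + W))
        ≤ α * (W * Real.log 2) + C₀) →
      (∀ W, W ≤ K' → R W ≤ Rm) →
      (∀ W, W₀ ≤ W → W ≤ K' → ((Bad W).card : ℝ) ≤ Cb * ((R W : ℝ) + 1) * 2 ^ (5 * W)) →
      (∀ W k, W₀ ≤ W → W ≤ K' → R W + 4 * W ≤ k → k ∉ Bad W → DetC PB Y c c7 c' W k (R W)) →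
      (∀ a, PA.w a = 0 ∨ (2 : ℝ)⁻¹ ^ K' ≤ PA.w a) →
      (∀ a a', 0 < PA.w a → 0 < PA.w a' → U a ≠ U a' → 2 ^ (Rm + 4 * K' + g) ≤ |U a - U a'|) →
      PA.H U ≤ C₁ * ((∑ W ∈ Finset.Icc W₀ K', ((R W : ℝ) + 1) * (2 : ℝ)⁻¹ ^ (2 * W))
        + ((PA.prod PB).H (fun x => U x.1 + Y x.2) - PB.H Y)) := by
  obtain ⟨Ce, Wm, g, hCe, hWm, hsegm⟩ := segmentC α C₀ c c7 c' W₀ hα0 hα1 hC₀ hc hc7 hc71 hc'
  have hlog2 : 0 < Real.log 2 := Real.log_pos (by norm_num)
  -- choice of the threshold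
  obtain ⟨n0, hn0⟩ : ∃ n0 : ℕ, Ce * Real.log 2 * 4 ≤ (2 : ℝ) ^ n0 := by
    obtain ⟨n0, hn0⟩ := pow_unbounded_of_one_lt (Ce * Real.log 2 * 4) (by norm_num : (1 : ℝ) < 2)
    exact ⟨n0, hn0.le⟩
  obtain ⟨W₁, hW₁⟩ : ∃ W₁ : ℕ, W₁ = Wm + n0 := ⟨_, rfl⟩
  have hthr : Ce * Real.log 2 * (4 * (2 : ℝ)⁻¹ ^ W₁) ≤ 1 := by
    have h1 : (2 : ℝ)⁻¹ ^ W₁ ≤ (2 : ℝ)⁻¹ ^ n0 :=
      pow_le_pow_of_le_one (by norm_num) (by norm_num) (by omega)
    have h2 : 0 ≤ Ce * Real.log 2 * 4 := by (clear * - hCe; positivity)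
    calc Ce * Real.log 2 * (4 * (2 : ℝ)⁻¹ ^ W₁) = (Ce * Real.log 2 * 4) * (2 : ℝ)⁻¹ ^ W₁ := by ring
      _ ≤ (2 : ℝ) ^ n0 * (2 : ℝ)⁻¹ ^ n0 := mul_le_mul hn0 h1 (by positivity) (by positivity)
      _ = 1 := by rw [inv_pow]; exact mul_inv_cancel₀ (by (clear * -; positivity))
  obtain ⟨C₂, hC₂, hseg⟩ := hsegm W₁ (by omega)
  refine ⟨C₂ + Ce + 8 * Ce * Cb, g, by (clear * - hC₂ hCe hCb; positivity), ?_⟩
  intro M₀ K' Rm A B _ _ PA₀ PB U Y Bad R hU hY hR hBad hDet hw₀ hsep₀
  have key : ∀ (M : ℕ) (PA : FinProb A) (lo : ℤ) (Qs : Finset ℕ), M ≤ M₀ →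
      (∀ a, 0 < PA.w a → lo ≤ U a ∧ U a < lo + 2 ^ M) →
      (∀ a, PA.w a = 0 ∨ (2 : ℝ)⁻¹ ^ K' ≤ PA.w a) →
      (∀ a a', 0 < PA.w a → 0 < PA.w a' → U a ≠ U a' → 2 ^ (Rm + 4 * K' + g) ≤ |U a - U a'|) →
      PA.H U ≤ C₂ * JU PA PB U Y 0
        + Ce * ∑ m ∈ Finset.range M, badW Bad W₁ K' m
        + Ce * (∑ t ∈ Finset.range M₀ \ Qs, xU PA PB U Y t
          + Real.log 2 * ∑ t ∈ Qs, 2 * ∑ m ∈ Finset.range M, chg R W₁ K' t m) := by
    intro M
    induction M using Nat.strong_induction_on with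
    | _ M ih =>
      intro PA lo Qs hMM hlo hw hsep
      rcases lt_or_ge (Rm + 4 * K' + g) M with hM | hM
      · obtain ⟨N, μ, Tw, hN, hTw, hHN, hcount⟩ :=
          hseg M K' Rm A B PA PB U Y Bad R lo hlo hY hR hDet hw hsep hM
        have h1 : PA.H U ≤ PA.H (fun a => (U a, N a)) :=
          PA.H_le_of_det fun x y h => (Prod.mk.inj h).1
        rw [PA.H_pair_eq_cond U N] at h1
        -- children
        have h2 : ∀ a, PA.w a * (PA.cond N (N a)).H U
            ≤ PA.w a * (C₂ * JU (PA.cond N (N a)) PB U Y 0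
              + Ce * ∑ m ∈ Finset.range (μ a), badW Bad W₁ K' m
              + Ce * (∑ t ∈ Finset.range M₀ \ (Qs ∪ Tw a), xU (PA.cond N (N a)) PB U Y t
                + Real.log 2 * ∑ t ∈ Qs ∪ Tw a, 2 * ∑ m ∈ Finset.range (μ a),
                  chg R W₁ K' t m)) := by
          intro a
          rcases PA.w_zero_or_pos a with h0 | h0
          · rw [h0, zero_mul, zero_mul]
          · refine mul_le_mul_of_nonneg_left ?_ h0.le
            obtain ⟨hμ, lo', hlo'⟩ := hN a h0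
            refine ih (μ a) hμ (PA.cond N (N a)) lo' (Qs ∪ Tw a) (hμ.le.trans hMM)
              (fun a' ha' => ?_) (cond_weights PA N a h0 K' hw) (fun a' a'' ha' ha'' hne => ?_)
            · obtain ⟨h3, h4⟩ := cond_pos_of PA N a h0 a' ha'
              exact hlo' a' h3 h4
            · exact hsep a' a'' (cond_pos_of PA N a h0 a' ha').1
                (cond_pos_of PA N a h0 a'' ha'').1 hne
        -- (c) and (d) for each child
        have h3 : ∀ a, 0 < PA.w a →
            ∑ t ∈ Tw a, xU (PA.cond N (N a)) PB U Y t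
              + (∑ t ∈ Finset.range M₀ \ (Qs ∪ Tw a), xU (PA.cond N (N a)) PB U Y t
                + Real.log 2 * ∑ t ∈ Qs ∪ Tw a, 2 * ∑ m ∈ Finset.range (μ a),
                  chg R W₁ K' t m)
            ≤ ∑ t ∈ Finset.range M₀ \ Qs, xU (PA.cond N (N a)) PB U Y t
              + Real.log 2 * ∑ t ∈ Qs, (if t ∈ Tw a then (1 : ℝ) else 0)
              + Real.log 2 * (∑ t ∈ Qs, 2 * ∑ m ∈ Finset.range (μ a), chg R W₁ K' t m
                + (4 * (2 : ℝ)⁻¹ ^ W₁) * ((Tw a).card : ℝ)) := by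
          intro a ha
          have hsub : Tw a ⊆ Finset.range M₀ := fun t ht =>
            Finset.mem_range.2 ((hTw a ha t ht).trans_le hMM)
          have e1 : ∑ t ∈ Tw a, xU (PA.cond N (N a)) PB U Y t
              + ∑ t ∈ Finset.range M₀ \ (Qs ∪ Tw a), xU (PA.cond N (N a)) PB U Y t
              = ∑ t ∈ Finset.range M₀ \ Qs, xU (PA.cond N (N a)) PB U Y t
                + ∑ t ∈ Qs ∩ Tw a, xU (PA.cond N (N a)) PB U Y t := by
            have f1 : Finset.range M₀ \ Qs = (Tw a \ Qs) ∪ (Finset.range M₀ \ (Qs ∪ Tw a)) := by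
              ext t
              simp only [Finset.mem_sdiff, Finset.mem_union]
              constructor
              · rintro ⟨h4, h5⟩
                by_cases h6 : t ∈ Tw a
                · exact Or.inl ⟨h6, h5⟩
                · exact Or.inr ⟨h4, fun h7 => h7.elim h5 h6⟩
              · rintro (⟨h4, h5⟩ | ⟨h4, h5⟩)
                · exact ⟨hsub h4, h5⟩
                · exact ⟨h4, fun h6 => h5 (Or.inl h6)⟩
            have f2 : Disjoint (Tw a \ Qs) (Finset.range M₀ \ (Qs ∪ Tw a)) := by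
              rw [Finset.disjoint_left]
              intro t h4 h5
              exact (Finset.mem_sdiff.1 h5).2 (Finset.mem_union_right _ (Finset.mem_sdiff.1 h4).1)
            have f3 : ∑ t ∈ Tw a, xU (PA.cond N (N a)) PB U Y t
                = ∑ t ∈ Tw a \ Qs, xU (PA.cond N (N a)) PB U Y t
                  + ∑ t ∈ Qs ∩ Tw a, xU (PA.cond N (N a)) PB U Y t := by
              have f4 : Qs ∩ Tw a = Tw a ∩ Qs := Finset.inter_comm _ _
              rw [f4, add_comm, Finset.sum_inter_add_sum_sdiff]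
            rw [f1, Finset.sum_union f2, f3]
            ring
          have e2 : ∑ t ∈ Qs ∩ Tw a, xU (PA.cond N (N a)) PB U Y t
              ≤ Real.log 2 * ∑ t ∈ Qs, (if t ∈ Tw a then (1 : ℝ) else 0) := by
            rw [Finset.mul_sum, ← Finset.filter_mem_eq_inter, Finset.sum_filter]
            refine Finset.sum_le_sum fun t _ => ?_
            split_ifs
            · rw [mul_one]; exact xU_le _ _ _ _ _
            · rw [mul_zero]
          have e3 : ∑ t ∈ Qs ∪ Tw a, 2 * ∑ m ∈ Finset.range (μ a), chg R W₁ K' t m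
              ≤ ∑ t ∈ Qs, 2 * ∑ m ∈ Finset.range (μ a), chg R W₁ K' t m
                + (4 * (2 : ℝ)⁻¹ ^ W₁) * ((Tw a).card : ℝ) := by
            have hnn : ∀ t, 0 ≤ 2 * ∑ m ∈ Finset.range (μ a), chg R W₁ K' t m := fun t =>
              mul_nonneg (by norm_num) (Finset.sum_nonneg fun m _ => chg_nonneg _ _ _ _ _)
            have f1 : ∑ t ∈ Qs ∪ Tw a, 2 * ∑ m ∈ Finset.range (μ a), chg R W₁ K' t m
                ≤ ∑ t ∈ Qs, 2 * ∑ m ∈ Finset.range (μ a), chg R W₁ K' t m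
                  + ∑ t ∈ Tw a, 2 * ∑ m ∈ Finset.range (μ a), chg R W₁ K' t m := by
              rw [← Finset.sum_union_inter]
              have : 0 ≤ ∑ t ∈ Qs ∩ Tw a, 2 * ∑ m ∈ Finset.range (μ a), chg R W₁ K' t m :=
                Finset.sum_nonneg fun t _ => hnn t
              linarith only [this]
            have f2 : ∑ t ∈ Tw a, 2 * ∑ m ∈ Finset.range (μ a), chg R W₁ K' t m
                ≤ (4 * (2 : ℝ)⁻¹ ^ W₁) * ((Tw a).card : ℝ) := by
              rw [mul_comm, ← nsmul_eq_mul]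
              refine Finset.sum_le_card_nsmul _ _ _ fun t _ => ?_
              have := chg_sum R W₁ K' t (μ a)
              linarith only [this]
            linarith only [f1, f2]
          have e4 := mul_le_mul_of_nonneg_left e3 hlog2.le
          linarith only [e1, e2, e4]
        -- sums over `a`
        have g0 : ∀ a, PA.w a * (PA.cond N (N a)).H U
              + Ce * (PA.w a * ∑ t ∈ Tw a, xU (PA.cond N (N a)) PB U Y t)
            ≤ PA.w a * (C₂ * JU (PA.cond N (N a)) PB U Y 0)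
              + Ce * (PA.w a * ∑ m ∈ Finset.range (μ a), badW Bad W₁ K' m)
              + Ce * (PA.w a * ∑ t ∈ Finset.range M₀ \ Qs, xU (PA.cond N (N a)) PB U Y t)
              + Ce * (Real.log 2 * ∑ t ∈ Qs, PA.w a * (if t ∈ Tw a then (1 : ℝ) else 0))
              + Ce * (Real.log 2 * ∑ t ∈ Qs, PA.w a * (2 * ∑ m ∈ Finset.range (μ a),
                  chg R W₁ K' t m))
              + Ce * Real.log 2 * (4 * (2 : ℝ)⁻¹ ^ W₁) * (PA.w a * ((Tw a).card : ℝ)) := by
          intro a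
          rcases PA.w_zero_or_pos a with h0 | h0
          · simp only [h0, zero_mul, mul_zero, add_zero, mul_ite, mul_one, ite_self, Finset.sum_const_zero, inv_pow, Std.le_refl]
          · have e5 : ∑ t ∈ Qs, PA.w a * (if t ∈ Tw a then (1 : ℝ) else 0)
                = PA.w a * ∑ t ∈ Qs, (if t ∈ Tw a then (1 : ℝ) else 0) :=
              (Finset.mul_sum _ _ _).symm
            have e6 : ∑ t ∈ Qs, PA.w a * (2 * ∑ m ∈ Finset.range (μ a), chg R W₁ K' t m)
                = PA.w a * ∑ t ∈ Qs, 2 * ∑ m ∈ Finset.range (μ a), chg R W₁ K' t m :=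
              (Finset.mul_sum _ _ _).symm
            rw [e5, e6]
            exact gain3_alg _ _ _ _ _ _ _ _ _ _ _ _ _ _ (h2 a)
              (mul_le_mul_of_nonneg_left (h3 a h0) (mul_nonneg hCe h0.le))
        have g1 : ∑ a, PA.w a * (PA.cond N (N a)).H U
              + Ce * ∑ a, PA.w a * ∑ t ∈ Tw a, xU (PA.cond N (N a)) PB U Y t
            ≤ ∑ a, PA.w a * (C₂ * JU (PA.cond N (N a)) PB U Y 0)
              + Ce * ∑ a, PA.w a * ∑ m ∈ Finset.range (μ a), badW Bad W₁ K' m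
              + Ce * ∑ a, PA.w a * ∑ t ∈ Finset.range M₀ \ Qs, xU (PA.cond N (N a)) PB U Y t
              + Ce * (Real.log 2 * ∑ a, ∑ t ∈ Qs, PA.w a * (if t ∈ Tw a then (1 : ℝ) else 0))
              + Ce * (Real.log 2 * ∑ a, ∑ t ∈ Qs, PA.w a * (2 * ∑ m ∈ Finset.range (μ a),
                  chg R W₁ K' t m))
              + Ce * Real.log 2 * (4 * (2 : ℝ)⁻¹ ^ W₁) * ∑ a, PA.w a * ((Tw a).card : ℝ) := by
          simp only [Finset.mul_sum (Finset.univ : Finset A), ← Finset.sum_add_distrib]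
          exact Finset.sum_le_sum fun a (_ : a ∈ Finset.univ) => g0 a
        -- (a)
        have h4 := chain_first PA PB N (fun x => U x.1 + Y x.2)
        have h5 : ∑ a, PA.w a * (C₂ * JU (PA.cond N (N a)) PB U Y 0)
            = C₂ * (HO PA PB U Y N - PB.H Y) := by
          have h6 : HO PA PB U Y N
              = ∑ a, PA.w a * ((PA.cond N (N a)).prod PB).H (fun x => U x.1 + Y x.2) := by
            unfold HO
            rw [h4]; ring
          rw [h6, ← PA.sum_const (PB.H Y), ← Finset.sum_sub_distrib, Finset.mul_sum]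
          refine Finset.sum_congr rfl fun a _ => ?_
          rw [JU_zero]; ring
        -- (b)
        have hsplit : ∀ φ : ℕ → ℝ, ∑ a, PA.w a * ∑ m ∈ Finset.Ico (μ a) M, φ m
            + ∑ a, PA.w a * ∑ m ∈ Finset.range (μ a), φ m = ∑ m ∈ Finset.range M, φ m := by
          intro φ
          rw [← PA.sum_const (∑ m ∈ Finset.range M, φ m), ← Finset.sum_add_distrib]
          refine Finset.sum_congr rfl fun a _ => ?_
          rcases PA.w_zero_or_pos a with h0 | h0
          · rw [h0]; ring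
          · rw [← mul_add, ← Finset.sum_range_add_sum_Ico _ (hN a h0).1.le, add_comm]
        have h7 := hsplit (badW Bad W₁ K')
        -- supermartingale
        have h8 : ∑ a, PA.w a * ∑ t ∈ Finset.range M₀ \ Qs, xU (PA.cond N (N a)) PB U Y t
            ≤ ∑ t ∈ Finset.range M₀ \ Qs, xU PA PB U Y t := by
          have e1 : ∑ a, PA.w a * ∑ t ∈ Finset.range M₀ \ Qs, xU (PA.cond N (N a)) PB U Y t
              = ∑ t ∈ Finset.range M₀ \ Qs, ∑ a, PA.w a * xU (PA.cond N (N a)) PB U Y t := by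
            rw [Finset.sum_comm]
            exact Finset.sum_congr rfl fun a _ => Finset.mul_sum _ _ _
          rw [e1]
          exact Finset.sum_le_sum fun t _ => xU_cond PA PB U Y N t
        -- used scales
        have h9 : ∑ a, ∑ t ∈ Qs, PA.w a * (if t ∈ Tw a then (1 : ℝ) else 0)
            + ∑ a, ∑ t ∈ Qs, PA.w a * (2 * ∑ m ∈ Finset.range (μ a), chg R W₁ K' t m)
            ≤ ∑ t ∈ Qs, 2 * ∑ m ∈ Finset.range M, chg R W₁ K' t m := by
          rw [Finset.sum_comm (s := Finset.univ) (t := Qs), Finset.sum_comm (s := Finset.univ)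
            (t := Qs), ← Finset.sum_add_distrib]
          refine Finset.sum_le_sum fun t _ => ?_
          have e1 := hcount t
          have e2 := hsplit (chg R W₁ K' t)
          have e3 : ∑ a, PA.w a * (2 * ∑ m ∈ Finset.range (μ a), chg R W₁ K' t m)
              = 2 * ∑ a, PA.w a * ∑ m ∈ Finset.range (μ a), chg R W₁ K' t m := by
            rw [Finset.mul_sum]
            exact Finset.sum_congr rfl fun a _ => by ring
          rw [e3]
          linarith only [e1, e2]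
        have hT0 : 0 ≤ ∑ a, PA.w a * ((Tw a).card : ℝ) :=
          Finset.sum_nonneg fun a _ => mul_nonneg (PA.nonneg a) (by (clear * -; positivity))
        have h10 : Ce * Real.log 2 * (4 * (2 : ℝ)⁻¹ ^ W₁) * ∑ a, PA.w a * ((Tw a).card : ℝ)
            ≤ ∑ a, PA.w a * ((Tw a).card : ℝ) := mul_le_of_le_one_left hT0 hthr
        have h11 := mul_le_mul_of_nonneg_left h8 hCe
        have h12 := mul_le_mul_of_nonneg_left h9 (mul_nonneg hCe hlog2.le)
        rw [JU_zero]
        rw [h5] at g1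
        have h13 : Ce * ∑ m ∈ Finset.range M, badW Bad W₁ K' m
            = Ce * ∑ a, PA.w a * ∑ m ∈ Finset.Ico (μ a) M, badW Bad W₁ K' m
              + Ce * ∑ a, PA.w a * ∑ m ∈ Finset.range (μ a), badW Bad W₁ K' m := by
          rw [← mul_add, h7]
        have h14 : C₂ * ((PA.prod PB).H (fun x => U x.1 + Y x.2) - PB.H Y)
            = C₂ * ((PA.prod PB).H (fun x => U x.1 + Y x.2) - HO PA PB U Y N)
              + C₂ * (HO PA PB U Y N - PB.H Y) := by ring
        rw [h13, h14]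
        exact gain3_alg2 _ _ _ _ _ _ _ _ _ _ _ _ _ _ _ _ _ h1 g1 hHN h10 h11 h12
      · -- `U` is constant on the support
        obtain ⟨a0, ha0⟩ := PA.exists_w_pos
        have hconst : ∀ a, 0 < PA.w a → U a = U a0 := by
          intro a ha
          by_contra hne
          have h1 := hsep a a0 ha ha0 hne
          have h2 := hlo a ha
          have h3 := hlo a0 ha0
          have h4 : |U a - U a0| < 2 ^ M := by
            rw [abs_lt]; constructor <;> linarith only [h2, h3]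
          have h5 : (2 : ℤ) ^ M ≤ 2 ^ (Rm + 4 * K' + g) := pow_le_pow_right₀ (by norm_num) hM
          linarith only [h1, h4, h5]
        have h1 : PA.H U = 0 := by
          rw [PA.H_congr_supp U (fun _ => U a0) hconst]
          exact H_const _
        have h2 : 0 ≤ ∑ m ∈ Finset.range M, badW Bad W₁ K' m :=
          Finset.sum_nonneg fun m _ => badW_nonneg _ _ _ _
        have h3 : 0 ≤ JU PA PB U Y 0 := JU_nonneg _ _ _ _ _
        have h4 : 0 ≤ ∑ t ∈ Finset.range M₀ \ Qs, xU PA PB U Y t :=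
          Finset.sum_nonneg fun t _ => xU_nonneg _ _ _ _ _
        have h5 : 0 ≤ ∑ t ∈ Qs, 2 * ∑ m ∈ Finset.range M, chg R W₁ K' t m :=
          Finset.sum_nonneg fun t _ => mul_nonneg (by norm_num)
            (Finset.sum_nonneg fun m _ => chg_nonneg _ _ _ _ _)
        rw [h1]
        positivity
  have h1 := key M₀ PA₀ 0 ∅ le_rfl (fun a _ => by
    rw [zero_add]; exact hU a) hw₀ hsep₀
  have h2 := badW_sumC Bad R W₀ W₁ K' M₀ (by omega) Cb hCb hBad
  simp only [Finset.sdiff_empty, Finset.sum_empty, mul_zero, add_zero] at h1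
  have h3 : ∑ t ∈ Finset.range M₀, xU PA₀ PB U Y t ≤ JU PA₀ PB U Y 0 := by
    rw [← Nat.Ico_zero_eq_range, sum_xU PA₀ PB U Y 0 M₀ (Nat.zero_le _)]
    have := JU_nonneg PA₀ PB U Y M₀
    linarith only [this]
  have h4 : ∑ W ∈ Finset.Icc W₁ K', ((R W : ℝ) + 1) * (2 : ℝ)⁻¹ ^ (2 * W)
      ≤ ∑ W ∈ Finset.Icc W₀ K', ((R W : ℝ) + 1) * (2 : ℝ)⁻¹ ^ (2 * W) :=
    Finset.sum_le_sum_of_subset_of_nonneg (Finset.Icc_subset_Icc (by omega) le_rfl)
      fun W _ _ => by (clear * -; positivity)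
  obtain ⟨S0, hS0⟩ : ∃ s, s = ∑ W ∈ Finset.Icc W₀ K', ((R W : ℝ) + 1) * (2 : ℝ)⁻¹ ^ (2 * W) :=
    ⟨_, rfl⟩
  have hSnn : 0 ≤ S0 := by rw [hS0]; exact Finset.sum_nonneg fun W _ => by (clear * -; positivity)
  obtain ⟨J, hJ⟩ : ∃ J, J = JU PA₀ PB U Y 0 := ⟨_, rfl⟩
  have hJ0 : 0 ≤ J := by rw [hJ]; exact JU_nonneg _ _ _ _ _
  have hJ' : (PA₀.prod PB).H (fun x => U x.1 + Y x.2) - PB.H Y = J := by rw [hJ, JU_zero]
  rw [hJ', ← hS0]
  rw [← hJ] at h1 h3
  rw [← hS0] at h4
  have h5 : Ce * ∑ m ∈ Finset.range M₀, badW Bad W₁ K' m ≤ Ce * (8 * Cb * S0) :=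
    mul_le_mul_of_nonneg_left (h2.trans (mul_le_mul_of_nonneg_left h4 (by (clear * - hCb; positivity)))) hCe
  have h6 : Ce * ∑ t ∈ Finset.range M₀, xU PA₀ PB U Y t ≤ Ce * J :=
    mul_le_mul_of_nonneg_left h3 hCe
  have h7 : 0 ≤ (C₂ + Ce) * S0 := by (clear * - hC₂ hCe hSnn; positivity)
  have h8 : 0 ≤ 8 * Ce * Cb * J := by (clear * - hCe hCb hJ0; positivity)
  linarith only [h8, h7, h6, h5, h1]

end Vale.Agent.P114
end
end

section

/-!
T12-D. Arithmetic progressions in the group generated by two incommensurable numbers.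
-/

noncomputable section

namespace Vale.Agent.P114

/-- The distance of `q θ` to the nearest integer. -/
def spreadDn (θ : ℝ) (q : ℕ) : ℝ := |(q : ℝ) * θ - round ((q : ℝ) * θ)|

lemma spreadDn_pos {θ : ℝ} (hirr : Irrational θ) {q : ℕ} (hq : 0 < q) : 0 < spreadDn θ q := by
  unfold spreadDn
  rw [abs_pos, sub_ne_zero]
  have h : Irrational ((q : ℝ) * θ) := by
    have := hirr.natCast_mul (m := q) (by omega)
    simpa only [irrational_natCast_mul_iff, ne_eq] using this
  exact h.ne_int _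

lemma spread_exists_min (θ : ℝ) (W : ℕ) :
    ∃ x : ℕ, 1 ≤ x ∧ x ≤ 2 ^ W ∧ ∀ q : ℕ, 1 ≤ q → q ≤ 2 ^ W → spreadDn θ x ≤ spreadDn θ q := by
  have hne : (Finset.Icc 1 (2 ^ W)).Nonempty :=
    ⟨1, Finset.mem_Icc.2 ⟨le_rfl, Nat.one_le_two_pow⟩⟩
  obtain ⟨x, hx, hmin⟩ := Finset.exists_min_image (Finset.Icc 1 (2 ^ W)) (spreadDn θ) hne
  rw [Finset.mem_Icc] at hx
  exact ⟨x, hx.1, hx.2, fun q h1 h2 => hmin q (Finset.mem_Icc.2 ⟨h1, h2⟩)⟩

def spreadXm (θ : ℝ) (W : ℕ) : ℕ := (spread_exists_min θ W).choose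

lemma spreadXm_pos (θ : ℝ) (W : ℕ) : 1 ≤ spreadXm θ W := (spread_exists_min θ W).choose_spec.1
lemma spreadXm_le (θ : ℝ) (W : ℕ) : spreadXm θ W ≤ 2 ^ W := (spread_exists_min θ W).choose_spec.2.1
lemma spreadXm_min (θ : ℝ) (W : ℕ) (q : ℕ) (h1 : 1 ≤ q) (h2 : q ≤ 2 ^ W) :
    spreadDn θ (spreadXm θ W) ≤ spreadDn θ q := (spread_exists_min θ W).choose_spec.2.2 q h1 h2

lemma spreadXm_dirichlet (θ : ℝ) (W : ℕ) : spreadDn θ (spreadXm θ W) ≤ (2 : ℝ)⁻¹ ^ W := by
  obtain ⟨k, hk0, hkn, hk⟩ := Real.exists_nat_abs_mul_sub_round_le θ (n := 2 ^ W) (by positivity)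
  refine (spreadXm_min θ W k hk0 hkn).trans (hk.trans ?_)
  rw [inv_pow, ← one_div]
  apply one_div_le_one_div_of_le (by positivity)
  push_cast
  linarith only []

/-- If `1 ≤ q ≤ 1 / (2 b)`, where `b` is the minimum up to `2 ^ W₁`, then `‖q θ‖ ≥ b / 2`. -/
lemma spreadDn_ge (θ : ℝ) (W₁ : ℕ) (q : ℕ) (h1 : 1 ≤ q)
    (h2 : (q : ℝ) * (2 * spreadDn θ (spreadXm θ W₁)) ≤ 1) : spreadDn θ (spreadXm θ W₁) / 2 ≤ spreadDn θ q := by
  set x := spreadXm θ W₁ with hx
  set b := spreadDn θ x with hb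
  have hb0 : 0 ≤ b := abs_nonneg _
  have hx1 : (1 : ℝ) ≤ x := by exact_mod_cast spreadXm_pos θ W₁
  have hx2 : (x : ℝ) ≤ 2 ^ W₁ := by exact_mod_cast spreadXm_le θ W₁
  by_cases hq : q ≤ 2 ^ W₁
  · have := spreadXm_min θ W₁ q h1 hq
    linarith only [hb0, this]
  push Not at hq
  have hq' : (2 : ℝ) ^ W₁ < q := by exact_mod_cast hq
  set p := round ((q : ℝ) * θ) with hp
  set y := round ((x : ℝ) * θ) with hy
  have key : ((p * x - y * q : ℤ) : ℝ) = q * (x * θ - y) - x * (q * θ - p) := by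
    push_cast; ring
  have hbx : |(x : ℝ) * θ - y| = b := rfl
  have hdq : |(q : ℝ) * θ - p| = spreadDn θ q := rfl
  by_cases hc : p * x - y * q = 0
  · rw [hc] at key
    have h3 : (x : ℝ) * (q * θ - p) = q * (x * θ - y) := by
      have : (0 : ℝ) = q * (x * θ - y) - x * (q * θ - p) := by exact_mod_cast key
      linarith only [this]
    have h4 : (x : ℝ) * spreadDn θ q = q * b := by
      rw [← hbx, ← hdq]
      have := congrArg abs h3
      rwa [abs_mul, abs_mul, Nat.abs_cast, Nat.abs_cast] at this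
    have h5 : (x : ℝ) * b ≤ x * spreadDn θ q := by
      rw [h4]; exact mul_le_mul_of_nonneg_right (by linarith only [hx2, hq']) hb0
    have h6 : b ≤ spreadDn θ q := le_of_mul_le_mul_left h5 (by linarith only [hx1])
    linarith only [hb0, h6]
  · have h3 : (1 : ℝ) ≤ |((p * x - y * q : ℤ) : ℝ)| := by
      exact_mod_cast Int.one_le_abs hc
    rw [key] at h3
    have h4 : |(q : ℝ) * (x * θ - y) - x * (q * θ - p)| ≤ q * b + x * spreadDn θ q := by
      refine (abs_sub _ _).trans ?_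
      rw [abs_mul, abs_mul, Nat.abs_cast, Nat.abs_cast, hbx, hdq]
    have h5 : (1 : ℝ) / 2 ≤ x * spreadDn θ q := by linarith
    have h6 : b ≤ (2 : ℝ)⁻¹ ^ W₁ := spreadXm_dirichlet θ W₁
    have h7 : (1 : ℝ) / 2 ≤ 2 ^ W₁ * spreadDn θ q :=
      h5.trans (mul_le_mul_of_nonneg_right hx2 (abs_nonneg _))
    have h8 : (2 : ℝ)⁻¹ ^ W₁ * 2 ^ W₁ = 1 := by
      rw [← mul_pow]; norm_num
    have h9 : (2 : ℝ)⁻¹ ^ W₁ / 2 ≤ spreadDn θ q := by
      have := mul_le_mul_of_nonneg_left h7 (by positivity : (0 : ℝ) ≤ (2 : ℝ)⁻¹ ^ W₁)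
      rw [← mul_assoc, h8, one_mul] at this
      linarith only [this]
    linarith only [h6, h9]

/-- Let `θ = L₁ / L₂`. For every `W` let `1 ≤ x ≤ 2 ^ W` and `y` minimize `|x θ - y|`
(`Finset.exists_min_image`, `y = round (x θ)`; `x θ > 0` so `y ≥ 0`), `β W = 2 L₂ |x θ - y|`; by
Dirichlet (`Real.exists_nat_abs_mul_sub_round_le`) `β W ≤ 2 L₂ / (2 ^ W + 1)`, take
`2 L₂ ≤ 2 ^ w0`. `R W` = the integer with `R1`, `R2`.
Growth: for `W₁` large let `b = min |x θ - y|` over `x ≤ 2 ^ W₁`, attained at `(x₁, y₁)`. If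
`q ≤ 1 / (2 b)`, `1 ≤ q`, then `|q θ - p| ≥ b / 2` for all `p`: if `p x₁ = y₁ q` then
`|q θ - p| = q / x₁ * b` (`≥ b` for `q ≥ x₁`; for `q < x₁` minimality), otherwise
`1 ≤ |p x₁ - y₁ q| ≤ q b + x₁ |q θ - p|`, `|q θ - p| ≥ 1 / (2 x₁) ≥ 2⁻¹ ^ (W₁+1) ≥ b / 2`.
So `β W ≥ L₂ b` as long as `2 ^ W ≤ 1 / (2 b)`, i.e. `R W ≤ log₂ (1 / b) + C`; take
`n = ⌊log₂ (1 / (2 b)) / C₀⌋ - 1`, which is large for `W₁` large. -/
theorem exists_spread (L₁ L₂ : ℝ) (h₁ : 0 < L₁) (h₂ : 0 < L₂) (hirr : Irrational (L₁ / L₂)) :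
    ∃ (w0 : ℕ) (Cx : ℝ) (R : ℕ → ℕ) (β : ℕ → ℝ) (x y : ℕ → ℕ),
      0 ≤ Cx ∧ Spr L₁ L₂ w0 Cx R β x y := by
  set θ : ℝ := L₁ / L₂ with hθ
  have hθ0 : 0 < θ := div_pos h₁ h₂
  have hθL : θ * L₂ = L₁ := div_mul_cancel₀ _ h₂.ne'
  obtain ⟨w0, hw0⟩ : ∃ w0 : ℕ, 2 * L₂ ≤ 2 ^ w0 := by
    obtain ⟨n, hn⟩ := pow_unbounded_of_one_lt (2 * L₂) (one_lt_two : (1 : ℝ) < 2)
    exact ⟨n, hn.le⟩
  set β : ℕ → ℝ := fun W => 2 * L₂ * spreadDn θ (spreadXm θ W) with hβ
  have hβ0 : ∀ W, 0 < β W := fun W => by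
    have := spreadDn_pos hirr (lt_of_lt_of_le Nat.one_pos (spreadXm_pos θ W))
    simp only [hβ]; positivity
  have hβ1 : ∀ W, w0 ≤ W → 2 ^ (W - w0) * β W ≤ 1 := by
    intro W hW
    have h1 := spreadXm_dirichlet θ W
    have h2 : β W ≤ 2 ^ w0 * (2 : ℝ)⁻¹ ^ W :=
      mul_le_mul hw0 h1 (abs_nonneg _) (by positivity)
    calc 2 ^ (W - w0) * β W ≤ 2 ^ (W - w0) * (2 ^ w0 * (2 : ℝ)⁻¹ ^ W) :=
          mul_le_mul_of_nonneg_left h2 (by positivity)
      _ = 2 ^ (W - w0 + w0) * (2 : ℝ)⁻¹ ^ W := by rw [pow_add]; ring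
      _ = 1 := by
        rw [Nat.sub_add_cancel hW, ← mul_pow]; norm_num
  have hR : ∀ W, w0 ≤ W → ∃ n : ℕ, (2 : ℝ)⁻¹ ^ (n + 1) < 2 ^ (W - w0) * β W ∧
      2 ^ (W - w0) * β W ≤ (2 : ℝ)⁻¹ ^ n := by
    intro W hW
    exact exists_nat_pow_near_of_lt_one (by have := hβ0 W; (clear * - this; positivity)) (hβ1 W hW) (by norm_num)
      (by norm_num)
  classical
  set R : ℕ → ℕ := fun W => if h : w0 ≤ W then (hR W h).choose else 0 with hRdef
  have hR1 : ∀ W, w0 ≤ W → (2 : ℝ)⁻¹ ^ (R W + 1) < 2 ^ (W - w0) * β W := by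
    intro W hW
    simp only [hRdef, dif_pos hW]
    exact (hR W hW).choose_spec.1
  have hR2 : ∀ W, w0 ≤ W → 2 ^ (W - w0) * β W ≤ (2 : ℝ)⁻¹ ^ R W := by
    intro W hW
    simp only [hRdef, dif_pos hW]
    exact (hR W hW).choose_spec.2
  have hround : ∀ W, ((round ((spreadXm θ W : ℝ) * θ)).toNat : ℝ) = round ((spreadXm θ W : ℝ) * θ) := by
    intro W
    have h0 : 0 ≤ round ((spreadXm θ W : ℝ) * θ) := by
      rw [round_eq]
      exact Int.floor_nonneg.2 (by (clear * - h₁ h₂; positivity))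
    have : (((round ((spreadXm θ W : ℝ) * θ)).toNat : ℤ) : ℝ) = round ((spreadXm θ W : ℝ) * θ) := by
      rw [Int.toNat_of_nonneg h0]
    exact_mod_cast this
  refine ⟨w0, θ + 2, R, β, spreadXm θ, fun W => (round ((spreadXm θ W : ℝ) * θ)).toNat, by positivity,
    ⟨fun W _ => hβ0 W, ?_, ?_, hR1, hR2, ?_⟩⟩
  · intro W _
    rw [hround]
    have h1 : (spreadXm θ W : ℝ) ≤ 2 ^ W := by exact_mod_cast spreadXm_le θ W
    have h2 : (round ((spreadXm θ W : ℝ) * θ) : ℝ) ≤ spreadXm θ W * θ + 1 / 2 := by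
      have := abs_sub_round ((spreadXm θ W : ℝ) * θ)
      have := (abs_le.1 this).1
      linarith only [this]
    have h3 : (1 : ℝ) ≤ 2 ^ W := one_le_pow₀ (by norm_num)
    (by_contra nlg; linarith only [nlg, mul_nonneg (sub_nonneg.2 h1) (le_of_lt (sub_pos.2 hθ0)), mul_nonneg (mul_self_nonneg (1 : ℝ)) (sub_nonneg.2 h3), mul_nonneg (mul_self_nonneg (1 : ℝ)) (sub_nonneg.2 h2), mul_nonneg (mul_self_nonneg (1 : ℝ)) (sub_nonneg.2 h1), mul_nonneg (mul_self_nonneg (1 : ℝ)) (le_of_lt (sub_pos.2 (not_le.1 nlg)))])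
  · intro W _
    rw [hround]
    have h3 : (2 : ℝ) * spreadXm θ W * L₁ - 2 * (round ((spreadXm θ W : ℝ) * θ) : ℝ) * L₂ =
        2 * L₂ * (spreadXm θ W * θ - round ((spreadXm θ W : ℝ) * θ)) := by
      rw [← hθL]; ring
    rcases abs_choice ((spreadXm θ W : ℝ) * θ - round ((spreadXm θ W : ℝ) * θ)) with h | h
    · left
      rw [h3]
      simp only [hβ, spreadDn]
      rw [h]
    · right
      have h4 : (2 : ℝ) * (round ((spreadXm θ W : ℝ) * θ) : ℝ) * L₂ - 2 * spreadXm θ W * L₁ =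
        2 * L₂ * (-(spreadXm θ W * θ - round ((spreadXm θ W : ℝ) * θ))) := by
        linarith only [h3]
      rw [h4]
      simp only [hβ, spreadDn]
      rw [h]
  · intro C₀ hC₀
    set K : ℝ := |Real.logb 2 L₂| with hK
    refine ⟨3 * C₀ + 1 + K, fun n₀ => ?_⟩
    -- choose `W₁` large
    obtain ⟨W₁, hW₁⟩ := exists_nat_ge (C₀ * (n₀ + 3) + 1)
    set b := spreadDn θ (spreadXm θ W₁) with hb
    have hb0 : 0 < b := spreadDn_pos hirr (lt_of_lt_of_le Nat.one_pos (spreadXm_pos θ W₁))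
    have hb1 : b ≤ (2 : ℝ)⁻¹ ^ W₁ := spreadXm_dirichlet θ W₁
    set l := Real.logb 2 (1 / (2 * b)) with hl
    have hl1 : (W₁ : ℝ) - 1 ≤ l := by
      rw [hl, Real.le_logb_iff_rpow_le (by norm_num) (by (clear * - hb0; positivity))]
      rw [Real.rpow_sub (by norm_num), Real.rpow_one, Real.rpow_natCast]
      rw [div_le_div_iff₀ (by norm_num) (by (clear * - hb0; positivity))]
      have : (2 : ℝ) ^ W₁ * b ≤ 1 := by
        calc (2 : ℝ) ^ W₁ * b ≤ 2 ^ W₁ * (2 : ℝ)⁻¹ ^ W₁ :=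
              mul_le_mul_of_nonneg_left hb1 (by positivity)
          _ = 1 := by rw [← mul_pow]; norm_num
      nlinarith only [this]
    have hlb : Real.logb 2 (1 / b) = l + 1 := by
      rw [hl, show (1 : ℝ) / b = 1 / (2 * b) * 2 by (clear * - hb0; field_simp),
        Real.logb_mul (by (clear * - hb0; positivity)) (by norm_num), Real.logb_self_eq_one (by norm_num)]
    set m := ⌊l / C₀⌋₊ with hm
    have hlC : (n₀ : ℝ) + 3 ≤ l / C₀ := by
      rw [le_div_iff₀ hC₀]
      linarith only [hl1, hW₁]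
    have hm1 : (m : ℝ) ≤ l / C₀ := Nat.floor_le (by linarith only [hlC])
    have hm2 : l / C₀ < m + 1 := Nat.lt_floor_add_one _
    have hm3 : n₀ + 2 ≤ m := by
      have : (n₀ : ℝ) + 2 < m := by linarith only [hlC, hm2]
      have : n₀ + 2 < m := by exact_mod_cast this
      omega
    obtain ⟨n, hmn'⟩ : ∃ n, m = n + 1 := ⟨m - 1, by omega⟩
    refine ⟨n, by omega, ?_⟩
    intro W hW hWn
    have hn1 : (1 : ℝ) ≤ n := by
      have : 1 ≤ n := by omega
      exact_mod_cast this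
    have hmn : (m : ℝ) = n + 1 := by
      rw [hmn']; push_cast; ring
    rw [hmn] at hm1 hm2
    rw [le_div_iff₀ hC₀] at hm1
    rw [div_lt_iff₀ hC₀] at hm2
    -- `2 ^ W ≤ 1 / (2 b)`
    have h2W : (2 : ℝ) ^ W ≤ 1 / (2 * b) := by
      have h5 : (W : ℝ) ≤ l := by nlinarith only [hm1, hWn]
      rw [hl, Real.le_logb_iff_rpow_le (by norm_num) (by (clear * - hb0; positivity)), Real.rpow_natCast] at h5
      exact h5
    have hdn : b / 2 ≤ spreadDn θ (spreadXm θ W) := by
      apply spreadDn_ge θ W₁ _ (spreadXm_pos θ W)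
      have h6 : (spreadXm θ W : ℝ) ≤ 2 ^ W := by exact_mod_cast spreadXm_le θ W
      have h7 : (spreadXm θ W : ℝ) ≤ 1 / (2 * b) := h6.trans h2W
      calc (spreadXm θ W : ℝ) * (2 * b) ≤ 1 / (2 * b) * (2 * b) :=
            mul_le_mul_of_nonneg_right h7 (by positivity)
        _ = 1 := by (clear * - hb0; field_simp)
    have hβb : L₂ * b ≤ β W := by
      simp only [hβ]
      nlinarith only [h₂, hdn]
    have h8 : L₂ * b ≤ (2 : ℝ)⁻¹ ^ R W := by
      refine hβb.trans (le_trans ?_ (hR2 W hW))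
      have h9 : (1 : ℝ) ≤ 2 ^ (W - w0) := one_le_pow₀ (by norm_num)
      have := hβ0 W
      nlinarith only [h9, this]
    have h10 : (R W : ℝ) ≤ Real.logb 2 (1 / (L₂ * b)) := by
      rw [Real.le_logb_iff_rpow_le (by norm_num) (by (clear * - h₂ hb0; positivity)), Real.rpow_natCast]
      rw [le_div_iff₀ (by (clear * - h₂ hb0; positivity))]
      calc (2 : ℝ) ^ R W * (L₂ * b) ≤ 2 ^ R W * (2 : ℝ)⁻¹ ^ R W :=
            mul_le_mul_of_nonneg_left h8 (by positivity)
        _ = 1 := by rw [← mul_pow]; norm_num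
    have h11 : Real.logb 2 (1 / (L₂ * b)) = l + 1 - Real.logb 2 L₂ := by
      rw [← hlb, show (1 : ℝ) / (L₂ * b) = 1 / b / L₂ by (clear * - hb0 h₂; field_simp),
        Real.logb_div (by (clear * - hb0; positivity)) h₂.ne']
    have h12 : -Real.logb 2 L₂ ≤ K := neg_le_abs _
    have h13 : 0 ≤ K := abs_nonneg _
    nlinarith only [hm2, hn1, h10, h11, h12, hC₀, h13]

end Vale.Agent.P114
end
end

section

open scoped Classical

noncomputable section

namespace Vale.Agent.P114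

open FinProb Filter Matrix Topology

namespace Sys

variable {Λ : Type} [Fintype Λ] (S : Sys Λ)

/-- Points annihilated by the forms at level `n` have small entropy dimension. -/
lemma alpha_le_of_ann (v : Λ → ℝ) (q : ℕ) (a0 : ℝ) (hv : S.alpha v ≤ a0) (ha0 : a0 < 1)
    (ε : ℝ) (hε : 0 < ε) : ∃ n0 : ℕ, ∀ n ≥ n0, ∀ x ∈ ann (S.Fs v q n),
      S.HG x n ≤ (a0 * S.χ + ε) * n ∧ S.alpha x ≤ a0 + ε / S.χ := by
  have hχ := S.χ_pos
  obtain ⟨n0, hn0⟩ := S.H_upper v (lt_of_le_of_lt hv ha0) q ε hε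
  refine ⟨n0 + 1, fun n hn x hx => ?_⟩
  have hnpos : (0 : ℝ) < n := by
    have : 0 < n := by omega
    exact_mod_cast this
  have h1 := (S.HG_le_of_ann v q n x hx).trans (hn0 n (by omega))
  have h2 : (S.alpha v * S.χ + ε) * n ≤ (a0 * S.χ + ε) * n := by
    have := mul_le_mul_of_nonneg_right hv hχ.le
    exact mul_le_mul_of_nonneg_right (by linarith only [this]) hnpos.le
  have h3 := h1.trans h2
  refine ⟨h3, ?_⟩
  have h4 := (S.alpha_mul_χ_le x n).trans h3
  have h5 : S.alpha x * S.χ * n ≤ (a0 * S.χ + ε) * n := by linarith only [h4]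
  have h6 := le_of_mul_le_mul_right h5 hnpos
  have e : a0 + ε / S.χ = (a0 * S.χ + ε) / S.χ := by (clear * - hχ; field_simp)
  rw [e, le_div_iff₀ hχ]
  exact h6

/-- The annihilators eventually have the dimension of `V`. -/
lemma rank_eventually (V : Submodule ℝ (Λ → ℝ)) (a0 : ℝ)
    (hmax : ∀ V' : Submodule ℝ (Λ → ℝ), V < V' → ∃ x ∈ V', a0 < S.alpha x)
    (G : ℕ → Submodule ℝ (Λ → ℝ)) (nL : ℕ)
    (hG : ∀ n ≥ nL, ∀ x ∈ V, ∃ y ∈ G n, ‖x - y‖ ≤ (1 / 2) ^ n * ‖x‖)
    (hα : ∀ ε > 0, ∃ n0 : ℕ, ∀ n ≥ n0, ∀ x ∈ G n, S.alpha x ≤ a0 + ε) :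
    ∃ n2 : ℕ, ∀ n ≥ n2, Module.finrank ℝ (G n) ≤ Module.finrank ℝ V := by
  by_contra hcon
  push Not at hcon
  have hfreq : ∃ᶠ n in atTop, Module.finrank ℝ V < Module.finrank ℝ (G n) :=
    frequently_atTop.2 hcon
  obtain ⟨φ, hφ, hφ'⟩ := extraction_of_frequently_atTop hfreq
  obtain ⟨U, hU⟩ := Submodule.exists_isCompl V
  have hdim := Submodule.finrank_add_eq_of_isCompl hU
  have hx : ∀ m, ∃ x ∈ G (φ m), x ∈ U ∧ ‖x‖ = 1 := by
    intro m
    have h1 : ¬ Disjoint (G (φ m)) U := by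
      intro hd
      have h2 := Submodule.finrank_add_finrank_le_of_disjoint hd
      have h3 := hφ' m
      omega
    rw [Submodule.disjoint_def] at h1
    push Not at h1
    obtain ⟨x, hxG, hxU, hx0⟩ := h1
    have hn : ‖x‖ ≠ 0 := norm_ne_zero_iff.2 hx0
    refine ⟨‖x‖⁻¹ • x, Submodule.smul_mem _ _ hxG, Submodule.smul_mem _ _ hxU, ?_⟩
    rw [norm_smul, norm_inv, norm_norm, inv_mul_cancel₀ hn]
  choose x hxG hxU hx1 using hx
  obtain ⟨y, hy, ψ, hψ, hlim⟩ := (isCompact_sphere (0 : Λ → ℝ) 1).tendsto_subseq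
    (x := x) (fun m => by simp only [mem_sphere_iff_norm, sub_zero, hx1 m])
  have hyU : y ∈ U := by
    have hclosed : IsClosed (U : Set (Λ → ℝ)) := U.closed_of_finiteDimensional
    exact hclosed.mem_of_tendsto hlim (Eventually.of_forall fun m => hxU _)
  have hy1 : ‖y‖ = 1 := by simpa only [mem_sphere_iff_norm, sub_zero] using hy
  have hyV : y ∉ V := by
    intro h
    have h0 : y = 0 := (Submodule.disjoint_def.1 hU.disjoint) y h hyU
    rw [h0, norm_zero] at hy1
    exact zero_ne_one hy1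
  have hlt : V < V ⊔ Submodule.span ℝ {y} := by
    refine lt_of_le_of_ne le_sup_left fun h => hyV ?_
    rw [h]
    exact Submodule.mem_sup_right (Submodule.mem_span_singleton_self y)
  obtain ⟨z, hz, hza⟩ := hmax _ hlt
  obtain ⟨v', hv', w, hw, rfl⟩ := Submodule.mem_sup.1 hz
  obtain ⟨s, rfl⟩ := Submodule.mem_span_singleton.1 hw
  -- approximate `v' + s • y`
  set θ : ℕ → ℕ := fun m => φ (ψ m) with hθ
  have hθmono : StrictMono θ := hφ.comp hψ
  have hθge : ∀ m, m ≤ θ m := fun m => hθmono.id_le m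
  have happ : ∀ m, ∃ u, (nL ≤ θ m → u ∈ G (θ m)) ∧ ‖v' - u‖ ≤ (1 / 2) ^ (θ m) * ‖v'‖ := by
    intro m
    by_cases h : nL ≤ θ m
    · obtain ⟨u, hu, hu'⟩ := hG (θ m) h v' hv'
      exact ⟨u, fun _ => hu, hu'⟩
    · exact ⟨v', fun h' => absurd h' h, by simp only [sub_self, norm_zero, one_div, inv_pow, inv_pos, Nat.ofNat_pos, pow_pos, mul_nonneg_iff_of_pos_left, norm_nonneg]⟩
  choose u hu hu' using happ
  have hulim : Tendsto u atTop (𝓝 v') := by
    rw [tendsto_iff_norm_sub_tendsto_zero]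
    refine squeeze_zero (fun m => norm_nonneg _)
      (g := fun m => (1 / 2 : ℝ) ^ m * ‖v'‖) (fun m => ?_) ?_
    · rw [norm_sub_rev]
      refine (hu' m).trans ?_
      gcongr ?_ * _
      exact pow_le_pow_of_le_one (by norm_num) (by norm_num) (hθge m)
    · have := (tendsto_pow_atTop_nhds_zero_of_lt_one (r := (1 / 2 : ℝ)) (by norm_num)
        (by norm_num)).mul_const ‖v'‖
      rwa [zero_mul] at this
  have hzlim : Tendsto (fun m => u m + s • x (ψ m)) atTop (𝓝 (v' + s • y)) :=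
    hulim.add (hlim.const_smul s)
  set gap := S.alpha (v' + s • y) - a0 with hgap
  have hgap0 : 0 < gap := by linarith only [hza]
  obtain ⟨n0, hn0⟩ := hα (gap / 2) (by linarith only [hza])
  have hmem : ∀ᶠ m in atTop, u m + s • x (ψ m) ∈ {z | S.alpha z ≤ a0 + gap / 2} := by
    filter_upwards [eventually_ge_atTop (max n0 nL)] with m hm
    have h1 : nL ≤ θ m := (le_max_right _ _).trans (hm.trans (hθge m))
    have h2 : n0 ≤ θ m := (le_max_left _ _).trans (hm.trans (hθge m))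
    exact hn0 (θ m) h2 _ (Submodule.add_mem _ (hu m h1) (Submodule.smul_mem _ _ (hxG (ψ m))))
  have hfin := (S.isClosed_alpha_le (a0 + gap / 2)).mem_of_tendsto hzlim hmem
  have hfin' : S.alpha (v' + s • y) ≤ a0 + gap / 2 := hfin
  linarith only [hza, hfin']

/-- The algebraic step. -/
theorem algebraic_step (hdet : ∀ k, ∃ c : ℝ, 0 < c ∧ DetProp S.r k c) (t0 : Λ → ℝ)
    (hα : S.alpha t0 < 1) (ε : ℝ) (hε : 0 < ε) :
    ∃ n0 : ℕ, ∀ n ≥ n0, S.HG t0 n ≤ (S.alpha t0 * S.χ + ε) * n := by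
  have hχ := S.χ_pos
  obtain ⟨cd, hcd0, hcd1, hcd⟩ := exists_uniform_det S.r hdet (Fintype.card Λ)
  obtain ⟨V, ht0, hV, hmax⟩ := S.exists_maximal_subspace t0
  obtain ⟨a0, ha0⟩ : ∃ a0, a0 = S.alpha t0 := ⟨_, rfl⟩
  rw [← ha0] at hV hmax hα ⊢
  -- generic vector
  have := S.nonempty
  obtain ⟨v, hvV, c1, C, hc10, hc11, hC0, hgen⟩ := exists_generic
    (((Fintype.card Λ : ℝ)) ^ 2)
    (one_le_pow₀ (by exact_mod_cast Fintype.card_pos))
    (fun n => Finset.univ.image (S.dv (n := n))) (fun n => by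
      have h1 : ((Finset.univ.image (S.dv (n := n))).card : ℝ)
          ≤ (Finset.univ : Finset ((Fin n → Λ) × (Fin n → Λ))).card := by
        exact_mod_cast Finset.card_image_le
      refine h1.trans ?_
      rw [Finset.card_univ, Fintype.card_prod, Fintype.card_fun, Fintype.card_fin]
      push_cast
      rw [← pow_mul, ← pow_add]
      exact le_of_eq (by congr 1; ring)) V
  -- choice of q
  obtain ⟨q, hq⟩ := exists_pow_lt_of_lt_one (show 0 < c1 * cd / 4 by (clear * - hc10 hcd0; positivity))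
    (show (1 / 2 : ℝ) < 1 by norm_num)
  obtain ⟨δ0, hδ0⟩ : ∃ δ0 : ℝ, δ0 = (1 / 2) ^ q / c1 := ⟨_, rfl⟩
  have hδ00 : 0 < δ0 := by rw [hδ0]; positivity
  have hδ01 : δ0 ≤ cd / 4 := by
    rw [hδ0, div_le_iff₀ hc10]
    linarith only [hq]
  have hδ02 : δ0 ≤ 1 := by linarith only [hcd1, hδ01]
  have hsmall : ∀ n ≥ 1, ∀ a ∈ S.Fs v q n, ∀ x ∈ V, |a ⬝ᵥ x| ≤ C * δ0 ^ n * ‖x‖ := by
    intro n hn a ha x hx
    have h1 := S.Fs_small v q n a ha
    obtain ⟨p, -, -, rfl⟩ := ha
    have h2 := hgen n hn (S.dv p) (Finset.mem_image_of_mem _ (Finset.mem_univ p)) x hx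
    have h3 : c1 ^ n * |S.dv p ⬝ᵥ x| ≤ C * ‖x‖ * (1 / 2) ^ (q * n) :=
      h2.trans (mul_le_mul_of_nonneg_left h1 (by (clear * - hC0; positivity)))
    have hcn : 0 < c1 ^ n := by positivity
    rw [hδ0, div_pow, ← pow_mul]
    have e : C * ((1 / 2) ^ (q * n) / c1 ^ n) * ‖x‖
        = (C * ‖x‖ * (1 / 2) ^ (q * n)) / c1 ^ n := by ring
    rw [e, le_div_iff₀ hcn]
    linarith only [h3]
  obtain ⟨nL, hnL⟩ := S.rigid V cd hcd0 hcd δ0 hδ00 hδ01 (C / δ0) (by (clear * - hC0 hδ00; positivity))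
  have hCC : C ≤ C / δ0 := by
    rw [le_div_iff₀ hδ00]
    calc C * δ0 ≤ C * 1 := mul_le_mul_of_nonneg_left hδ02 hC0
      _ = C := mul_one C
  -- bases of the spans
  have hbasis : ∀ n, ∃ (k : ℕ) (a : Fin k → Λ → ℝ), (∀ j, a j ∈ S.Fs v q n) ∧
      Submodule.span ℝ (Set.range a) = Submodule.span ℝ (S.Fs v q n) ∧
      LinearIndependent ℝ a := fun n =>
    ⟨_, Submodule.exists_fun_fin_finrank_span_eq ℝ (S.Fs v q n)⟩
  choose k a haF haspan hali using hbasis
  have hent : ∀ n, ∀ a ∈ S.Fs v q n, ∀ i, a i ∈ Ent S.r n := by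
    rintro n _ ⟨p, -, -, rfl⟩ i
    exact S.dv_mem p i
  have hbd : ∀ n, ∀ a ∈ S.Fs v q n, ∀ i, |a i| ≤ S.C0 := by
    rintro n _ ⟨p, -, -, rfl⟩ i
    exact S.dv_le p i
  have hannk : ∀ n, ann (Set.range (a n)) = ann (S.Fs v q n) := fun n =>
    ann_congr _ _ (haspan n)
  have hdimk : ∀ n, k n + Module.finrank ℝ (ann (S.Fs v q n)) = Fintype.card Λ := by
    intro n
    rw [← hannk n]
    exact finrank_ann (k n) (a n) (hali n)
  have hrig : ∀ n ≥ nL + 1, k n + Module.finrank ℝ V ≤ Fintype.card Λ ∧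
      ∀ x ∈ V, ∃ y ∈ ann (S.Fs v q n), ‖x - y‖ ≤ (1 / 2) ^ n * ‖x‖ := by
    intro n hn
    have h1 := hnL n (by omega) (k n) (a n) (hali n) (fun j i => hent n _ (haF n j) i)
      (fun j i => hbd n _ (haF n j) i) (fun j x hx => by
        refine (hsmall n (by omega) _ (haF n j) x hx).trans ?_
        (clear * - hCC hδ00; gcongr))
    rw [hannk n] at h1
    exact h1
  -- dimension of annihilators
  have hαG : ∀ ε > 0, ∃ n0 : ℕ, ∀ n ≥ n0, ∀ x ∈ ann (S.Fs v q n), S.alpha x ≤ a0 + ε := by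
    intro ε hε
    obtain ⟨n0, hn0⟩ := S.alpha_le_of_ann v q a0 (hV v hvV) hα (ε * S.χ) (by (clear * - hε hχ; positivity))
    refine ⟨n0, fun n hn x hx => ?_⟩
    have h1 := (hn0 n hn x hx).2
    rwa [mul_div_assoc, div_self hχ.ne', mul_one] at h1
  obtain ⟨n2, hn2⟩ := S.rank_eventually V a0 hmax (fun n => ann (S.Fs v q n)) (nL + 1)
    (fun n hn => (hrig n hn).2) hαG
  have hkeq : ∀ n ≥ nL + 1 + n2, k n + Module.finrank ℝ V = Fintype.card Λ := by
    intro n hn
    have h1 := (hrig n (by omega)).1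
    have h2 := hn2 n (by omega)
    have h3 := hdimk n
    omega
  -- stabilization
  have hstab : ∀ n ≥ nL + 1 + n2, ann (S.Fs v q (n + 1)) = ann (S.Fs v q n) := by
    intro n hn
    have hsub : S.Fs v q (n + 1) ⊆ (Submodule.span ℝ (S.Fs v q n) : Set (Λ → ℝ)) := by
      intro b hb
      by_contra hbn
      have hbn' : b ∉ Submodule.span ℝ (Set.range (a n)) := by
        rw [haspan n]; exact hbn
      have hli : LinearIndependent ℝ (Fin.cons b (a n) : Fin (k n + 1) → Λ → ℝ) :=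
        linearIndependent_finCons.2 ⟨hali n, hbn'⟩
      have h1 := (hnL (n + 1) (by omega) (k n + 1) (Fin.cons b (a n)) hli (by
        intro j
        refine Fin.cases ?_ (fun j => ?_) j
        · intro i; rw [Fin.cons_zero]; exact hent (n + 1) b hb i
        · intro i; rw [Fin.cons_succ]
          exact S.Ent_mono (Nat.le_succ n) (hent n _ (haF n j) i)) (by
        intro j
        refine Fin.cases ?_ (fun j => ?_) j
        · intro i; rw [Fin.cons_zero]; exact hbd (n + 1) b hb i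
        · intro i; rw [Fin.cons_succ]
          exact hbd n _ (haF n j) i) (by
        intro j
        refine Fin.cases ?_ (fun j => ?_) j
        · intro x hx; rw [Fin.cons_zero]
          refine (hsmall (n + 1) (by omega) b hb x hx).trans ?_
          (clear * - hCC hδ00; gcongr)
        · intro x hx; rw [Fin.cons_succ]
          refine (hsmall n (by omega) _ (haF n j) x hx).trans (le_of_eq ?_)
          rw [pow_succ]
          (clear * - hδ00; field_simp))).1
      have h2 := hkeq n hn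
      omega
    have hle : Submodule.span ℝ (S.Fs v q (n + 1)) ≤ Submodule.span ℝ (S.Fs v q n) :=
      Submodule.span_le.2 hsub
    have hfr : ∀ m, Module.finrank ℝ (Submodule.span ℝ (S.Fs v q m)) = k m := by
      intro m
      rw [← haspan m, finrank_span_eq_card (hali m), Fintype.card_fin]
    have heq := Submodule.eq_of_le_of_finrank_eq hle (by
      rw [hfr, hfr]
      have h1 := hkeq n hn
      have h2 := hkeq (n + 1) (by omega)
      omega)
    exact ann_congr _ _ heq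
  have hconst : ∀ n ≥ nL + 1 + n2, ann (S.Fs v q n) = ann (S.Fs v q (nL + 1 + n2)) := by
    intro n hn
    induction n, hn using Nat.le_induction with
    | base => rfl
    | succ n hn ih => rw [hstab n hn, ih]
  -- V is contained in the stable annihilator
  have hVsub : ∀ x ∈ V, x ∈ ann (S.Fs v q (nL + 1 + n2)) := by
    intro x hx
    have hclosed : IsClosed (ann (S.Fs v q (nL + 1 + n2)) : Set (Λ → ℝ)) :=
      (ann (S.Fs v q (nL + 1 + n2))).closed_of_finiteDimensional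
    have happ : ∀ m, ∃ y ∈ ann (S.Fs v q (nL + 1 + n2)),
        ‖x - y‖ ≤ (1 / 2) ^ (nL + 1 + n2 + m) * ‖x‖ := by
      intro m
      obtain ⟨y, hy, hy'⟩ := (hrig (nL + 1 + n2 + m) (by omega)).2 x hx
      rw [hconst _ (by omega)] at hy
      exact ⟨y, hy, hy'⟩
    choose y hy hy' using happ
    refine hclosed.mem_of_tendsto (f := y) (b := atTop) ?_ (Eventually.of_forall hy)
    rw [tendsto_iff_norm_sub_tendsto_zero]
    refine squeeze_zero (fun m => norm_nonneg _)
      (g := fun m => (1 / 2 : ℝ) ^ m * ‖x‖) (fun m => ?_) ?_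
    · rw [norm_sub_rev]
      refine (hy' m).trans ?_
      gcongr ?_ * _
      exact pow_le_pow_of_le_one (by norm_num) (by norm_num) (by omega)
    · have := (tendsto_pow_atTop_nhds_zero_of_lt_one (r := (1 / 2 : ℝ)) (by norm_num)
        (by norm_num)).mul_const ‖x‖
      rwa [zero_mul] at this
  obtain ⟨n3, hn3⟩ := S.alpha_le_of_ann v q a0 (hV v hvV) hα ε hε
  refine ⟨n3 + (nL + 1 + n2), fun n hn => ?_⟩
  have hmem : t0 ∈ ann (S.Fs v q n) := by
    rw [hconst n (by omega)]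
    exact hVsub t0 ht0
  exact (hn3 n (by omega) t0 hmem).1

end Sys

end Vale.Agent.P114
end
end

section

open scoped Classical ENNReal

noncomputable section

namespace Vale.Agent.P114

open FinProb Filter MeasureTheory

/-- The contraction data of a concrete system. -/
lemma exists_sys {Λ : Type} [Fintype Λ] [Nonempty Λ] (r p : Λ → ℝ) (hr0 : ∀ i, r i ≠ 0)
    (hr1 : ∀ i, |r i| < 1) (hp : ∀ i, 0 ≤ p i) (hp1 : ∑ i, p i = 1) :
    ∃ S : Sys Λ, S.r = r ∧ S.P.w = p := by
  obtain ⟨i0, hi0⟩ := Finite.exists_max fun i => |r i|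
  obtain ⟨i1, hi1⟩ := Finite.exists_min fun i => |r i|
  exact ⟨⟨r, ⟨p, hp, hp1⟩, |r i0|, |r i1|, abs_pos.2 (hr0 i1), hr1 i0, hi1, hi0⟩, rfl, rfl⟩

/-- Lower bound for systems with the determinant property. -/
theorem lower_of_det {Λ : Type} [Fintype Λ] (S : Sys Λ)
    (hdet : ∀ k, ∃ c : ℝ, 0 < c ∧ DetProp S.r k c) (t : Λ → ℝ) (μ : Measure ℝ)
    (hμ : IsSelfSimilar S.r t S.P.w μ) :
    ENNReal.ofReal (min 1 (hRW S.r t S.P.w / lyap S.r S.P.w)) ≤ lowerDimH μ := by
  refine le_trans (ENNReal.ofReal_le_ofReal ?_) (S.le_lowerDimH t μ hμ)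
  rcases lt_or_ge (S.alpha t) 1 with hα | hα
  · refine (min_le_right _ _).trans ?_
    have hlog : 0 < Real.log 2 := Real.log_pos (by norm_num)
    have hχ := S.χ_pos
    have hly : lyap S.r S.P.w = S.χ / Real.log 2 := lyap_eq S.r S.P.w
    rw [hly, div_le_iff₀ (by positivity)]
    refine le_of_forall_pos_le_add fun ε hε => ?_
    obtain ⟨n0, hn0⟩ := S.algebraic_step hdet t hα (ε * Real.log 2) (by positivity)
    have h1 := hn0 (n0 + 1) (by omega)
    have h2 := hRW_le S.r t S.P.w S.P.nonneg S.P.sum_one (n0 + 1) (by omega)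
    rw [stepEntropy_eq S.r t S.P.w S.P (fun _ => rfl)] at h2
    refine h2.trans ?_
    have hn : (0 : ℝ) < ((n0 + 1 : ℕ) : ℝ) := by positivity
    rw [div_div, div_le_iff₀ (by positivity)]
    have h3 : (S.P.pi (n0 + 1)).H (fun w => (sl S.r w, tr S.r t w)) = S.HG t (n0 + 1) := rfl
    rw [h3]
    refine h1.trans (le_of_eq ?_)
    (clear * -; field_simp)
  · exact (min_le_left _ _).trans hα

/-- Lower bound for systems with algebraic contraction ratios. -/
theorem lower_of_algebraic {Λ : Type} [Fintype Λ] [Nonempty Λ] (r t p : Λ → ℝ)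
    (hr0 : ∀ i, r i ≠ 0) (hr1 : ∀ i, |r i| < 1) (hralg : ∀ i, IsAlgebraic ℚ (r i))
    (hp : ∀ i, 0 ≤ p i) (hp1 : ∑ i, p i = 1) (μ : Measure ℝ) (hμ : IsSelfSimilar r t p μ) :
    ENNReal.ofReal (min 1 (hRW r t p / lyap r p)) ≤ lowerDimH μ := by
  obtain ⟨S, rfl, rfl⟩ := exists_sys r p hr0 hr1 hp hp1
  exact lower_of_det S (fun k => det_lower_bound S.r hralg k) t μ hμ

end Vale.Agent.P114
end
end

section

open scoped Classical ENNReal

noncomputable section

namespace Vale.Agent.P114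

open MeasureTheory

/-- The dimension formula for all systems with algebraic contraction ratios. -/
theorem main_algebraic {Λ : Type} [Fintype Λ] [Nonempty Λ] (r t p : Λ → ℝ)
    (hr0 : ∀ i, r i ≠ 0) (hr1 : ∀ i, |r i| < 1) (hralg : ∀ i, IsAlgebraic ℚ (r i))
    (hp : ∀ i, 0 < p i) (hp1 : ∑ i, p i = 1) (μ : Measure ℝ) (hμ : IsSelfSimilar r t p μ) :
    lowerDimH μ = ENNReal.ofReal (min 1 (hRW r t p / lyap r p)) :=
  le_antisymm (lowerDimH_le r t p hr0 hr1 hp hp1 μ hμ)
    (lower_of_algebraic r t p hr0 hr1 hralg (fun i => (hp i).le) hp1 μ hμ)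

end Vale.Agent.P114
end
end

section

open scoped Classical ENNReal

noncomputable section

namespace Vale.Agent.P114

open MeasureTheory

/-- Lower bound for the dimension from an upper bound for the entropy of the walk. -/
theorem lower_of_step {Λ : Type} [Fintype Λ] (S : Sys Λ) (t : Λ → ℝ)
    (hstep : S.alpha t < 1 → ∀ ε > 0, ∃ n > 0, S.HG t n ≤ (S.alpha t * S.χ + ε) * n)
    (μ : Measure ℝ) (hμ : IsSelfSimilar S.r t S.P.w μ) :
    ENNReal.ofReal (min 1 (hRW S.r t S.P.w / lyap S.r S.P.w)) ≤ lowerDimH μ := by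
  refine le_trans (ENNReal.ofReal_le_ofReal ?_) (S.le_lowerDimH t μ hμ)
  rcases lt_or_ge (S.alpha t) 1 with hα | hα
  · refine (min_le_right _ _).trans ?_
    have hlog : 0 < Real.log 2 := Real.log_pos (by norm_num)
    have hχ := S.χ_pos
    have hly : lyap S.r S.P.w = S.χ / Real.log 2 := lyap_eq S.r S.P.w
    rw [hly, div_le_iff₀ (by positivity)]
    refine le_of_forall_pos_le_add fun ε hε => ?_
    obtain ⟨n, hn, h1⟩ := hstep hα (ε * Real.log 2) (by positivity)
    have h2 := hRW_le S.r t S.P.w S.P.nonneg S.P.sum_one n hn.ne'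
    rw [stepEntropy_eq S.r t S.P.w S.P (fun _ => rfl)] at h2
    refine h2.trans ?_
    have hn' : (0 : ℝ) < (n : ℝ) := by exact_mod_cast hn
    rw [div_div, div_le_iff₀ (by positivity)]
    have h3 : (S.P.pi n).H (fun w => (sl S.r w, tr S.r t w)) = S.HG t n := rfl
    rw [h3]
    refine h1.trans (le_of_eq ?_)
    (clear * - hn; field_simp)
  · exact (min_le_left _ _).trans hα

end Vale.Agent.P114
end
end

section

/-!
T12-L2. Choice of the level and the step.
-/

open scoped Classical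

noncomputable section

namespace Vale.Agent.P114

open FinProb

variable {Λ : Type} [Fintype Λ]

namespace Sys
variable (S : Sys Λ)

/-- The weights of `pi n` are at least `2⁻¹ ^ (k n)`. -/
lemma exists_pi_low : ∃ k : ℕ, 1 ≤ k ∧ ∀ n : ℕ, ∀ w : Fin n → Λ,
    (S.P.pi n).w w = 0 ∨ (2 : ℝ)⁻¹ ^ (k * n) ≤ (S.P.pi n).w w := by
  obtain ⟨δ, hδ, hδ2⟩ : ∃ δ : ℝ, 0 < δ ∧ ∀ a : Λ, S.P.w a = 0 ∨ δ ≤ S.P.w a := by
    set s : Finset Λ := Finset.univ.filter (fun a => 0 < S.P.w a) with hs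
    obtain ⟨w1, hw1⟩ := S.P.exists_w_pos
    have hne : s.Nonempty := ⟨w1, by
      rw [hs]
      exact Finset.mem_filter.2 ⟨Finset.mem_univ _, hw1⟩⟩
    obtain ⟨w0, hw0, hmin⟩ := s.exists_min_image (fun a => S.P.w a) hne
    refine ⟨S.P.w w0, ?_, fun a => ?_⟩
    · rw [hs] at hw0
      exact (Finset.mem_filter.1 hw0).2
    · rcases S.P.w_zero_or_pos a with h | h
      · exact Or.inl h
      · refine Or.inr (hmin a ?_)
        rw [hs]
        exact Finset.mem_filter.2 ⟨Finset.mem_univ _, h⟩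
  obtain ⟨k, hk⟩ := exists_pow_lt_of_lt_one hδ (show (2 : ℝ)⁻¹ < 1 by norm_num)
  refine ⟨k + 1, Nat.le_add_left _ _, fun n w => ?_⟩
  have hk1 : (2 : ℝ)⁻¹ ^ (k + 1) ≤ δ :=
    (pow_le_pow_of_le_one (by norm_num) (by norm_num) (Nat.le_succ k)).trans hk.le
  have e1 : (S.P.pi n).w w = ∏ i, S.P.w (w i) := rfl
  by_cases h : ∃ i, S.P.w (w i) = 0
  · obtain ⟨i, hi⟩ := h
    left
    rw [e1]
    exact Finset.prod_eq_zero (Finset.mem_univ i) hi
  · push Not at h
    right
    rw [e1, pow_mul]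
    have h2 : ∏ _i : Fin n, (2 : ℝ)⁻¹ ^ (k + 1) ≤ ∏ i, S.P.w (w i) := by
      refine Finset.prod_le_prod (fun i _ => by positivity) fun i _ => ?_
      rcases hδ2 (w i) with h3 | h3
      · exact absurd h3 (h i)
      · exact hk1.trans h3
    rw [Finset.prod_const, Finset.card_univ, Fintype.card_fin] at h2
    exact h2

/-- Choice of `n`: `K' ≤ C₀ n + C₀` with `2⁻¹ ^ K' ≤` the nonzero weights of `pi n`, and
`∑_{W₀ ≤ W ≤ K'} (R W + 1) 2^(-2W) ≤ ε n` for arbitrarily large `n` (`Spr.growth`). -/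
theorem spr_choice (w0 : ℕ) (Cx : ℝ) (R : ℕ → ℕ) (β : ℕ → ℝ) (x y : ℕ → ℕ) (L₁ L₂ : ℝ)
    (hS : Spr L₁ L₂ w0 Cx R β x y) (W₀ : ℕ) (hW₀ : w0 ≤ W₀) (ε : ℝ) (hε : 0 < ε) (n₀ : ℕ) :
    ∃ n K' : ℕ, n₀ ≤ n ∧
      (∀ w : Fin n → Λ, (S.P.pi n).w w = 0 ∨ (2 : ℝ)⁻¹ ^ K' ≤ (S.P.pi n).w w) ∧
      ∑ W ∈ Finset.Icc W₀ K', ((R W : ℝ) + 1) * (2 : ℝ)⁻¹ ^ (2 * W) ≤ ε * n := by
  obtain ⟨k, hk1, hk⟩ := S.exists_pi_low
  have hk0 : (0 : ℝ) < k := by exact_mod_cast hk1
  obtain ⟨C₁, hC₁⟩ := hS.growth k hk0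
  set D : ℝ := max C₁ 0 with hD
  have hD0 : 0 ≤ D := le_max_right _ _
  obtain ⟨W₂, hW₂⟩ := exists_pow_lt_of_lt_one (show 0 < ε / (4 * (D + 1)) by positivity)
    (show (4 : ℝ)⁻¹ < 1 by norm_num)
  set A : ℝ := ∑ W ∈ Finset.range W₂, ((R W : ℝ) + 1) * (2 : ℝ)⁻¹ ^ (2 * W) with hA
  obtain ⟨N, hN⟩ := exists_nat_gt ((A + 2) / (ε / 2))
  obtain ⟨n, hn, hgr⟩ := hC₁ (max n₀ N)
  refine ⟨n, k * n, (le_max_left _ _).trans hn, hk n, ?_⟩
  have hNn : (N : ℝ) ≤ n := by exact_mod_cast (le_max_right _ _).trans hn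
  have hA2 : A + 2 ≤ ε / 2 * n := by
    rw [div_lt_iff₀ (by positivity)] at hN
    (by_contra nlg; linarith only [nlg, mul_nonneg (le_of_lt (sub_pos.2 hε)) (sub_nonneg.2 hNn), mul_nonneg (mul_self_nonneg (2 : ℝ)) (le_of_lt (sub_pos.2 (not_le.1 nlg))), hN])
  have hn0 : (0 : ℝ) ≤ n := Nat.cast_nonneg n
  -- split
  have h1 : ∑ W ∈ Finset.Icc W₀ (k * n), ((R W : ℝ) + 1) * (2 : ℝ)⁻¹ ^ (2 * W)
      ≤ A + ∑ W ∈ Finset.Ico W₂ (k * n + 1), (D * n + 1) * (4 : ℝ)⁻¹ ^ W := by
    have h2 : ∀ W ∈ Finset.Icc W₀ (k * n), ((R W : ℝ) + 1) * (2 : ℝ)⁻¹ ^ (2 * W)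
        ≤ (if W ∈ Finset.range W₂ then ((R W : ℝ) + 1) * (2 : ℝ)⁻¹ ^ (2 * W) else 0)
          + (if W ∈ Finset.Ico W₂ (k * n + 1) then (D * n + 1) * (4 : ℝ)⁻¹ ^ W else 0) := by
      intro W hW
      rw [Finset.mem_Icc] at hW
      by_cases h3 : W < W₂
      · rw [if_pos (Finset.mem_range.2 h3)]
        have : (0 : ℝ) ≤ (if W ∈ Finset.Ico W₂ (k * n + 1) then
            (D * n + 1) * (4 : ℝ)⁻¹ ^ W else 0) := by
          split_ifs
          · (clear * -; positivity)
          · exact le_rfl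
        linarith only [this]
      · rw [if_neg (by rw [Finset.mem_range]; exact h3),
          if_pos (Finset.mem_Ico.2 ⟨not_lt.1 h3, by (clear * - hW; omega)⟩), zero_add]
        have e4 : (2 : ℝ)⁻¹ ^ (2 * W) = (4 : ℝ)⁻¹ ^ W := by
          rw [pow_mul]; norm_num
        rw [e4]
        have h5 : (R W : ℝ) ≤ D * n := by
          have h6 := hgr W (hW₀.trans hW.1) (by
            have h7 : (W : ℝ) ≤ (k * n : ℕ) := by exact_mod_cast hW.2
            push_cast at h7
            linarith only [h7])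
          have h8 : C₁ * n ≤ D * n := mul_le_mul_of_nonneg_right (le_max_left _ _) hn0
          linarith only [h6, h8]
        have h9 : (0 : ℝ) ≤ (4 : ℝ)⁻¹ ^ W := by positivity
        exact mul_le_mul_of_nonneg_right (by linarith only [h5]) h9
    refine (Finset.sum_le_sum h2).trans ?_
    rw [Finset.sum_add_distrib]
    refine add_le_add ?_ ?_
    · rw [hA, ← Finset.sum_filter]
      refine Finset.sum_le_sum_of_subset_of_nonneg ?_ fun W _ _ => by (clear * -; positivity)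
      intro W hW
      exact (Finset.mem_filter.1 hW).2
    · rw [← Finset.sum_filter]
      refine Finset.sum_le_sum_of_subset_of_nonneg ?_ fun W _ _ => by (clear * -; positivity)
      intro W hW
      exact (Finset.mem_filter.1 hW).2
  have h3 : ∑ W ∈ Finset.Ico W₂ (k * n + 1), (D * n + 1) * (4 : ℝ)⁻¹ ^ W
      ≤ (D * n + 1) * (2 * (4 : ℝ)⁻¹ ^ W₂) := by
    rw [← Finset.mul_sum]
    refine mul_le_mul_of_nonneg_left ?_ (by (clear * -; positivity))
    have h4 := geom_sum_Ico_le_of_lt_one (x := (4 : ℝ)⁻¹) (m := W₂) (n := k * n + 1)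
      (by norm_num) (by norm_num)
    refine h4.trans ?_
    have h5 : (0 : ℝ) ≤ (4 : ℝ)⁻¹ ^ W₂ := by positivity
    rw [div_le_iff₀ (by norm_num)]
    nlinarith only [h5]
  have h4 : (D * n + 1) * (2 * (4 : ℝ)⁻¹ ^ W₂) ≤ ε / 2 * n + 2 := by
    have h5 : (4 : ℝ)⁻¹ ^ W₂ ≤ 1 := pow_le_one₀ (by norm_num) (by norm_num)
    have h6 : (D + 1) * (4 : ℝ)⁻¹ ^ W₂ ≤ ε / 4 := by
      have h7 := mul_le_mul_of_nonneg_left hW₂.le (show 0 ≤ D + 1 by linarith only [hD0])
      refine h7.trans (le_of_eq ?_)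
      field_simp
    have h8 : (0 : ℝ) ≤ (4 : ℝ)⁻¹ ^ W₂ := by positivity
    have h9 : D * (4 : ℝ)⁻¹ ^ W₂ ≤ ε / 4 := by linarith only [h8, h6]
    have h10 := mul_le_mul_of_nonneg_right h9 hn0
    linarith only [h10, h5]
  (clear * - hA2 h1 h3 h4; linarith)

/-- The step from the bound of the fine part. -/
theorem irr_step_of_fine (t : Λ → ℝ) (hα : S.alpha t < 1) (w0 : ℕ) (Cx : ℝ) (R : ℕ → ℕ)
    (β : ℕ → ℝ) (x y : ℕ → ℕ) (L₁ L₂ : ℝ) (hS : Spr L₁ L₂ w0 Cx R β x y)
    (hF : ∃ C C' : ℝ, 0 ≤ C ∧ 0 ≤ C' ∧ ∃ W₀ : ℕ, w0 ≤ W₀ ∧ ∀ n b K' : ℕ,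
      (∀ w : Fin n → Λ, (S.P.pi n).w w = 0 ∨ (2 : ℝ)⁻¹ ^ K' ≤ (S.P.pi n).w w) →
      S.HG t n ≤ (S.P.pi n).H (fun w => (sl S.r w, ⌊(2 : ℝ) ^ b * tr S.r t w⌋))
        + C' * (1 + ∑ W ∈ Finset.Icc W₀ K', ((R W : ℝ) + 1) * (2 : ℝ)⁻¹ ^ (2 * W))
        + C * (S.alpha t * (S.χ * n) - S.fS t b
          + S.alpha t * ∑ w, (S.P.pi n).w w * max 0 (Real.log (2 ^ b * |sl S.r w|))))
    (ε : ℝ) (hε : 0 < ε) :
    ∃ n > 0, S.HG t n ≤ (S.alpha t * S.χ + ε) * n := by
  obtain ⟨C, C', hC, hC', W₀, hW₀, hfine⟩ := hF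
  have hlog : 0 < Real.log 2 := Real.log_pos (by norm_num)
  have hχ := S.χ_pos
  have hα0 := S.alpha_nonneg t
  have hσ := S.σ_pos
  set α := S.alpha t with hαd
  obtain ⟨e1, he1⟩ : ∃ e1 : ℝ, e1 = ε / (4 * (C + 1) * S.χ) := ⟨_, rfl⟩
  have he10 : 0 < e1 := by rw [he1]; (clear * - hε hC hχ; positivity)
  obtain ⟨b1, hb1⟩ := S.alpha_le_fS t e1 he10
  rw [← hαd] at hb1
  set Cc : ℝ := Real.log 2 + S.C5 t + Real.log 3 + Real.log (2 * S.D t + 3) + Real.log 2
    + C' + C * (e1 * Real.log 2 + Real.log 2) with hCc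
  have ev1 := ev_small (2 * Fintype.card Λ) (S.σ + C * S.σ) Cc (ε / 2) (by positivity)
  have ev2 := ev_small 0 0 (b1 * Real.log 2) S.χ hχ
  obtain ⟨N₀, hN₀⟩ := Filter.eventually_atTop.1
    (ev1.and (ev2.and (Filter.eventually_gt_atTop 0)))
  obtain ⟨n, K', hnN, hK', hsum⟩ := S.spr_choice w0 Cx R β x y L₁ L₂ hS W₀ hW₀
    (ε / (4 * (C' + 1))) (by positivity) N₀
  obtain ⟨hn1, hn2, hn3⟩ := hN₀ n hnN
  refine ⟨n, hn3, ?_⟩
  simp only [zero_mul, zero_add] at hn2
  have hn0 : (0 : ℝ) < n := by exact_mod_cast hn3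
  set b : ℕ := ⌈S.χ * n / Real.log 2⌉₊ with hb
  have hx0 : 0 ≤ S.χ * n / Real.log 2 := by (clear * - hχ hn3; positivity)
  have hbl : S.χ * n ≤ b * Real.log 2 := by
    have := Nat.le_ceil (S.χ * n / Real.log 2)
    rw [div_le_iff₀ hlog] at this
    exact this
  have hbu : b * Real.log 2 ≤ S.χ * n + Real.log 2 := by
    have h1 := (Nat.ceil_lt_add_one hx0).le
    rw [← hb] at h1
    have h2 := mul_le_mul_of_nonneg_right h1 hlog.le
    have h3 : (S.χ * n / Real.log 2 + 1) * Real.log 2 = S.χ * n + Real.log 2 := by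
      field_simp
    linarith only [h2, h3]
  have hbb : b1 ≤ b := by
    have h6 : (b1 : ℝ) * Real.log 2 ≤ b * Real.log 2 := by linarith only [hn2, hbl]
    have h7 := le_of_mul_le_mul_right h6 hlog
    exact_mod_cast h7
  have h1 := hfine n b K' hK'
  have h2 := FinProb.H_pair_le (S.P.pi n) (fun w => sl S.r w) (fun w => ⌊(2 : ℝ) ^ b * tr S.r t w⌋)
  have h3 := S.H_sl_le n
  have h4 := S.H_coarse_le t n b
  rw [← hαd] at h4
  have h5 : |b * Real.log 2 - S.χ * n| ≤ Real.log 2 := by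
    rw [abs_le]; constructor <;> linarith only [hbu, hlog, hbl]
  have h6 := hb1 b hbb
  have h7 : ∑ w, (S.P.pi n).w w * max 0 (Real.log (2 ^ b * |sl S.r w|))
      ≤ Real.log 2 + S.σ * Real.sqrt n := by
    have h8 : ∀ w : Fin n → Λ, max 0 (Real.log (2 ^ b * |sl S.r w|))
        ≤ Real.log 2 + |Real.log |sl S.r w| + S.χ * n| := by
      intro w
      have hsl := S.abs_sl_pos w
      have h9 : Real.log (2 ^ b * |sl S.r w|) = (b * Real.log 2 - S.χ * n)
          + (Real.log |sl S.r w| + S.χ * n) := by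
        rw [Real.log_mul (by positivity) hsl.ne', Real.log_pow]; ring
      rw [h9]
      have h10 := le_abs_self (Real.log |sl S.r w| + S.χ * n)
      have h11 := abs_nonneg (Real.log |sl S.r w| + S.χ * n)
      have h12 := (abs_le.1 h5).2
      refine max_le (by linarith only [hlog, h11]) (by linarith only [hbu, h10])
    refine ((S.P.pi n).sum_mono h8).trans ?_
    simp only [mul_add, Finset.sum_add_distrib, (S.P.pi n).sum_const]
    have := S.dev_le n
    linarith only [this]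
  have h7' : α * ∑ w, (S.P.pi n).w w * max 0 (Real.log (2 ^ b * |sl S.r w|))
      ≤ Real.log 2 + S.σ * Real.sqrt n := by
    have h8 : 0 ≤ ∑ w, (S.P.pi n).w w * max 0 (Real.log (2 ^ b * |sl S.r w|)) :=
      Finset.sum_nonneg fun w _ => mul_nonneg ((S.P.pi n).nonneg w) (le_max_left _ _)
    calc _ ≤ 1 * ∑ w, (S.P.pi n).w w * max 0 (Real.log (2 ^ b * |sl S.r w|)) :=
          mul_le_mul_of_nonneg_right hα.le h8
      _ ≤ _ := by rw [one_mul]; exact h7
  have h8 : α * (S.χ * n) - S.fS t b ≤ e1 * (S.χ * n + Real.log 2) := by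
    have h9 : (α - e1) * (b * Real.log 2) = α * (b * Real.log 2) - e1 * (b * Real.log 2) := by ring
    rw [h9] at h6
    have h10 : α * (S.χ * n) ≤ α * (b * Real.log 2) := mul_le_mul_of_nonneg_left hbl hα0
    have h11 : e1 * (b * Real.log 2) ≤ e1 * (S.χ * n + Real.log 2) :=
      mul_le_mul_of_nonneg_left hbu he10.le
    (clear * - h6 h10 h11; linarith)
  have h9 : C * (α * (S.χ * n) - S.fS t b
          + α * ∑ w, (S.P.pi n).w w * max 0 (Real.log (2 ^ b * |sl S.r w|)))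
      ≤ C * (e1 * (S.χ * n + Real.log 2) + (Real.log 2 + S.σ * Real.sqrt n)) :=
    mul_le_mul_of_nonneg_left (by linarith only [h7', h8]) hC
  have h10 : C * (e1 * (S.χ * n)) ≤ ε / 4 * n := by
    have h11 : C * (e1 * (S.χ * n)) ≤ (C + 1) * (e1 * (S.χ * n)) :=
      mul_le_mul_of_nonneg_right (by linarith only []) (by (clear * - he10 hχ hn3; positivity))
    refine h11.trans (le_of_eq ?_)
    rw [he1]
    (clear * - hC hχ hn3 hε; field_simp)
  have h10' : C' * ∑ W ∈ Finset.Icc W₀ K', ((R W : ℝ) + 1) * (2 : ℝ)⁻¹ ^ (2 * W)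
      ≤ ε / 4 * n := by
    have h11 := mul_le_mul_of_nonneg_left hsum hC'
    have h12 : C' * (ε / (4 * (C' + 1)) * n) ≤ (C' + 1) * (ε / (4 * (C' + 1)) * n) :=
      mul_le_mul_of_nonneg_right (by linarith only []) (by (clear * - hε hC' hn3; positivity))
    refine (h11.trans h12).trans (le_of_eq ?_)
    field_simp
  have h11 : α * (b * Real.log 2) ≤ α * (S.χ * n) + Real.log 2 := by
    have h12 : α * (b * Real.log 2) ≤ α * (S.χ * n + Real.log 2) :=
      mul_le_mul_of_nonneg_left hbu hα0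
    have h13 : α * Real.log 2 ≤ 1 * Real.log 2 := mul_le_mul_of_nonneg_right hα.le hlog.le
    linarith only [h12, h13]
  have e2 : (α * S.χ + ε) * n = α * (S.χ * n) + ε / 2 * n + (ε / 4 * n + ε / 4 * n) := by ring
  rw [e2]
  have e3 : C * (e1 * (S.χ * n + Real.log 2) + (Real.log 2 + S.σ * Real.sqrt n))
      = C * (e1 * (S.χ * n)) + C * (e1 * Real.log 2 + Real.log 2) + C * S.σ * Real.sqrt n := by ring
  rw [e3] at h9
  rw [mul_add C', mul_one] at h1
  rw [hCc] at hn1
  linarith only [h11, h10', h10, h9, h5, h4, h3, h2, h1, hn1]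

end Sys

end Vale.Agent.P114
end
end

section

/-!
T11-N2. Assembly.
-/

open scoped Classical

noncomputable section

namespace Vale.Agent.P114

open FinProb

variable {Λ : Type} [Fintype Λ]

namespace Sys
variable (S : Sys Λ)

/-- For large `M` the fine cells separate the maps. -/
lemma exists_sep (t : Λ → ℝ) (n b K : ℕ) : ∃ M₀ : ℕ, ∀ M ≥ M₀, ∀ w w' : Fin n → Λ,
    tr S.r t w ≠ tr S.r t w' → 2 ^ K ≤ |S.τt t n b M w - S.τt t n b M w'| := by
  have h1 : ∃ δ : ℝ, 0 < δ ∧ ∀ x : (Fin n → Λ) × (Fin n → Λ), tr S.r t x.1 ≠ tr S.r t x.2 →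
      δ ≤ |tr S.r t x.1 - tr S.r t x.2| := by
    set s : Finset ((Fin n → Λ) × (Fin n → Λ)) :=
      Finset.univ.filter (fun x => tr S.r t x.1 ≠ tr S.r t x.2) with hs
    rcases s.eq_empty_or_nonempty with he | hne
    · refine ⟨1, one_pos, fun x hx => ?_⟩
      have : x ∈ s := by rw [hs]; simp only [ne_eq, Finset.mem_filter, Finset.mem_univ, hx, not_false_eq_true, and_self]
      rw [he] at this
      simp at this
    · obtain ⟨x0, hx0, hmin⟩ := s.exists_min_image
        (fun x => |tr S.r t x.1 - tr S.r t x.2|) hne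
      refine ⟨|tr S.r t x0.1 - tr S.r t x0.2|, ?_, fun x hx => hmin x (by rw [hs]; simp only [ne_eq, Finset.mem_filter, Finset.mem_univ, hx, not_false_eq_true, and_self])⟩
      rw [hs] at hx0
      simp only [Finset.mem_filter, Finset.mem_univ, true_and] at hx0
      exact abs_pos.2 (sub_ne_zero.2 hx0)
  obtain ⟨δ, hδ, hd⟩ := h1
  obtain ⟨M₀, hM₀⟩ : ∃ M₀ : ℕ, (2 : ℝ) ^ K + 1 ≤ 2 ^ M₀ * δ := by
    obtain ⟨M₀, hM₀⟩ := pow_unbounded_of_one_lt (((2 : ℝ) ^ K + 1) / δ) one_lt_two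
    refine ⟨M₀, ?_⟩
    rw [div_lt_iff₀ hδ] at hM₀
    exact hM₀.le
  refine ⟨M₀, fun M hM w w' hne => ?_⟩
  have h2 := hd (w, w') hne
  simp only at h2
  set A : ℝ := (2 : ℝ) ^ (b + M) with hA
  have hA1 : (2 : ℝ) ^ M₀ ≤ A := pow_le_pow_right₀ (by norm_num) (by omega)
  have hA0 : 0 < A := by positivity
  have h3 : (2 : ℝ) ^ K + 1 ≤ |A * tr S.r t w - A * tr S.r t w'| := by
    rw [← mul_sub, abs_mul, abs_of_pos hA0]
    refine hM₀.trans ?_
    gcongr
  have f1 := Int.floor_le (A * tr S.r t w)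
  have f2 := Int.lt_floor_add_one (A * tr S.r t w)
  have f3 := Int.floor_le (A * tr S.r t w')
  have f4 := Int.lt_floor_add_one (A * tr S.r t w')
  have e1 : S.τt t n b M w = ⌊A * tr S.r t w⌋ := rfl
  have e2 : S.τt t n b M w' = ⌊A * tr S.r t w'⌋ := rfl
  rw [e1, e2]
  have h4 : (2 : ℝ) ^ K ≤ |(⌊A * tr S.r t w⌋ : ℝ) - ⌊A * tr S.r t w'⌋| := by
    rcases le_total (A * tr S.r t w') (A * tr S.r t w) with h | h
    · rw [abs_of_nonneg (by linarith only [h])] at h3
      refine le_trans ?_ (le_abs_self _)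
      linarith only [h3, f2, f3]
    · rw [abs_of_nonpos (by linarith only [h])] at h3
      refine le_trans ?_ (neg_le_abs _)
      linarith only [h3, f1, f4]
  exact_mod_cast h4

/-- Mean of the logarithm of the slope. -/
lemma mean_log_sl (n : ℕ) :
    ∑ w, (S.P.pi n).w w * Real.log (1 / |sl S.r w|) = S.χ * n := by
  induction n with
  | zero => simp only [Finset.univ_unique, pi_w, Finset.univ_eq_empty, Finset.prod_empty, sl_zero, abs_one, ne_eq, one_ne_zero, not_false_eq_true, div_self, Real.log_one, mul_zero, Finset.sum_const_zero, CharP.cast_eq_zero]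
  | succ n ih =>
    rw [S.P.sum_pi_succ]
    have h1 : ∀ a : Λ, ∑ x, (S.P.pi n).w x
        * Real.log (1 / |sl S.r (Fin.cons a x : Fin (n + 1) → Λ)|)
        = -Real.log |S.r a| + S.χ * n := by
      intro a
      rw [← ih, ← (S.P.pi n).sum_const (-Real.log |S.r a|), ← Finset.sum_add_distrib]
      refine Finset.sum_congr rfl fun x _ => ?_
      rw [← mul_add]
      congr 1
      have h2 := S.r_abs_pos a
      have h3 := S.abs_sl_pos x
      rw [sl_cons, abs_mul, one_div, one_div, Real.log_inv, Real.log_inv,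
        Real.log_mul h2.ne' h3.ne']
      ring
    simp only [h1]
    simp only [mul_add, Finset.sum_add_distrib]
    rw [S.P.sum_const]
    unfold χ
    push_cast
    simp only [mul_neg, Finset.sum_neg_distrib]
    ring

end Sys

end Vale.Agent.P114
end
end

section

/-!
T12-L1. The fine part is bounded by the coarse part.
-/

open scoped Classical

noncomputable section

namespace Vale.Agent.P114

open FinProb

variable {Λ : Type} [Fintype Λ]

namespace Sys
variable (S : Sys Λ)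

/-- Template `dio_fine`. -/
theorem irr_fine (t : Λ → ℝ) (hα : S.alpha t < 1) (i j : Λ) (hi : 0 < S.P.w i)
    (hj : 0 < S.P.w j) (w0 : ℕ) (Cx : ℝ) (R : ℕ → ℕ) (β : ℕ → ℝ) (x y : ℕ → ℕ)
    (hS : Spr (-Real.log |S.r i|) (-Real.log |S.r j|) w0 Cx R β x y) :
    ∃ C C' : ℝ, 0 ≤ C ∧ 0 ≤ C' ∧ ∃ W₀ : ℕ, w0 ≤ W₀ ∧ ∀ n b K' : ℕ,
      (∀ w : Fin n → Λ, (S.P.pi n).w w = 0 ∨ (2 : ℝ)⁻¹ ^ K' ≤ (S.P.pi n).w w) →
      S.HG t n ≤ (S.P.pi n).H (fun w => (sl S.r w, ⌊(2 : ℝ) ^ b * tr S.r t w⌋))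
        + C' * (1 + ∑ W ∈ Finset.Icc W₀ K', ((R W : ℝ) + 1) * (2 : ℝ)⁻¹ ^ (2 * W))
        + C * (S.alpha t * (S.χ * n) - S.fS t b
          + S.alpha t * ∑ w, (S.P.pi n).w w * max 0 (Real.log (2 ^ b * |sl S.r w|))) := by
  obtain ⟨c, c7, c', Cb, W₀, hc, hc7, hc71, hc', hCb, hw0, hdet⟩ :=
    S.detectCZ t hα i j hi hj w0 Cx R β x y hS
  obtain ⟨C₀, hC₀, hwin⟩ := S.Yt_window_gen t
  obtain ⟨Ci, hCi, hincr⟩ := S.Yt_incr_gen t
  obtain ⟨C₁, g, hC₁, hgain⟩ := gain3 (S.alpha t) C₀ c c7 c' Cb W₀ (S.alpha_nonneg t) hα hC₀ hc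
    hc7 hc71 hc' hCb
  have hl3 : 0 ≤ Real.log 3 := Real.log_nonneg (by norm_num)
  refine ⟨C₁, C₁ * (1 + Ci + 4 * Real.log 3), hC₁, by (clear * - hC₁ hCi; positivity), W₀, hw0,
    fun n b K' hK' => ?_⟩
  set Rm : ℕ := (Finset.range (K' + 1)).sup R with hRm
  have hRle : ∀ W, W ≤ K' → R W ≤ Rm := fun W hW =>
    Finset.le_sup (f := R) (Finset.mem_range.2 (Nat.lt_succ_of_le hW))
  set Sg : ℝ := ∑ W ∈ Finset.Icc W₀ K', ((R W : ℝ) + 1) * (2 : ℝ)⁻¹ ^ (2 * W) with hSg
  have hSg0 : 0 ≤ Sg := Finset.sum_nonneg fun W _ => by (clear * -; positivity)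
  set α := S.alpha t with hαd
  obtain ⟨M, hM⟩ : ∃ M : ℕ, ∀ w w' : Fin n → Λ, tr S.r t w ≠ tr S.r t w' →
      2 ^ (Rm + 4 * K' + g) ≤ |S.τt t n b M w - S.τt t n b M w'| := by
    obtain ⟨M₀, hM₀⟩ := S.exists_sep t n b (Rm + 4 * K' + g)
    exact ⟨M₀, hM₀ M₀ le_rfl⟩
  -- the level
  have hslne : ∀ w : Fin n → Λ, sl S.r w ≠ 0 := fun w => abs_pos.1 (S.abs_sl_pos w)
  choose N₀ hN₀ using fun w : Fin n → Λ => hdet b M K' (sl S.r w) (hslne w) (S.abs_sl_le_one n w)
  obtain ⟨N', hN'1, hN'2⟩ : ∃ N' : ℕ, (∀ w, N₀ w ≤ N') ∧ S.Nb t (b + M) ≤ N' :=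
    ⟨(Finset.univ.sup N₀) + S.Nb t (b + M), fun w =>
      (Finset.le_sup (f := N₀) (Finset.mem_univ w)).trans (Nat.le_add_right _ _),
      Nat.le_add_left _ _⟩
  have hNk : S.D t * S.ρ ^ N' * 2 ^ (b + M) ≤ S.κ := by
    refine le_trans ?_ (S.Nb_spec t (b + M))
    have h2 : S.ρ ^ N' ≤ S.ρ ^ (S.Nb t (b + M)) :=
      pow_le_pow_of_le_one S.ρ_pos.le S.ρ_lt.le hN'2
    have := S.D_nonneg t
    (clear * - h2 this; gcongr)
  have hN1 : S.D t * S.ρ ^ N' * 2 ^ (b + M) ≤ 1 := hNk.trans S.κ_le_one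
  -- the gain in each class
  have hfib : ∀ ω, 0 < (S.P.pi n).w ω →
      (S.cw t n b M ω).H (S.Ut t n b M)
        ≤ C₁ * (Sg + (S.dif t n N' b M ω + 2 * Real.log 3
          - (S.fS t (b + M) - α * Real.log (1 / |sl S.r ω|)
            - α * max 0 (Real.log (2 ^ b * |sl S.r ω|)) - Ci))) := by
    intro ω hω
    obtain ⟨Bad, hBad⟩ := hN₀ ω N' (hN'1 ω)
    have h3 := hgain M K' Rm _ _ (S.cw t n b M ω) (S.P.pi N') (S.Ut t n b M)
      (S.Yt t N' b M (sl S.r ω)) Bad R (S.Ut_mem t n b M)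
      (fun j W => hwin b M N' (sl S.r ω) (hslne ω) (S.abs_sl_le_one n ω) hN1 j W)
      hRle (fun W h1 h2 => (hBad W h1 h2).1) (fun W k h1 h2 h3 h4 => (hBad W h1 h2).2 k h3 h4)
      (by
        intro a
        have hp := (S.P.pi n).p_pos hω (S.ht t n b M)
        have hp1 := (S.P.pi n).p_le_one (S.ht t n b M) (S.ht t n b M ω)
        unfold cw
        rw [(S.P.pi n).cond_w _ _ hp]
        split_ifs with hcl
        · rcases hK' a with h | h
          · left; rw [h, zero_div]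
          · right
            refine h.trans ?_
            rw [le_div_iff₀ hp]
            have := (S.P.pi n).nonneg a
            nlinarith only [hp1, this]
        · left; rw [zero_div])
      (by
        intro a a' ha ha' hne
        obtain ⟨_, h4⟩ := S.cw_supp t n b M ω hω a ha
        obtain ⟨_, h5⟩ := S.cw_supp t n b M ω hω a' ha'
        have h6 : tr S.r t a ≠ tr S.r t a' := by
          intro h7
          apply hne
          unfold Ut τt
          rw [h7]
        have h7 := hM a a' h6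
        have h8 : S.Ut t n b M a - S.Ut t n b M a' = S.τt t n b M a - S.τt t n b M a' := by
          have e1 := Int.emod_add_mul_ediv (S.τt t n b M a) (2 ^ M)
          have e2 := Int.emod_add_mul_ediv (S.τt t n b M a') (2 ^ M)
          rw [h4] at e1
          rw [h5] at e2
          unfold Ut
          linarith only [e1, e2]
        rw [h8]
        exact h7)
    have h4 := S.fibre_lower t n N' b M ω hω
    have h5 := S.fibre_upper t n N' b M ω hω
    have h6 := hincr b M N' (sl S.r ω) (hslne ω) (S.abs_sl_le_one n ω) hN1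
    refine h3.trans (mul_le_mul_of_nonneg_left ?_ hC₁)
    unfold dif
    linarith only [hSg, h4, h5, h6]
  -- the total
  have htot : S.HG t n ≤ (S.P.pi n).H (S.ht t n b M)
      + ∑ ω, (S.P.pi n).w ω * (S.cw t n b M ω).H (S.Ut t n b M) := by
    have h2 := (S.P.pi n).H_pair_eq_cond (S.Ut t n b M) (S.ht t n b M)
    have h3 : S.HG t n ≤ (S.P.pi n).H (fun ω => (S.Ut t n b M ω, S.ht t n b M ω)) := by
      refine H_le_of_det _ fun w w' h => ?_
      simp only [Prod.mk.injEq] at h ⊢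
      have e0 : sl S.r w = sl S.r w' := congrArg Prod.fst h.2
      refine ⟨e0, ?_⟩
      by_contra hne
      have h4 := hM w w' hne
      have e1 : S.τt t n b M w / 2 ^ M = S.τt t n b M w' / 2 ^ M := congrArg Prod.snd h.2
      have e2 : S.τt t n b M w % 2 ^ M = S.τt t n b M w' % 2 ^ M := h.1
      rw [← Int.emod_add_mul_ediv (S.τt t n b M w) (2 ^ M),
        ← Int.emod_add_mul_ediv (S.τt t n b M w') (2 ^ M), e1, e2, sub_self, abs_zero] at h4
      have h5 : (0 : ℤ) < 2 ^ (Rm + 4 * K' + g) := by positivity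
      linarith only [h4, h5]
    rw [h2] at h3
    exact h3
  have hht : (S.P.pi n).H (S.ht t n b M)
      = (S.P.pi n).H (fun w => (sl S.r w, ⌊(2 : ℝ) ^ b * tr S.r t w⌋)) := by
    congr 1
    funext w
    unfold ht τt
    rw [floor_pow_ediv _ _ _ (Nat.le_add_left M b), Nat.add_sub_cancel]
  have hsum : ∑ ω, (S.P.pi n).w ω * (S.cw t n b M ω).H (S.Ut t n b M)
      ≤ C₁ * (Sg + ((∑ ω, (S.P.pi n).w ω * S.dif t n N' b M ω) + 2 * Real.log 3
          - (S.fS t (b + M) - α * (S.χ * n)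
            - α * (∑ w, (S.P.pi n).w w * max 0 (Real.log (2 ^ b * |sl S.r w|))) - Ci))) := by
    have h4 : ∑ ω, (S.P.pi n).w ω * (S.cw t n b M ω).H (S.Ut t n b M)
        ≤ ∑ ω, (S.P.pi n).w ω * (C₁ * (Sg + (S.dif t n N' b M ω + 2 * Real.log 3
          - (S.fS t (b + M) - α * Real.log (1 / |sl S.r ω|)
            - α * max 0 (Real.log (2 ^ b * |sl S.r ω|)) - Ci)))) := by
      refine Finset.sum_le_sum fun ω _ => ?_
      rcases (S.P.pi n).w_zero_or_pos ω with h | h
      · rw [h, zero_mul, zero_mul]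
      · exact mul_le_mul_of_nonneg_left (hfib ω h) h.le
    refine h4.trans (le_of_eq ?_)
    have e1 : ∀ ω, (S.P.pi n).w ω * (C₁ * (Sg + (S.dif t n N' b M ω + 2 * Real.log 3
          - (S.fS t (b + M) - α * Real.log (1 / |sl S.r ω|)
            - α * max 0 (Real.log (2 ^ b * |sl S.r ω|)) - Ci))))
        = (S.P.pi n).w ω * (C₁ * (Sg + (2 * Real.log 3 - (S.fS t (b + M) - Ci))))
          + C₁ * ((S.P.pi n).w ω * S.dif t n N' b M ω)
          + C₁ * α * ((S.P.pi n).w ω * Real.log (1 / |sl S.r ω|))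
          + C₁ * α * ((S.P.pi n).w ω * max 0 (Real.log (2 ^ b * |sl S.r ω|))) :=
      fun ω => by ring
    rw [Finset.sum_congr rfl fun ω _ => e1 ω, Finset.sum_add_distrib, Finset.sum_add_distrib,
      Finset.sum_add_distrib, FinProb.sum_const, ← Finset.mul_sum, ← Finset.mul_sum,
      ← Finset.mul_sum, S.mean_log_sl n]
    ring
  have h4 : ∑ ω, (S.P.pi n).w ω * S.dif t n N' b M ω
      ≤ ((S.P.pi n).prod (S.P.pi N')).H (S.Xt t n N' b M)
        - ((S.P.pi n).prod (S.P.pi N')).H (fun x => S.Xt t n N' b M x / 2 ^ M) :=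
    (S.P.pi n).prod_cond_mix (S.P.pi N') (S.ht t n b M) (S.Xt t n N' b M)
      (fun x => S.Xt t n N' b M x / 2 ^ M) (fun x y h => by rw [h])
  have h5 := S.total_lower t n N' b M hNk
  have h6 : ((S.P.pi n).prod (S.P.pi N')).H (S.Xt t n N' b M)
      ≤ S.fS t (b + M) + Real.log 3 := by
    have e1 : ((S.P.pi n).prod (S.P.pi N')).H (S.Xt t n N' b M)
        = S.F t (n + N') (2 ^ (b + M)) := by
      unfold F
      rw [← H_pi_add]
      simp only [tr_append]
      rfl
    rw [e1]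
    refine S.F_le_fS t (b + M) (n + N') ?_
    refine le_trans ?_ hN1
    have h2 : S.ρ ^ (n + N') ≤ S.ρ ^ N' :=
      pow_le_pow_of_le_one S.ρ_pos.le S.ρ_lt.le (by (clear * -; omega))
    have := S.D_nonneg t
    (clear * - h2 this; gcongr)
  rw [hht] at htot
  set E := ∑ w, (S.P.pi n).w w * max 0 (Real.log (2 ^ b * |sl S.r w|)) with hE
  have h7 : C₁ * (Sg + ((∑ ω, (S.P.pi n).w ω * S.dif t n N' b M ω) + 2 * Real.log 3
          - (S.fS t (b + M) - α * (S.χ * n) - α * E - Ci)))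
      ≤ C₁ * (Sg + Ci + 4 * Real.log 3) + C₁ * (α * (S.χ * n) - S.fS t b + α * E) := by
    rw [← mul_add]
    exact mul_le_mul_of_nonneg_left (by linarith only [h4, h5, h6]) hC₁
  have h8 : C₁ * (Sg + Ci + 4 * Real.log 3) ≤ C₁ * (1 + Ci + 4 * Real.log 3) * (1 + Sg) := by
    rw [mul_assoc]
    refine mul_le_mul_of_nonneg_left ?_ hC₁
    nlinarith only [hSg0, hCi, hl3]
  linarith only [htot, hsum, h7, h8]

end Sys

end Vale.Agent.P114
end
end

section

/-!
T12-L. The step and the dimension formula for all the non commensurable systems.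
Template: Dio/Step.lean.
-/

open scoped Classical

noncomputable section

namespace Vale.Agent.P114

open FinProb

variable {Λ : Type} [Fintype Λ]

namespace Sys
variable (S : Sys Λ)

/-- The step. Template `dio_step`. -/
theorem irr_step (t : Λ → ℝ) (hα : S.alpha t < 1) (i j : Λ) (hi : 0 < S.P.w i)
    (hj : 0 < S.P.w j) (hirr : Irrational (Real.log |S.r i| / Real.log |S.r j|)) (ε : ℝ)
    (hε : 0 < ε) :
    ∃ n > 0, S.HG t n ≤ (S.alpha t * S.χ + ε) * n := by
  have hL : ∀ i, 0 < -Real.log |S.r i| := fun i =>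
    neg_pos.2 (Real.log_neg (S.r_abs_pos i) ((S.le_ρ i).trans_lt S.ρ_lt))
  obtain ⟨w0, Cx, R, β, x, y, _, hS⟩ := exists_spread (-Real.log |S.r i|) (-Real.log |S.r j|)
    (hL i) (hL j) (by rwa [neg_div_neg_eq])
  exact S.irr_step_of_fine t hα w0 Cx R β x y _ _ hS
    (S.irr_fine t hα i j hi hj w0 Cx R β x y hS) ε hε

end Sys

open scoped ENNReal in
/-- The dimension formula for all the systems with an irrational quotient of logarithms. -/
theorem main_irr {Λ : Type} [Fintype Λ] [Nonempty Λ] (r t p : Λ → ℝ)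
    (hr0 : ∀ i, r i ≠ 0) (hr1 : ∀ i, |r i| < 1) (hp : ∀ i, 0 < p i) (hp1 : ∑ i, p i = 1)
    (i j : Λ) (hirr : Irrational (Real.log |r i| / Real.log |r j|))
    (μ : MeasureTheory.Measure ℝ) (hμ : IsSelfSimilar r t p μ) :
    lowerDimH μ = ENNReal.ofReal (min 1 (hRW r t p / lyap r p)) := by
  refine le_antisymm (lowerDimH_le r t p hr0 hr1 hp hp1 μ hμ) ?_
  obtain ⟨S, rfl, rfl⟩ := exists_sys r p hr0 hr1 (fun i => (hp i).le) hp1
  exact lower_of_step S t (fun hα ε hε => S.irr_step t hα i j (hp i) (hp j) hirr ε hε) μ hμ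

end Vale.Agent.P114
end
end

section

/-!
T10-F. The multiscale bound with the slope in the class, for all systems.
-/

open scoped Classical
open Polynomial

noncomputable section

namespace Vale.Agent.P114

open FinProb

variable {Λ : Type} [Fintype Λ]

namespace Sys
variable (S : Sys Λ)

/-- Lower bound of the increment by the profile at `M`. -/
theorem Yt_incr_slope (t : Λ → ℝ) : ∃ C : ℝ, 0 ≤ C ∧ ∀ (b M N' : ℕ) (s : ℝ), s ≠ 0 → |s| ≤ 1 →
    S.D t * S.ρ ^ N' * 2 ^ (b + M) ≤ 1 →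
      S.fS t M - max 0 (-Real.log (2 ^ b * |s|)) - C
        ≤ (S.P.pi N').H (S.Yt t N' b M s)
          - (S.P.pi N').H (fun v => S.Yt t N' b M s v / 2 ^ M) := by
  have hα0 := S.alpha_nonneg t
  have hα1 := S.alpha_le_one t
  have hlog : 0 < Real.log 2 := Real.log_pos (by norm_num)
  have hl3 : 0 ≤ Real.log 3 := Real.log_nonneg (by norm_num)
  have hl4 : 0 ≤ Real.log 4 := Real.log_nonneg (by norm_num)
  have hC10 := S.C10_nonneg
  have hC5 := S.C5_nonneg t
  have hD := S.D_nonneg t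
  have hf0 := S.fS_nonneg t 0
  have hlD : 0 ≤ Real.log (2 * S.D t + 3) := Real.log_nonneg (by linarith only [hD])
  refine ⟨S.C13 t + S.fS t 0, by unfold C13; positivity, fun b M N' s h0 h1 hN' => ?_⟩
  obtain ⟨e, he1, he2⟩ := exists_dyadic_slope s h0 h1
  have hs : 0 < |s| := abs_pos.2 h0
  set mx := max 0 (-Real.log (2 ^ b * |s|)) with hmx
  have hmax0 : 0 ≤ mx := le_max_left _ _
  -- the excess of the exponent
  have hexc : (e : ℝ) * Real.log 2 - b * Real.log 2 ≤ mx := by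
    refine le_trans ?_ (le_max_right _ _)
    have h2 : Real.log (2 ^ b * |s|) = b * Real.log 2 + Real.log |s| := by
      rw [Real.log_mul (by positivity) hs.ne', Real.log_pow]
    have h3 : (e : ℝ) * Real.log 2 + Real.log |s| ≤ 0 := by
      rw [← Real.log_pow, ← Real.log_mul (by positivity) hs.ne']
      exact Real.log_nonpos (by positivity) he1
    rw [h2]
    linarith only [h3]
  have hdet : (S.P.pi N').H (fun v => S.Yt t N' b M s v / 2 ^ M)
      ≤ (S.P.pi N').H (S.Yt t N' b M s) :=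
    H_le_of_det _ fun v v' hv => by rw [hv]
  rcases le_or_gt (b + M) e with h | h
  · have h2 := S.fS_le_alpha t M
    have h3 : (b : ℝ) + M ≤ e := by exact_mod_cast h
    have h4 : S.alpha t * ((M : ℝ) * Real.log 2) ≤ 1 * ((M : ℝ) * Real.log 2) := by (clear * - hα1; gcongr)
    have h5 : (M : ℝ) * Real.log 2 ≤ e * Real.log 2 - b * Real.log 2 := by
      rw [← sub_mul]
      exact mul_le_mul_of_nonneg_right (by linarith only [h3]) hlog.le
    unfold C13
    linarith only [h5, h4, h2, hdet, hexc, hlD, hf0, hC10, hl4, hl3]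
  · have hlev := (S.level_gen t N' (b + M) (b + M) e s he1 he2 h.le le_rfl hN').2
    have hY : (S.P.pi N').H (S.Yt t N' b M s)
        = (S.P.pi N').H (fun v => ⌊(2 : ℝ) ^ (b + M) * (s * tr S.r t v)⌋) := rfl
    rw [← hY] at hlev
    have hM : (fun v : Fin N' → Λ => S.Yt t N' b M s v / 2 ^ M)
        = fun v => ⌊(2 : ℝ) ^ b * (s * tr S.r t v)⌋ := by
      funext v
      unfold Yt
      rw [floor_pow_ediv _ _ _ (Nat.le_add_left M b), Nat.add_sub_cancel]
    rcases le_total b e with hb | hb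
    · have h3 := S.low_gen t N' b e s he1 hb
      rw [← hM] at h3
      have hwin := S.fS_window_aux t (b + M - e) (e - b)
      rw [show b + M - e + (e - b) = M by omega] at hwin
      have h4 : S.alpha t * (((e - b : ℕ) : ℝ) * Real.log 2) ≤ mx := by
        rw [Nat.cast_sub hb, sub_mul]
        have h5 : 0 ≤ (e : ℝ) * Real.log 2 - b * Real.log 2 := by
          rw [← sub_mul]
          have : (b : ℝ) ≤ e := by exact_mod_cast hb
          exact mul_nonneg (by linarith only [this]) hlog.le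
        calc _ ≤ 1 * ((e : ℝ) * Real.log 2 - b * Real.log 2) :=
              mul_le_mul_of_nonneg_right hα1 h5
          _ ≤ mx := by rw [one_mul]; exact hexc
      unfold C13
      linarith only [h4, hwin, h3, hlev, hf0, hC5, hl3]
    · have h3 := (S.level_gen t N' (b + M) b e s he1 he2 hb (Nat.le_add_right b M) hN').1
      rw [← hM] at h3
      have h4 := S.fS_incr_mono_aux t (b - e) 0 M
      rw [show b - e + 0 + M = b + M - e by omega, show b - e + 0 = b - e by omega,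
        show 0 + M = M by omega] at h4
      unfold C13
      linarith only [hC5, hlD, hmax0, hlev, h3, h4]

theorem fine_bound_slope (t : Λ → ℝ) (hα : S.alpha t < 1) :
    ∃ C : ℝ, 0 ≤ C ∧ ∀ (n b M : ℕ) (T : ℝ), 0 ≤ T →
      (S.P.pi n).H (fun w => (sl S.r w, ⌊(2 : ℝ) ^ (b + M) * tr S.r t w⌋))
        ≤ (S.P.pi n).H (fun w => (sl S.r w, ⌊(2 : ℝ) ^ b * tr S.r t w⌋)) + C
          + C * (1 + T) * (S.fS t (b + M) - S.fS t M - S.fS t b
            + (∑ w, (S.P.pi n).w w * max 0 (-Real.log (2 ^ b * |sl S.r w|))) + C)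
          + C * M * Real.exp (-T) := by
  obtain ⟨C₀, hC₀, hwin⟩ := S.Yt_window_gen t
  obtain ⟨Ci, hCi, hincr⟩ := S.Yt_incr_slope t
  obtain ⟨Cg, hCg, hgain⟩ := gain (S.alpha t) C₀ (S.alpha_nonneg t) hα hC₀
  have hl3 : 0 ≤ Real.log 3 := Real.log_nonneg (by norm_num)
  have hC5 := S.C5_nonneg t
  refine ⟨Cg + Ci + 4 * Real.log 3 + S.C5 t, by (clear * - hCg hCi hC5; positivity), fun n b M T hT => ?_⟩
  set C : ℝ := Cg + Ci + 4 * Real.log 3 + S.C5 t with hC
  set N' := S.Nb t (b + M) with hN'def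
  have hN' := S.Nb_spec t (b + M)
  rw [← hN'def] at hN'
  have hN1 : S.D t * S.ρ ^ N' * 2 ^ (b + M) ≤ 1 := hN'.trans S.κ_le_one
  have hslne : ∀ w : Fin n → Λ, sl S.r w ≠ 0 := fun w => abs_pos.1 (S.abs_sl_pos w)
  -- the total entropy
  have h1 : (S.P.pi n).H (fun w => (sl S.r w, ⌊(2 : ℝ) ^ (b + M) * tr S.r t w⌋))
      ≤ (S.P.pi n).H (S.ht t n b M)
      + ∑ ω, (S.P.pi n).w ω * (S.cw t n b M ω).H (S.Ut t n b M) := by
    have h2 := (S.P.pi n).H_pair_eq_cond (S.Ut t n b M) (S.ht t n b M)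
    have h3 : (S.P.pi n).H (fun w => (sl S.r w, ⌊(2 : ℝ) ^ (b + M) * tr S.r t w⌋))
        ≤ (S.P.pi n).H (fun ω => (S.Ut t n b M ω, S.ht t n b M ω)) := by
      refine H_le_of_det _ fun w w' h => ?_
      simp only [Prod.mk.injEq] at h ⊢
      have e0 : sl S.r w = sl S.r w' := congrArg Prod.fst h.2
      refine ⟨e0, ?_⟩
      have e1 : S.τt t n b M w / 2 ^ M = S.τt t n b M w' / 2 ^ M := congrArg Prod.snd h.2
      have e2 : S.τt t n b M w % 2 ^ M = S.τt t n b M w' % 2 ^ M := h.1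
      have e3 : S.τt t n b M w = S.τt t n b M w' := by
        rw [← Int.emod_add_mul_ediv (S.τt t n b M w) (2 ^ M),
          ← Int.emod_add_mul_ediv (S.τt t n b M w') (2 ^ M), e1, e2]
      exact e3
    rw [h2] at h3
    exact h3
  have hht : (S.P.pi n).H (S.ht t n b M)
      = (S.P.pi n).H (fun w => (sl S.r w, ⌊(2 : ℝ) ^ b * tr S.r t w⌋)) := by
    congr 1
    funext w
    unfold ht τt
    rw [floor_pow_ediv _ _ _ (Nat.le_add_left M b), Nat.add_sub_cancel]
  -- the gain in each fibre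
  have hfib : ∀ ω, 0 < (S.P.pi n).w ω →
      (S.cw t n b M ω).H (S.Ut t n b M)
        ≤ Cg + Cg * (1 + T) * (S.dif t n N' b M ω + 2 * Real.log 3
          - (S.fS t M - max 0 (-Real.log (2 ^ b * |sl S.r ω|)) - Ci)) + Cg * M * Real.exp (-T) := by
    intro ω hω
    have h3 := hgain M _ _ (S.cw t n b M ω) (S.P.pi N') (S.Ut t n b M)
      (S.Yt t N' b M (sl S.r ω)) (S.Ut_mem t n b M)
      (fun j W => hwin b M N' (sl S.r ω) (hslne ω) (S.abs_sl_le_one n ω) hN1 j W) T hT
    have h4 := S.fibre_lower t n N' b M ω hω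
    have h5 := S.fibre_upper t n N' b M ω hω
    have h6 := hincr b M N' (sl S.r ω) (hslne ω) (S.abs_sl_le_one n ω) hN1
    have h7 : 0 ≤ Cg * (1 + T) := mul_nonneg hCg (by linarith only [hT])
    have h8 : ((S.cw t n b M ω).prod (S.P.pi N')).H
        (fun x => S.Ut t n b M x.1 + S.Yt t N' b M (sl S.r ω) x.2)
          - (S.P.pi N').H (S.Yt t N' b M (sl S.r ω))
        ≤ S.dif t n N' b M ω + 2 * Real.log 3
          - (S.fS t M - max 0 (-Real.log (2 ^ b * |sl S.r ω|)) - Ci) := by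
      unfold dif
      (clear * - h4 h5 h6; linarith)
    have h9 := mul_le_mul_of_nonneg_left h8 h7
    linarith only [h3, h9]
  set E := ∑ w, (S.P.pi n).w w * max 0 (-Real.log (2 ^ b * |sl S.r w|)) with hE
  have h3 : ∑ ω, (S.P.pi n).w ω * (S.cw t n b M ω).H (S.Ut t n b M)
      ≤ Cg + Cg * (1 + T) * ((∑ ω, (S.P.pi n).w ω * S.dif t n N' b M ω) + 2 * Real.log 3
          - (S.fS t M - E - Ci)) + Cg * M * Real.exp (-T) := by
    have h4 : ∑ ω, (S.P.pi n).w ω * (S.cw t n b M ω).H (S.Ut t n b M)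
        ≤ ∑ ω, (S.P.pi n).w ω * (Cg + Cg * (1 + T) * (S.dif t n N' b M ω + 2 * Real.log 3
          - (S.fS t M - max 0 (-Real.log (2 ^ b * |sl S.r ω|)) - Ci))
          + Cg * M * Real.exp (-T)) := by
      refine Finset.sum_le_sum fun ω _ => ?_
      rcases (S.P.pi n).w_zero_or_pos ω with h | h
      · rw [h, zero_mul, zero_mul]
      · exact mul_le_mul_of_nonneg_left (hfib ω h) h.le
    refine h4.trans (le_of_eq ?_)
    have e1 : ∀ ω, (S.P.pi n).w ω * (Cg + Cg * (1 + T) * (S.dif t n N' b M ω + 2 * Real.log 3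
          - (S.fS t M - max 0 (-Real.log (2 ^ b * |sl S.r ω|)) - Ci))
          + Cg * M * Real.exp (-T))
        = (S.P.pi n).w ω * (Cg + Cg * (1 + T) * (2 * Real.log 3 - (S.fS t M - Ci))
          + Cg * M * Real.exp (-T))
          + Cg * (1 + T) * ((S.P.pi n).w ω * S.dif t n N' b M ω)
          + Cg * (1 + T) * ((S.P.pi n).w ω * max 0 (-Real.log (2 ^ b * |sl S.r ω|))) :=
      fun ω => by ring
    rw [Finset.sum_congr rfl fun ω _ => e1 ω, Finset.sum_add_distrib, Finset.sum_add_distrib,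
      FinProb.sum_const, ← Finset.mul_sum, ← Finset.mul_sum]
    ring
  have h4 : ∑ ω, (S.P.pi n).w ω * S.dif t n N' b M ω
      ≤ ((S.P.pi n).prod (S.P.pi N')).H (S.Xt t n N' b M)
        - ((S.P.pi n).prod (S.P.pi N')).H (fun x => S.Xt t n N' b M x / 2 ^ M) :=
    (S.P.pi n).prod_cond_mix (S.P.pi N') (S.ht t n b M) (S.Xt t n N' b M)
      (fun x => S.Xt t n N' b M x / 2 ^ M) (fun x y h => by rw [h])
  have h5 := S.total_lower t n N' b M hN'
  have h6 : ((S.P.pi n).prod (S.P.pi N')).H (S.Xt t n N' b M)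
      ≤ S.fS t (b + M) + Real.log 3 := by
    have e1 : ((S.P.pi n).prod (S.P.pi N')).H (S.Xt t n N' b M)
        = S.F t (n + N') (2 ^ (b + M)) := by
      unfold F
      rw [← H_pi_add]
      simp only [tr_append]
      rfl
    rw [e1]
    refine S.F_le_fS t (b + M) (n + N') ?_
    refine le_trans ?_ hN1
    have h2 : S.ρ ^ (n + N') ≤ S.ρ ^ N' :=
      pow_le_pow_of_le_one S.ρ_pos.le S.ρ_lt.le (by (clear * -; omega))
    have := S.D_nonneg t
    (clear * - h2 this; gcongr)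
  -- conclusion
  have hE0 : 0 ≤ E :=
    Finset.sum_nonneg fun w _ => mul_nonneg ((S.P.pi n).nonneg w) (le_max_left _ _)
  have hsup := S.fS_superadd t b M
  set Δ : ℝ := S.fS t (b + M) - S.fS t M - S.fS t b with hΔ
  have hT1 : 0 ≤ 1 + T := by linarith only [hT]
  have h7 : (∑ ω, (S.P.pi n).w ω * S.dif t n N' b M ω) + 2 * Real.log 3 - (S.fS t M - E - Ci)
      ≤ Δ + E + C := by
    rw [hΔ, hC]; linarith only [hCg, hC5, h4, h5, h6]
  have h8 : Cg * (1 + T) * ((∑ ω, (S.P.pi n).w ω * S.dif t n N' b M ω) + 2 * Real.log 3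
          - (S.fS t M - E - Ci))
      ≤ Cg * (1 + T) * (Δ + E + C) :=
    mul_le_mul_of_nonneg_left h7 (mul_nonneg hCg hT1)
  rw [hht] at h1
  have hΔ0 : 0 ≤ Δ + E + C := by
    rw [hΔ, hC]; linarith only [hCi, hCg, hl3, hE0, hsup]
  have hCgC : Cg ≤ C := by rw [hC]; linarith only [hCi, hl3, hC5]
  have h11 : Cg * (1 + T) * (Δ + E + C) ≤ C * (1 + T) * (Δ + E + C) := by (clear * - hCgC hT hΔ0; gcongr)
  have h12 : Cg * M * Real.exp (-T) ≤ C * M * Real.exp (-T) := by (clear * - hCgC; gcongr)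
  linarith only [h12, h11, h8, h3, h1, hC5, hl3, hCi]

end Sys

lemma ev_log_sqrt (A e : ℝ) (hA : 0 ≤ A) (he : 0 < e) :
    ∀ᶠ n : ℕ in Filter.atTop, A * Real.log (Nat.log 2 n + 2) * Real.sqrt n ≤ e * n := by
  have h1 := (isLittleO_log_rpow_atTop (show (0 : ℝ) < 1 / 2 by norm_num)).bound
    (show (0 : ℝ) < e / (2 * (A + 1)) by positivity)
  have h2 := (Filter.tendsto_atTop_add_const_right Filter.atTop (2 : ℝ)
    tendsto_natCast_atTop_atTop).eventually h1
  filter_upwards [h2, Filter.eventually_ge_atTop 2] with n hn hn2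
  have hnR : (2 : ℝ) ≤ n := by exact_mod_cast hn2
  have hlog0 : 0 ≤ Real.log ((n : ℝ) + 2) := Real.log_nonneg (by linarith only [])
  rw [Real.norm_of_nonneg hlog0, Real.norm_of_nonneg (by positivity),
    ← Real.sqrt_eq_rpow] at hn
  have h3 : Real.log ((Nat.log 2 n : ℕ) + 2 : ℝ) ≤ Real.log ((n : ℝ) + 2) := by
    refine Real.log_le_log (by positivity) ?_
    have : Nat.log 2 n ≤ n := Nat.log_le_self 2 n
    have : ((Nat.log 2 n : ℕ) : ℝ) ≤ n := by exact_mod_cast this
    linarith only [this]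
  have h4 : Real.sqrt ((n : ℝ) + 2) ≤ 2 * Real.sqrt n := by
    rw [Real.sqrt_le_left (by (clear * - hn2; positivity)), mul_pow, Real.sq_sqrt (by positivity)]
    linarith only [hnR]
  have h5 : Real.sqrt n * Real.sqrt n = n := Real.mul_self_sqrt (by positivity)
  calc A * Real.log (Nat.log 2 n + 2) * Real.sqrt n
      ≤ (A + 1) * (e / (2 * (A + 1)) * (2 * Real.sqrt n)) * Real.sqrt n := by
        refine mul_le_mul_of_nonneg_right ?_ (Real.sqrt_nonneg _)
        refine mul_le_mul (by linarith only []) ?_ (Real.log_nonneg ?_) (by linarith only [hA])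
        · refine h3.trans (hn.trans ?_)
          exact mul_le_mul_of_nonneg_left h4 (by positivity)
        · have : (0 : ℝ) ≤ ((Nat.log 2 n : ℕ) : ℝ) := Nat.cast_nonneg _
          linarith only []
    _ = e * (Real.sqrt n * Real.sqrt n) := by field_simp
    _ = e * n := by rw [h5]

/-- Arithmetic of the gain at one level, with an additional error. -/
lemma gain_arith_slope (α χ ε n H fb C3 T T₀ u K Δ E R : ℝ) (hε : 0 < ε) (hn : 0 < n)
    (hC3 : 0 ≤ C3) (hu : 1 / 2 < u) (hT : T = 2 * u + T₀) (hT₀ : 0 ≤ T₀)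
    (hK : K = 2 * T₀ + 4) (hfb : fb ≤ α * χ * n + ε / 4 * n) (hE : E ≤ ε / 4 * n)
    (h1 : H ≤ fb + C3 * (1 + T) * (Δ + R + C3) + E)
    (h2 : (α * χ + ε) * n < H) (hR : R ≤ ε / (4 * (C3 + 1) * K) * n / u) :
    ε / (4 * (C3 + 1) * K) * n / u ≤ Δ + C3 := by
  have h3 := Sys.gain_arith α χ ε n H (fb - C3) C3 (ε / 4 * n - C3) T T₀ u K (Δ + R) E hε hn hC3
    hu hT hT₀ hK (by linarith only [hfb]) hE (by linarith only []) (by linarith only [h1]) h2
  have hu0 : 0 < u := by linarith only [hu]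
  have hK0 : 0 < K := by rw [hK]; linarith only [hT₀]
  have e1 : ε / (2 * (C3 + 1) * K) * n / u = 2 * (ε / (4 * (C3 + 1) * K) * n / u) := by
    field_simp
    ring
  linarith only [hR, h3, e1]

namespace Sys
variable (S : Sys Λ)

theorem H_prime_slope (t : Λ → ℝ) (hα : S.alpha t < 1) (ε : ℝ) (hε : 0 < ε) (n0 : ℕ) :
    ∃ n ≥ n0, (S.P.pi n).H (fun w => (sl S.r w,
        ⌊(2 : ℝ) ^ (n * (Nat.log 2 n) ^ 2) * tr S.r t w⌋))
      ≤ (S.alpha t * S.χ + ε) * n := by
  by_contra hcon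
  push Not at hcon
  have hl2 : 0 < Real.log 2 := Real.log_pos (by norm_num)
  have hl21 : Real.log 2 ≤ 1 := by
    have := Real.log_two_lt_d9
    linarith
  have hχ := S.χ_pos
  have hα0 := S.alpha_nonneg t
  have hσ := S.σ_pos
  obtain ⟨C3, hC3, hfine⟩ := S.fine_bound_slope t hα
  obtain ⟨C6, hC6, hmono⟩ := S.fS_incr_mono t
  have hC5 := S.C5_nonneg t
  set C5 := S.C5 t with hC5d
  set B : ℝ := S.χ / Real.log 2 with hB
  have hB0 : 0 < B := by positivity
  set T₀ : ℝ := 4 * C3 / ε with hT₀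
  have hT₀0 : 0 ≤ T₀ := by (clear * - hC3 hε; positivity)
  set K : ℝ := 2 * T₀ + 4 with hK
  set κ₁ : ℝ := ε / (4 * (C3 + 1) * K) with hκ₁
  have hκ₁0 : 0 < κ₁ := by (clear * - hε hC3; positivity)
  set C : ℝ := C3 + C5 + C6 with hC
  -- the constants of the coarse part
  set Cc : ℝ := 2 * Real.log 2 + C5 + Real.log 3 + Real.log (2 * S.D t + 3) + C3 with hCc
  have ev1 := ev_small (2 * Fintype.card Λ) S.σ Cc (ε / 4) (by positivity)
  have ev2 := ev_log_sqrt (S.σ + Real.log 2) κ₁ (by (clear * - hσ; positivity)) hκ₁0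
  obtain ⟨n2, hn2⟩ := Filter.eventually_atTop.1 (ev1.and ev2)
  refine multiscale (S.fS t) C B κ₁ hB0 (by (clear * - hC3 hC5 hC6; positivity)) hκ₁0 (S.fS_nonneg t) ?_ ?_ ?_
    (max n0 (n2 + 1)) ?_
  · intro b
    have h1 := S.fS_le_alpha t b
    rw [← hC5d] at h1
    have h2 : S.alpha t * (b * Real.log 2) ≤ 1 * (b * 1) := by (clear * - hα hl21; gcongr)
    linarith only [hC3, hC6, h1, h2]
  · intro a b
    have h1 := S.fS_superadd t a b
    rw [← hC5d] at h1
    linarith only [hC3, hC6, h1]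
  · intro j b W
    have h1 := hmono j b W
    linarith only [hC3, hC5, h1]
  · intro n hn hbN
    have hn0 : n0 ≤ n := (le_max_left _ _).trans hn
    have hn2' : n2 + 1 ≤ n := (le_max_right _ _).trans hn
    obtain ⟨hev1, hev2⟩ := hn2 n (by omega)
    set l := Nat.log 2 n with hl
    set b := ⌊(n : ℝ) * B⌋₊ with hb
    set M := n * l ^ 2 - b with hM
    have hbM : b + M = n * l ^ 2 := by omega
    have hnR : (0 : ℝ) < n := by
      have : 0 < n := by omega
      exact_mod_cast this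
    have hn1R : (1 : ℝ) ≤ n := by
      have : 1 ≤ n := by omega
      exact_mod_cast this
    have hnB : 0 ≤ (n : ℝ) * B := by (clear * - hnR hχ; positivity)
    have hb1 : (b : ℝ) ≤ n * B := Nat.floor_le hnB
    have hb2 : n * B < b + 1 := Nat.lt_floor_add_one _
    have hBl : n * B * Real.log 2 = n * S.χ := by rw [hB]; (clear * - hχ hnR; field_simp)
    have hb1' : b * Real.log 2 ≤ n * S.χ := by
      rw [← hBl]; exact mul_le_mul_of_nonneg_right hb1 hl2.le
    have hb2' : n * S.χ ≤ (b + 1) * Real.log 2 := by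
      rw [← hBl]; exact mul_le_mul_of_nonneg_right hb2.le hl2.le
    set u : ℝ := Real.log (l + 2) with hu
    have hu2 : 1 / 2 < u := half_lt_log_add_two l
    have hu0 : 0 < u := by linarith only [hu2]
    have h1 := hfine n b M (2 * u + T₀) (by linarith only [hT₀0, hu2])
    rw [hbM] at h1
    have h2 := hcon n hn0
    -- the error
    set R := ∑ w, (S.P.pi n).w w * max 0 (-Real.log (2 ^ b * |sl S.r w|)) with hR
    have hRle : R ≤ Real.log 2 + S.σ * Real.sqrt n := by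
      have h8 : ∀ w : Fin n → Λ, max 0 (-Real.log (2 ^ b * |sl S.r w|))
          ≤ Real.log 2 + |Real.log |sl S.r w| + S.χ * n| := by
        intro w
        have hsl := S.abs_sl_pos w
        have h9 : Real.log (2 ^ b * |sl S.r w|) = (b * Real.log 2 - S.χ * n)
            + (Real.log |sl S.r w| + S.χ * n) := by
          rw [Real.log_mul (by positivity) hsl.ne', Real.log_pow]; ring
        rw [h9]
        have h10 := neg_abs_le (Real.log |sl S.r w| + S.χ * n)
        have h11 := abs_nonneg (Real.log |sl S.r w| + S.χ * n)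
        refine max_le (by linarith only [hl2, h11]) (by linarith only [hb2', h10])
      refine ((S.P.pi n).sum_mono h8).trans ?_
      simp only [mul_add, Finset.sum_add_distrib, (S.P.pi n).sum_const]
      have := S.dev_le n
      linarith only [this]
    have hRn : R ≤ κ₁ * n / u := by
      rw [le_div_iff₀ hu0]
      have h3 : R * u ≤ (Real.log 2 + S.σ * Real.sqrt n) * u :=
        mul_le_mul_of_nonneg_right hRle hu0.le
      refine h3.trans (le_trans ?_ hev2)
      have h4 : 1 ≤ Real.sqrt n := Real.one_le_sqrt.2 hn1R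
      have h5 : Real.log 2 ≤ Real.log 2 * Real.sqrt n := le_mul_of_one_le_right hl2.le h4
      have h6 : (Real.log 2 + S.σ * Real.sqrt n) * u
          ≤ (Real.log 2 * Real.sqrt n + S.σ * Real.sqrt n) * u :=
        mul_le_mul_of_nonneg_right (by linarith only [h5]) hu0.le
      refine h6.trans (le_of_eq ?_)
      rw [hu]
      ring
    -- the coarse part
    have hco : (S.P.pi n).H (fun w => (sl S.r w, ⌊(2 : ℝ) ^ b * tr S.r t w⌋)) + C3
        ≤ S.alpha t * S.χ * n + ε / 4 * n := by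
      have h3 := FinProb.H_pair_le (S.P.pi n) (fun w => sl S.r w)
        (fun w => ⌊(2 : ℝ) ^ b * tr S.r t w⌋)
      have h4 := S.H_sl_le n
      have h5 := S.H_coarse_le t n b
      have h6 : |b * Real.log 2 - S.χ * n| ≤ Real.log 2 := by
        rw [abs_le]; constructor <;> linarith only [hb2', hl2, hb1']
      have h7 : S.alpha t * (b * Real.log 2) ≤ S.alpha t * (n * S.χ) := by (clear * - hb1' hα0; gcongr)
      rw [hCc] at hev1
      have e3 : S.alpha t * (n * S.χ) = S.alpha t * S.χ * n := by ring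
      rw [e3] at h7
      rw [hC5d] at hev1
      linarith only [h7, h6, h5, h4, h3, hev1, hl2]
    have hE : C3 * M * Real.exp (-(2 * u + T₀)) ≤ ε / 4 * n := by
      rw [hu, exp_neg_two_mul_log_add]
      have hMle : (M : ℝ) ≤ n * ((l : ℝ) + 2) ^ 2 := by
        have h5 : M ≤ n * l ^ 2 := Nat.sub_le _ _
        have h6 : (M : ℝ) ≤ n * (l : ℝ) ^ 2 := by exact_mod_cast h5
        have h7 : (l : ℝ) ^ 2 ≤ ((l : ℝ) + 2) ^ 2 := by
          have : (0 : ℝ) ≤ l := Nat.cast_nonneg l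
          gcongr
          linarith only []
        exact h6.trans (by (clear * - h7 hnR; gcongr))
      have h8 : C3 * Real.exp (-T₀) ≤ ε / 4 := by
        have h9 : T₀ + 1 ≤ Real.exp T₀ := Real.add_one_le_exp T₀
        rw [Real.exp_neg, ← div_eq_mul_inv, div_le_iff₀ (Real.exp_pos _)]
        have h10 : ε / 4 * T₀ = C3 := by rw [hT₀]; (clear * - hε; field_simp)
        have h11 : ε / 4 * (T₀ + 1) ≤ ε / 4 * Real.exp T₀ := by (clear * - h9 hε; gcongr)
        linarith only [hε, h10, h11]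
      have hp : (0 : ℝ) < ((l : ℝ) + 2) ^ 2 := by (clear * -; positivity)
      calc C3 * M * (Real.exp (-T₀) / ((l : ℝ) + 2) ^ 2)
          = (C3 * Real.exp (-T₀)) * (M / ((l : ℝ) + 2) ^ 2) := by ring
        _ ≤ ε / 4 * n := by
            refine mul_le_mul h8 ?_ (by (clear * -; positivity)) (by positivity)
            rw [div_le_iff₀ hp]
            exact hMle
    have h3 := gain_arith_slope (S.alpha t) S.χ ε n _
      ((S.P.pi n).H (fun w => (sl S.r w, ⌊(2 : ℝ) ^ b * tr S.r t w⌋)) + C3) C3 (2 * u + T₀) T₀ u K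
      (S.fS t (n * l ^ 2) - S.fS t M - S.fS t b) _ R hε hnR hC3 hu2 rfl hT₀0 hK hco hE
      (by rw [hR]; exact h1) h2 hRn
    rw [← hκ₁] at h3
    linarith only [hC6, hC5, h3]

end Sys

end Vale.Agent.P114
end
end

section

/-!
T10, weighted z-adic entropy: comparison of `gW` with words of a fixed length; deviations of the
weight.
-/

open scoped Classical

noncomputable section

namespace Vale.Agent.P114

open FinProb

/-- `gW m = H (Z)`, `Z (w, v) = tru m (zsumW (w ++ v))`, `w` of `n` letters, `v` of `m` letters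
(`gW_eq`, `H_pi_add`). `Z` is determined by `(wtl w, f w)` if `m ≤ wtl w` (`zsumW_append`,
`hz_tru_shift_ge`, `hf`), otherwise it has at most `card Λ ^ (n + m)` values; use
`H_le_add_E_log_card` with `g = (wtl w, f w)` and `S b = univ.image Z` if `b.1 < m`, and
`{the common value}` (or `(univ.filter (g = b)).image Z`, of card at most one) otherwise. -/
theorem gW_le {Λ : Type} [Fintype Λ] (P : FinProb Λ) (wt : Λ → ℕ) (sg : Λ → ℤ)
    (hwt : ∀ i, 1 ≤ wt i) {ι : Type} (x : Λ → ℕ → (ι → ℤ)) (n m : ℕ) {α : Type}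
    (f : (Fin n → Λ) → α)
    (hf : ∀ w w' : Fin n → Λ, m ≤ wtl wt (List.ofFn w) →
      wtl wt (List.ofFn w) = wtl wt (List.ofFn w') → f w = f w' →
      tru m (zsumW wt sg x (List.ofFn w)) = tru m (zsumW wt sg x (List.ofFn w'))) :
    gW wt sg x P m ≤ (P.pi n).H (fun w => (wtl wt (List.ofFn w), f w))
      + (∑ w, if wtl wt (List.ofFn w) < m then (P.pi n).w w else 0)
        * ((n + m) * Real.log (Fintype.card Λ)) := by
  have e0 : gW wt sg x P m = ((P.pi n).prod (P.pi m)).H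
      (fun y => tru m (zsumW wt sg x (List.ofFn y.1 ++ List.ofFn y.2))) := by
    rw [← gW_eq wt sg x P hwt m (n + m) (by omega), ← P.H_pi_add n m]
    simp only [List.ofFn_fin_append]
  set F : (Fin n → Λ) × (Fin m → Λ) → (ℕ → (ι → ℤ)) :=
    fun y => tru m (zsumW wt sg x (List.ofFn y.1 ++ List.ofFn y.2)) with hF
  set g : (Fin n → Λ) × (Fin m → Λ) → ℕ × α :=
    fun y => (wtl wt (List.ofFn y.1), f y.1) with hg
  set K : ℕ × α → ℝ := fun b => if b.1 < m then (Fintype.card Λ : ℝ) ^ (n + m) else 1 with hK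
  have h1 := ((P.pi n).prod (P.pi m)).H_le_add_E_log_card F g
    (fun b => (Finset.univ.filter (fun y => g y = b)).image F) K
    (fun y => Finset.mem_image_of_mem _ (Finset.mem_filter.2 ⟨Finset.mem_univ _, rfl⟩))
    (by
      intro b
      simp only [hK]
      split_ifs with hb
      · have hc : ((Finset.univ.filter (fun y => g y = b)).image F).card
            ≤ Fintype.card Λ ^ (n + m) := by
          refine Finset.card_image_le.trans ((Finset.card_filter_le _ _).trans ?_)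
          rw [Finset.card_univ, Fintype.card_prod, Fintype.card_fun, Fintype.card_fun,
            Fintype.card_fin, Fintype.card_fin, pow_add]
        exact_mod_cast hc
      · have hc : ((Finset.univ.filter (fun y => g y = b)).image F).card ≤ 1 := by
          rw [Finset.card_le_one]
          intro a ha a' ha'
          rw [Finset.mem_image] at ha ha'
          obtain ⟨y, hy, rfl⟩ := ha
          obtain ⟨y', hy', rfl⟩ := ha'
          rw [Finset.mem_filter] at hy hy'
          have q1 := hy.2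
          have q2 := hy'.2
          have q3 : g y = g y' := by rw [q1, q2]
          simp only [hg, Prod.mk.injEq] at q3
          have q4 : m ≤ wtl wt (List.ofFn y.1) := by
            have : (g y).1 = b.1 := by rw [q1]
            simp only [hg] at this
            omega
          have q5 : m ≤ wtl wt (List.ofFn y'.1) := by omega
          simp only [hF]
          rw [zsumW_append, zsumW_append, hz_tru_add, hz_tru_add, hz_tru_smul, hz_tru_smul,
            hz_tru_shift_ge _ _ q4, hz_tru_shift_ge _ _ q5, smul_zero, smul_zero, add_zero,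
            add_zero]
          exact hf _ _ q4 q3.1 q3.2
        exact_mod_cast hc)
  rw [e0]
  refine h1.trans (add_le_add ?_ ?_)
  · exact le_of_eq ((P.pi n).H_prod_fst (P.pi m) (fun w => (wtl wt (List.ofFn w), f w)))
  · rw [(P.pi n).sum_prod_w (P.pi m) (fun y => Real.log (K (g y)))]
    rw [Finset.sum_mul]
    refine Finset.sum_le_sum fun w _ => ?_
    have : ∑ v, (P.pi m).w v * Real.log (K (g (w, v))) =
        if wtl wt (List.ofFn w) < m then (n + m) * Real.log (Fintype.card Λ) else 0 := by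
      simp only [hK, hg]
      split_ifs with h
      · rw [(P.pi m).sum_const, Real.log_pow]
        push_cast
        ring
      · simp only [pi_w, Real.log_one, mul_zero, Finset.sum_const_zero]
    rw [this]
    split_ifs
    · exact le_rfl
    · simp only [pi_w, mul_zero, zero_mul, Std.le_refl]

/-- First absolute moment of the deviation of the weight. Template: `Sys.dev_le` in
`AlphaProp.lean` (`abs_moment_le`, `second_moment`). -/
theorem wtl_dev {Λ : Type} [Fintype Λ] (P : FinProb Λ) (wt : Λ → ℕ) :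
    ∃ σ : ℝ, 0 ≤ σ ∧ ∀ n : ℕ, ∑ w, (P.pi n).w w *
      |(wtl wt (List.ofFn w) : ℝ) - (∑ i, P.w i * wt i) * n| ≤ σ * Real.sqrt n := by
  set μ : ℝ := ∑ i, P.w i * wt i with hμ
  set V : ℝ := ∑ i, P.w i * ((wt i : ℝ) - μ) ^ 2 with hV
  have hV0 : 0 ≤ V := Finset.sum_nonneg fun i _ => mul_nonneg (P.nonneg i) (sq_nonneg _)
  refine ⟨Real.sqrt V, Real.sqrt_nonneg _, fun n => ?_⟩
  refine (P.pi n).abs_moment_le _ _ (mul_nonneg (Real.sqrt_nonneg _) (Real.sqrt_nonneg _)) ?_
  have h1 := P.second_moment n (fun _ i => (wt i : ℝ) - μ) (by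
    intro _
    simp only [mul_sub]
    rw [Finset.sum_sub_distrib, P.sum_const, sub_self])
  have h2 : ∀ w : Fin n → Λ, (wtl wt (List.ofFn w) : ℝ) - μ * n = ∑ k, ((wt (w k) : ℝ) - μ) := by
    intro w
    rw [Finset.sum_sub_distrib]
    simp only [wtl, List.map_ofFn, List.sum_ofFn, Function.comp]
    push_cast
    simp only [mul_comm, Finset.sum_const, Finset.card_univ, Fintype.card_fin, nsmul_eq_mul]
  simp only [h2]
  rw [h1, mul_pow, Real.sq_sqrt (Nat.cast_nonneg n), Real.sq_sqrt hV0]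
  simp only [Finset.sum_const, Finset.card_univ, Fintype.card_fin, nsmul_eq_mul, hV, mul_comm, Std.le_refl]

end Vale.Agent.P114
end
end

section

/-!
T10, weighted z-adic entropy.
-/

open scoped Classical

noncomputable section

namespace Vale.Agent.P114

open FinProb

section

variable {Λ : Type} [Fintype Λ] (P : FinProb Λ) (wt : Λ → ℕ) (sg : Λ → ℤ)
    {ι : Type} (x : Λ → ℕ → (ι → ℤ))

/-- The slope takes few values. -/
lemma slopeW_H (hsg : ∀ i, sg i = 1 ∨ sg i = -1) (A : ℕ) (hA : ∀ i, wt i ≤ A) (n : ℕ) :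
    (P.pi n).H (fun w => (wtl wt (List.ofFn w), sgl sg (List.ofFn w)))
      ≤ Real.log (n + 1) + Real.log (2 * (A + 1)) := by
  have h1 := (P.pi n).H_le_log_card
    (fun w => (wtl wt (List.ofFn w), sgl sg (List.ofFn w)))
    (Finset.range (A * n + 1) ×ˢ ({1, -1} : Finset ℤ)) (by
      intro w
      rw [Finset.mem_product]
      constructor
      · rw [Finset.mem_range]
        have h2 := wtl_le wt A hA (List.ofFn w)
        rw [List.length_ofFn] at h2
        simp only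
        omega
      · simp only [Finset.mem_insert, Finset.mem_singleton]
        exact sgl_pm sg hsg _)
  rw [Finset.card_product, Finset.card_range] at h1
  have h2 : ({1, -1} : Finset ℤ).card = 2 := by decide
  rw [h2] at h1
  push_cast at h1
  refine h1.trans ?_
  rw [← Real.log_mul (by (clear * -; positivity)) (by positivity)]
  refine Real.log_le_log (by positivity) ?_
  have hn : (0 : ℝ) ≤ n := Nat.cast_nonneg n
  have hA0 : (0 : ℝ) ≤ A := Nat.cast_nonneg A
  linarith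

/-- The slope of a word. -/
def slW (w : List Λ) : ℕ × ℤ := (wtl wt w, sgl sg w)

/-- The digits up to the weight. -/
def nat_ (w : List Λ) : ℕ → (ι → ℤ) := tru (wtl wt w) (zsumW wt sg x w)

/-- Conditional natural entropy. -/
def bW (n : ℕ) : ℝ :=
  ∑ ω, (P.pi n).w ω * ((P.pi n).cond (fun w => slW wt sg (List.ofFn w))
    (slW wt sg (List.ofFn ω))).H (fun w => nat_ wt sg x (List.ofFn w))

lemma bW_eq (n : ℕ) : (P.pi n).H (fun w => (nat_ wt sg x (List.ofFn w), slW wt sg (List.ofFn w)))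
    = (P.pi n).H (fun w => slW wt sg (List.ofFn w)) + bW P wt sg x n :=
  (P.pi n).H_pair_eq_cond (fun w => nat_ wt sg x (List.ofFn w)) (fun w => slW wt sg (List.ofFn w))

/-- Mean of the entropies of the tails. -/
def eW (n M : ℕ) : ℝ :=
  ∑ ω, (P.pi n).w ω * gW wt sg x P (M - wtl wt (List.ofFn ω))

/-- One class. -/
lemma classW (hwt : ∀ i, 1 ≤ wt i) (hsg : ∀ i, sg i = 1 ∨ sg i = -1) (A0 : ℕ)
    (hA : ∀ i, wt i ≤ A0) (n M : ℕ) (hM : A0 * n ≤ M) (a' : ℝ) (ha' : 0 ≤ a')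
    (hinc : ∀ s, gW wt sg x P (s + 1) - gW wt sg x P s ≤ a') (k : ℕ) (hk0 : 0 < k)
    (hk : a' + 1 ≤ hzBin k) (T : ℝ) (hT : 0 ≤ T) (ω : Fin n → Λ) (hω : 0 < (P.pi n).w ω) :
    let c := (P.pi n).cond (fun w => slW wt sg (List.ofFn w)) (slW wt sg (List.ofFn ω))
    let HZ := (c.prod (P.pi M)).H (fun y => tru M (zsumW wt sg x (List.ofFn y.1 ++ List.ofFn y.2)))
    c.H (fun w => tru M (zsumW wt sg x (List.ofFn w)))
      ≤ c.H (fun w => nat_ wt sg x (List.ofFn w))
        + (T * k + 1 + a' * k) * (HZ - c.H (fun w => nat_ wt sg x (List.ofFn w))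
          - gW wt sg x P (M - wtl wt (List.ofFn ω))) + M * Real.exp (-T) ∧
    c.H (fun w => nat_ wt sg x (List.ofFn w)) + gW wt sg x P (M - wtl wt (List.ofFn ω)) ≤ HZ := by
  intro c HZ
  set A := wtl wt (List.ofFn ω) with hAd
  set σ := sgl sg (List.ofFn ω) with hσd
  have hAM : A ≤ M := by
    have h2 := wtl_le wt A0 hA (List.ofFn ω)
    rw [List.length_ofFn] at h2
    omega
  have hσ := sgl_pm sg hsg (List.ofFn ω)
  have hsupp : ∀ w, 0 < c.w w → wtl wt (List.ofFn w) = A ∧ sgl sg (List.ofFn w) = σ := by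
    intro w hw
    have h := (P.pi n).cond_supp (fun w => slW wt sg (List.ofFn w)) ω hω w hw
    exact ⟨congrArg Prod.fst h, congrArg Prod.snd h⟩
  have e1 : c.H (fun w => nat_ wt sg x (List.ofFn w))
      = c.H (fun w => tru A (zsumW wt sg x (List.ofFn w))) := by
    refine c.H_congr_supp _ _ fun w hw => ?_
    unfold nat_
    rw [(hsupp w hw).1]
  have e2 : HZ = (c.prod (P.pi M)).H (fun y => tru M (zsumW wt sg x (List.ofFn y.1)
      + σ • hzShift A (zsumW wt sg x (List.ofFn y.2)))) := by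
    refine (c.prod (P.pi M)).H_congr_supp _ _ fun y hy => ?_
    have h3 : 0 < c.w y.1 := by
      rcases c.w_zero_or_pos y.1 with h | h
      · simp only [prod_w, h, pi_w, zero_mul, lt_self_iff_false] at hy
      · exact h
    obtain ⟨h1, h2⟩ := hsupp y.1 h3
    rw [zsumW_append, h1, h2]
  constructor
  · have h1 := hz_all_w P wt sg hwt x c (fun w => zsumW wt sg x (List.ofFn w)) A M M hAM
      (by omega) σ hσ a' ha' hinc k hk0 hk T hT
    rw [← e2, ← e1] at h1
    have h2 : ((M - A : ℕ) : ℝ) * Real.exp (-T) ≤ M * Real.exp (-T) := by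
      refine mul_le_mul_of_nonneg_right ?_ (Real.exp_pos _).le
      exact_mod_cast Nat.sub_le M A
    linarith only [h1, h2]
  · rw [e2, e1]
    have h1 := c.prod_cond_le (P.pi M) (fun y => tru M (zsumW wt sg x (List.ofFn y.1)
      + σ • hzShift A (zsumW wt sg x (List.ofFn y.2))))
      (fun y => tru A (zsumW wt sg x (List.ofFn y.1))) (by
        intro y z h
        have e3 : ∀ y : (Fin n → Λ) × (Fin M → Λ), tru A (zsumW wt sg x (List.ofFn y.1))
            = tru A (tru M (zsumW wt sg x (List.ofFn y.1)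
              + σ • hzShift A (zsumW wt sg x (List.ofFn y.2)))) := by
          intro y
          rw [hz_tru_tru A M hAM, hz_tru_add, hz_tru_smul, hz_tru_shift_ge A A le_rfl, smul_zero,
            add_zero]
        rw [e3 y, e3 z]
        exact congrArg _ h)
    have h2 : ∀ a : Fin n → Λ, (P.pi M).H (fun b => tru M (zsumW wt sg x (List.ofFn a)
      + σ • hzShift A (zsumW wt sg x (List.ofFn b)))) = gW wt sg x P (M - A) := by
      intro a
      rw [← gW_shift wt sg x P hwt σ hσ A M M (Nat.sub_le _ _)]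
      exact H_congr_det _ fun v w => by
        rw [hz_tru_add, hz_tru_add, add_right_inj]
    have h3 : ∀ a : Fin n → Λ, (P.pi M).H (fun _ => tru A (zsumW wt sg x (List.ofFn a))) = 0 :=
      fun a => hz_const _ _ fun _ _ => rfl
    simp only [h2, h3, sub_zero, c.sum_const] at h1
    rw [c.H_prod_fst (P.pi M) (fun w => tru A (zsumW wt sg x (List.ofFn w)))] at h1
    linarith only [h1]

/-- All classes. -/
lemma sumW (hwt : ∀ i, 1 ≤ wt i) (hsg : ∀ i, sg i = 1 ∨ sg i = -1) (A0 : ℕ)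
    (hA : ∀ i, wt i ≤ A0) (n M : ℕ) (hM : A0 * n ≤ M) (a' : ℝ) (ha' : 0 ≤ a')
    (hinc : ∀ s, gW wt sg x P (s + 1) - gW wt sg x P s ≤ a') (k : ℕ) (hk0 : 0 < k)
    (hk : a' + 1 ≤ hzBin k) (T : ℝ) (hT : 0 ≤ T) :
    (P.pi n).H (fun w => (tru M (zsumW wt sg x (List.ofFn w)), slW wt sg (List.ofFn w)))
      ≤ (P.pi n).H (fun w => slW wt sg (List.ofFn w)) + bW P wt sg x n
        + (T * k + 1 + a' * k) * (gW wt sg x P M - bW P wt sg x n - eW P wt sg x n M)
        + M * Real.exp (-T) ∧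
    bW P wt sg x n + eW P wt sg x n M ≤ gW wt sg x P M := by
  set c := fun ω : Fin n → Λ => (P.pi n).cond (fun w => slW wt sg (List.ofFn w))
    (slW wt sg (List.ofFn ω)) with hc
  set HZ := fun ω : Fin n → Λ => ((c ω).prod (P.pi M)).H
    (fun y => tru M (zsumW wt sg x (List.ofFn y.1 ++ List.ofFn y.2))) with hHZ
  set K : ℝ := T * k + 1 + a' * k with hK
  have hK0 : 0 ≤ K := by (clear * - hT hk0 ha'; positivity)
  have hcl := fun ω (hω : 0 < (P.pi n).w ω) =>
    classW P wt sg x hwt hsg A0 hA n M hM a' ha' hinc k hk0 hk T hT ω hω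
  have hmix : ∑ ω, (P.pi n).w ω * HZ ω ≤ gW wt sg x P M := by
    have h1 := (P.pi n).prod_cond_mix (P.pi M) (fun w => slW wt sg (List.ofFn w))
      (fun y => tru M (zsumW wt sg x (List.ofFn y.1 ++ List.ofFn y.2))) (fun _ => ())
      (fun _ _ _ => rfl)
    have h2 : ((P.pi n).prod (P.pi M)).H (fun _ => ()) = 0 := hz_const _ _ fun _ _ => rfl
    have h3 : ∀ ω, ((c ω).prod (P.pi M)).H (fun _ => ()) = 0 :=
      fun ω => hz_const _ _ fun _ _ => rfl
    have h4 : ((P.pi n).prod (P.pi M)).H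
        (fun y => tru M (zsumW wt sg x (List.ofFn y.1 ++ List.ofFn y.2))) = gW wt sg x P M := by
      rw [← gW_eq wt sg x P hwt M (n + M) (by omega), ← P.H_pi_add n M]
      congr 1
      funext y
      rw [List.ofFn_fin_append]
    rw [h2, h4, sub_zero] at h1
    refine le_trans (le_of_eq ?_) h1
    refine Finset.sum_congr rfl fun ω _ => ?_
    have := h3 ω
    simp only [hc] at this
    rw [this, sub_zero]
  constructor
  · rw [(P.pi n).H_pair_eq_cond (fun w => tru M (zsumW wt sg x (List.ofFn w)))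
      (fun w => slW wt sg (List.ofFn w))]
    have h1 : ∑ ω, (P.pi n).w ω * (c ω).H (fun w => tru M (zsumW wt sg x (List.ofFn w)))
        ≤ ∑ ω, (P.pi n).w ω * ((c ω).H (fun w => nat_ wt sg x (List.ofFn w))
        + K * (HZ ω - (c ω).H (fun w => nat_ wt sg x (List.ofFn w))
          - gW wt sg x P (M - wtl wt (List.ofFn ω))) + M * Real.exp (-T)) := by
      refine Finset.sum_le_sum fun ω _ => ?_
      rcases (P.pi n).w_zero_or_pos ω with h | h
      · rw [h, zero_mul, zero_mul]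
      · exact mul_le_mul_of_nonneg_left (hcl ω h).1 h.le
    have h2 : ∑ ω, (P.pi n).w ω * ((c ω).H (fun w => nat_ wt sg x (List.ofFn w))
        + K * (HZ ω - (c ω).H (fun w => nat_ wt sg x (List.ofFn w))
          - gW wt sg x P (M - wtl wt (List.ofFn ω))) + M * Real.exp (-T))
        = bW P wt sg x n + K * ((∑ ω, (P.pi n).w ω * HZ ω) - bW P wt sg x n - eW P wt sg x n M)
          + M * Real.exp (-T) := by
      unfold bW eW
      have e1 : ∀ ω, (P.pi n).w ω * ((c ω).H (fun w => nat_ wt sg x (List.ofFn w))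
        + K * (HZ ω - (c ω).H (fun w => nat_ wt sg x (List.ofFn w))
          - gW wt sg x P (M - wtl wt (List.ofFn ω))) + M * Real.exp (-T))
          = (P.pi n).w ω * (c ω).H (fun w => nat_ wt sg x (List.ofFn w))
            + K * ((P.pi n).w ω * HZ ω - (P.pi n).w ω * (c ω).H
              (fun w => nat_ wt sg x (List.ofFn w))
              - (P.pi n).w ω * gW wt sg x P (M - wtl wt (List.ofFn ω)))
            + (P.pi n).w ω * (M * Real.exp (-T)) := fun ω => by ring
      rw [Finset.sum_congr rfl fun ω _ => e1 ω, Finset.sum_add_distrib, Finset.sum_add_distrib,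
        FinProb.sum_const, ← Finset.mul_sum, Finset.sum_sub_distrib, Finset.sum_sub_distrib]
    have h3 := mul_le_mul_of_nonneg_left hmix hK0
    simp only [hc] at h1 h2
    linarith only [h3, h1, h2]
  · refine le_trans ?_ hmix
    unfold bW eW
    rw [← Finset.sum_add_distrib]
    refine Finset.sum_le_sum fun ω _ => ?_
    rw [← mul_add]
    rcases (P.pi n).w_zero_or_pos ω with h | h
    · rw [h, zero_mul, zero_mul]
    · exact mul_le_mul_of_nonneg_left (hcl ω h).2 h.le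

/-- Deviation bound with `gW_le`. -/
lemma gW_le' (hwt : ∀ i, 1 ≤ wt i) (σ : ℝ)
    (hσ : ∀ n : ℕ, ∑ w, (P.pi n).w w *
      |(wtl wt (List.ofFn w) : ℝ) - (∑ i, P.w i * wt i) * n| ≤ σ * Real.sqrt n)
    (n : ℕ) (hn : 0 < n) (e : ℝ) (he : 0 < e) (m : ℕ)
    (hm : (m : ℝ) ≤ ((∑ i, P.w i * wt i) - e) * n) {α : Type} (f : (Fin n → Λ) → α)
    (hf : ∀ w w' : Fin n → Λ, m ≤ wtl wt (List.ofFn w) →
      wtl wt (List.ofFn w) = wtl wt (List.ofFn w') → f w = f w' →
      tru m (zsumW wt sg x (List.ofFn w)) = tru m (zsumW wt sg x (List.ofFn w'))) :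
    gW wt sg x P m ≤ (P.pi n).H (fun w => (wtl wt (List.ofFn w), f w))
      + σ / e * (1 + (∑ i, P.w i * wt i)) * Real.log (Fintype.card Λ) * Real.sqrt n := by
  have h1 := gW_le P wt sg hwt x n m f hf
  set ab : ℝ := ∑ i, P.w i * wt i with hab
  set pr := ∑ w, (if wtl wt (List.ofFn w) < m then (P.pi n).w w else 0) with hpr
  have hab0 : 0 ≤ ab := Finset.sum_nonneg fun i _ => mul_nonneg (P.nonneg i) (Nat.cast_nonneg _)
  have hnR : (0 : ℝ) < n := by exact_mod_cast hn
  have hL : 0 ≤ Real.log (Fintype.card Λ) := Real.log_natCast_nonneg _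
  have h2 : pr * (e * n) ≤ σ * Real.sqrt n := by
    refine le_trans ?_ (hσ n)
    rw [hpr, Finset.sum_mul]
    refine Finset.sum_le_sum fun w _ => ?_
    split_ifs with h
    · refine mul_le_mul_of_nonneg_left ?_ ((P.pi n).nonneg w)
      have h3 : (wtl wt (List.ofFn w) : ℝ) ≤ m := by exact_mod_cast h.le
      rw [abs_sub_comm]
      refine le_trans ?_ (le_abs_self _)
      rw [sub_mul] at hm
      linarith only [hm, h3]
    · rw [zero_mul]
      exact mul_nonneg ((P.pi n).nonneg w) (abs_nonneg _)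
  have hpr0 : 0 ≤ pr := Finset.sum_nonneg fun w _ => by
    split_ifs
    · exact (P.pi n).nonneg w
    · exact le_rfl
  have h3 : pr * n ≤ σ / e * Real.sqrt n := by
    have h4 : pr * n = pr * (e * n) / e := by (clear * - he hn; field_simp)
    rw [h4, div_mul_eq_mul_div]
    exact div_le_div_of_nonneg_right h2 he.le
  have h4 : (n : ℝ) + m ≤ (1 + ab) * n := by
    have : ((ab - e) * n : ℝ) ≤ ab * n := by gcongr; linarith only [he]
    linarith only [hm, this]
  have h5 : pr * ((n + m) * Real.log (Fintype.card Λ))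
      ≤ σ / e * (1 + ab) * Real.log (Fintype.card Λ) * Real.sqrt n := by
    calc pr * ((n + m) * Real.log (Fintype.card Λ))
        ≤ pr * (((1 + ab) * n) * Real.log (Fintype.card Λ)) := by (clear * - h4 hpr0; gcongr)
      _ = (pr * n) * ((1 + ab) * Real.log (Fintype.card Λ)) := by ring
      _ ≤ (σ / e * Real.sqrt n) * ((1 + ab) * Real.log (Fintype.card Λ)) := by (clear * - h3 hab0; gcongr)
      _ = _ := by ring
  linarith only [h1, h5]

end

theorem zadic_H_w {Λ : Type} [Fintype Λ] (P : FinProb Λ) (wt : Λ → ℕ) (sg : Λ → ℤ)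
    (hwt : ∀ i, 1 ≤ wt i) (hsg : ∀ i, sg i = 1 ∨ sg i = -1) {ι : Type} (x : Λ → ℕ → (ι → ℤ))
    (a : ℝ)
    (ha : ∀ e > 0, ∃ m0 : ℕ, ∀ m ≥ m0, ∀ s : ℕ, (s : ℝ) ≤ ((∑ i, P.w i * wt i) - e) * m →
      (P.pi m).H (fun w => if wtl wt (List.ofFn w) < s then none
        else some (tru s (zsumW wt sg x (List.ofFn w)))) ≤ (a + e) * m)
    (Q : ℕ) (ε : ℝ) (hε : 0 < ε) :
    ∃ n0 : ℕ, ∀ n ≥ n0, (P.pi n).H (fun w => (wtl wt (List.ofFn w), sgl sg (List.ofFn w),
        tru (Q * n) (zsumW wt sg x (List.ofFn w))))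
      ≤ (a + ε) * n := by
  set ab : ℝ := ∑ i, P.w i * wt i with hab
  set L : ℝ := Real.log (Fintype.card Λ) with hLd
  have hL : 0 ≤ L := Real.log_natCast_nonneg _
  have hab1 : 1 ≤ ab := by
    rw [hab, ← P.sum_one]
    refine Finset.sum_le_sum fun i _ => ?_
    have h1 : (1 : ℝ) ≤ wt i := by exact_mod_cast hwt i
    have h2 := P.nonneg i
    (clear * - h1 h2; nlinarith)
  set A0 : ℕ := Finset.univ.sup wt with hA0
  have hA : ∀ i, wt i ≤ A0 := fun i => Finset.le_sup (f := wt) (Finset.mem_univ i)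
  obtain ⟨σ, hσ0, hσ⟩ := wtl_dev P wt
  obtain ⟨az, a', haz, ha', hinc, happ⟩ := renewal_growth P wt hwt (gW wt sg x P)
    (gW_zero wt sg x P) (gW_mono wt sg x P hwt) L (gW_le_log wt sg x P)
    (gW_super wt sg x P hwt hsg)
  obtain ⟨k, hk0, hk⟩ := hzBin_large (a' + 1)
  set Q' : ℕ := Q + A0 + 1 with hQ'
  have hQ'0 : (0 : ℝ) < Q' := by rw [hQ']; (clear * -; positivity)
  -- the slope of the profile
  have hslope : az * ab ≤ a := by
    by_contra hcon
    push Not at hcon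
    obtain ⟨δ, hδ, hδ2⟩ : ∃ δ : ℝ, 0 < δ ∧ δ ≤ 1 ∧ δ * (3 + az + ab) < az * ab - a := by
      have h3 : 0 < az * ab - a := by linarith only [hcon]
      have h4 : 0 < 3 + az + ab := by (clear * - haz hab1; positivity)
      refine ⟨min 1 ((az * ab - a) / (2 * (3 + az + ab))), lt_min one_pos (by (clear * - hcon haz hab1; positivity)),
        min_le_left _ _, ?_⟩
      calc min 1 ((az * ab - a) / (2 * (3 + az + ab))) * (3 + az + ab)
          ≤ (az * ab - a) / (2 * (3 + az + ab)) * (3 + az + ab) := by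
            gcongr
            exact min_le_right _ _
        _ = (az * ab - a) / 2 := by (clear * - haz hab1 hcon; field_simp)
        _ < _ := by linarith only [hcon]
    obtain ⟨hδ1, hδ2⟩ := hδ2
    obtain ⟨m0, hm0⟩ := ha (δ / 2) (by (clear * - hδ; positivity))
    obtain ⟨C', hC'⟩ := happ δ hδ
    have ev1 := ev_small 1 (σ / (δ / 2) * (1 + ab) * L) (az + C' + Real.log (2 * (A0 + 1))) δ hδ
    obtain ⟨n, ⟨hn1, hn2⟩, hn3⟩ := ((ev1.and (Filter.eventually_ge_atTop m0)).and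
      (Filter.eventually_gt_atTop 0)).exists
    have hnR : (0 : ℝ) < n := by exact_mod_cast hn3
    set m : ℕ := ⌊(ab - δ / 2) * n⌋₊ with hm
    have hpos : 0 ≤ (ab - δ / 2) * n := mul_nonneg (by linarith only [hab1, hδ1]) hnR.le
    have hm1 : (m : ℝ) ≤ (ab - δ / 2) * n := Nat.floor_le hpos
    have hm2 : (ab - δ / 2) * n < m + 1 := Nat.lt_floor_add_one _
    have h1 := gW_le' P wt sg x hwt σ hσ n hn3 (δ / 2) (by positivity) m hm1
      (fun w => (sgl sg (List.ofFn w), (if wtl wt (List.ofFn w) < m then none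
        else some (tru m (zsumW wt sg x (List.ofFn w))))))
      (fun w w' h5 h6 h => by
        have h7 := (Prod.mk.inj h).2
        rw [if_neg (by (clear * - h5 h6; omega)), if_neg (by omega)] at h7
        exact Option.some.inj h7)
    rw [← hab, ← hLd] at h1
    have h2 : (P.pi n).H (fun w => (wtl wt (List.ofFn w), sgl sg (List.ofFn w),
        (if wtl wt (List.ofFn w) < m then none
        else some (tru m (zsumW wt sg x (List.ofFn w))))))
        ≤ (P.pi n).H (fun w => (wtl wt (List.ofFn w), sgl sg (List.ofFn w)))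
          + (P.pi n).H (fun w => (if wtl wt (List.ofFn w) < m then none
        else some (tru m (zsumW wt sg x (List.ofFn w))))) := by
      refine le_trans ?_ (FinProb.H_pair_le (P.pi n)
        (fun w => (wtl wt (List.ofFn w), sgl sg (List.ofFn w)))
        (fun w => (if wtl wt (List.ofFn w) < m then none
        else some (tru m (zsumW wt sg x (List.ofFn w))))))
      refine H_le_of_det _ fun v w h => ?_
      simp only [Prod.mk.injEq] at h ⊢
      exact ⟨h.1.1, h.1.2, h.2⟩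
    have h3 := slopeW_H P wt sg hsg A0 hA n
    have h4 := hm0 n hn2 m hm1
    have h5 := (abs_le.1 (hC' m)).1
    have h6 : az * ((ab - δ / 2) * n - 1) ≤ az * m := mul_le_mul_of_nonneg_left (by linarith only [hm2]) haz
    have h7 : δ * (m : ℝ) ≤ δ * (ab * n) := by
      refine mul_le_mul_of_nonneg_left (hm1.trans ?_) hδ.le
      gcongr
      linarith only [hδ]
    have h8 : δ * (3 + az + ab) * n < (az * ab - a) * n := mul_lt_mul_of_pos_right hδ2 hnR
    have h9 : 0 ≤ δ * n := by (clear * - hδ hn3; positivity)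
    have h10 : 0 ≤ az * (δ * n) := by (clear * - haz hδ hn3; positivity)
    linarith only [h10, h9, h8, h7, h6, h5, h4, h3, h2, h1, hn1]
  -- parameters
  obtain ⟨T, hT0, hT⟩ : ∃ T : ℝ, 0 ≤ T ∧ Q' * Real.exp (-T) ≤ ε / 4 := by
    refine ⟨max 0 (-Real.log (ε / 4 / Q')), le_max_left _ _, ?_⟩
    have h1 : Real.exp (-max 0 (-Real.log (ε / 4 / Q'))) ≤ ε / 4 / Q' := by
      rw [← Real.le_log_iff_exp_le (by (clear * - hε; positivity))]
      have := le_max_right 0 (-Real.log (ε / 4 / Q'))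
      linarith only [this]
    calc (Q' : ℝ) * Real.exp (-max 0 (-Real.log (ε / 4 / Q'))) ≤ Q' * (ε / 4 / Q') :=
          mul_le_mul_of_nonneg_left h1 hQ'0.le
      _ = ε / 4 := by (clear * - hQ'0 hε; field_simp)
  set K : ℝ := T * k + 1 + a' * k with hK
  have hK0 : 0 < K := by (clear * - hT0 hk0 ha'; positivity)
  obtain ⟨e, he, he1, he2⟩ : ∃ e : ℝ, 0 < e ∧ e ≤ 1 / 2 ∧ (K + 1) * ((az + 2 * Q' + ab) * e) ≤ ε / 4 := by
    refine ⟨min (1 / 2) (ε / 4 / ((K + 1) * (az + 2 * Q' + ab))), lt_min (by norm_num)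
      (by (clear * - hε hT0 hk0 ha' haz hab1; positivity)), min_le_left _ _, ?_⟩
    have h1 : min (1 / 2) (ε / 4 / ((K + 1) * (az + 2 * Q' + ab)))
        ≤ ε / 4 / ((K + 1) * (az + 2 * Q' + ab)) := min_le_right _ _
    calc (K + 1) * ((az + 2 * Q' + ab) * min (1 / 2) (ε / 4 / ((K + 1) * (az + 2 * Q' + ab))))
        = ((K + 1) * (az + 2 * Q' + ab)) * min (1 / 2) (ε / 4 / ((K + 1) * (az + 2 * Q' + ab))) := by
          ring
      _ ≤ ((K + 1) * (az + 2 * Q' + ab)) * (ε / 4 / ((K + 1) * (az + 2 * Q' + ab))) := by (clear * - h1 hT0 hk0 ha' haz hab1; gcongr)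
      _ = ε / 4 := by field_simp
  obtain ⟨C', hC'⟩ := happ e he
  set lA : ℝ := Real.log (2 * (A0 + 1)) with hlA
  have hlA0 : 0 ≤ lA := Real.log_nonneg (by
    have : (0 : ℝ) ≤ A0 := Nat.cast_nonneg _
    linarith only [])
  set B1 : ℝ := σ / e * (1 + ab) * L with hB1
  have hB10 : 0 ≤ B1 := by (clear * - hσ0 he hab1; positivity)
  have ev1 := ev_small (1 + K) (az * σ + K * (az * σ + B1))
    (lA + 2 * |C'| + K * (3 * |C'| + az + lA)) (ε / 4) (by positivity)
  obtain ⟨n0, hn0⟩ := Filter.eventually_atTop.1 ev1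
  refine ⟨n0 + 1, fun n hn => ?_⟩
  have hev := hn0 n (by (clear * - hn; omega))
  have hnpos : 0 < n := by omega
  have hnR : (0 : ℝ) < n := by exact_mod_cast hnpos
  set M : ℕ := Q' * n with hM
  have hMR : (M : ℝ) = Q' * n := by rw [hM]; push_cast; ring
  have hA0M : A0 * n ≤ M := Nat.mul_le_mul_right n (by omega)
  obtain ⟨hs1, hs2⟩ := sumW P wt sg x hwt hsg A0 hA n M hA0M a' ha' hinc k hk0 hk T hT0
  rw [← hK] at hs1
  have hsl := slopeW_H P wt sg hsg A0 hA n
  have hsl' : (P.pi n).H (fun w => slW wt sg (List.ofFn w)) ≤ Real.log (n + 1) + lA := hsl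
  -- the mean of the tails
  have hCab := le_abs_self C'
  have hgM := (abs_le.1 (hC' M)).2
  have hEG : az * (M - ab * n - σ * Real.sqrt n) - e * M - |C'| ≤ eW P wt sg x n M := by
    unfold eW
    have h1 : ∀ w : Fin n → Λ, az * M - az * (ab * n) - az * |(wtl wt (List.ofFn w) : ℝ) - ab * n|
        - (e * M + |C'|) ≤ gW wt sg x P (M - wtl wt (List.ofFn w)) := by
      intro w
      have h2 : wtl wt (List.ofFn w) ≤ M := by
        have h3 := wtl_le wt A0 hA (List.ofFn w)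
        rw [List.length_ofFn] at h3
        omega
      have h3 := (abs_le.1 (hC' (M - wtl wt (List.ofFn w)))).1
      rw [Nat.cast_sub h2] at h3
      have h4 : az * ((wtl wt (List.ofFn w) : ℝ) - ab * n)
          ≤ az * |(wtl wt (List.ofFn w) : ℝ) - ab * n| :=
        mul_le_mul_of_nonneg_left (le_abs_self _) haz
      have h5 : 0 ≤ e * (wtl wt (List.ofFn w) : ℝ) := by (clear * - he; positivity)
      linarith only [hCab, h3, h4, h5]
    have h2 := (P.pi n).sum_mono h1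
    have h3 : ∑ w, (P.pi n).w w * (az * M - az * (ab * n)
          - az * |(wtl wt (List.ofFn w) : ℝ) - ab * n| - (e * M + |C'|))
          = az * M - az * (ab * n) - (e * M + |C'|)
            - az * ∑ w, (P.pi n).w w * |(wtl wt (List.ofFn w) : ℝ) - ab * n| := by
      have h4 : ∀ w, (P.pi n).w w * (az * M - az * (ab * n)
          - az * |(wtl wt (List.ofFn w) : ℝ) - ab * n| - (e * M + |C'|))
          = (P.pi n).w w * (az * M - az * (ab * n) - (e * M + |C'|))
            - az * ((P.pi n).w w * |(wtl wt (List.ofFn w) : ℝ) - ab * n|) := fun w => by ring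
      rw [Finset.sum_congr rfl fun w _ => h4 w, Finset.sum_sub_distrib, FinProb.sum_const,
          ← Finset.mul_sum]
    rw [h3] at h2
    have h4 := mul_le_mul_of_nonneg_left (hσ n) haz
    linarith only [h2, h4]
  -- lower bound of the natural entropy
  have hbl : az * (ab * n) - az * (e * n) - az - e * (ab * n) - |C'|
      - (Real.log (n + 1) + lA) - B1 * Real.sqrt n ≤ bW P wt sg x n := by
    set m : ℕ := ⌊(ab - e) * n⌋₊ with hm
    have hpos : 0 ≤ (ab - e) * n := mul_nonneg (by linarith only [hab1, he1]) hnR.le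
    have hm1 : (m : ℝ) ≤ (ab - e) * n := Nat.floor_le hpos
    have hm2 : (ab - e) * n < m + 1 := Nat.lt_floor_add_one _
    have h1 := gW_le' P wt sg x hwt σ hσ n hnpos e he m hm1
      (fun w => (nat_ wt sg x (List.ofFn w), slW wt sg (List.ofFn w))) (by
        intro w w' h2 h3 h4
        have h5 : nat_ wt sg x (List.ofFn w) = nat_ wt sg x (List.ofFn w') := (Prod.mk.inj h4).1
        unfold nat_ at h5
        rw [← hz_tru_tru m _ h2, h5, hz_tru_tru m _ (by (clear * - h2 h3; omega))])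
    rw [← hab, ← hLd, ← hB1] at h1
    have h2 : (P.pi n).H (fun w => (wtl wt (List.ofFn w), nat_ wt sg x (List.ofFn w),
        slW wt sg (List.ofFn w)))
        ≤ (P.pi n).H (fun w => (nat_ wt sg x (List.ofFn w), slW wt sg (List.ofFn w))) := by
      refine H_le_of_det _ fun v w h => ?_
      simp only [Prod.mk.injEq, slW] at h ⊢
      exact ⟨h.2.1, h.1, h.2⟩
    rw [bW_eq] at h2
    have h3 := (abs_le.1 (hC' m)).1
    have h6 : az * ((ab - e) * n - 1) ≤ az * m := mul_le_mul_of_nonneg_left (by linarith only [hm2]) haz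
    have h7 : e * (m : ℝ) ≤ e * (ab * n) := by
      refine mul_le_mul_of_nonneg_left (hm1.trans ?_) he.le
      gcongr
      linarith only [he]
    linarith only [hsl', hCab, h1, h2, h3, h6, h7]
  -- conclusion
  have hD : gW wt sg x P M - eW P wt sg x n M
      ≤ az * (ab * n) + az * σ * Real.sqrt n + 2 * e * M + 2 * |C'| := by linarith only [hCab, hgM, hEG]
  have hDb : gW wt sg x P M - bW P wt sg x n - eW P wt sg x n M
      ≤ az * σ * Real.sqrt n + 2 * e * M + 3 * |C'| + az * (e * n) + az + e * (ab * n)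
        + (Real.log (n + 1) + lA) + B1 * Real.sqrt n := by linarith only [hCab, hgM, hEG, hbl]
  have hKD := mul_le_mul_of_nonneg_left hDb hK0.le
  have hfin : (P.pi n).H (fun w => (wtl wt (List.ofFn w), sgl sg (List.ofFn w),
        tru (Q * n) (zsumW wt sg x (List.ofFn w))))
      ≤ (P.pi n).H (fun w => (tru M (zsumW wt sg x (List.ofFn w)), slW wt sg (List.ofFn w))) := by
    refine H_le_of_det _ fun v w h => ?_
    simp only [Prod.mk.injEq, slW] at h ⊢
    refine ⟨h.2.1, h.2.2, ?_⟩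
    have h1 : Q * n ≤ M := Nat.mul_le_mul_right n (by omega)
    rw [← hz_tru_tru (Q * n) M h1, h.1, hz_tru_tru _ _ h1]
  have hMT : (M : ℝ) * Real.exp (-T) ≤ ε / 4 * n := by
    rw [hMR]
    have := mul_le_mul_of_nonneg_right hT hnR.le
    linarith only [this]
  have hab2 : az * (ab * n) ≤ a * n := by
    rw [← mul_assoc]
    exact mul_le_mul_of_nonneg_right hslope hnR.le
  have hKe : (K + 1) * ((az + 2 * Q' + ab) * e) * n ≤ ε / 4 * n :=
    mul_le_mul_of_nonneg_right he2 hnR.le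
  rw [hMR] at hKD hD
  have hx1 : 0 ≤ az * e * n := by (clear * - haz he hnpos; positivity)
  have hx2 : 0 ≤ ab * e * n := by (clear * - hab1 he hnpos; positivity)
  have hx3 : 0 ≤ ε * n := by (clear * - hε hnpos; positivity)
  linarith only [hx3, hx2, hx1, hKe, hab2, hMT, hfin, hKD, hD, hsl', hs2, hs1, hev]

end Vale.Agent.P114
end
end

section

open scoped Classical
open Polynomial

noncomputable section

namespace Vale.Agent.P114

open FinProb

variable {Λ : Type} [Fintype Λ]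

namespace Blk

/-- The law of a block, for sums. -/
lemma sum_blk (P : FinProb Λ) {n j m : ℕ} (h : j + m ≤ n) (F : List Λ → ℝ) :
    ∑ w, (P.pi n).w w * F (Lev.blk j m w) = ∑ b, (P.pi m).w b * F (List.ofFn b) := by
  obtain ⟨r, rfl⟩ := Nat.exists_eq_add_of_le h
  have key : ∀ (a b : ℕ) (G : (Fin (a + b) → Λ) → ℝ),
      ∑ w, (P.pi (a + b)).w w * G w
        = ∑ u, ∑ v, (P.pi a).w u * (P.pi b).w v * G (Fin.append u v) := by
    intro a b G
    rw [← (Fin.appendEquiv a b).sum_comp, Fintype.sum_prod_type]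
    refine Finset.sum_congr rfl fun u _ => Finset.sum_congr rfl fun v _ => ?_
    simp only [pi_w, Fin.appendEquiv, Equiv.coe_fn_mk]
    rw [Fin.prod_univ_add]
    simp only [Fin.append_left, Fin.append_right]
  rw [key (j + m) r]
  have h1 : ∀ u : Fin (j + m) → Λ, ∑ v : Fin r → Λ, (P.pi (j + m)).w u * (P.pi r).w v
      * F (Lev.blk j m (Fin.append u v)) = (P.pi (j + m)).w u * F (Lev.blk j m u) := by
    intro u
    have h2 : ∀ v : Fin r → Λ, (P.pi (j + m)).w u * (P.pi r).w v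
        * F (Lev.blk j m (Fin.append u v))
        = ((P.pi (j + m)).w u * F (Lev.blk j m u)) * (P.pi r).w v := by
      intro v
      rw [blk_append_left le_rfl]
      ring
    rw [Finset.sum_congr rfl fun v _ => h2 v, ← Finset.mul_sum, (P.pi r).sum_one, mul_one]
  rw [Finset.sum_congr rfl fun u _ => h1 u, key j m, Finset.sum_comm]
  refine Finset.sum_congr rfl fun v _ => ?_
  have h3 : ∀ u : Fin j → Λ, (P.pi j).w u * (P.pi m).w v * F (Lev.blk j m (Fin.append u v))
      = (P.pi j).w u * ((P.pi m).w v * F (List.ofFn v)) := by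
    intro u
    rw [blk_append_right, mul_assoc]
  rw [Finset.sum_congr rfl fun u _ => h3 u, ← Finset.sum_mul, (P.pi j).sum_one, one_mul]

lemma sum_pairs_eq {Ω : Type*} [Fintype Ω] (R : FinProb Ω) (m : ℕ) (f f' : Ω → List Λ)
    (hf : ∀ x, (f x).length = m) (hf' : ∀ x, (f' x).length = m) (c : List Λ → List Λ → ℝ) :
    ∑ b : Fin m → Λ, ∑ b' : Fin m → Λ, c (List.ofFn b) (List.ofFn b')
        * R.p (fun x => (f x, f' x)) (List.ofFn b, List.ofFn b')
      = ∑ x, R.w x * c (f x) (f' x) := by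
  have h1 : ∀ b b' : Fin m → Λ, c (List.ofFn b) (List.ofFn b')
        * R.p (fun x => (f x, f' x)) (List.ofFn b, List.ofFn b')
      = ∑ x, if (f x, f' x) = (List.ofFn b, List.ofFn b') then R.w x * c (f x) (f' x) else 0 := by
    intro b b'
    unfold p
    rw [Finset.mul_sum]
    refine Finset.sum_congr rfl fun x _ => ?_
    split_ifs with h
    · have h2 := Prod.mk.inj h
      rw [← h2.1, ← h2.2, mul_comm]
    · rw [mul_zero]
  rw [Finset.sum_congr rfl fun b _ => Finset.sum_congr rfl fun b' _ => h1 b b']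
  rw [Finset.sum_congr rfl fun b _ => Finset.sum_comm, Finset.sum_comm]
  refine Finset.sum_congr rfl fun x _ => ?_
  obtain ⟨b0, hb0⟩ := exists_ofFn (f x) m (hf x)
  obtain ⟨b0', hb0'⟩ := exists_ofFn (f' x) m (hf' x)
  rw [Finset.sum_eq_single b0, Finset.sum_eq_single b0', if_pos (by rw [hb0, hb0'])]
  · intro b' _ hb'
    rw [if_neg]
    intro h
    have h2 := (Prod.mk.inj h).2
    rw [← hb0'] at h2
    exact hb' (List.ofFn_injective h2).symm
  · intro h
    exact absurd (Finset.mem_univ _) h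
  · intro b _ hb
    refine Finset.sum_eq_zero fun b' _ => ?_
    rw [if_neg]
    intro h
    have h2 := (Prod.mk.inj h).1
    rw [← hb0] at h2
    exact hb (List.ofFn_injective h2).symm
  · intro h
    exact absurd (Finset.mem_univ _) h

/-- Pairs with a bad member have at most twice the probability of bad. -/
lemma nu_bad_le (P : FinProb Λ) (X : Lev Λ) (m : ℕ) (hm : m ≤ X.n) (Bad : List Λ → Prop) :
    ∑ b : Fin m → Λ, ∑ b' : Fin m → Λ,
        ((if Bad (List.ofFn b) then (1 : ℝ) else 0) + (if Bad (List.ofFn b') then (1 : ℝ) else 0))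
          * X.nu P m (List.ofFn b) (List.ofFn b')
      = 2 * ∑ w : Fin m → Λ, if Bad (List.ofFn w) then (P.pi m).w w else 0 := by
  have hM0 : 0 < X.n + 1 - m := by omega
  have hMr : (0 : ℝ) < ((X.n + 1 - m : ℕ) : ℝ) := by exact_mod_cast hM0
  set PB : ℝ := ∑ w : Fin m → Λ, if Bad (List.ofFn w) then (P.pi m).w w else 0 with hPB
  have hone : ∀ j ∈ Finset.range (X.n + 1 - m), ∑ b : Fin m → Λ, ∑ b' : Fin m → Λ,
      ((if Bad (List.ofFn b) then (1 : ℝ) else 0) + (if Bad (List.ofFn b') then (1 : ℝ) else 0))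
          * pl X P m (List.ofFn b) (List.ofFn b') j = 2 * PB := by
    intro j hj
    have hjn : j + m ≤ X.n := by
      have := Finset.mem_range.1 hj
      omega
    have h1 := sum_pairs_eq ((P.pi X.n).couple (X.h j)) m (fun x => Lev.blk j m x.1)
      (fun x => Lev.blk j m x.2) (fun x => length_blk hjn _) (fun x => length_blk hjn _)
      (fun l l' => (if Bad l then (1 : ℝ) else 0) + (if Bad l' then (1 : ℝ) else 0))
    unfold pl
    rw [h1]
    have h2 : ∑ x, ((P.pi X.n).couple (X.h j)).w x * (if Bad (Lev.blk j m x.1) then (1 : ℝ) else 0)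
        = PB := by
      rw [(P.pi X.n).sum_couple (X.h j) (fun ω _ => if Bad (Lev.blk j m ω) then (1 : ℝ) else 0)]
      have h3 : ∀ w, (P.pi X.n).w w * ∑ ω', ((P.pi X.n).cond (X.h j) (X.h j w)).w ω'
          * (if Bad (Lev.blk j m w) then (1 : ℝ) else 0)
          = (P.pi X.n).w w * (if Bad (Lev.blk j m w) then (1 : ℝ) else 0) := by
        intro w
        rw [← Finset.sum_mul, ((P.pi X.n).cond (X.h j) (X.h j w)).sum_one, one_mul]
      rw [Finset.sum_congr rfl fun w _ => h3 w,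
        sum_blk P hjn (fun l => if Bad l then (1 : ℝ) else 0), hPB]
      exact Finset.sum_congr rfl fun b _ => by rw [mul_ite, mul_one, mul_zero]
    have h4 : ∑ x, ((P.pi X.n).couple (X.h j)).w x * (if Bad (Lev.blk j m x.2) then (1 : ℝ) else 0)
        = PB := by
      rw [(P.pi X.n).sum_couple (X.h j) (fun _ ω => if Bad (Lev.blk j m ω) then (1 : ℝ) else 0),
        (P.pi X.n).sum_cond_total (X.h j) (fun ω => if Bad (Lev.blk j m ω) then (1 : ℝ) else 0),
        sum_blk P hjn (fun l => if Bad l then (1 : ℝ) else 0), hPB]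
      exact Finset.sum_congr rfl fun b _ => by rw [mul_ite, mul_one, mul_zero]
    simp only [mul_add]
    rw [Finset.sum_add_distrib, h2, h4]
    ring
  have h5 : ∀ b b' : Fin m → Λ,
      ((if Bad (List.ofFn b) then (1 : ℝ) else 0) + (if Bad (List.ofFn b') then (1 : ℝ) else 0))
          * X.nu P m (List.ofFn b) (List.ofFn b')
      = (∑ j ∈ Finset.range (X.n + 1 - m),
        ((if Bad (List.ofFn b) then (1 : ℝ) else 0) + (if Bad (List.ofFn b') then (1 : ℝ) else 0))
          * pl X P m (List.ofFn b) (List.ofFn b') j) / ((X.n + 1 - m : ℕ) : ℝ) := by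
    intro b b'
    rw [nu_eq, ← Finset.mul_sum, mul_div_assoc]
  rw [Finset.sum_congr rfl fun b _ => Finset.sum_congr rfl fun b' _ => h5 b b']
  simp only [← Finset.sum_div]
  rw [Finset.sum_congr rfl fun b _ => Finset.sum_comm, Finset.sum_comm,
    Finset.sum_congr rfl hone, Finset.sum_const, Finset.card_range, nsmul_eq_mul,
    mul_div_cancel_left₀ _ hMr.ne']

end Blk

open Blk

section tree
variable (U : Ultrafilter ℕ) (P : FinProb Λ) (X : ℕ → Lev Λ)

/-- If along all nodes of length `m` outside `Bad` the values of `g` are near each other, the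
entropy of `g` is at most `a m + log K + log 2 + 2 m log |Λ| P(Bad)`. -/
theorem tree_entropy_bad (hL : LargeLev U X) (a : ℝ) (hE : EntLev U P X a) (m K : ℕ) {γ : Type}
    (g : List Λ → γ) (N : γ → Finset γ) (hK : ∀ c, (N c).card ≤ K) (hK0 : 0 < K)
    (Bad : List Λ → Prop)
    (hg : ∀ b b', b.length = m → Node U P X b b' → ¬ Bad b → ¬ Bad b' → g b' ∈ N (g b)) :
    (P.pi m).H (fun w => g (List.ofFn w)) ≤ a * m + Real.log K + Real.log 2
      + 2 * m * Real.log (Fintype.card Λ)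
        * (∑ w, if Bad (List.ofFn w) then (P.pi m).w w else 0) := by
  set L : ℝ := Real.log (Fintype.card Λ) with hLdef
  have hL0 : 0 ≤ L := log_card_nonneg
  set PB : ℝ := ∑ w : Fin m → Λ, if Bad (List.ofFn w) then (P.pi m).w w else 0 with hPB
  have key : ∀ ε : ℝ, 0 < ε → (P.pi m).H (fun w => g (List.ofFn w))
      ≤ a * m + Real.log K + Real.log 2 + 2 * m * L * PB + ε * (m + 2 + m * L) := by
    intro ε hε
    set A : ℝ := ((Fintype.card (Fin m → Λ) : ℝ) ^ 2 + 1) with hA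
    have hA0 : 0 < A := by (clear * -; (clear * -; positivity))
    have h1 : ∀ bb : (Fin m → Λ) × (Fin m → Λ), ∀ᶠ i in (U : Filter ℕ),
        (if g (List.ofFn bb.2) ∈ N (g (List.ofFn bb.1)) then 0
          else (X i).nu P m (List.ofFn bb.1) (List.ofFn bb.2)) ≤ ε / A
          + ((if Bad (List.ofFn bb.1) then (1 : ℝ) else 0)
            + (if Bad (List.ofFn bb.2) then (1 : ℝ) else 0))
              * (X i).nu P m (List.ofFn bb.1) (List.ofFn bb.2) := by
      intro bb
      have hεA : 0 < ε / A := by (clear * - hε; positivity)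
      have hc0 : (0 : ℝ) ≤ (if Bad (List.ofFn bb.1) then (1 : ℝ) else 0) := by
        split_ifs <;> norm_num
      have hc1 : (0 : ℝ) ≤ (if Bad (List.ofFn bb.2) then (1 : ℝ) else 0) := by
        split_ifs <;> norm_num
      by_cases hb : g (List.ofFn bb.2) ∈ N (g (List.ofFn bb.1))
      · simp only [if_pos hb]
        exact Filter.Eventually.of_forall fun i => by
          have := mul_nonneg (add_nonneg hc0 hc1)
            (nu_nonneg (X i) P m (List.ofFn bb.1) (List.ofFn bb.2))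
          linarith
      · simp only [if_neg hb]
        by_cases hB1 : Bad (List.ofFn bb.1)
        · refine Filter.Eventually.of_forall fun i => ?_
          have h0 := nu_nonneg (X i) P m (List.ofFn bb.1) (List.ofFn bb.2)
          rw [if_pos hB1]
          have := mul_nonneg hc1 h0
          linarith only [hεA, this]
        by_cases hB2 : Bad (List.ofFn bb.2)
        · refine Filter.Eventually.of_forall fun i => ?_
          have h0 := nu_nonneg (X i) P m (List.ofFn bb.1) (List.ofFn bb.2)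
          rw [if_pos hB2]
          have := mul_nonneg hc0 h0
          linarith only [hεA, this]
        have h2 := not_node U P X (b := List.ofFn bb.1) (b' := List.ofFn bb.2)
          (by rw [List.length_ofFn, List.length_ofFn])
          (fun hn => hb (hg _ _ (List.length_ofFn) hn hB1 hB2)) (ε / A) hεA
        rw [List.length_ofFn] at h2
        refine h2.mono fun i hi => ?_
        rw [if_neg hB1, if_neg hB2]
        linarith only [hi]
    obtain ⟨N1, hN1⟩ := exists_nat_gt ((m * m * (|a| + ε) + 2 * m ^ 2 * L) / ε)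
    obtain ⟨i, h2, h3, h4⟩ := ((Filter.eventually_all.2 h1).and ((hE ε hε).and
      (hL (N1 + m + 1)))).exists
    have h5 := block_entropy P (X i) m K (by omega) g N hK hK0
    have hbad := nu_bad_le P (X i) m (by omega) Bad
    set M : ℕ := (X i).n + 1 - m with hM
    have hM0 : 0 < M := by omega
    have hMr : (0 : ℝ) < M := by exact_mod_cast hM0
    have hMN : (N1 : ℝ) ≤ M := by exact_mod_cast (by omega : N1 ≤ M)
    -- the sum
    have h6 : ∑ b : Fin m → Λ, ∑ b' : Fin m → Λ,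
        (if g (List.ofFn b') ∈ N (g (List.ofFn b)) then 0
          else (X i).nu P m (List.ofFn b) (List.ofFn b')) ≤ ε + 2 * PB := by
      have h7 : ∑ b : Fin m → Λ, ∑ b' : Fin m → Λ,
          (if g (List.ofFn b') ∈ N (g (List.ofFn b)) then 0
            else (X i).nu P m (List.ofFn b) (List.ofFn b'))
          ≤ ∑ b : Fin m → Λ, ∑ b' : Fin m → Λ, (ε / A
            + ((if Bad (List.ofFn b) then (1 : ℝ) else 0)
              + (if Bad (List.ofFn b') then (1 : ℝ) else 0))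
                * (X i).nu P m (List.ofFn b) (List.ofFn b')) :=
        Finset.sum_le_sum fun b _ => Finset.sum_le_sum fun b' _ => h2 (b, b')
      refine h7.trans ?_
      simp only [Finset.sum_add_distrib]
      rw [hbad, Finset.sum_const, Finset.sum_const, nsmul_eq_mul, nsmul_eq_mul, Finset.card_univ,
        ← mul_assoc, ← sq, mul_div_assoc']
      have h8 : (Fintype.card (Fin m → Λ) : ℝ) ^ 2 * ε / A ≤ ε := by
        rw [div_le_iff₀ hA0]
        have : (Fintype.card (Fin m → Λ) : ℝ) ^ 2 ≤ A := by rw [hA]; linarith only []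
        nlinarith only [hε]
      linarith only [h8]
    have hn : ((X i).n : ℝ) ≤ M + m := by exact_mod_cast (by omega : (X i).n ≤ M + m)
    have hnpos : (0 : ℝ) < (X i).n := by exact_mod_cast (by omega : 0 < (X i).n)
    have haε : 0 ≤ a + ε := by
      have h8 := (P.pi (X i).n).H_nonneg (X i).c
      by_contra hneg
      have := mul_neg_of_neg_of_pos (not_le.1 hneg) hnpos
      linarith only [h3, h8, this]
    have h9 : (P.pi (X i).n).H (X i).c ≤ (a + ε) * (M + m) :=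
      h3.trans (mul_le_mul_of_nonneg_left hn haε)
    have hm0 : (0 : ℝ) ≤ m := Nat.cast_nonneg m
    have h10 := mul_le_mul_of_nonneg_left h9 hm0
    have h11 : m * L * ((M : ℝ) * ∑ b : Fin m → Λ, ∑ b' : Fin m → Λ,
        (if g (List.ofFn b') ∈ N (g (List.ofFn b)) then 0
          else (X i).nu P m (List.ofFn b) (List.ofFn b'))) ≤ m * L * (M * (ε + 2 * PB)) := by
      refine mul_le_mul_of_nonneg_left ?_ (by (clear * -; positivity))
      exact mul_le_mul_of_nonneg_left h6 hMr.le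
    have h12 : m * m * (|a| + ε) + 2 * m ^ 2 * L ≤ ε * M := by
      rw [div_lt_iff₀ hε] at hN1
      linarith only [mul_nonneg (le_of_lt (sub_pos.2 hε)) (sub_nonneg.2 hMN), hN1]
    have h13 : (m : ℝ) * m * (a + ε) ≤ m * m * (|a| + ε) :=
      mul_le_mul_of_nonneg_left (by linarith only [le_abs_self a]) (by (clear * -; positivity))
    have h14 : 0 ≤ ε * M := by positivity
    rw [← mul_le_mul_iff_left₀ hMr]
    have e1 : (a * m + Real.log K + Real.log 2 + 2 * m * L * PB + ε * (m + 2 + m * L)) * (M : ℝ)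
        = m * ((a + ε) * (M + m)) - m * m * (a + ε) + (Real.log 2 + Real.log K) * M
          + m * L * (M * (ε + 2 * PB)) + 2 * (ε * M) := by ring
    rw [e1]
    linarith only [h14, h13, h12, h11, h10, h5]
  refine le_of_forall_pos_le_add fun ε hε => ?_
  have h1 := key (ε / (m + 2 + m * L)) (by (clear * - hε; positivity))
  rw [div_mul_cancel₀ _ (by (clear * -; positivity) : (m : ℝ) + 2 + m * L ≠ 0)] at h1
  exact h1

end tree

end Vale.Agent.P114
end
end

section

/-! Tree entropy for values which are determined at the depth given by the weight. -/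

open scoped Classical
open Polynomial

noncomputable section

namespace Vale.Agent.P114.Com

open FinProb

variable {Λ : Type} [Fintype Λ] [Wts Λ]

/-- If `G s` takes near values on the nodes of weight `≥ s`, the entropy of `G s` on the words
of length `m ≥ s / (wbar - ε)` is at most `a m + O(√m)`.
Proof: `tree_entropy_bad` with `Bad b = (wtL b < s)`, `g b = if wtL b < s then none else
some (G s b)` and `prB_small` (for `m = 0` the entropy is zero). -/
theorem tree_wt (U : Ultrafilter ℕ) (P : FinProb Λ) (X : ℕ → Lev Λ)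
    (hL : LargeLev U X) (a : ℝ) (hE : EntLev U P X a) (K : ℕ) {γ : Type}
    (G : ℕ → List Λ → γ) (N : ℕ → γ → Finset γ) (hK : ∀ s c, (N s c).card ≤ K) (hK0 : 0 < K)
    (hG : ∀ s b b', Node U P X b b' → s ≤ wtL b → s ≤ wtL b' → G s b' ∈ N s (G s b))
    (ε : ℝ) (hε : 0 < ε) :
    ∃ C : ℝ, 0 ≤ C ∧ ∀ m s : ℕ, (s : ℝ) ≤ (wbar P - ε) * m →
      (P.pi m).H (fun w => if wtL (List.ofFn w) < s then none else some (G s (List.ofFn w)))
        ≤ a * m + C * (Real.sqrt m + 1) := by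
  have hL0 : 0 ≤ Real.log (Fintype.card Λ) := Real.log_natCast_nonneg _
  have hK1 : (1 : ℝ) ≤ K := by exact_mod_cast hK0
  have hlK : 0 ≤ Real.log K := Real.log_nonneg hK1
  have hl2 : 0 ≤ Real.log 2 := Real.log_nonneg (by norm_num)
  have hwA : (0 : ℝ) ≤ (wA Λ : ℝ) := Nat.cast_nonneg _
  refine ⟨Real.log K + Real.log 2 + 2 * Real.log (Fintype.card Λ) * ((wA Λ : ℝ) / ε),
    by (clear * - hε; positivity), fun m s hs => ?_⟩
  have h1 : (P.pi m).H (fun w => if wtL (List.ofFn w) < s then none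
      else some (G s (List.ofFn w))) ≤ a * m + Real.log K + Real.log 2
      + 2 * m * Real.log (Fintype.card Λ) * prB P m (fun b => wtL b < s) :=
    tree_entropy_bad U P X hL a hE m K (γ := Option γ)
    (fun b => if wtL b < s then none else some (G s b))
    (fun c => match c with
      | some c => (N s c).image some
      | none => {none})
    (by
      intro c
      cases c with
      | none => exact (Finset.card_singleton _).le.trans hK0
      | some c => exact Finset.card_image_le.trans (hK s c)) hK0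
    (fun b => wtL b < s)
    (by
      intro b b' _ hn hb hb'
      simp only [if_neg hb, if_neg hb']
      exact Finset.mem_image_of_mem _ (hG s b b' hn (not_lt.1 hb) (not_lt.1 hb')))
  have h2 : prB P m (fun b => wtL b < s)
      ≤ prB P m (fun w => (wtL w : ℝ) < (wbar P - ε) * m) := by
    refine prB_mono P m (fun w => wtL w < s) _ fun w hw => ?_
    have : (wtL w : ℝ) < s := by exact_mod_cast hw
    linarith only [hs, this]
  have h3 := prB_small P ε hε m
  have hm0 : (0 : ℝ) ≤ m := Nat.cast_nonneg m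
  have hs0 : 0 ≤ Real.sqrt m := Real.sqrt_nonneg _
  have h4 : 2 * m * Real.log (Fintype.card Λ) * prB P m (fun b => wtL b < s)
      ≤ 2 * Real.log (Fintype.card Λ) * ((wA Λ : ℝ) / ε) * Real.sqrt m := by
    have h5 := mul_le_mul_of_nonneg_left h2 hm0
    have h6 : (m : ℝ) * prB P m (fun b => wtL b < s) ≤ (wA Λ : ℝ) / ε * Real.sqrt m := by
      rw [div_mul_eq_mul_div]
      linarith only [h3, h5]
    have h7 := mul_le_mul_of_nonneg_left h6 (by (clear * -; positivity) : 0 ≤ 2 * Real.log (Fintype.card Λ))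
    linarith only [h7]
  have h8 : 0 ≤ 2 * Real.log (Fintype.card Λ) * ((wA Λ : ℝ) / ε) := by (clear * - hε; positivity)
  have h9 : 0 ≤ (Real.log K + Real.log 2) * Real.sqrt m := by (clear * -; positivity)
  have h10 : a * m + (Real.log K + Real.log 2
      + 2 * Real.log (Fintype.card Λ) * ((wA Λ : ℝ) / ε)) * (Real.sqrt m + 1)
      = a * m + Real.log K + Real.log 2
        + 2 * Real.log (Fintype.card Λ) * ((wA Λ : ℝ) / ε) * Real.sqrt m
        + (Real.log K + Real.log 2) * Real.sqrt m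
        + 2 * Real.log (Fintype.card Λ) * ((wA Λ : ℝ) / ε) := by ring
  rw [h10]
  refine h1.trans ?_
  linarith

end Vale.Agent.P114.Com
end
end

section

/-! The weighted `z`-adic step in the notation of `Com.Defs`. -/

open scoped Classical
open Polynomial

noncomputable section

namespace Vale.Agent.P114.Com

open FinProb

section bridge

variable {Λ : Type} [Wts Λ]

lemma wtL_eq (w : List Λ) : wtL w = wtl wt w := by
  induction w with
  | nil => rfl
  | cons a w ih => rw [wtL, wtl_cons, ih]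

lemma sgL_eq (w : List Λ) : sgL w = sgl sg w := by
  induction w with
  | nil => rfl
  | cons a w ih => rw [sgL, sgl_cons, ih]

lemma sg_pm (i : Λ) : sg i = 1 ∨ sg i = -1 := by
  have := sgL_cases [i]
  simpa [sgL] using this

lemma zsum_eq {ι : Type} (x : Λ → ℕ → (ι → ℤ)) (w : List Λ) : zsum x w = zsumW wt sg x w := by
  induction w with
  | nil => rfl
  | cons a w ih =>
    funext m
    rw [zsum, zsumW, ih]

end bridge

variable {Λ : Type} [Fintype Λ] [Wts Λ]

/-- weight, sign and truncated sum of a word -/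
def zcl {ι : Type} (x : Λ → ℕ → (ι → ℤ)) (s : ℕ) (w : List Λ) : ℕ × ℤ × (ℕ → (ι → ℤ)) :=
  (wtL w, sgL w, tru s (zsum x w))

/-- From `zadic_H_w` (helper486, Com/Zadic.lean) and the bridge lemmas. -/
theorem zadic_H (P : FinProb Λ) {ι : Type} (x : Λ → ℕ → (ι → ℤ)) (a : ℝ)
    (ha : ∀ ε > 0, ∃ C : ℝ, 0 ≤ C ∧ ∀ m s : ℕ, (s : ℝ) ≤ (wbar P - ε) * m →
      (P.pi m).H (fun w => if wtL (List.ofFn w) < s then none
          else some (tru s (zsum x (List.ofFn w)))) ≤ a * m + C * (Real.sqrt m + 1))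
    (Q : ℕ) (ε : ℝ) (hε : 0 < ε) :
    ∃ n0 : ℕ, ∀ n ≥ n0, (P.pi n).H (fun w => zcl x (Q * n) (List.ofFn w)) ≤ (a + ε) * n := by
  obtain ⟨n0, hn0⟩ := zadic_H_w P wt sg wt_pos sg_pm x a (by
    intro e he
    obtain ⟨C, hC, h1⟩ := ha e he
    obtain ⟨m0, hm0⟩ := Filter.eventually_atTop.1 (ev_small 0 C C e he)
    refine ⟨m0, fun m hm s hs => ?_⟩
    have h2 := h1 m s hs
    have h3 := hm0 m hm
    simp only [wtL_eq, zsum_eq] at h2
    refine h2.trans ?_
    rw [zero_mul, zero_add] at h3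
    linarith only [h3]) Q ε hε
  refine ⟨n0, fun n hn => ?_⟩
  have h1 := hn0 n hn
  simp only [zcl, wtL_eq, sgL_eq, zsum_eq]
  exact h1

end Vale.Agent.P114.Com
end
end

section

/-! Preparations for the maximality lemma (weighted version of HomML). -/

open scoped Classical
open Polynomial

noncomputable section

namespace Vale.Agent.P114.Com

open FinProb

variable {Λ : Type} [Fintype Λ] [Wts Λ]

omit [Fintype Λ] in
/-- coefficients of an infinite word below the weight of a prefix -/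
lemma coeff_psu_pre (u : ℕ → Λ) (L : ℕ) (i : Λ) (m : ℕ) (hm : m < wtL (pre u L)) :
    PowerSeries.coeff m (psu u i) = (cpoly (pre u L) i).coeff m := by
  rcases le_or_gt L m with h | h
  · rw [coeff_psu]
    exact cpoly_coeff_prefix _ _ (pre_prefix u (by omega)) i m hm
  · exact (coeff_psu_of_prefix u L _ List.prefix_rfl i m h).symm

omit [Fintype Λ] in
lemma psu_summable (lam : ℝ) (h0 : 0 ≤ lam) (h1 : lam < 1) (u : ℕ → Λ) (i : Λ) :
    Summable fun m => ((PowerSeries.coeff m (psu u i) : ℤ) : ℝ) * lam ^ m := by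
  refine Summable.of_norm_bounded (summable_geometric_of_lt_one h0 h1) fun m => ?_
  have h2 : |((PowerSeries.coeff m (psu u i) : ℤ) : ℝ)| ≤ 1 := by
    exact_mod_cast abs_coeff_psu_le u i m
  have h3 := pow_nonneg h0 m
  rw [Real.norm_eq_abs, abs_mul, abs_of_nonneg h3]
  linarith [mul_nonneg (sub_nonneg.2 h2) (sub_nonneg.2 h3)]

omit [Fintype Λ] in
lemma psu_tail (lam : ℝ) (h0 : 0 ≤ lam) (h1 : lam < 1) (u : ℕ → Λ) (L : ℕ) (i : Λ) :
    |(∑' m, ((PowerSeries.coeff m (psu u i) : ℤ) : ℝ) * lam ^ m) - aeval lam (cpoly (pre u L) i)|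
      ≤ lam ^ wtL (pre u L) / (1 - lam) := by
  set W := wtL (pre u L) with hW
  have e1 : aeval lam (cpoly (pre u L) i)
      = ∑ m ∈ Finset.range W, ((PowerSeries.coeff m (psu u i) : ℤ) : ℝ) * lam ^ m := by
    have hd : (cpoly (pre u L) i).natDegree < W + 1 :=
      Nat.lt_succ_of_le (cpoly_natDegree_le _ _)
    rw [aeval_eq_sum_range' hd, Finset.sum_range_succ,
      cpoly_coeff_zero (pre u L) i W le_rfl, zero_smul, add_zero]
    refine Finset.sum_congr rfl fun m hm => ?_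
    rw [coeff_psu_pre u L i m (Finset.mem_range.1 hm), zsmul_eq_mul]
  have h3 := (psu_summable lam h0 h1 u i).sum_add_tsum_nat_add W
  rw [e1, ← h3, add_sub_cancel_left]
  have hs : Summable fun l : ℕ => lam ^ W * lam ^ l :=
    (summable_geometric_of_lt_one h0 h1).mul_left _
  have h4 : ∑' l : ℕ, lam ^ W * lam ^ l = lam ^ W / (1 - lam) := by
    rw [tsum_mul_left, tsum_geometric_of_lt_one h0 h1, div_eq_mul_inv]
  rw [← h4, ← Real.norm_eq_abs]
  refine tsum_of_norm_bounded hs.hasSum fun l => ?_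
  have h5 : |((PowerSeries.coeff (l + W) (psu u i) : ℤ) : ℝ)| ≤ 1 := by
    exact_mod_cast abs_coeff_psu_le u i (l + W)
  have h6 := pow_nonneg h0 (l + W)
  rw [Real.norm_eq_abs, abs_mul, abs_of_nonneg h6, ← pow_add, add_comm W l]
  linarith only [mul_nonneg (sub_nonneg.2 h5) (sub_nonneg.2 h6)]

/-- value of a branch versus value of its beginning (weighted `mlBvTail`) -/
lemma bv_tail {S : Sys Λ} {lam : ℝ} (hr : IsCom S lam) (u u' : ℕ → Λ) (L : ℕ) (i : Λ) :
    |bv lam u u' i - dval lam (pre u L, pre u' L) i|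
      ≤ 2 * (lam ^ min (wtL (pre u L)) (wtL (pre u' L)) / (1 - lam)) := by
  have h0 := hr.pos.le
  have h1 := hr.lt_one
  have h2 : bv lam u u' i = (∑' m, ((PowerSeries.coeff m (psu u i) : ℤ) : ℝ) * lam ^ m)
      - ∑' m, ((PowerSeries.coeff m (psu u' i) : ℤ) : ℝ) * lam ^ m := by
    rw [bv, evS, ← (psu_summable lam h0 h1 u i).tsum_sub (psu_summable lam h0 h1 u' i)]
    refine tsum_congr fun m => ?_
    rw [coeff_ps]
    push_cast
    ring
  have h3 : dval lam (pre u L, pre u' L) i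
      = aeval lam (cpoly (pre u L) i) - aeval lam (cpoly (pre u' L) i) := by
    rw [dval, dpoly, map_sub]
  have h4 := psu_tail lam h0 h1 u L i
  have h5 := psu_tail lam h0 h1 u' L i
  have h6 : lam ^ wtL (pre u L) ≤ lam ^ min (wtL (pre u L)) (wtL (pre u' L)) :=
    pow_le_pow_of_le_one h0 h1.le (min_le_left _ _)
  have h7 : lam ^ wtL (pre u' L) ≤ lam ^ min (wtL (pre u L)) (wtL (pre u' L)) :=
    pow_le_pow_of_le_one h0 h1.le (min_le_right _ _)
  have h8 : 0 < 1 - lam := by linarith only [h1]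
  have h9 := div_le_div_of_nonneg_right h6 h8.le
  have h10 := div_le_div_of_nonneg_right h7 h8.le
  rw [h2, h3]
  obtain ⟨a1, a2⟩ := abs_le.1 h4
  obtain ⟨b1, b2⟩ := abs_le.1 h5
  rw [abs_le]
  constructor <;> linarith only [h9, h10, a1, b2, a2, b1]

omit [Fintype Λ] [Wts Λ] in
lemma coefL_le_of_abs (r : Λ → ℝ) (lam : ℝ) (h0 : 0 ≤ lam) (h1 : lam < 1)
    (hr : ∀ i, |r i| ≤ lam) (u : List Λ) (i : Λ) : |coefL r u i| ≤ 1 / (1 - lam) := by
  have h2 : 0 < 1 - lam := by linarith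
  induction u with
  | nil => simp only [coefL, abs_zero]; positivity
  | cons j u ih =>
    simp only [coefL]
    have h3 : |(if j = i then (1 : ℝ) else 0)| ≤ 1 := by by_cases h : j = i <;> simp [h]
    calc |(if j = i then (1 : ℝ) else 0) + r j * coefL r u i|
        ≤ |(if j = i then (1 : ℝ) else 0)| + |r j * coefL r u i| := abs_add_le _ _
      _ ≤ 1 + lam * (1 / (1 - lam)) := by
          rw [abs_mul]
          exact add_le_add h3 (mul_le_mul (hr j) ih (abs_nonneg _) h0)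
      _ = 1 / (1 - lam) := by field_simp; ring

lemma cpoly_prefix_le {S : Sys Λ} {lam : ℝ} (hr : IsCom S lam) (w b : List Λ) (hb : b <+: w)
    (i : Λ) : |aeval lam (cpoly w i) - aeval lam (cpoly b i)| ≤ lam ^ wtL b / (1 - lam) := by
  obtain ⟨s, rfl⟩ := hb
  have h0 := hr.pos.le
  have h1 := hr.lt_one
  have hle : ∀ j, |S.r j| ≤ lam := by
    intro j
    have h2 := hr.abs_slL [j]
    simp only [slL, mul_one, wtL, add_zero] at h2
    rw [h2]
    calc lam ^ wt j ≤ lam ^ 1 := pow_le_pow_of_le_one h0 h1.le (wt_pos j)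
      _ = lam := pow_one _
  have e : aeval lam (cpoly (b ++ s) i) - aeval lam (cpoly b i)
      = ((sgL b : ℤ) : ℝ) * lam ^ wtL b * coefL S.r s i := by
    rw [cpoly_append, map_add, map_mul, map_mul, map_pow, aeval_X, hr.aeval_cpoly s,
      add_sub_cancel_left]
    simp
  have h3 : |((sgL b : ℤ) : ℝ)| = 1 := by exact_mod_cast abs_sgL b
  rw [e, abs_mul, abs_mul, h3, one_mul, abs_of_nonneg (pow_nonneg h0 _), div_eq_mul_one_div]
  exact mul_le_mul_of_nonneg_left (coefL_le_of_abs S.r lam h0 h1 hle s i) (pow_nonneg h0 _)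

/-- value of a pair of words versus value of a pair of prefixes (weighted `mlDvalPrefix`) -/
lemma dval_prefix {S : Sys Λ} {lam : ℝ} (hr : IsCom S lam) (x : List Λ × List Λ)
    (b b' : List Λ) (hb : b <+: x.1) (hb' : b' <+: x.2) (i : Λ) :
    |dval lam x i - dval lam (b, b') i|
      ≤ 2 * (lam ^ min (wtL b) (wtL b') / (1 - lam)) := by
  have h0 := hr.pos.le
  have h1 := hr.lt_one
  have h4 := cpoly_prefix_le hr x.1 b hb i
  have h5 := cpoly_prefix_le hr x.2 b' hb' i
  have h6 : lam ^ wtL b ≤ lam ^ min (wtL b) (wtL b') :=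
    pow_le_pow_of_le_one h0 h1.le (min_le_left _ _)
  have h7 : lam ^ wtL b' ≤ lam ^ min (wtL b) (wtL b') :=
    pow_le_pow_of_le_one h0 h1.le (min_le_right _ _)
  have h8 : 0 < 1 - lam := by linarith only [h1]
  have h9 := div_le_div_of_nonneg_right h6 h8.le
  have h10 := div_le_div_of_nonneg_right h7 h8.le
  simp only [dval, dpoly, map_sub]
  obtain ⟨a1, a2⟩ := abs_le.1 h4
  obtain ⟨b1, b2⟩ := abs_le.1 h5
  rw [abs_le]
  constructor <;> linarith

/-- If given `g` the variable `f` takes at most `|T (g ω)|` values. -/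
lemma H_le_add_E_log_card {Ω : Type*} [Fintype Ω] (P : FinProb Ω) {α β : Type*} (f : Ω → α)
    (g : Ω → β) (T : β → Finset α) (hS : ∀ ω, f ω ∈ T (g ω)) :
    P.H f ≤ P.H g + ∑ ω, P.w ω * Real.log (T (g ω)).card := by
  have hc : ∀ ω, (0 : ℝ) < (T (g ω)).card := fun ω => by
    exact_mod_cast Finset.card_pos.2 ⟨_, hS ω⟩
  have h1 : P.H f ≤ P.H (fun ω => (f ω, g ω)) :=
    P.H_le_of_det fun ω ω' h => (Prod.ext_iff.1 h).1
  have h2 := P.H_le_gibbs (fun ω => (f ω, g ω))
    (fun x => if x.1 ∈ T x.2 then P.p g x.2 / (T x.2).card else 0)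
    (fun ω hω => by
      simp only [hS ω, if_true]
      exact div_pos (P.p_pos hω g) (hc ω))
    (by
      have hsub : Finset.univ.image (fun ω => (f ω, g ω))
          ⊆ (Finset.univ.image f) ×ˢ (Finset.univ.image g) := by
        intro x hx
        obtain ⟨ω, -, rfl⟩ := Finset.mem_image.1 hx
        simp only [Finset.mem_product, Finset.mem_image, Finset.mem_univ, true_and, exists_apply_eq_apply, and_self]
      have hmono : ∑ x ∈ Finset.univ.image (fun ω => (f ω, g ω)),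
          (if x.1 ∈ T x.2 then P.p g x.2 / ((T x.2).card : ℝ) else 0)
          ≤ ∑ x ∈ (Finset.univ.image f) ×ˢ (Finset.univ.image g),
          (if x.1 ∈ T x.2 then P.p g x.2 / ((T x.2).card : ℝ) else 0) := by
        refine Finset.sum_le_sum_of_subset_of_nonneg hsub ?_
        intro x _ _
        split_ifs
        exacts [div_nonneg (P.p_nonneg _ _) (Nat.cast_nonneg _), le_rfl]
      refine le_trans hmono ?_
      rw [Finset.sum_product_right, ← P.sum_p_image g]
      refine Finset.sum_le_sum fun b hb => ?_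
      obtain ⟨ω, -, rfl⟩ := Finset.mem_image.1 hb
      simp only
      rw [← Finset.sum_filter, Finset.sum_const, nsmul_eq_mul]
      have : ((Finset.univ.image f).filter fun a => a ∈ T (g ω)).card ≤ (T (g ω)).card :=
        Finset.card_le_card (by intro a ha; exact (Finset.mem_filter.1 ha).2)
      have h3 : ((((Finset.univ.image f).filter fun a => a ∈ T (g ω)).card : ℕ) : ℝ)
          ≤ (T (g ω)).card := by
        exact_mod_cast this
      have h5 : ((T (g ω)).card : ℝ) * (P.p g (g ω) / (T (g ω)).card) = P.p g (g ω) := by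
        have := (hc ω).ne'
        field_simp
      exact (mul_le_mul_of_nonneg_right h3
        (div_nonneg (P.p_nonneg _ _) (Nat.cast_nonneg _))).trans_eq h5)
    (fun x => by
      split_ifs
      exacts [div_nonneg (P.p_nonneg _ _) (Nat.cast_nonneg _), le_rfl])
  refine h1.trans (h2.trans ?_)
  unfold H
  have h4 : ∀ ω, P.w ω * -Real.log (if f ω ∈ T (g ω) then P.p g (g ω) / (T (g ω)).card else 0)
      = P.w ω * -Real.log (P.p g (g ω)) + P.w ω * Real.log (T (g ω)).card := by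
    intro ω
    rcases P.w_zero_or_pos ω with h | h
    · simp [h]
    · rw [if_pos (hS ω), Real.log_div (P.p_pos h g).ne' (hc ω).ne']
      ring
  simp only
  rw [Finset.sum_congr rfl fun ω _ => h4 ω, Finset.sum_add_distrib]

lemma log_succ_le_sqrt (m : ℕ) : Real.log (m + 1) ≤ 2 * Real.sqrt m := by
  have h1 : 0 ≤ Real.sqrt m := Real.sqrt_nonneg _
  have h2 : Real.sqrt m * Real.sqrt m = m := Real.mul_self_sqrt (Nat.cast_nonneg m)
  have h3 : Real.log (m + 1) ≤ Real.log ((Real.sqrt m + 1) ^ 2) := by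
    refine Real.log_le_log (by positivity) ?_
    linarith
  rw [Real.log_pow] at h3
  have h4 := Real.log_le_sub_one_of_pos (show 0 < Real.sqrt m + 1 by linarith only [h1])
  push_cast at h3
  linarith only [h3, h4]

/-- The set of possible values of the floor. -/
def mlSet (K M : ℕ) (x : ℝ) (z : ℤ) (bad : Bool) : Finset ℤ :=
  if bad then Finset.Icc (-(M : ℤ)) M
  else Finset.Icc (z - ((K : ℤ) + ⌊x⌋₊ + 1)) (z + ((K : ℤ) + ⌊x⌋₊ + 1))

lemma mlSet_card_log (K M : ℕ) (x : ℝ) (hx : 0 ≤ x) (z : ℤ) (bad : Bool) :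
    Real.log (mlSet K M x z bad).card ≤ Real.log (2 * x + 3) + Real.log (2 * K + 3)
      + (if bad then Real.log (2 * M + 1) else 0) := by
  have hK : (0 : ℝ) ≤ K := Nat.cast_nonneg K
  have hl1 : 0 ≤ Real.log (2 * x + 3) := Real.log_nonneg (by linarith)
  have hl2 : 0 ≤ Real.log (2 * (K : ℝ) + 3) := Real.log_nonneg (by linarith)
  cases bad with
  | true =>
    have e : ((mlSet K M x z true).card : ℝ) = 2 * M + 1 := by
      have : (mlSet K M x z true).card = 2 * M + 1 := by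
        simp only [mlSet, if_true, Int.card_Icc]
        (clear * -; omega)
      rw [this]; push_cast; ring
    rw [e, if_pos rfl]
    linarith
  | false =>
    have e : ((mlSet K M x z false).card : ℝ) = 2 * (⌊x⌋₊ : ℝ) + 2 * K + 3 := by
      have : (mlSet K M x z false).card = 2 * ⌊x⌋₊ + 2 * K + 3 := by
        simp only [mlSet, Bool.false_eq_true, if_false, Int.card_Icc]
        (clear * -; omega)
      rw [this]; push_cast; ring
    have h3 := Nat.floor_le hx
    have h4 : (0 : ℝ) ≤ ⌊x⌋₊ := Nat.cast_nonneg _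
    rw [e, if_neg (by simp), add_zero, ← Real.log_mul (by positivity) (by positivity)]
    refine Real.log_le_log (by (clear * -; positivity)) ?_
    nlinarith only [h3]

lemma floor_add_near (u v x : ℝ) (hv : |v| ≤ x) : |⌊u + v⌋ - ⌊u⌋| ≤ (⌊x⌋₊ : ℤ) + 1 := by
  have hx : 0 ≤ x := (abs_nonneg v).trans hv
  obtain ⟨h1, h2⟩ := abs_le.1 hv
  have h3 := Int.floor_le u
  have h4 := Int.lt_floor_add_one u
  have h5 := Int.floor_le (u + v)
  have h6 := Int.lt_floor_add_one (u + v)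
  have h7 := Nat.lt_floor_add_one x
  rw [abs_le]
  constructor
  · have : (⌊u⌋ : ℝ) < ⌊u + v⌋ + (⌊x⌋₊ : ℝ) + 2 := by linarith
    have : ⌊u⌋ < ⌊u + v⌋ + (⌊x⌋₊ : ℤ) + 2 := by exact_mod_cast this
    omega
  · have : (⌊u + v⌋ : ℝ) < ⌊u⌋ + (⌊x⌋₊ : ℝ) + 2 := by linarith only [h2, h4, h5, h7]
    have : ⌊u + v⌋ < ⌊u⌋ + (⌊x⌋₊ : ℤ) + 2 := by exact_mod_cast this
    omega

/-- Entropy at scale `2^-b` from the words of length `m` (weighted `mlFSLe`), as `fS_le_HG`
(AlphaProp.lean): `g` determines `2^b tr` up to `K`. -/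
lemma fS_le_words (S : Sys Λ) (y : Λ → ℝ) (K : ℕ) : ∃ C : ℝ, 0 ≤ C ∧ ∀ (b m : ℕ) {γ : Type}
    (g : (Fin m → Λ) → γ) (Bad : (Fin m → Λ) → Prop) (σ : γ → ℤ),
    (∀ w, ¬ Bad w → |⌊(2 : ℝ) ^ b * tr S.r y w⌋ - σ (g w)| ≤ K) →
    S.fS y b ≤ (S.P.pi m).H g + |b * Real.log 2 - S.χ * m| + C * (Real.sqrt m + 1)
      + C * (b + m + 1) * (∑ w, if Bad w then (S.P.pi m).w w else 0) := by
  have hD := S.one_le_D y
  have hlog : 0 < Real.log 2 := Real.log_pos (by norm_num)
  have hlog1 : Real.log 2 ≤ 1 := by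
    have := Real.log_le_sub_one_of_pos (show (0 : ℝ) < 2 by norm_num)
    linarith
  have hl3 : 0 < Real.log 3 := Real.log_pos (by norm_num)
  have hlD : 0 ≤ Real.log (2 * S.D y + 3) := Real.log_nonneg (by linarith only [hD])
  have hK : (0 : ℝ) ≤ K := Nat.cast_nonneg K
  have hlK : 0 ≤ Real.log (2 * (K : ℝ) + 3) := Real.log_nonneg (by linarith only [])
  have hσ := S.σ_pos
  refine ⟨2 * Fintype.card Λ + S.σ + Real.log 2 + Real.log 3 + Real.log (2 * K + 3)
    + Real.log (2 * S.D y + 3) + 1, by (clear * - hσ hlK hlD; positivity), fun b m {γ} g Bad σ hg => ?_⟩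
  set N' := S.Nb y b with hN'
  have h1 : S.D y * S.ρ ^ (m + N') * 2 ^ b ≤ 1 := by
    refine le_trans ?_ (S.Nb_spec' y b)
    have h2 : S.ρ ^ (m + N') ≤ S.ρ ^ N' :=
      pow_le_pow_of_le_one S.ρ_pos.le S.ρ_lt.le (by omega)
    have := S.D_nonneg y
    (clear * - h2 hD; gcongr)
  have h2 := S.fS_le_F y b (m + N') h1
  have e1 : S.F y (m + N') (2 ^ b) = ((S.P.pi m).prod (S.P.pi N')).H
      (fun x => ⌊(2 : ℝ) ^ b * (tr S.r y x.1 + sl S.r x.1 * tr S.r y x.2)⌋) := by
    unfold Sys.F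
    rw [← H_pi_add]
    simp only [tr_append]
  obtain ⟨M, hM⟩ : ∃ M : ℕ, M = ⌊(2 : ℝ) ^ b * S.D y⌋₊ + 1 := ⟨_, rfl⟩
  have hMle : (2 : ℝ) * M + 1 ≤ 2 ^ b * (2 * S.D y + 3) := by
    have h3 := Nat.floor_le (show 0 ≤ (2 : ℝ) ^ b * S.D y by positivity)
    have h4 : (1 : ℝ) ≤ 2 ^ b := one_le_pow₀ (by norm_num)
    rw [hM]
    push_cast
    linarith only [h4, h3]
  have h3 := H_le_add_E_log_card ((S.P.pi m).prod (S.P.pi N'))
    (fun x => ⌊(2 : ℝ) ^ b * (tr S.r y x.1 + sl S.r x.1 * tr S.r y x.2)⌋)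
    (fun x => (g x.1, (sl S.r x.1, decide (Bad x.1))))
    (fun c => mlSet K M (|(2 : ℝ) ^ b * c.2.1| * S.D y) (σ c.1) c.2.2) (by
      intro x
      by_cases hB : Bad x.1
      · simp only [hB, decide_true, mlSet, if_true]
        have h5 := S.abs_tr_le y (Fin.append x.1 x.2)
        rw [tr_append] at h5
        have h6 : |(2 : ℝ) ^ b * (tr S.r y x.1 + sl S.r x.1 * tr S.r y x.2)|
            ≤ (2 : ℝ) ^ b * S.D y := by
          rw [abs_mul, abs_of_pos (show (0 : ℝ) < 2 ^ b by positivity)]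
          exact mul_le_mul_of_nonneg_left h5 (by positivity)
        have h7 := floor_add_near 0 _ _ h6
        rw [zero_add, Int.floor_zero, sub_zero] at h7
        rw [Finset.mem_Icc, hM]
        obtain ⟨h8, h9⟩ := abs_le.1 h7
        push_cast
        exact ⟨h8, h9⟩
      · simp only [hB, decide_false, mlSet, Bool.false_eq_true, if_false]
        have h5 := hg x.1 hB
        have h6 : |(2 : ℝ) ^ b * (sl S.r x.1 * tr S.r y x.2)|
            ≤ |(2 : ℝ) ^ b * sl S.r x.1| * S.D y := by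
          rw [← mul_assoc, abs_mul]
          exact mul_le_mul_of_nonneg_left (S.abs_tr_le y x.2) (abs_nonneg _)
        have h7 := floor_add_near ((2 : ℝ) ^ b * tr S.r y x.1) _ _ h6
        rw [mul_add, Finset.mem_Icc]
        obtain ⟨h8, h9⟩ := abs_le.1 h7
        obtain ⟨h10, h11⟩ := abs_le.1 h5
        constructor <;> linarith only [h8, h10, h9, h11])
  -- entropy of the conditioning variable
  have h4 : ((S.P.pi m).prod (S.P.pi N')).H
      (fun x => (g x.1, (sl S.r x.1, decide (Bad x.1))))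
      ≤ (S.P.pi m).H g + (Fintype.card Λ * Real.log (m + 1) + Real.log 2) := by
    rw [(S.P.pi m).H_prod_fst (S.P.pi N') (fun w => (g w, (sl S.r w, decide (Bad w))))]
    have k1 := (S.P.pi m).H_pair_le g (fun w => (sl S.r w, decide (Bad w)))
    have k2 := (S.P.pi m).H_pair_le (fun w => sl S.r w) (fun w => decide (Bad w))
    have k3 := S.H_sl_le m
    have k4 := (S.P.pi m).H_le_log_card (fun w => decide (Bad w)) Finset.univ
      (fun _ => Finset.mem_univ _)
    rw [Finset.card_univ, Fintype.card_bool] at k4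
    push_cast at k4
    linarith only [k1, k2, k3, k4]
  -- the expectation of the logarithms
  have h5 : ∑ x, ((S.P.pi m).prod (S.P.pi N')).w x * Real.log (mlSet K M
        (|(2 : ℝ) ^ b * sl S.r x.1| * S.D y) (σ (g x.1)) (decide (Bad x.1))).card
      ≤ ∑ w, (S.P.pi m).w w * (Real.log (2 * (|(2 : ℝ) ^ b * sl S.r w| * S.D y) + 3)
        + Real.log (2 * K + 3) + (if Bad w then Real.log (2 * M + 1) else 0)) := by
    rw [(S.P.pi m).sum_prod_w (S.P.pi N') (fun x => Real.log (mlSet K M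
        (|(2 : ℝ) ^ b * sl S.r x.1| * S.D y) (σ (g x.1)) (decide (Bad x.1))).card)]
    refine Finset.sum_le_sum fun w _ => mul_le_mul_of_nonneg_left ?_ ((S.P.pi m).nonneg w)
    change ∑ v, (S.P.pi N').w v * Real.log (mlSet K M (|(2 : ℝ) ^ b * sl S.r w| * S.D y)
      (σ (g w)) (decide (Bad w))).card ≤ _
    rw [(S.P.pi N').sum_const]
    have := mlSet_card_log K M (|(2 : ℝ) ^ b * sl S.r w| * S.D y)
      (mul_nonneg (abs_nonneg _) (S.D_nonneg y)) (σ (g w)) (decide (Bad w))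
    simpa only [decide_eq_true_eq] using this
  have h6 : ∑ w, (S.P.pi m).w w * (Real.log (2 * (|(2 : ℝ) ^ b * sl S.r w| * S.D y) + 3)
        + Real.log (2 * K + 3) + (if Bad w then Real.log (2 * M + 1) else 0))
      = (∑ w, (S.P.pi m).w w * Real.log (2 * (|(2 : ℝ) ^ b * sl S.r w| * S.D y) + 3))
        + Real.log (2 * K + 3)
        + Real.log (2 * M + 1) * ∑ w, (if Bad w then (S.P.pi m).w w else 0) := by
    simp only [mul_add, Finset.sum_add_distrib, (S.P.pi m).sum_const]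
    congr 1
    rw [Finset.mul_sum]
    refine Finset.sum_congr rfl fun w _ => ?_
    split_ifs <;> ring
  have h7 := S.E_log_piece y b m
  set PB : ℝ := ∑ w, (if Bad w then (S.P.pi m).w w else 0) with hPB
  have hPB0 : 0 ≤ PB := Finset.sum_nonneg fun w _ => by
    split_ifs
    exacts [(S.P.pi m).nonneg w, le_rfl]
  have h8 : Real.log (2 * M + 1) ≤ b * Real.log 2 + Real.log (2 * S.D y + 3) := by
    have := Real.log_le_log (by (clear * -; positivity)) hMle
    rwa [Real.log_mul (by positivity) (by positivity), Real.log_pow] at this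
  have h9 := log_succ_le_sqrt m
  have hs := Real.sqrt_nonneg (m : ℝ)
  have hb0 : (0 : ℝ) ≤ b := Nat.cast_nonneg b
  have hm0 : (0 : ℝ) ≤ m := Nat.cast_nonneg m
  have hcard : (0 : ℝ) ≤ Fintype.card Λ := Nat.cast_nonneg _
  have h10 : (Fintype.card Λ : ℝ) * Real.log (m + 1) ≤ Fintype.card Λ * (2 * Real.sqrt m) :=
    mul_le_mul_of_nonneg_left h9 hcard
  have h11 : Real.log (2 * M + 1) * PB ≤ (2 * Fintype.card Λ + S.σ + Real.log 2 + Real.log 3
      + Real.log (2 * K + 3) + Real.log (2 * S.D y + 3) + 1) * (b + m + 1) * PB := by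
    refine mul_le_mul_of_nonneg_right ?_ hPB0
    refine h8.trans ?_
    have k1 : b * Real.log 2 ≤ b := by nlinarith only [hlog1]
    have k2 : (b : ℝ) + Real.log (2 * S.D y + 3)
        ≤ (1 + Real.log (2 * S.D y + 3)) * (b + m + 1) := by nlinarith only [hlD]
    have k3 : (1 + Real.log (2 * S.D y + 3)) * (b + m + 1) ≤ (2 * Fintype.card Λ + S.σ + Real.log 2
      + Real.log 3 + Real.log (2 * K + 3) + Real.log (2 * S.D y + 3) + 1) * (b + m + 1) := by
      refine mul_le_mul_of_nonneg_right ?_ (by (clear * -; positivity))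
      linarith only [hlog, hl3, hlK, hσ]
    linarith only [k1, k2, k3]
  have h12 : Fintype.card Λ * (2 * Real.sqrt m) + Real.log 2 + (Real.log (2 * S.D y + 3)
      + S.σ * Real.sqrt m) + Real.log (2 * K + 3) + Real.log 3
      ≤ (2 * Fintype.card Λ + S.σ + Real.log 2 + Real.log 3 + Real.log (2 * K + 3)
    + Real.log (2 * S.D y + 3) + 1) * (Real.sqrt m + 1) := by
    linarith only [mul_nonneg (sub_nonneg.2 hs) (le_of_lt (sub_pos.2 hl3)), mul_nonneg (sub_nonneg.2 hs) (le_of_lt (sub_pos.2 hlog)), mul_nonneg (sub_nonneg.2 hs) (sub_nonneg.2 hlK), mul_nonneg (sub_nonneg.2 hs) (sub_nonneg.2 hlD), hs, hσ]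
  rw [e1] at h2
  simp only at h3
  linarith only [h2, h4, h5, h7, h6, h10, h11, h12, h3]

end Vale.Agent.P114.Com
end
end

section

/-! The maximality lemma (weighted version of HomML). -/

open scoped Classical
open Polynomial

noncomputable section

namespace Vale.Agent.P114.Com

open FinProb

variable {Λ : Type} [Fintype Λ] [Wts Λ]

omit [Wts Λ] in
/-- bound of a scalar product by the sum of the absolute values -/
lemma cml_dot_le (a b y : Λ → ℝ) (c : ℝ) (h : ∀ i, |a i - b i| ≤ c) :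
    |a ⬝ᵥ y - b ⬝ᵥ y| ≤ c * ∑ i, |y i| := by
  rw [← sub_dotProduct, Finset.mul_sum]
  unfold dotProduct
  refine (Finset.abs_sum_le_sum_abs _ _).trans (Finset.sum_le_sum fun i _ => ?_)
  rw [abs_mul, Pi.sub_apply]
  exact mul_le_mul_of_nonneg_right (h i) (abs_nonneg _)

/-- The value vectors of the branches vanish on `V`. -/
lemma cml_forward (S : Sys Λ) (lam : ℝ) (hr : IsCom S lam) (V : Submodule ℝ (Λ → ℝ))
    (U : Ultrafilter ℕ) (X : ℕ → Lev Λ) (hL : LargeLev U X) (hT : TinyLev U lam X V)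
    (v : Λ → ℝ) (hv : v ∈ V) (u u' : ℕ → Λ) (hb : Branch U S.P X u u') :
    bv lam u u' ⬝ᵥ v = 0 := by
  have hl0 := hr.pos
  have hl1 := hr.lt_one
  have h01 : 0 < 1 - lam := by linarith
  set A : ℝ := ∑ i, |v i| with hA
  have hA0 : 0 ≤ A := Finset.sum_nonneg fun i _ => abs_nonneg _
  have key : ∀ L : ℕ, ∀ ε > 0, |bv lam u u' ⬝ᵥ v| ≤ 4 * (lam ^ L / (1 - lam)) * A + ε := by
    intro L ε hε
    have h1 := Node.realized U S.P X hL (hb L)
    obtain ⟨i, ⟨x, hx, hx1, hx2⟩, hi⟩ := (h1.and (hT v hv ε hε)).exists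
    have h2 := hi x hx
    have hLw : lam ^ min (wtL (pre u L)) (wtL (pre u' L)) ≤ lam ^ L := by
      refine pow_le_pow_of_le_one hl0.le hl1.le (le_min ?_ ?_)
      · have := length_le_wtL (pre u L)
        rwa [pre_length'] at this
      · have := length_le_wtL (pre u' L)
        rwa [pre_length'] at this
    have h3 := cml_dot_le (bv lam u u') (dval lam (pre u L, pre u' L)) v _
      (fun i => bv_tail hr u u' L i)
    have h4 := cml_dot_le (dval lam x) (dval lam (pre u L, pre u' L)) v _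
      (fun i => dval_prefix hr x _ _ hx1 hx2 i)
    rw [← hA] at h3 h4
    have h5 : 2 * (lam ^ min (wtL (pre u L)) (wtL (pre u' L)) / (1 - lam)) * A ≤
        2 * (lam ^ L / (1 - lam)) * A := by (clear * - hLw hl1; gcongr)
    obtain ⟨a1, a2⟩ := abs_le.1 h2
    obtain ⟨b1, b2⟩ := abs_le.1 h3
    obtain ⟨c1, c2⟩ := abs_le.1 h4
    rw [abs_le]
    constructor <;> linarith only [h5, a1, b1, c2, a2, b2, c1]
  have h5 : ∀ ε > 0, |bv lam u u' ⬝ᵥ v| ≤ ε := by
    intro ε hε
    have h6 : Filter.Tendsto (fun L : ℕ => 4 * (lam ^ L / (1 - lam)) * A)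
        Filter.atTop (nhds (4 * (0 / (1 - lam)) * A)) :=
      (((tendsto_pow_atTop_nhds_zero_of_lt_one hl0.le hl1).div_const _).const_mul 4).mul_const A
    rw [zero_div, mul_zero, zero_mul] at h6
    obtain ⟨L, hL⟩ := (h6.eventually_lt_const (half_pos hε)).exists
    have := key L (ε / 2) (half_pos hε)
    linarith
  have h7 : |bv lam u u' ⬝ᵥ v| ≤ 0 := le_of_forall_pos_le_add fun ε hε => by
    rw [zero_add]; exact h5 ε hε
  exact abs_eq_zero.1 (le_antisymm h7 (abs_nonneg _))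

/-- the number of binary digits at the weight `s` -/
def cmlB (lam : ℝ) (s : ℕ) : ℕ := ⌊(s : ℝ) * Real.log (1 / lam) / Real.log 2⌋₊

lemma cml_log_pos {lam : ℝ} (h0 : 0 < lam) (h1 : lam < 1) : 0 < Real.log (1 / lam) :=
  Real.log_pos (by rw [lt_div_iff₀ h0]; linarith)

lemma cmlB_pow {lam : ℝ} (h0 : 0 < lam) (h1 : lam < 1) (s : ℕ) :
    (2 : ℝ) ^ cmlB lam s * lam ^ s ≤ 1 := by
  have hlog : 0 < Real.log 2 := Real.log_pos (by norm_num)
  have hl := cml_log_pos h0 h1
  have e1 : (2 : ℝ) ^ cmlB lam s = Real.exp (cmlB lam s * Real.log 2) := by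
    rw [Real.exp_nat_mul, Real.exp_log (by norm_num)]
  have e2 : lam ^ s = Real.exp (-(s * Real.log (1 / lam))) := by
    have : -((s : ℝ) * Real.log (1 / lam)) = s * Real.log lam := by
      rw [one_div, Real.log_inv]; ring
    rw [this, Real.exp_nat_mul, Real.exp_log h0]
  rw [e1, e2, ← Real.exp_add]
  refine Real.exp_le_one_iff.2 ?_
  have h2 : (cmlB lam s : ℝ) ≤ s * Real.log (1 / lam) / Real.log 2 := Nat.floor_le (by (clear * - hl; positivity))
  rw [le_div_iff₀ hlog] at h2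
  linarith

lemma cmlB_ge {lam : ℝ} {s b : ℕ}
    (h : (b : ℝ) * Real.log 2 ≤ s * Real.log (1 / lam)) : b ≤ cmlB lam s := by
  have hlog : 0 < Real.log 2 := Real.log_pos (by norm_num)
  refine Nat.le_floor ?_
  rw [le_div_iff₀ hlog]
  exact h

/-- Entropy of the words at the scale given by the weight. -/
lemma cml_tree (S : Sys Λ) (lam : ℝ) (hr : IsCom S lam) (U : Ultrafilter ℕ) (X : ℕ → Lev Λ)
    (hL : LargeLev U X) (α₀ : ℝ) (hE : EntLev U S.P X (α₀ * S.χ)) (y : Λ → ℝ)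
    (hy0 : ∀ u u' : ℕ → Λ, Branch U S.P X u u' → bv lam u u' ⬝ᵥ y = 0) (ε : ℝ) (hε : 0 < ε) :
    ∃ C : ℝ, 0 ≤ C ∧ ∀ m s : ℕ, (s : ℝ) ≤ (wbar S.P - ε) * m →
      (S.P.pi m).H (fun w => if wtL (List.ofFn w) < s then none else
        some ⌊(2 : ℝ) ^ cmlB lam s * trL S.r y (List.ofFn w)⌋)
          ≤ α₀ * S.χ * m + C * (Real.sqrt m + 1) := by
  have hl0 := hr.pos
  have hl1 := hr.lt_one
  have h01 : 0 < 1 - lam := by linarith
  set A : ℝ := ∑ i, |y i| with hA
  have hA0 : 0 ≤ A := Finset.sum_nonneg fun i _ => abs_nonneg _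
  set K0 : ℕ := ⌈2 * A / (1 - lam)⌉₊ + 2 with hK0
  refine tree_wt U S.P X hL (α₀ * S.χ) hE (2 * K0 + 1)
    (fun s w => ⌊(2 : ℝ) ^ cmlB lam s * trL S.r y w⌋)
    (fun _ z => Finset.Icc (z - K0) (z + K0)) (by
      intro _ z
      rw [Int.card_Icc]
      omega) (by omega) (by
      intro s w w' hn hw hw'
      obtain ⟨u, u', hb, hu, hu'⟩ := Node.exists_branch U S.P X hL hn
      have hpow := cmlB_pow hl0 hl1 s
      set b := cmlB lam s with hbdef
      have h3 := cml_dot_le (bv lam u u') (dval lam (pre u w.length, pre u' w.length)) y _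
        (fun i => bv_tail hr u u' w.length i)
      rw [hu, hu', hy0 u u' hb, hr.dval_dot, ← hA] at h3
      simp only at h3
      have h3' : lam ^ min (wtL w) (wtL w') ≤ lam ^ s :=
        pow_le_pow_of_le_one hl0.le hl1.le (le_min hw hw')
      have h4 : |(2 : ℝ) ^ b * trL S.r y w - (2 : ℝ) ^ b * trL S.r y w'| ≤ 2 * A / (1 - lam) := by
        rw [← mul_sub, abs_mul, abs_of_pos (by positivity : (0 : ℝ) < 2 ^ b)]
        rw [zero_sub, abs_neg] at h3
        calc _ ≤ (2 : ℝ) ^ b * (2 * (lam ^ min (wtL w) (wtL w') / (1 - lam)) * A) :=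
              mul_le_mul_of_nonneg_left h3 (by positivity)
          _ ≤ (2 : ℝ) ^ b * (2 * (lam ^ s / (1 - lam)) * A) := by (clear * - h3' hl1; gcongr)
          _ = ((2 : ℝ) ^ b * lam ^ s) * (2 * A / (1 - lam)) := by ring
          _ ≤ 1 * (2 * A / (1 - lam)) := mul_le_mul_of_nonneg_right hpow (by (clear * - hl1; positivity))
          _ = _ := one_mul _
      have h5 := Int.floor_le ((2 : ℝ) ^ b * trL S.r y w)
      have h6 := Int.lt_floor_add_one ((2 : ℝ) ^ b * trL S.r y w)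
      have h7 := Int.floor_le ((2 : ℝ) ^ b * trL S.r y w')
      have h8 := Int.lt_floor_add_one ((2 : ℝ) ^ b * trL S.r y w')
      obtain ⟨h9, h10⟩ := abs_le.1 h4
      have h11 : 2 * A / (1 - lam) + 2 ≤ (K0 : ℝ) := by
        rw [hK0]; push_cast
        have := Nat.le_ceil (2 * A / (1 - lam))
        linarith only [this]
      rw [Finset.mem_Icc]
      constructor
      · have : ((⌊(2 : ℝ) ^ b * trL S.r y w⌋ : ℤ) : ℝ) - K0
          ≤ (⌊(2 : ℝ) ^ b * trL S.r y w'⌋ : ℤ) := by (clear * - hl0 hl1 h5 h8 h10 h11; linarith)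
        exact_mod_cast this
      · have : ((⌊(2 : ℝ) ^ b * trL S.r y w'⌋ : ℤ) : ℝ)
          ≤ (⌊(2 : ℝ) ^ b * trL S.r y w⌋ : ℤ) + K0 := by linarith only [h6, h7, h9, h11]
        exact_mod_cast this) ε hε

lemma cml_ar1 {ε W ℓ B s m : ℝ} (hε : 0 < ε) (hm : 0 ≤ m) (hℓ : 0 < ℓ) (hs1 : B ≤ s * ℓ)
    (hm1 : s ≤ (W - ε) * m) : B ≤ W * ℓ * m := by
  have e1 : s * ℓ ≤ (W - ε) * m * ℓ := mul_le_mul_of_nonneg_right hm1 hℓ.le
  have e2 : 0 ≤ ε * m * ℓ := by positivity
  have e3 : W * ℓ * m = (W - ε) * m * ℓ + ε * m * ℓ := by ring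
  linarith only [hs1, e1, e2]

lemma cml_ar2 {ε W ℓ B s m : ℝ} (hε : 0 < ε) (hε2 : ε ≤ 1 / 2) (hW : 1 ≤ W) (hm : 0 ≤ m)
    (hℓ : 0 < ℓ) (hs2 : s * ℓ ≤ B + ℓ) (hm2 : (W - ε) * m ≤ s + (W - ε)) :
    W * ℓ * m ≤ B + 2 * ε * B + (2 * ℓ + 2 * (W * ℓ)) := by
  have e1 : W ≤ (1 + 2 * ε) * (W - ε) := by
    have : 0 ≤ ε * (2 * W - 1 - 2 * ε) := mul_nonneg hε.le (by linarith)
    have e : (1 + 2 * ε) * (W - ε) = W + ε * (2 * W - 1 - 2 * ε) := by ring
    linarith only [this]
  have e2 : W * ℓ * m ≤ (1 + 2 * ε) * ((W - ε) * m * ℓ) := by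
    have := mul_le_mul_of_nonneg_right e1 (mul_nonneg hm hℓ.le)
    calc W * ℓ * m = W * (m * ℓ) := by ring
      _ ≤ (1 + 2 * ε) * (W - ε) * (m * ℓ) := this
      _ = _ := by ring
  have e3 : (W - ε) * m * ℓ ≤ B + ℓ + (W - ε) * ℓ := by
    have := mul_le_mul_of_nonneg_right hm2 hℓ.le
    have e : (s + (W - ε)) * ℓ = s * ℓ + (W - ε) * ℓ := by ring
    linarith only [hs2, this]
  have e4 : (1 + 2 * ε) * ((W - ε) * m * ℓ) ≤ (1 + 2 * ε) * (B + ℓ + (W - ε) * ℓ) :=
    mul_le_mul_of_nonneg_left e3 (by linarith only [hε])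
  have f1 : (1 + 2 * ε) * ℓ ≤ 2 * ℓ := mul_le_mul_of_nonneg_right (by linarith only [hε2]) hℓ.le
  have f2 : (1 + 2 * ε) * ((W - ε) * ℓ) ≤ 2 * (W * ℓ) := by
    have g1 : (W - ε) * ℓ ≤ W * ℓ := mul_le_mul_of_nonneg_right (by linarith) hℓ.le
    have g2 : 0 ≤ (W - ε) * ℓ := mul_nonneg (by linarith) hℓ.le
    calc (1 + 2 * ε) * ((W - ε) * ℓ) ≤ 2 * ((W - ε) * ℓ) :=
          mul_le_mul_of_nonneg_right (by linarith) g2
      _ ≤ 2 * (W * ℓ) := by linarith
  have e5 : (1 + 2 * ε) * (B + ℓ + (W - ε) * ℓ) =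
      B + 2 * ε * B + ((1 + 2 * ε) * ℓ + (1 + 2 * ε) * ((W - ε) * ℓ)) := by ring
  linarith

lemma cml_ar3 {χ L2 b m Q PB C1 wA' ε : ℝ} (hχ : 0 < χ) (hL2 : 0 < L2)
    (h5 : b ≤ χ / L2 * m) (hPB0 : 0 ≤ PB) (hPB1 : PB ≤ 1) (hPB : PB * m ≤ wA' * Q / ε)
    (hC1 : 0 ≤ C1) :
    C1 * (b + m + 1) * PB ≤ C1 * (χ / L2 + 1) * wA' / ε * Q + C1 := by
  have e1 : b * PB ≤ χ / L2 * (PB * m) := by
    have := mul_le_mul_of_nonneg_right h5 hPB0
    calc b * PB ≤ χ / L2 * m * PB := this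
      _ = _ := by ring
  have e2 : χ / L2 * (PB * m) ≤ χ / L2 * (wA' * Q / ε) :=
    mul_le_mul_of_nonneg_left hPB (by positivity)
  have h6 : b * PB + PB * m + PB ≤ (χ / L2 + 1) * (wA' * Q / ε) + 1 := by
    have e3 : (χ / L2 + 1) * (wA' * Q / ε) = χ / L2 * (wA' * Q / ε) + wA' * Q / ε := by ring
    linarith
  have := mul_le_mul_of_nonneg_left h6 hC1
  calc C1 * (b + m + 1) * PB = C1 * (b * PB + PB * m + PB) := by ring
    _ ≤ C1 * ((χ / L2 + 1) * (wA' * Q / ε) + 1) := this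
    _ = _ := by ring

lemma cml_ar4 {χ ε m Q E : ℝ} (hχ : 0 < χ) (hε : 0 < ε) (hQm : Q * Q = m) :
    E * Q ≤ ε * (χ * m) + E ^ 2 / (4 * ε * χ) := by
  have e2 : 0 ≤ (2 * ε * χ * Q - E) ^ 2 / (4 * ε * χ) := by positivity
  have e3 : (2 * ε * χ * Q - E) ^ 2 / (4 * ε * χ) =
      ε * (χ * (Q * Q)) - E * Q + E ^ 2 / (4 * ε * χ) := by
    field_simp
    ring
  rw [e3, hQm] at e2
  linarith only [e2]

/-- The numerical part of the estimate. -/
lemma cml_arith {α₀ ε W ℓ L2 B b s m Q PB C1 C2 wA' f H : ℝ} (hε : 0 < ε) (hε2 : ε ≤ 1 / 2)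
    (hα0 : 0 ≤ α₀) (hα1 : α₀ ≤ 1) (hW : 1 ≤ W) (hℓ : 0 < ℓ) (hL2 : 0 < L2) (hb : 0 ≤ b)
    (hB : B = b * L2) (hs1 : B ≤ s * ℓ) (hs2 : s * ℓ ≤ B + ℓ) (hm1 : s ≤ (W - ε) * m)
    (hm2 : (W - ε) * m ≤ s + (W - ε)) (hm : 0 ≤ m) (hQm : Q * Q = m)
    (hPB0 : 0 ≤ PB) (hPB1 : PB ≤ 1) (hPB : PB * m ≤ wA' * Q / ε) (hC1 : 0 ≤ C1)
    (hf : f ≤ H + |B - W * ℓ * m| + C1 * (Q + 1) + C1 * (b + m + 1) * PB)
    (hH : H ≤ α₀ * (W * ℓ) * m + C2 * (Q + 1)) :
    f ≤ (α₀ + 6 * ε) * B + (3 * (2 * ℓ + 2 * (W * ℓ)) + (2 * C1 + C2)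
      + (C1 + C2 + C1 * (W * ℓ / L2 + 1) * wA' / ε) ^ 2 / (4 * ε * (W * ℓ))) := by
  have h1 := cml_ar1 hε hm hℓ hs1 hm1
  have h2 := cml_ar2 hε hε2 hW hm hℓ hs2 hm2
  have hχ : 0 < W * ℓ := by positivity
  have hD0 : 0 ≤ 2 * ℓ + 2 * (W * ℓ) := by positivity
  have hB0 : 0 ≤ B := by rw [hB]; positivity
  generalize 2 * ℓ + 2 * (W * ℓ) = D at hD0 h2 ⊢
  generalize W * ℓ = χ at hχ h1 h2 hf hH ⊢
  clear hs1 hs2 hm1 hm2
  have h3 : |B - χ * m| ≤ 2 * ε * B + D := by
    have := mul_nonneg hε.le hB0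
    rw [abs_le]; constructor <;> linarith only [h1, h2]
  have h4 : α₀ * χ * m ≤ α₀ * B + 2 * ε * B + D := by
    have e1 : α₀ * (χ * m) ≤ α₀ * (B + 2 * ε * B + D) := mul_le_mul_of_nonneg_left h2 hα0
    have e2 : α₀ * (2 * ε * B + D) ≤ 1 * (2 * ε * B + D) :=
      mul_le_mul_of_nonneg_right hα1 (by (clear * - hε hB0 hD0; positivity))
    have e3 : α₀ * (B + 2 * ε * B + D) = α₀ * B + α₀ * (2 * ε * B + D) := by ring
    have e4 : α₀ * χ * m = α₀ * (χ * m) := by ring
    linarith only [e1, e2]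
  have h5 : b ≤ χ / L2 * m := by
    rw [div_mul_eq_mul_div, le_div_iff₀ hL2, ← hB]
    exact h1
  have h7 := cml_ar3 hχ hL2 h5 hPB0 hPB1 hPB hC1
  have h8 := cml_ar4 (E := C1 + C2 + C1 * (χ / L2 + 1) * wA' / ε) hχ hε hQm
  have h9 : ε * (χ * m) ≤ 2 * ε * B + D := by
    have e1 : ε * (χ * m) ≤ ε * (B + 2 * ε * B + D) := mul_le_mul_of_nonneg_left h2 hε.le
    have e2 : ε * (2 * ε * B) ≤ ε * B := by
      refine mul_le_mul_of_nonneg_left ?_ hε.le
      calc 2 * ε * B ≤ 1 * B := mul_le_mul_of_nonneg_right (by linarith only [hε2]) hB0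
        _ = B := one_mul B
    have e3 : ε * D ≤ 1 * D := mul_le_mul_of_nonneg_right (by linarith only [hε2]) hD0
    have e4 : ε * (B + 2 * ε * B + D) = ε * B + ε * (2 * ε * B) + ε * D := by ring
    linarith only [e1, e2, e3]
  have h10 : C1 * (Q + 1) + C2 * (Q + 1) + (C1 * (χ / L2 + 1) * wA' / ε * Q + C1) =
      (C1 + C2 + C1 * (χ / L2 + 1) * wA' / ε) * Q + (2 * C1 + C2) := by ring
  linarith only [hf, hH, h3, h4, h7, h8, h9]

/-- An affine estimate of the entropies. -/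
lemma cml_alpha_le (S : Sys Λ) (lam : ℝ) (hr : IsCom S lam) (U : Ultrafilter ℕ) (X : ℕ → Lev Λ)
    (hL : LargeLev U X) (α₀ : ℝ) (hα0 : 0 ≤ α₀) (hα1 : α₀ ≤ 1)
    (hE : EntLev U S.P X (α₀ * S.χ)) (y : Λ → ℝ)
    (hy0 : ∀ u u' : ℕ → Λ, Branch U S.P X u u' → bv lam u u' ⬝ᵥ y = 0) (ε : ℝ) (hε : 0 < ε)
    (hε2 : ε ≤ 1 / 2) : S.alpha y ≤ α₀ + 6 * ε := by
  have hl0 := hr.pos
  have hl1 := hr.lt_one
  have hℓ := cml_log_pos hl0 hl1
  have hlog : 0 < Real.log 2 := Real.log_pos (by norm_num)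
  have hW := one_le_wbar S.P
  have hWε : 0 < wbar S.P - ε := by linarith only [hε2, hW]
  have hχ := hr.chi_eq
  obtain ⟨C1, hC1, hf⟩ := fS_le_words S y 0
  obtain ⟨C2, hC2, hH⟩ := cml_tree S lam hr U X hL α₀ hE y hy0 ε hε
  set ℓ := Real.log (1 / lam) with hℓd
  refine S.alpha_le_of_bound y (α₀ + 6 * ε) (3 * (2 * ℓ + 2 * (wbar S.P * ℓ)) + (2 * C1 + C2)
      + (C1 + C2 + C1 * (wbar S.P * ℓ / Real.log 2 + 1) * (wA Λ) / ε) ^ 2
        / (4 * ε * (wbar S.P * ℓ))) fun b => ?_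
  set s : ℕ := ⌈b * Real.log 2 / ℓ⌉₊ with hs
  have hs1 : b * Real.log 2 ≤ s * ℓ := by
    have := Nat.le_ceil (b * Real.log 2 / ℓ)
    rw [div_le_iff₀ hℓ] at this
    exact this
  have hs2 : s * ℓ ≤ b * Real.log 2 + ℓ := by
    have := Nat.ceil_lt_add_one (show 0 ≤ b * Real.log 2 / ℓ by (clear * - hℓ; positivity))
    have h3 : (s : ℝ) * ℓ < (b * Real.log 2 / ℓ + 1) * ℓ := mul_lt_mul_of_pos_right this hℓ
    have h4 : (b * Real.log 2 / ℓ + 1) * ℓ = b * Real.log 2 + ℓ := by (clear * - hℓ; field_simp)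
    linarith only [h3, h4]
  set m : ℕ := ⌈(s : ℝ) / (wbar S.P - ε)⌉₊ with hm
  have hm1 : (s : ℝ) ≤ (wbar S.P - ε) * m := by
    have := Nat.le_ceil ((s : ℝ) / (wbar S.P - ε))
    rw [div_le_iff₀ hWε] at this
    linarith only [this]
  have hm2 : (wbar S.P - ε) * m ≤ s + (wbar S.P - ε) := by
    have := Nat.ceil_lt_add_one (show 0 ≤ (s : ℝ) / (wbar S.P - ε) by (clear * - hWε; positivity))
    have h3 : (m : ℝ) * (wbar S.P - ε) < ((s : ℝ) / (wbar S.P - ε) + 1) * (wbar S.P - ε) :=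
      mul_lt_mul_of_pos_right this hWε
    have h4 : ((s : ℝ) / (wbar S.P - ε) + 1) * (wbar S.P - ε) = s + (wbar S.P - ε) := by
      (clear * - hWε; field_simp)
    linarith only [h3, h4]
  have hbs : b ≤ cmlB lam s := cmlB_ge hs1
  -- the words
  have h1 := hf b m (fun w => if wtL (List.ofFn w) < s then (none : Option ℤ) else
        some ⌊(2 : ℝ) ^ cmlB lam s * trL S.r y (List.ofFn w)⌋)
      (fun w => wtL (List.ofFn w) < s)
      (fun c => c.elim 0 fun z => z / 2 ^ (cmlB lam s - b)) (by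
        intro w hw
        simp only [if_neg hw, Option.elim_some]
        have e1 : (2 : ℝ) ^ cmlB lam s * trL S.r y (List.ofFn w) =
            (2 : ℝ) ^ (cmlB lam s - b) * ((2 : ℝ) ^ b * tr S.r y w) := by
          rw [← mul_assoc, ← pow_add, Nat.sub_add_cancel hbs]
          rfl
        rw [e1, floor_mul_ediv]
        simp)
  have h2 := hH m s hm1
  have hPBeq : (∑ w : Fin m → Λ, @ite ℝ (wtL (List.ofFn w) < s) (Classical.propDecidable _)
      ((S.P.pi m).w w) 0) = prB S.P m (fun w => wtL w < s) := rfl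
  rw [hPBeq, hχ] at h1
  rw [hχ] at h2
  have hPB : prB S.P m (fun w => wtL w < s) * m ≤ wA Λ * Real.sqrt m / ε := by
    refine le_trans ?_ (prB_small S.P ε hε m)
    refine mul_le_mul_of_nonneg_right (prB_mono S.P m _ _ fun w hw => ?_) (Nat.cast_nonneg m)
    have : (wtL w : ℝ) < s := by exact_mod_cast hw
    linarith only [hm1, this]
  exact cml_arith hε hε2 hα0 hα1 hW hℓ hlog (Nat.cast_nonneg b) rfl hs1 hs2 hm1 hm2
    (Nat.cast_nonneg m) (Real.mul_self_sqrt (Nat.cast_nonneg m))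
    (prB_nonneg S.P m _) (prB_le_one S.P m _) hPB hC1 h1 h2

/-- The maximality lemma: the value vectors of the branches cut out exactly `V`. -/
theorem ML (S : Sys Λ) (lam : ℝ) (hr : IsCom S lam) (α₀ : ℝ) (V : Submodule ℝ (Λ → ℝ))
    (hV : ∀ v ∈ V, S.alpha v ≤ α₀)
    (hmax : ∀ V' : Submodule ℝ (Λ → ℝ), V < V' → ∃ x ∈ V', α₀ < S.alpha x)
    (U : Ultrafilter ℕ) (X : ℕ → Lev Λ) (hL : LargeLev U X)
    (hE : EntLev U S.P X (α₀ * S.χ)) (hT : TinyLev U lam X V) (x : Λ → ℝ) :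
    x ∈ V ↔ ∀ u u' : ℕ → Λ, Branch U S.P X u u' → bv lam u u' ⬝ᵥ x = 0 := by
  refine ⟨fun hx => cml_forward S lam hr V U X hL hT x hx, fun hx => ?_⟩
  by_contra hxV
  have hlt : V < V ⊔ Submodule.span ℝ {x} := by
    refine lt_of_le_of_ne le_sup_left fun h => hxV ?_
    rw [h]
    exact Submodule.mem_sup_right (Submodule.mem_span_singleton_self x)
  obtain ⟨y, hy, hαy⟩ := hmax _ hlt
  obtain ⟨v, hv, z, hz, hyz⟩ := Submodule.mem_sup.1 hy
  obtain ⟨c, rfl⟩ := Submodule.mem_span_singleton.1 hz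
  have hy0 : ∀ u u' : ℕ → Λ, Branch U S.P X u u' → bv lam u u' ⬝ᵥ y = 0 := by
    intro u u' hb
    rw [← hyz, dotProduct_add, dotProduct_smul, cml_forward S lam hr V U X hL hT v hv u u' hb,
      hx u u' hb]
    simp
  have hα0 : 0 ≤ α₀ := (S.alpha_nonneg 0).trans (hV 0 V.zero_mem)
  have hα1 : α₀ ≤ 1 := hαy.le.trans (S.alpha_le_one y)
  have h1 := cml_alpha_le S lam hr U X hL α₀ hα0 hα1 hE y hy0
    (min (1 / 2) ((S.alpha y - α₀) / 12)) (lt_min (by norm_num) (by linarith)) (min_le_left _ _)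
  have h2 := min_le_right (1 / 2) ((S.alpha y - α₀) / 12)
  linarith only [hαy, h1, h2]

end Vale.Agent.P114.Com
end
end

section

/-! Words and their series in the degenerate case (weighted version of HomDegC; the linear
algebra `crm`, `crL`, `PGrow`, `evS_*`, `UBd` of `Vale.Agent.P114.DG` is used unchanged). -/

open scoped Classical
open Polynomial

noncomputable section

namespace Vale.Agent.P114.Com.DG

open FinProb Vale.Agent.P114.DG

section words

variable {Λ : Type} [Wts Λ]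

/-- vector of series of a word -/
def cvec (w : List Λ) : Λ → PowerSeries ℤ := fun a => (cpoly w a : PowerSeries ℤ)

/-- vector of series of a pair of words -/
def dvec (x : List Λ × List Λ) : Λ → PowerSeries ℤ := fun a => (dpoly x a : PowerSeries ℤ)

/-- vector of series of a pair of infinite words -/
def psv (u u' : ℕ → Λ) : Λ → PowerSeries ℤ := fun a => ps u u' a

theorem dvec_eq (x : List Λ × List Λ) : dvec x = cvec x.1 - cvec x.2 := by
  funext a
  simp [dvec, cvec, dpoly]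

theorem cvec_cons (j : Λ) (w : List Λ) :
    cvec (j :: w) = Pi.single j 1
      + (((sg j : ℤ) : PowerSeries ℤ) * (PowerSeries.X : PowerSeries ℤ) ^ wt j) • cvec w := by
  funext a
  simp only [cvec, cpoly, Pi.add_apply, Pi.smul_apply, smul_eq_mul, Polynomial.coe_add,
    Polynomial.coe_mul, Polynomial.coe_X, Polynomial.coe_pow, Polynomial.coe_C]
  congr 1
  · by_cases h : j = a
    · subst h; simp
    · rw [if_neg h, Pi.single_eq_of_ne (fun h' => h h'.symm)]
      simp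
  · congr 2
    exact map_intCast (PowerSeries.C : ℤ →+* PowerSeries ℤ) _

theorem cvec_append (u v : List Λ) :
    cvec (u ++ v) = cvec u
      + (((sgL u : ℤ) : PowerSeries ℤ) * (PowerSeries.X : PowerSeries ℤ) ^ wtL u) • cvec v := by
  funext a
  simp only [cvec, cpoly_append, Pi.add_apply, Pi.smul_apply, smul_eq_mul, Polynomial.coe_add,
    Polynomial.coe_mul, Polynomial.coe_X, Polynomial.coe_pow, Polynomial.coe_C]
  congr 3
  exact map_intCast (PowerSeries.C : ℤ →+* PowerSeries ℤ) _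

theorem coeff_psu_of_wtL (u : ℕ → Λ) (L : ℕ) (w : List Λ) (h : pre u L <+: w) (i : Λ) (m : ℕ)
    (hm : m < wtL (pre u L)) : (cpoly w i).coeff m = PowerSeries.coeff m (psu u i) := by
  rw [coeff_psu]
  rcases le_total (m + 1) L with hL | hL
  · refine cpoly_coeff_prefix _ _ ((pre_prefix u hL).trans h) i m ?_
    have := length_le_wtL (pre u (m + 1))
    rw [pre_length'] at this
    omega
  · rw [cpoly_coeff_prefix _ _ h i m hm, cpoly_coeff_prefix _ _ (pre_prefix u hL) i m hm]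

theorem coeff_dvec (x : List Λ × List Λ) (a : Λ) (m : ℕ) :
    PowerSeries.coeff m (dvec x a) = (dpoly x a).coeff m := by
  rw [dvec, Polynomial.coeff_coe]

theorem coeff_cvec (x : List Λ) (a : Λ) (m : ℕ) :
    PowerSeries.coeff m (cvec x a) = (cpoly x a).coeff m := by
  rw [cvec, Polynomial.coeff_coe]

/-- a branch and any pair of words extending its beginning agree up to the smaller weight -/
theorem psv_sub_dvec (u u' : ℕ → Λ) (L : ℕ) (x : List Λ × List Λ) (h1 : pre u L <+: x.1)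
    (h2 : pre u' L <+: x.2) (a : Λ) :
    (PowerSeries.X : PowerSeries ℤ) ^ min (wtL (pre u L)) (wtL (pre u' L))
      ∣ psv u u' a - dvec x a := by
  rw [PowerSeries.X_pow_dvd_iff]
  intro m hm
  rw [lt_min_iff] at hm
  rw [map_sub, coeff_dvec, dpoly_coeff, coeff_psu_of_wtL u L x.1 h1 a m hm.1,
    coeff_psu_of_wtL u' L x.2 h2 a m hm.2, psv, coeff_ps, sub_self]

theorem psv_pgrow (u u' : ℕ → Λ) (a : Λ) : PGrow (psv u u' a) := by
  refine PGrow.of_bound (C := 2) zero_le_two fun m => ?_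
  have := abs_coeff_ps_le u u' a m
  rw [psv]
  exact_mod_cast this

theorem dvec_pgrow (x : List Λ × List Λ) (a : Λ) : PGrow (dvec x a) := PGrow.coe _

theorem evS_dvec (lam : ℝ) (x : List Λ × List Λ) (a : Λ) : evS lam (dvec x a) = dval lam x a := by
  rw [dvec, evS_coe, dval]

end words

end Vale.Agent.P114.Com.DG
end
end

section

/-! The levels of the degenerate case (weighted version of HomDegD). -/

open scoped Classical
open Polynomial

noncomputable section

namespace Vale.Agent.P114.Com.DG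

open FinProb Vale.Agent.P114.DG

variable {Λ : Type} [Fintype Λ] [Wts Λ] {k : ℕ}

theorem dd_coeff_mul (c : ℤ) (n : ℕ) (p : PowerSeries ℤ) (m : ℕ) :
    PowerSeries.coeff m (((c : ℤ) : PowerSeries ℤ) * (PowerSeries.X : PowerSeries ℤ) ^ n * p) =
      if m < n then 0 else c • PowerSeries.coeff (m - n) p := by
  rw [mul_assoc, ← zsmul_eq_mul, map_zsmul, PowerSeries.coeff_X_pow_mul']
  by_cases h : m < n
  · rw [if_pos h, if_neg (by omega), smul_zero]
  · rw [if_neg h, if_pos (by omega)]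

/-- coefficient sequences of the Cramer forms of the unit vectors -/
def phx (F : Fin k → Λ → PowerSeries ℤ) (ι0 : Fin k → Λ) : Λ → ℕ → (Λ → ℤ) :=
  fun a m b => PowerSeries.coeff m (crL F ι0 (Pi.single a 1) b)

omit [Fintype Λ] in
theorem zsum_phx (F : Fin k → Λ → PowerSeries ℤ) (ι0 : Fin k → Λ) (w : List Λ) (m : ℕ) (b : Λ) :
    zsum (phx F ι0) w m b = PowerSeries.coeff m (crL F ι0 (cvec w) b) := by
  induction w generalizing m with
  | nil =>
    have : cvec ([] : List Λ) = 0 := by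
      funext a
      simp [cvec, cpoly]
    rw [this, map_zero]
    simp [zsum]
  | cons j w ih =>
    rw [cvec_cons, map_add, map_smul, zsum]
    simp only [Pi.add_apply, Pi.smul_apply, smul_eq_mul, map_add]
    rw [dd_coeff_mul]
    congr 1
    by_cases h : m < wt j
    · rw [if_pos h, if_pos h]
      rfl
    · rw [if_neg h, if_neg h, Pi.smul_apply, ih]

/-- The levels of the degenerate case: the class contains weight and sign. -/
def ZL (F : Fin k → Λ → PowerSeries ℤ) (ι0 : Fin k → Λ) (Q n : ℕ) : Lev Λ where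
  n := n
  β := ℕ × ℤ × (ℕ → (Λ → ℤ))
  c := fun w => zcl (phx F ι0) (Q * n) (List.ofFn w)

omit [Fintype Λ] in
theorem tru_zsum_eq_iff (F : Fin k → Λ → PowerSeries ℤ) (ι0 : Fin k → Λ) (s : ℕ)
    (w w' : List Λ) : tru s (zsum (phx F ι0) w) = tru s (zsum (phx F ι0) w') ↔
      ∀ b, (PowerSeries.X : PowerSeries ℤ) ^ s ∣ crL F ι0 (cvec w - cvec w') b := by
  rw [tru_eq_iff]
  simp only [map_sub, Pi.sub_apply, PowerSeries.X_pow_dvd_iff]
  constructor
  · intro h b m hm
    have := congrFun (h m hm) b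
    rw [zsum_phx, zsum_phx] at this
    rw [this, sub_self]
  · intro h m hm
    funext b
    rw [zsum_phx, zsum_phx]
    have := h b m hm
    rwa [sub_eq_zero] at this

omit [Fintype Λ] in
theorem ZL_tails_length (F : Fin k → Λ → PowerSeries ℤ) (ι0 : Fin k → Λ) (Q n : ℕ)
    {x : List Λ × List Λ} (hx : x ∈ (ZL F ι0 Q n).Tails) : x.1.length ≤ n ∧ x.2.length ≤ n := by
  obtain ⟨w, w', j, -, -, rfl⟩ := hx
  have e1 : (List.ofFn w).length = n := List.length_ofFn
  have e2 : (List.ofFn w').length = n := List.length_ofFn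
  constructor
  · simp only [List.length_drop, e1]; omega
  · simp only [List.length_drop, e2]; omega

omit [Fintype Λ] in
/-- depth `(Q + A) n` of the whole word leaves depth `Q n` for the tails -/
theorem ZL_tails_dvd (F : Fin k → Λ → PowerSeries ℤ) (ι0 : Fin k → Λ) (Q n : ℕ)
    {x : List Λ × List Λ} (hx : x ∈ (ZL F ι0 (Q + wA Λ) n).Tails) (a : Λ) :
    (PowerSeries.X : PowerSeries ℤ) ^ (Q * n) ∣ crL F ι0 (dvec x) a := by
  obtain ⟨w, w', j, hc, hj, rfl⟩ := hx
  have hc0 : zcl (phx F ι0) ((Q + wA Λ) * n) (List.ofFn w)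
      = zcl (phx F ι0) ((Q + wA Λ) * n) (List.ofFn w') := hc
  have hc' : tru ((Q + wA Λ) * n) (zsum (phx F ι0) (List.ofFn w))
      = tru ((Q + wA Λ) * n) (zsum (phx F ι0) (List.ofFn w')) :=
    congrArg (fun p : ℕ × ℤ × (ℕ → (Λ → ℤ)) => p.2.2) hc0
  rw [tru_zsum_eq_iff] at hc'
  have h1 := hc' a
  have e1 : (List.ofFn w).length = n := List.length_ofFn
  have e2 : (List.ofFn w').length = n := List.length_ofFn
  set pr := (List.ofFn w').take j with hpr
  have e3 : cvec (List.ofFn w) - cvec (List.ofFn w')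
      = (((sgL pr : ℤ) : PowerSeries ℤ) * (PowerSeries.X : PowerSeries ℤ) ^ wtL pr)
        • dvec ((List.ofFn w).drop j, (List.ofFn w').drop j) := by
    rw [dvec_eq, smul_sub]
    conv_lhs => rw [← List.take_append_drop j (List.ofFn w),
      ← List.take_append_drop j (List.ofFn w')]
    rw [cvec_append, cvec_append, hj, ← hpr]
    simp only
    abel
  have hw : wtL pr ≤ wA Λ * n := by
    refine (wtL_le pr).trans (Nat.mul_le_mul_left _ ?_)
    rw [hpr, List.length_take, e2]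
    exact min_le_right _ _
  rw [e3, map_smul, Pi.smul_apply, smul_eq_mul] at h1
  have e4 : (Q + wA Λ) * n = wtL pr + (Q * n + (wA Λ * n - wtL pr)) := by
    have : (Q + wA Λ) * n = Q * n + wA Λ * n := by ring
    omega
  have h2 : (PowerSeries.X : PowerSeries ℤ) ^ wtL pr *
      (PowerSeries.X : PowerSeries ℤ) ^ (Q * n + (wA Λ * n - wtL pr)) ∣
      (PowerSeries.X : PowerSeries ℤ) ^ wtL pr *
        (crL F ι0 (dvec ((List.ofFn w).drop j, (List.ofFn w').drop j)) a) := by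
    have h3 : (PowerSeries.X : PowerSeries ℤ) ^ wtL pr *
        (crL F ι0 (dvec ((List.ofFn w).drop j, (List.ofFn w').drop j)) a) =
        ((sgL pr : ℤ) : PowerSeries ℤ) * (((sgL pr : ℤ) : PowerSeries ℤ) *
          (PowerSeries.X : PowerSeries ℤ) ^ wtL pr *
            (crL F ι0 (dvec ((List.ofFn w).drop j, (List.ofFn w').drop j)) a)) := by
      have h4 : ((sgL pr : ℤ) : PowerSeries ℤ) * ((sgL pr : ℤ) : PowerSeries ℤ) = 1 := by
        rw [← Int.cast_mul, sgL_sq, Int.cast_one]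
      rw [← mul_assoc, ← mul_assoc, h4, one_mul]
    rw [h3, ← pow_add, ← e4]
    exact Dvd.dvd.mul_left h1 _
  rw [mul_dvd_mul_iff_left (pow_ne_zero _ PowerSeries.X_ne_zero), pow_add] at h2
  exact (dvd_mul_right _ _).trans h2

/-- on nodes the truncations at the weight agree -/
theorem node_same (U : Ultrafilter ℕ) (P : FinProb Λ) (X : ℕ → Lev Λ) (hL : LargeLev U X)
    (F : Fin k → Λ → PowerSeries ℤ) (ι0 : Fin k → Λ)
    (hΦ : ∀ u u', Branch U P X u u' → crL F ι0 (psv u u') = 0) {b b' : List Λ}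
    (h : Node U P X b b') (s : ℕ) (hb : s ≤ wtL b) (hb' : s ≤ wtL b') :
    tru s (zsum (phx F ι0) b') = tru s (zsum (phx F ι0) b) := by
  obtain ⟨u, u', hbr, h1, h2⟩ := Node.exists_branch U P X hL h
  symm
  rw [tru_zsum_eq_iff]
  intro a
  have h3 : ∀ c, (PowerSeries.X : PowerSeries ℤ) ^ s ∣ psv u u' c - dvec (b, b') c := by
    intro c
    have h5 := psv_sub_dvec u u' b.length (b, b') (by rw [h1]) (by rw [h2]) c
    rw [h1, h2] at h5
    exact (pow_dvd_pow _ (le_min hb hb')).trans h5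
  have h4 : cvec b - cvec b' = psv u u' - (psv u u' - dvec (b, b')) := by
    rw [dvec_eq]
    abel
  rw [h4, map_sub, hΦ u u' hbr, zero_sub, Pi.neg_apply, dvd_neg]
  exact crL_dvd F ι0 _ _ h3 a

/-- from `tree_wt` (with `K = 1`, `G s b = tru s (zsum (phx F ι0) b)`, `node_same`) and
`zadic_H` -/
theorem ZL_entropy (U : Ultrafilter ℕ) (P : FinProb Λ) (X : ℕ → Lev Λ) (hL : LargeLev U X)
    (a : ℝ) (hE : EntLev U P X a) (F : Fin k → Λ → PowerSeries ℤ) (ι0 : Fin k → Λ)
    (hΦ : ∀ u u', Branch U P X u u' → crL F ι0 (psv u u') = 0) (Q : ℕ)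
    (ε : ℝ) (hε : 0 < ε) :
    ∃ n0 : ℕ, ∀ n ≥ n0, (P.pi (ZL F ι0 Q n).n).H (ZL F ι0 Q n).c
      ≤ (a + ε) * (ZL F ι0 Q n).n :=
  zadic_H P (phx F ι0) a (fun e he => tree_wt U P X hL a hE 1
    (fun s b => tru s (zsum (phx F ι0) b)) (fun _ c => {c}) (fun s c => by simp) one_pos
    (fun s b b' hn hb hb' => by
      rw [Finset.mem_singleton]
      exact node_same U P X hL F ι0 hΦ hn s hb hb') e he) Q ε hε

theorem Phi_eval (lam : ℝ) (h0 : lam ≠ 0) (h1 : |lam| < 1) (F : Fin k → Λ → PowerSeries ℤ)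
    (ι0 : Fin k → Λ) (hF : ∀ r b, PGrow (F r b)) (v : Λ → ℝ)
    (hv : ∀ r, (fun b => evS lam (F r b)) ⬝ᵥ v = 0) (x : List Λ × List Λ) :
    (fun a => evS lam (crL F ι0 (dvec x) a)) ⬝ᵥ v
      = evS lam (crm F ι0).det * (dval lam x ⬝ᵥ v) := by
  have e1 : (fun a => evS lam (crL F ι0 (dvec x) a))
      = crL (fun r b => evS lam (F r b)) ι0 (dval lam x) := by
    funext a
    have e : (fun b => evS lam (dvec x b)) = dval lam x := funext fun b => evS_dvec lam x b
    rw [evS_crL lam h0 h1 F ι0 _ hF (fun b => dvec_pgrow x b), e]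
  rw [e1, crL_dot _ _ _ _ hv, evS_crm_det lam h0 h1 F ι0 hF]

/-- uniform smallness of the tails of the levels `ZL` -/
theorem ZL_tiny (lam : ℝ) (h0 : lam ≠ 0) (h1 : |lam| < 1) (F : Fin k → Λ → PowerSeries ℤ)
    (ι0 : Fin k → Λ) (hF : ∀ r b, PGrow (F r b)) (hdet : evS lam (crm F ι0).det ≠ 0)
    (v : Λ → ℝ) (hv : ∀ r, (fun b => evS lam (F r b)) ⬝ᵥ v = 0) (Q : ℕ) (hQ : 0 < Q) (ε : ℝ)
    (hε : 0 < ε) :
    ∃ n0 : ℕ, ∀ n ≥ n0, ∀ x ∈ (ZL F ι0 (Q + wA Λ) n).Tails, |dval lam x ⬝ᵥ v| ≤ ε := by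
  have hdp : 0 < |evS lam (crm F ι0).det| := abs_pos.mpr hdet
  set B : ℝ := ∑ a, |v a| with hB
  have hB0 : 0 ≤ B := Finset.sum_nonneg fun _ _ => abs_nonneg _
  set η : ℝ := ε * |evS lam (crm F ι0).det| / (B + 1) with hη
  have hη0 : 0 < η := by positivity
  have h2 : ∀ a : Λ, ∃ N : ℕ, ∀ y z : Λ → PowerSeries ℤ,
      (∀ b m, |((PowerSeries.coeff m (y b) : ℤ) : ℝ)| ≤ 1) →
      (∀ b m, |((PowerSeries.coeff m (z b) : ℤ) : ℝ)| ≤ 1) →
      (∀ m < N, PowerSeries.coeff m (crL F ι0 (y - z) a) = 0) →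
        |evS lam (crL F ι0 (y - z) a)| ≤ η := by
    intro a
    obtain ⟨C, l, hC, h⟩ := UBd.crL F ι0 hF a
    obtain ⟨N, hN⟩ := evS_small lam h0 h1 (2 * C) l η hη0
    refine ⟨N, fun y z hy hz hc => hN _ (fun m => ?_) hc⟩
    have h3 := h y hy m
    have h4 := h z hz m
    rw [map_sub, Pi.sub_apply, map_sub, Int.cast_sub]
    refine (abs_sub _ _).trans ?_
    linarith only [h3, h4]
  choose N hN using h2
  refine ⟨∑ a, N a, fun n hn x hx => ?_⟩
  have h3 : ∀ a, |evS lam (crL F ι0 (dvec x) a)| ≤ η := by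
    intro a
    have hcb : ∀ (w : List Λ) (b : Λ) (m : ℕ),
        |((PowerSeries.coeff m (cvec w b) : ℤ) : ℝ)| ≤ 1 := by
      intro w b m
      rw [coeff_cvec]
      have := cpoly_coeff_abs_le w b m
      exact_mod_cast this
    have h6 := hN a (cvec x.1) (cvec x.2) (hcb _) (hcb _)
    rw [← dvec_eq] at h6
    apply h6
    intro m hm
    have h4 := ZL_tails_dvd F ι0 Q n hx a
    rw [PowerSeries.X_pow_dvd_iff] at h4
    apply h4
    have h5 : N a ≤ ∑ a, N a := Finset.single_le_sum (fun _ _ => Nat.zero_le _)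
      (Finset.mem_univ a)
    calc m < N a := hm
      _ ≤ n := h5.trans hn
      _ ≤ Q * n := Nat.le_mul_of_pos_left n hQ
  have h4 := Phi_eval lam h0 h1 F ι0 hF v hv x
  have h5 : |(fun a => evS lam (crL F ι0 (dvec x) a)) ⬝ᵥ v| ≤ η * B := by
    unfold dotProduct
    refine (Finset.abs_sum_le_sum_abs _ _).trans ?_
    rw [hB, Finset.mul_sum]
    refine Finset.sum_le_sum fun a _ => ?_
    rw [abs_mul]
    exact mul_le_mul_of_nonneg_right (h3 a) (abs_nonneg _)
  rw [h4, abs_mul] at h5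
  have h6 : η * B ≤ ε * |evS lam (crm F ι0).det| := by
    rw [hη, div_mul_eq_mul_div, div_le_iff₀ (by (clear * -; positivity))]
    have : 0 ≤ ε * |evS lam (crm F ι0).det| := by (clear * - hε hdet; positivity)
    linarith only [this]
  have h7 : |evS lam (crm F ι0).det| * |dval lam x ⬝ᵥ v| ≤ |evS lam (crm F ι0).det| * ε := by
    linarith only [h5, h6]
  exact le_of_mul_le_mul_left h7 hdp

end Vale.Agent.P114.Com.DG
end
end

section

/-! The degenerate case (weighted version of HomDegE). -/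

open scoped Classical
open Polynomial

noncomputable section

namespace Vale.Agent.P114.Com.DG

open FinProb Vale.Agent.P114.DG

variable {Λ : Type} [Fintype Λ] [Wts Λ]

/-- `k` branches with a nonzero minor of values. -/
theorem exists_branch_minor (U : Ultrafilter ℕ) (P : FinProb Λ) (X : ℕ → Lev Λ) (lam : ℝ)
    (V : Submodule ℝ (Λ → ℝ)) (k : ℕ) (hk : k + Module.finrank ℝ V = Fintype.card Λ)
    (hV : ∀ x, x ∈ V ↔ ∀ u u' : ℕ → Λ, Branch U P X u u' → bv lam u u' ⬝ᵥ x = 0) :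
    ∃ (u u' : Fin k → ℕ → Λ) (ι0 : Fin k → Λ), (∀ r, Branch U P X (u r) (u' r)) ∧
      (Matrix.of fun r s => bv lam (u r) (u' r) (ι0 s)).det ≠ 0 := by
  set T : Set (Λ → ℝ) := {y | ∃ u u' : ℕ → Λ, Branch U P X u u' ∧ y = bv lam u u'} with hT
  obtain ⟨f, hf, hspan, hli⟩ := Submodule.exists_fun_fin_finrank_span_eq ℝ T
  have h1 := finrank_ann _ f hli
  have h2 : ann (Set.range f) = V := by
    rw [ann_congr (Set.range f) T hspan]
    ext x
    rw [mem_ann, hV x]
    constructor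
    · intro h u u' hb
      exact h _ ⟨u, u', hb, rfl⟩
    · rintro h _ ⟨u, u', hb, rfl⟩
      exact h u u' hb
  rw [h2] at h1
  have h3 : k = Module.finrank ℝ (Submodule.span ℝ T) := by omega
  subst h3
  choose u u' hbr heq using hf
  obtain ⟨ι0, hι0⟩ := dg_exists_minor _ f hli
  refine ⟨u, u', ι0, hbr, ?_⟩
  have e : f = fun r => bv lam (u r) (u' r) := funext heq
  rw [e] at hι0
  exact hι0

omit [Fintype Λ] in
theorem deg_le_wtL_pre (u : ℕ → Λ) (L : ℕ) : L ≤ wtL (Vale.Agent.P114.pre u L) := by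
  have := length_le_wtL (Vale.Agent.P114.pre u L)
  rwa [pre_length'] at this

/-- the rank statement (c) -/
theorem ZL_rank (S : Sys Λ) (lam : ℝ) (hr : IsCom S lam)
    (α₀ : ℝ) (V : Submodule ℝ (Λ → ℝ)) (hV : ∀ v ∈ V, S.alpha v ≤ α₀)
    (hmax : ∀ V' : Submodule ℝ (Λ → ℝ), V < V' → ∃ x ∈ V', α₀ < S.alpha x)
    (k : ℕ) (hk : k + Module.finrank ℝ V = Fintype.card Λ)
    (F : Fin k → Λ → PowerSeries ℤ) (ι0 : Fin k → Λ) (Q : ℕ)
    (hent : ∀ ε > 0, ∃ n0 : ℕ, ∀ n ≥ n0, (S.P.pi (ZL F ι0 Q n).n).H (ZL F ι0 Q n).c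
      ≤ (α₀ * S.χ + ε) * (ZL F ι0 Q n).n)
    (htiny : ∀ v ∈ V, ∀ ε > 0, ∃ n0 : ℕ, ∀ n ≥ n0, ∀ x ∈ (ZL F ι0 Q n).Tails,
      |dval lam x ⬝ᵥ v| ≤ ε) :
    ∃ o1 n1 : ℕ, ∀ n ≥ n1, ∃ (Y : Fin k → List Λ × List Λ) (ι' : Fin k → Λ),
      (∀ r, Y r ∈ (ZL F ι0 Q n).Tails) ∧
      ∃ m ≤ o1, PowerSeries.coeff m (crm (fun r => dvec (Y r)) ι').det ≠ 0 := by
  have h0 : lam ≠ 0 := hr.ne_zero
  have h1 : |lam| < 1 := hr.abs_lt
  by_contra hcon
  push Not at hcon
  choose nn hnn hbad using fun i : ℕ => hcon i i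
  set U : Ultrafilter ℕ := Filter.hyperfilter ℕ with hU
  have hUtop : (U : Filter ℕ) ≤ Filter.atTop := Nat.hyperfilter_le_atTop
  set X : ℕ → Lev Λ := fun i => ZL F ι0 Q (nn i) with hX
  have hlarge : ∀ N : ℕ, ∀ᶠ i in (U : Filter ℕ), N ≤ nn i := by
    intro N
    have : ∀ᶠ i in (Filter.atTop : Filter ℕ), N ≤ nn i := by
      filter_upwards [Filter.eventually_ge_atTop N] with i hi
      exact hi.trans (hnn i)
    exact this.filter_mono hUtop
  have hL : LargeLev U X := fun N => hlarge N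
  have hE : EntLev U S.P X (α₀ * S.χ) := by
    intro ε hε
    obtain ⟨n0, hn0⟩ := hent ε hε
    filter_upwards [hlarge n0] with i hi
    exact hn0 _ hi
  have hT : TinyLev U lam X V := by
    intro v hv ε hε
    obtain ⟨n0, hn0⟩ := htiny v hv ε hε
    filter_upwards [hlarge n0] with i hi
    exact hn0 _ hi
  have hML := fun x => ML S lam hr α₀ V hV hmax U X hL hE hT x
  obtain ⟨u, u', ι', hbr, hdet⟩ := exists_branch_minor U S.P X lam V k hk hML
  -- the determinant of the series is nonzero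
  have hps : ∀ r b, PGrow (psv (u r) (u' r) b) := fun r b => psv_pgrow _ _ _
  have hdet2 : (crm (fun r => psv (u r) (u' r)) ι').det ≠ 0 := by
    intro h
    have h2 := evS_crm_det lam h0 h1 (fun r => psv (u r) (u' r)) ι' hps
    rw [h] at h2
    have h3 : evS lam (0 : PowerSeries ℤ) = 0 := by
      have := evS_coe lam (0 : ℤ[X])
      simpa using this
    rw [h3] at h2
    exact hdet h2.symm
  obtain ⟨o, ho⟩ := PowerSeries.exists_coeff_ne_zero_iff_ne_zero.mpr hdet2
  have hreal := realized_family U S.P X hL u u' hbr (o + 1)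
  have hge : ∀ᶠ i in (U : Filter ℕ), o ≤ i :=
    (Filter.eventually_ge_atTop o).filter_mono hUtop
  obtain ⟨i, ⟨Y, hY1, hY2⟩, hi⟩ := (hreal.and hge).exists
  have hz := hbad i Y ι' hY1 o hi
  have hcong : (PowerSeries.X : PowerSeries ℤ) ^ (o + 1) ∣
      (crm (fun r => psv (u r) (u' r)) ι').det - (crm (fun r => dvec (Y r)) ι').det := by
    apply dg_det_congr
    intro r s
    exact (pow_dvd_pow _ (le_min (deg_le_wtL_pre _ _) (deg_le_wtL_pre _ _))).trans
      (psv_sub_dvec (u r) (u' r) (o + 1) (Y r) (hY2 r).1 (hY2 r).2 (ι' s))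
  rw [PowerSeries.X_pow_dvd_iff] at hcong
  have h5 := hcong o (Nat.lt_succ_self o)
  rw [map_sub, hz, sub_zero] at h5
  exact ho h5

/-- span of the tails -/
def spT (T : Set (List Λ × List Λ)) : Submodule KK (Λ → KK) :=
  Submodule.span KK ((fun x => fun b => algebraMap (PowerSeries ℤ) KK (dvec x b)) '' T)

theorem degenerate_step' (S : Sys Λ) (lam : ℝ) (hr : IsCom S lam) (α₀ : ℝ)
    (V : Submodule ℝ (Λ → ℝ)) (hV : ∀ v ∈ V, S.alpha v ≤ α₀)
    (hmax : ∀ V' : Submodule ℝ (Λ → ℝ), V < V' → ∃ x ∈ V', α₀ < S.alpha x)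
    (U : Ultrafilter ℕ) (X : ℕ → Lev Λ) (hL : LargeLev U X)
    (hE : EntLev U S.P X (α₀ * S.χ)) (hT : TinyLev U lam X V)
    (k : ℕ) (hk : k + Module.finrank ℝ V = Fintype.card Λ) (hdeg : Degenerate U S.P X k)
    (ε : ℝ) (hε : 0 < ε) :
    ∃ n0 : ℕ, ∀ n ≥ n0, ∀ t ∈ V, S.HG t n ≤ (α₀ * S.χ + ε) * n := by
  -- preliminaries on `lam`
  obtain ⟨i0⟩ := S.nonempty
  have h0 : lam ≠ 0 := hr.ne_zero
  have h1 : |lam| < 1 := hr.abs_lt
  have hA1 : 1 ≤ wA Λ := one_le_wA i0
  have hML := fun x => ML S lam hr α₀ V hV hmax U X hL hE hT x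
  obtain ⟨u, u', ι0, hbr, hdetR⟩ := exists_branch_minor U S.P X lam V k hk hML
  set F : Fin k → Λ → PowerSeries ℤ := fun r => psv (u r) (u' r) with hF
  have hFg : ∀ r b, PGrow (F r b) := fun r b => psv_pgrow _ _ _
  have hev : evS lam (crm F ι0).det ≠ 0 := by
    rw [evS_crm_det lam h0 h1 F ι0 hFg]
    exact hdetR
  have hdet : (crm F ι0).det ≠ 0 := by
    intro h
    apply hev
    rw [h]
    have := evS_coe lam (0 : ℤ[X])
    simpa using this
  set φ : PowerSeries ℤ →+* KK := algebraMap (PowerSeries ℤ) KK with hφ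
  have hφi : Function.Injective φ := IsFractionRing.injective (PowerSeries ℤ) KK
  -- Cramer forms of branches vanish
  have hΦ : ∀ v v', Branch U S.P X v v' → crL F ι0 (psv v v') = 0 := by
    intro v v' hb
    apply crL_zero_of_minors φ hφi F ι0 hdet
    intro f
    have h2 := hdeg (Fin.snoc u v) (Fin.snoc u' v') (fun r => by
      refine Fin.lastCases ?_ (fun i => ?_) r
      · simpa using hb
      · simpa using hbr i) f
    convert h2 using 3
    funext r s
    refine Fin.lastCases ?_ (fun i => ?_) r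
    · simp [psv]
    · simp [hF, psv]
  have hVdot : ∀ v ∈ V, ∀ r, (fun b => evS lam (F r b)) ⬝ᵥ v = 0 := by
    intro v hv r
    exact (hML v).1 hv (u r) (u' r) (hbr r)
  -- choice of `Q`
  set A : ℕ := wA Λ with hA
  set Q : ℕ := A * (k + 3) with hQ
  have hQ0 : 0 < Q := Nat.mul_pos hA1 (by omega)
  have hent := ZL_entropy U S.P X hL (α₀ * S.χ) hE F ι0 hΦ (Q + A)
  have htiny : ∀ v ∈ V, ∀ ε > 0, ∃ n0 : ℕ, ∀ n ≥ n0, ∀ x ∈ (ZL F ι0 (Q + A) n).Tails,
      |dval lam x ⬝ᵥ v| ≤ ε := fun v hv ε hε =>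
    ZL_tiny lam h0 h1 F ι0 hFg hev v (hVdot v hv) Q hQ0 ε hε
  obtain ⟨o1, n1, hrank⟩ := ZL_rank S lam hr α₀ V hV hmax k hk F ι0 (Q + A) hent htiny
  -- order of `D ^ (k+1)`
  obtain ⟨oD, hoD⟩ := PowerSeries.exists_coeff_ne_zero_iff_ne_zero.mpr (pow_ne_zero (k + 1) hdet)
  -- the large minors vanish
  set n2 : ℕ := n1 + (k + 1) + oD + 1 with hn2
  have hminor : ∀ n ≥ n2, ∀ Y : Fin (k + 1) → List Λ × List Λ,
      (∀ r, Y r ∈ (ZL F ι0 (Q + A) n).Tails ∨ Y r ∈ (ZL F ι0 (Q + A) (n + 1)).Tails) →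
      ∀ f : Fin (k + 1) → Λ, (Matrix.of fun r s => dvec (Y r) (f s)).det = 0 := by
    intro n hn Y hY f
    have e1 : ∀ r a, (PowerSeries.X : PowerSeries ℤ) ^ (Q * n) ∣ crL F ι0 (dvec (Y r)) a := by
      intro r a
      rcases hY r with h | h
      · exact ZL_tails_dvd F ι0 Q n h a
      · refine (pow_dvd_pow _ ?_).trans (ZL_tails_dvd F ι0 Q (n + 1) h a)
        exact Nat.mul_le_mul_left _ (Nat.le_succ n)
    have e2 := dg_pow_dvd F ι0 (fun r => dvec (Y r)) _ e1 f
    have e3 := dg_order hoD e2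
    -- the minor is a polynomial of small degree
    set p : ℤ[X] := (Matrix.of fun r s => dpoly (Y r) (f s)).det with hp
    have e4 : (Matrix.of fun r s => dvec (Y r) (f s)).det = (p : PowerSeries ℤ) := by
      rw [hp]
      have := RingHom.map_det (Polynomial.coeToPowerSeries.ringHom (R := ℤ))
        (Matrix.of fun r s => dpoly (Y r) (f s))
      rw [Polynomial.coeToPowerSeries.ringHom_apply] at this
      rw [this]
      congr 1
    have e5 : ∀ r s, (dpoly (Y r) (f s)).natDegree ≤ A * (n + 1) := by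
      intro r s
      have hlen : (Y r).1.length ≤ n + 1 ∧ (Y r).2.length ≤ n + 1 := by
        rcases hY r with h | h
        · have := ZL_tails_length F ι0 (Q + A) n h
          omega
        · exact ZL_tails_length F ι0 (Q + A) (n + 1) h
      exact dpoly_natDegree_le _ _ hlen.1 hlen.2
    have e6 : p.natDegree ≤ (k + 1) * (A * (n + 1)) := by
      rw [hp, Matrix.det_apply]
      apply Polynomial.natDegree_sum_le_of_forall_le
      intro σ _
      have h3 : (∏ i, (Matrix.of fun r s => dpoly (Y r) (f s)) (σ i) i).natDegree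
          ≤ (k + 1) * (A * (n + 1)) := by
        refine (Polynomial.natDegree_prod_le _ _).trans ?_
        refine (Finset.sum_le_sum (fun i _ => e5 (σ i) i)).trans ?_
        simp
      rcases Int.units_eq_one_or (Equiv.Perm.sign σ) with h | h
      · rw [h, one_smul]; exact h3
      · rw [h, Units.neg_smul, one_smul, Polynomial.natDegree_neg]; exact h3
    rw [e4] at e3 ⊢
    have e7 : p = 0 := by
      ext m
      rw [Polynomial.coeff_zero]
      by_cases hm : m ≤ (k + 1) * (A * (n + 1))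
      · have := e3 m (by
          have a1 : (k + 1) * (A * (n + 1)) = A * ((k + 1) * n) + A * (k + 1) := by ring
          have a2 : Q * n = A * ((k + 1) * n) + A * n + A * n := by rw [hQ]; ring
          have a3 : A * (k + 1) ≤ A * n := Nat.mul_le_mul_left _ (by omega)
          have a4 : n ≤ A * n := Nat.le_mul_of_pos_left n hA1
          omega)
        rwa [Polynomial.coeff_coe] at this
      · exact Polynomial.coeff_eq_zero_of_natDegree_lt (by omega)
    rw [e7, Polynomial.coe_zero]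
  -- the spans are constant
  have hfin : ∀ n ≥ n2, Module.finrank KK
      (spT ((ZL F ι0 (Q + A) n).Tails ∪ (ZL F ι0 (Q + A) (n + 1)).Tails)) ≤ k := by
    intro n hn
    apply dg_finrank_le
    intro y hy f
    choose x hx hxy using hy
    have e : (Matrix.of fun r s => y r (f s))
        = φ.mapMatrix (Matrix.of fun r s => dvec (x r) (f s)) := by
      ext r s
      rw [RingHom.mapMatrix_apply, Matrix.map_apply, Matrix.of_apply, Matrix.of_apply, ← hxy r]
    rw [e, ← RingHom.map_det, hminor n hn x hx f, map_zero]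
  have hindep : ∀ n ≥ n1, ∀ (Y : Fin k → List Λ × List Λ) (ι' : Fin k → Λ) (m : ℕ),
      PowerSeries.coeff m (crm (fun r => dvec (Y r)) ι').det ≠ 0 →
      LinearIndependent KK (fun r b => φ (dvec (Y r) b)) := by
    intro n _ Y ι' m hm
    apply dg_indep_of_minor k _ ι'
    have e : (Matrix.of fun r s => φ (dvec (Y r) (ι' s)))
        = φ.mapMatrix (crm (fun r => dvec (Y r)) ι') := by
      ext r s
      rfl
    rw [e, ← RingHom.map_det]
    intro h
    apply hm
    have : (crm (fun r => dvec (Y r)) ι').det = 0 := hφi (by rw [h, map_zero])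
    rw [this, map_zero]
  have hgek : ∀ n ≥ n1, k ≤ Module.finrank KK (spT (ZL F ι0 (Q + A) n).Tails) := by
    intro n hn
    obtain ⟨Y, ι', hY, m, -, hm⟩ := hrank n hn
    have hli := hindep n hn Y ι' m hm
    have e1 : Submodule.span KK (Set.range fun r b => φ (dvec (Y r) b))
        ≤ spT (ZL F ι0 (Q + A) n).Tails := by
      apply Submodule.span_mono
      rintro _ ⟨r, rfl⟩
      exact ⟨Y r, hY r, rfl⟩
    have e2 := Submodule.finrank_mono e1
    rw [finrank_span_eq_card hli, Fintype.card_fin] at e2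
    exact e2
  have hstep : ∀ n ≥ n2, spT (ZL F ι0 (Q + A) n).Tails = spT (ZL F ι0 (Q + A) (n + 1)).Tails := by
    intro n hn
    have a1 : spT (ZL F ι0 (Q + A) n).Tails
        = spT ((ZL F ι0 (Q + A) n).Tails ∪ (ZL F ι0 (Q + A) (n + 1)).Tails) := by
      apply Submodule.eq_of_le_of_finrank_le
      · exact Submodule.span_mono (Set.image_mono Set.subset_union_left)
      · exact (hfin n hn).trans (hgek n (by omega))
    have a2 : spT (ZL F ι0 (Q + A) (n + 1)).Tails
        = spT ((ZL F ι0 (Q + A) n).Tails ∪ (ZL F ι0 (Q + A) (n + 1)).Tails) := by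
      apply Submodule.eq_of_le_of_finrank_le
      · exact Submodule.span_mono (Set.image_mono Set.subset_union_right)
      · exact (hfin n hn).trans (hgek (n + 1) (by omega))
    rw [a1, a2]
  have hconst : ∀ n ≥ n2, ∀ d : ℕ,
      spT (ZL F ι0 (Q + A) n).Tails = spT (ZL F ι0 (Q + A) (n + d)).Tails := by
    intro n hn d
    induction d with
    | zero => rfl
    | succ d ih => rw [ih, ← add_assoc]; exact hstep (n + d) (by omega)
  -- Cramer forms of tails vanish
  have hzero : ∀ n ≥ n2, ∀ x ∈ (ZL F ι0 (Q + A) n).Tails, crL F ι0 (dvec x) = 0 := by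
    intro n hn x hx
    funext a
    apply PowerSeries.ext
    intro m
    rw [Pi.zero_apply, map_zero]
    -- take `n'` large
    set n' := n + (m + o1 + 1) with hn'
    obtain ⟨Y, ι', hY, o, ho, hcoef⟩ := hrank n' (by omega)
    have hli := hindep n' (by omega) Y ι' o hcoef
    have hspan : Submodule.span KK (Set.range fun r b => φ (dvec (Y r) b))
        = spT (ZL F ι0 (Q + A) n').Tails := by
      apply Submodule.eq_of_le_of_finrank_le
      · apply Submodule.span_mono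
        rintro _ ⟨r, rfl⟩
        exact ⟨Y r, hY r, rfl⟩
      · rw [finrank_span_eq_card hli, Fintype.card_fin]
        refine le_trans ?_ (hfin n' (by omega))
        apply Submodule.finrank_mono
        exact Submodule.span_mono (Set.image_mono Set.subset_union_left)
    have hmem : (fun b => φ (dvec x b)) ∈ Submodule.span KK (Set.range fun r b => φ (dvec (Y r) b)) := by
      rw [hspan, hn', ← hconst n hn (m + o1 + 1)]
      exact Submodule.subset_span ⟨x, hx, rfl⟩
    have hcr := crL_zero_of_span_map φ hφi (fun r => dvec (Y r)) ι' (dvec x) hmem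
    have hdvd := dg_cramer_dvd F ι0 (fun r => dvec (Y r)) ι' (dvec x) hcr
      ((PowerSeries.X : PowerSeries ℤ) ^ (Q * n'))
      (fun r a => ZL_tails_dvd F ι0 Q n' (hY r) a) a
    apply dg_order hcoef hdvd
    have : n' ≤ Q * n' := Nat.le_mul_of_pos_left n' hQ0
    omega
  -- conclusion
  obtain ⟨n3, hn3⟩ := hent ε hε
  refine ⟨max n2 n3, fun n hn t ht => ?_⟩
  have hnn2 : n2 ≤ n := (le_max_left _ _).trans hn
  have hnn3 : n3 ≤ n := (le_max_right _ _).trans hn
  refine le_trans ?_ (hn3 n hnn3)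
  unfold Sys.HG
  apply FinProb.H_le_of_det
  intro w w' hww
  have hx : (List.ofFn w, List.ofFn w') ∈ (ZL F ι0 (Q + A) n).Tails :=
    ⟨w, w', 0, hww, by simp, rfl⟩
  have hww' : zcl (phx F ι0) ((Q + A) * n) (List.ofFn w)
      = zcl (phx F ι0) ((Q + A) * n) (List.ofFn w') := hww
  unfold zcl at hww'
  have hwt : wtL (List.ofFn w) = wtL (List.ofFn w') := (Prod.mk.inj hww').1
  have hsg : sgL (List.ofFn w) = sgL (List.ofFn w') := (Prod.mk.inj (Prod.mk.inj hww').2).1
  have hz := hzero n hnn2 _ hx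
  have he := Phi_eval lam h0 h1 F ι0 hFg t (hVdot t ht) (List.ofFn w, List.ofFn w')
  rw [hz] at he
  have hev0 : evS lam (0 : PowerSeries ℤ) = 0 := by
    have := evS_coe lam (0 : ℤ[X])
    simpa using this
  have he2 : evS lam (crm F ι0).det * (dval lam (List.ofFn w, List.ofFn w') ⬝ᵥ t) = 0 := by
    rw [← he]
    simp only [Pi.zero_apply, hev0, zero_dotProduct']
  have he3 := (mul_eq_zero.mp he2).resolve_left hev
  rw [hr.dval_dot] at he3
  rw [Prod.mk.injEq]
  constructor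
  · unfold sl
    rw [hr.slL_eq, hr.slL_eq, hwt, hsg]
  · unfold tr
    linarith only [he3]

end Vale.Agent.P114.Com.DG

namespace Vale.Agent.P114.Com

open FinProb Vale.Agent.P114.DG

variable {Λ : Type} [Fintype Λ] [Wts Λ]

/-- Copy of `DG.degenerate_step'` (HomDegE.lean) with `Q = wA Λ * (k + 3)`; the class of
`ZL F ι0 (Q + wA Λ) n` determines the slope, `tr` is treated as before. -/
theorem degenerate_step (S : Sys Λ) (lam : ℝ) (hr : IsCom S lam) (α₀ : ℝ)
    (V : Submodule ℝ (Λ → ℝ)) (hV : ∀ v ∈ V, S.alpha v ≤ α₀)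
    (hmax : ∀ V' : Submodule ℝ (Λ → ℝ), V < V' → ∃ x ∈ V', α₀ < S.alpha x)
    (U : Ultrafilter ℕ) (X : ℕ → Lev Λ) (hL : LargeLev U X)
    (hE : EntLev U S.P X (α₀ * S.χ)) (hT : TinyLev U lam X V)
    (k : ℕ) (hk : k + Module.finrank ℝ V = Fintype.card Λ) (hdeg : Degenerate U S.P X k)
    (ε : ℝ) (hε : 0 < ε) :
    ∃ n0 : ℕ, ∀ n ≥ n0, ∀ t ∈ V, S.HG t n ≤ (α₀ * S.χ + ε) * n :=
  DG.degenerate_step' S lam hr α₀ V hV hmax U X hL hE hT k hk hdeg ε hε

end Vale.Agent.P114.Com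
end
end

section

/-! Minors of the difference polynomials (weighted version of HomPoly). -/

open scoped Classical
open Polynomial

noncomputable section

namespace Vale.Agent.P114.Com

open FinProb

variable {Λ : Type} [Fintype Λ] [Wts Λ]

omit [Fintype Λ] in
lemma abs_aeval_cpoly_le (lam : ℝ) (hlam : |lam| < 1) (w : List Λ) (i : Λ) :
    |aeval lam (cpoly w i)| ≤ 1 / (1 - |lam|) := by
  have h4 : 0 < 1 - |lam| := by linarith
  induction w with
  | nil => simp only [cpoly, map_zero, abs_zero]; positivity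
  | cons j w ih =>
    have h1 : |aeval lam (if j = i then (1 : ℤ[X]) else 0)| ≤ 1 := by
      by_cases h : j = i
      · simp [h]
      · simp [h]
    have hs : |((sg j : ℤ) : ℝ)| = 1 := by
      have h := abs_sgL [j]
      rw [show sgL [j] = sg j by simp [sgL]] at h
      exact_mod_cast h
    have hp : |lam| ^ wt j ≤ |lam| := by
      have := pow_le_pow_of_le_one (abs_nonneg lam) hlam.le (wt_pos j)
      simpa only [ge_iff_le, pow_one] using this
    have h2 : |aeval lam (C (sg j) * X ^ (wt j) * cpoly w i)| ≤ |lam| * (1 / (1 - |lam|)) := by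
      rw [map_mul, map_mul, map_pow, aeval_X, aeval_C, abs_mul, abs_mul, abs_pow]
      have e : |(algebraMap ℤ ℝ) (sg j)| = 1 := by simpa using hs
      rw [e, one_mul]
      exact mul_le_mul hp ih (abs_nonneg _) (abs_nonneg _)
    rw [cpoly, map_add]
    calc _ ≤ |aeval lam (if j = i then (1 : ℤ[X]) else 0)|
          + |aeval lam (C (sg j) * X ^ (wt j) * cpoly w i)| := abs_add_le _ _
      _ ≤ 1 + |lam| * (1 / (1 - |lam|)) := add_le_add h1 h2
      _ = _ := by field_simp; ring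

omit [Fintype Λ] in
lemma abs_dval_le (lam : ℝ) (hlam : |lam| < 1) (x : List Λ × List Λ) (i : Λ) :
    |dval lam x i| ≤ 2 / (1 - |lam|) := by
  rw [dval, dpoly, map_sub]
  have h1 := abs_aeval_cpoly_le lam hlam x.1 i
  have h2 := abs_aeval_cpoly_le lam hlam x.2 i
  have h3 := abs_sub (aeval lam (cpoly x.1 i)) (aeval lam (cpoly x.2 i))
  have e : 2 / (1 - |lam|) = 1 / (1 - |lam|) + 1 / (1 - |lam|) := by ring
  rw [e]
  linarith only [h3, h2, h1]

lemma abs_coeff_prod_le (k : ℕ) (p : Fin (k + 1) → ℤ[X]) (hp : ∀ j m, |(p j).coeff m| ≤ 2)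
    (m : ℕ) : |(∏ j, p j).coeff m| ≤ 2 ^ (k + 1) * ((m : ℤ) + 1) ^ k := by
  induction k generalizing m with
  | zero => simpa only [Nat.reduceAdd, Finset.univ_unique, Fin.default_eq_zero, Fin.isValue, Finset.prod_singleton,     zero_add, pow_one, pow_zero, mul_one] using hp 0 m
  | succ k ih =>
    rw [Fin.prod_univ_succ, Polynomial.coeff_mul]
    have h1 : ∀ y ∈ Finset.HasAntidiagonal.antidiagonal m,
        |(p 0).coeff y.1 * (∏ j : Fin (k + 1), p j.succ).coeff y.2|
          ≤ 2 ^ (k + 1 + 1) * ((m : ℤ) + 1) ^ k := by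
      intro y hy
      rw [Finset.HasAntidiagonal.mem_antidiagonal] at hy
      rw [abs_mul]
      have h2 := ih (fun j => p j.succ) (fun j m => hp j.succ m) y.2
      have h3 : ((y.2 : ℤ) + 1) ^ k ≤ ((m : ℤ) + 1) ^ k := by
        apply pow_le_pow_left₀ (by positivity)
        have : (y.2 : ℤ) ≤ m := by exact_mod_cast (by omega : y.2 ≤ m)
        linarith only [hy]
      calc |(p 0).coeff y.1| * |(∏ j : Fin (k + 1), p j.succ).coeff y.2|
          ≤ 2 * (2 ^ (k + 1) * ((y.2 : ℤ) + 1) ^ k) :=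
            mul_le_mul (hp 0 y.1) h2 (abs_nonneg _) (by norm_num)
        _ ≤ 2 * (2 ^ (k + 1) * ((m : ℤ) + 1) ^ k) := by
            exact mul_le_mul_of_nonneg_left (mul_le_mul_of_nonneg_left h3 (by positivity))
              (by norm_num)
        _ = _ := by ring
    calc |∑ y ∈ Finset.HasAntidiagonal.antidiagonal m,
          (p 0).coeff y.1 * (∏ j : Fin (k + 1), p j.succ).coeff y.2|
        ≤ ∑ y ∈ Finset.HasAntidiagonal.antidiagonal m,
          |(p 0).coeff y.1 * (∏ j : Fin (k + 1), p j.succ).coeff y.2| :=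
          Finset.abs_sum_le_sum_abs _ _
      _ ≤ ∑ _y ∈ Finset.HasAntidiagonal.antidiagonal m,
          2 ^ (k + 1 + 1) * ((m : ℤ) + 1) ^ k := Finset.sum_le_sum h1
      _ = _ := by
        rw [Finset.sum_const, Finset.Nat.card_antidiagonal, nsmul_eq_mul]
        push_cast
        ring

/-- The coefficients of a minor are at most `2^(k+1) (k+1)! (m+1)^k ≤ (2k+3)! (m+1)^(2k+2)` and
the degree is at most `(k+1) A n`; so `Nice` holds with larger parameters. -/
theorem nice_detP {k n : ℕ} (x : Fin (k + 1) → List Λ × List Λ) (ι : Fin (k + 1) → Λ)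
    (h : ∀ r, (x r).1.length ≤ n ∧ (x r).2.length ≤ n) :
    Nice (2 * k + 2) (wA Λ * n) (detP x ι) := by
  have hd : detP x ι = ∑ σ : Equiv.Perm (Fin (k + 1)),
      ((Equiv.Perm.sign σ : ℤ) : ℤ[X]) * ∏ j, dpoly (x (σ j)) (ι j) := by
    rw [detP, Matrix.det_apply']
    rfl
  constructor
  · have h0 : (detP x ι).natDegree ≤ (k + 1) * (wA Λ * n) := by
      rw [hd]
      refine Polynomial.natDegree_sum_le_of_forall_le _ _ ?_
      intro σ _
      refine (Polynomial.natDegree_mul_le).trans ?_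
      rw [Polynomial.natDegree_intCast, zero_add]
      exact natDegree_prod_le' k _ _ fun j => dpoly_natDegree_le _ _ (h (σ j)).1 (h (σ j)).2
    exact h0.trans (Nat.mul_le_mul_right _ (by omega))
  · intro m
    have h1 : |(detP x ι).coeff m|
        ≤ ((k + 1).factorial : ℤ) * (2 ^ (k + 1) * ((m : ℤ) + 1) ^ k) := by
      rw [hd, Polynomial.finsetSum_coeff]
      calc |∑ σ : Equiv.Perm (Fin (k + 1)), (((Equiv.Perm.sign σ : ℤ) : ℤ[X])
            * ∏ j, dpoly (x (σ j)) (ι j)).coeff m|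
          ≤ ∑ σ : Equiv.Perm (Fin (k + 1)), |(((Equiv.Perm.sign σ : ℤ) : ℤ[X])
            * ∏ j, dpoly (x (σ j)) (ι j)).coeff m| := Finset.abs_sum_le_sum_abs _ _
        _ ≤ ∑ _σ : Equiv.Perm (Fin (k + 1)), 2 ^ (k + 1) * ((m : ℤ) + 1) ^ k := by
          refine Finset.sum_le_sum fun σ _ => ?_
          rw [Polynomial.coeff_intCast_mul, abs_mul]
          have h3 : |((Equiv.Perm.sign σ : ℤ))| = 1 := Int.abs_eq_natAbs _ ▸ by simp only [Units.isUnit, Int.natAbs_of_isUnit, Nat.cast_one]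
          rw [Int.cast_id, h3, one_mul]
          exact abs_coeff_prod_le k (fun j => dpoly (x (σ j)) (ι j))
            (fun j m => dpoly_coeff_abs_le _ _ _) m
        _ = _ := by
          rw [Finset.sum_const, Finset.card_univ, Fintype.card_perm, Fintype.card_fin,
            nsmul_eq_mul]
    have h2 : ((|(detP x ι).coeff m| : ℤ) : ℝ)
        ≤ ((((k + 1).factorial : ℤ) * (2 ^ (k + 1) * ((m : ℤ) + 1) ^ k) : ℤ) : ℝ) := by
      exact_mod_cast h1
    rw [Int.cast_abs] at h2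
    push_cast at h2
    refine h2.trans ?_
    have h5 : ((k + 1).factorial : ℝ) * 2 ^ (k + 1) ≤ ((2 * k + 2 + 1).factorial : ℝ) := by
      have h6 := Nat.two_pow_mul_factorial_le_factorial_two_mul (k + 1)
      have h7 : (2 * (k + 1)).factorial ≤ (2 * k + 2 + 1).factorial :=
        Nat.factorial_le (by omega)
      have h8 : (k + 1).factorial * 2 ^ (k + 1) ≤ (2 * k + 2 + 1).factorial := by
        rw [mul_comm]; exact h6.trans h7
      exact_mod_cast h8
    have h9 : ((m : ℝ) + 1) ^ k ≤ ((m : ℝ) + 1) ^ (2 * k + 2) := by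
      apply pow_le_pow_right₀
      · have : (0 : ℝ) ≤ m := Nat.cast_nonneg m
        linarith only []
      · omega
    calc ((k + 1).factorial : ℝ) * (2 ^ (k + 1) * ((m : ℝ) + 1) ^ k)
        = (((k + 1).factorial : ℝ) * 2 ^ (k + 1)) * ((m : ℝ) + 1) ^ k := by ring
      _ ≤ ((2 * k + 2 + 1).factorial : ℝ) * ((m : ℝ) + 1) ^ (2 * k + 2) :=
        mul_le_mul h5 h9 (by (clear * -; positivity)) (by positivity)

omit [Fintype Λ] in
lemma aeval_detP (lam : ℝ) {k : ℕ} (x : Fin (k + 1) → List Λ × List Λ) (ι : Fin (k + 1) → Λ) :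
    aeval lam (detP x ι) = (Matrix.of fun r s => dval lam (x r) (ι s)).det := by
  rw [detP, AlgHom.map_det]
  rfl

/-- value at `lam` is small if the rows are small on `V` -/
theorem detP_small (lam : ℝ) (hlam : |lam| < 1) (V : Submodule ℝ (Λ → ℝ)) (k : ℕ)
    (hk : k + Module.finrank ℝ V = Fintype.card Λ) :
    ∃ C : ℝ, 0 ≤ C ∧ ∀ (x : Fin (k + 1) → List Λ × List Λ) (ι : Fin (k + 1) → Λ) (τ : ℝ),
      0 ≤ τ → (∀ r, ∀ v ∈ V, |dval lam (x r) ⬝ᵥ v| ≤ τ * ‖v‖) →
      |aeval lam (detP x ι)| ≤ C * τ := by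
  have h1l : 0 < 1 - |lam| := by linarith only [hlam]
  have hC0 : (1 : ℝ) ≤ 2 / (1 - |lam|) := by
    rw [le_div_iff₀ h1l]
    have := abs_nonneg lam
    linarith only [this]
  refine ⟨(k + 1 : ℝ) * ((k + 1).factorial * (2 / (1 - |lam|)) ^ (k + 1)), by positivity, ?_⟩
  intro x ι τ hτ h
  by_cases hι : Function.Injective ι
  · obtain ⟨y, hyV, hy1, s0, hs0⟩ := exists_mem_supported V k hk ι hι
    set v : Λ → ℝ := fun i => ∑ s, if ι s = i then y s else 0 with hv
    have hvn : ‖v‖ ≤ 1 := by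
      rw [pi_norm_le_iff_of_nonneg zero_le_one]
      intro i
      rw [Real.norm_eq_abs, hv]
      by_cases hi : ∃ s, ι s = i
      · obtain ⟨s, rfl⟩ := hi
        have : (∑ s', if ι s' = ι s then y s' else 0) = y s := by
          rw [Finset.sum_eq_single s]
          · simp
          · intro b _ hb
            rw [if_neg (fun hh => hb (hι hh))]
          · intro hh
            exact absurd (Finset.mem_univ s) hh
        simp only [this]
        exact hy1 s
      · push Not at hi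
        have : (∑ s', if ι s' = i then y s' else 0) = 0 :=
          Finset.sum_eq_zero fun s _ => if_neg (hi s)
        simp only [this]
        simp only [abs_zero, zero_le_one]
    set M : Matrix (Fin (k + 1)) (Fin (k + 1)) ℝ :=
      Matrix.of fun r s => dval lam (x r) (ι s) with hM
    have hMy : ∀ r, (M.mulVec y) r = dval lam (x r) ⬝ᵥ v := by
      intro r
      have e1 : (M.mulVec y) r = ∑ s, dval lam (x r) (ι s) * y s := rfl
      have e2 : dval lam (x r) ⬝ᵥ v
          = ∑ i, dval lam (x r) i * ∑ s, (if ι s = i then y s else 0) := rfl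
      rw [e1, e2]
      simp only [Finset.mul_sum]
      rw [Finset.sum_comm]
      refine Finset.sum_congr rfl fun s _ => ?_
      rw [Finset.sum_eq_single (ι s)]
      · simp
      · intro b _ hb
        rw [if_neg (fun hh => hb hh.symm), mul_zero]
      · intro hh
        exact absurd (Finset.mem_univ _) hh
    have hMy' : ∀ r, |(M.mulVec y) r| ≤ τ := by
      intro r
      rw [hMy r]
      refine (h r v hyV).trans ?_
      calc τ * ‖v‖ ≤ τ * 1 := mul_le_mul_of_nonneg_left hvn hτ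
        _ = τ := mul_one _
    have hdet : M.det = (M.adjugate.mulVec (M.mulVec y)) s0 := by
      rw [Matrix.mulVec_mulVec, Matrix.adjugate_mul, Matrix.smul_mulVec, Matrix.one_mulVec,
        Pi.smul_apply, hs0, smul_eq_mul, mul_one]
    rw [aeval_detP, ← hM, hdet]
    have e3 : (M.adjugate.mulVec (M.mulVec y)) s0 = ∑ r, M.adjugate s0 r * (M.mulVec y) r := rfl
    rw [e3]
    calc |∑ r, M.adjugate s0 r * (M.mulVec y) r|
        ≤ ∑ r, |M.adjugate s0 r * (M.mulVec y) r| := Finset.abs_sum_le_sum_abs _ _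
      _ ≤ ∑ _r : Fin (k + 1), ((k + 1).factorial * (2 / (1 - |lam|)) ^ (k + 1)) * τ := by
          refine Finset.sum_le_sum fun r _ => ?_
          rw [abs_mul]
          have h5 := adjugate_le M (2 / (1 - |lam|)) hC0
            (fun i j => abs_dval_le lam hlam (x i) (ι j)) s0 r
          exact mul_le_mul h5 (hMy' r) (abs_nonneg _) (by positivity)
      _ = _ := by
          rw [Finset.sum_const, Finset.card_univ, Fintype.card_fin, nsmul_eq_mul]
          push_cast
          ring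
  · have h0 : detP x ι = 0 := by
      rw [Function.Injective] at hι
      push Not at hι
      obtain ⟨a, b, hab, hne⟩ := hι
      rw [detP]
      refine Matrix.det_zero_of_column_eq hne fun r => ?_
      simp [hab]
    rw [h0, map_zero, abs_zero]
    (clear * - hlam hτ; positivity)

end Vale.Agent.P114.Com
end
end

section

/-! Non-degeneracy is realized by tails (weighted version of HomReal). -/

open scoped Classical
open Polynomial

noncomputable section

namespace Vale.Agent.P114.Com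

open FinProb

variable {Λ : Type} [Fintype Λ] [Wts Λ]

omit [Fintype Λ] in
theorem coeff_detP_of_prefix {k : ℕ} {u u' : Fin (k + 1) → ℕ → Λ} {L : ℕ}
    {x : Fin (k + 1) → List Λ × List Λ} (h : ∀ r, pre (u r) L <+: (x r).1)
    (h' : ∀ r, pre (u' r) L <+: (x r).2) (ι : Fin (k + 1) → Λ) {m : ℕ} (hm : m < L) :
    (detP x ι).coeff m =
      PowerSeries.coeff m (Matrix.of fun r s => ps (u r) (u' r) (ι s)).det := by
  let I : Ideal (PowerSeries ℤ) := Ideal.span {PowerSeries.X ^ L}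
  have h1 : Ideal.Quotient.mk I (coeToPowerSeries.ringHom (detP x ι)) =
      Ideal.Quotient.mk I (Matrix.of fun r s => ps (u r) (u' r) (ι s)).det := by
    unfold detP
    rw [RingHom.map_det, RingHom.map_det, RingHom.map_det]
    congr 1
    ext r s
    simp only [RingHom.mapMatrix_apply, Matrix.map_apply, Matrix.of_apply]
    rw [Ideal.Quotient.eq, Ideal.mem_span_singleton, PowerSeries.X_pow_dvd_iff]
    intro j hj
    rw [map_sub, coeToPowerSeries.ringHom_apply, coeff_coe,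
      coeff_dpoly_of_prefix (h r) (h' r) (ι s) hj, sub_self]
  rw [Ideal.Quotient.eq, Ideal.mem_span_singleton, PowerSeries.X_pow_dvd_iff] at h1
  have h2 := h1 m hm
  rw [map_sub, coeToPowerSeries.ringHom_apply, coeff_coe, sub_eq_zero] at h2
  exact h2

/-- Non-degeneracy is realized by tails, with a fixed order and a fixed first coefficient. -/
theorem exists_det_coeff (U : Ultrafilter ℕ) (P : FinProb Λ) (X : ℕ → Lev Λ) (k : ℕ)
    (hL : LargeLev U X) (hnd : ¬ Degenerate U P X k) :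
    ∃ (ι : Fin (k + 1) → Λ) (o : ℕ) (c : ℤ), c ≠ 0 ∧ ∀ᶠ i in (U : Filter ℕ),
      ∃ x : Fin (k + 1) → List Λ × List Λ, (∀ r, x r ∈ (X i).Tails) ∧
        (∀ m < o, (detP x ι).coeff m = 0) ∧ (detP x ι).coeff o = c := by
  unfold Degenerate at hnd
  push Not at hnd
  obtain ⟨u, u', hb, ι, hdet⟩ := hnd
  set D := (Matrix.of fun r s => ps (u r) (u' r) (ι s)).det with hD
  have hex : ∃ m, PowerSeries.coeff m D ≠ 0 :=
    PowerSeries.exists_coeff_ne_zero_iff_ne_zero.2 hdet
  let o := Nat.find hex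
  have ho : PowerSeries.coeff o D ≠ 0 := Nat.find_spec hex
  have ho' : ∀ j < o, PowerSeries.coeff j D = 0 := fun j hj => by
    by_contra hne
    exact Nat.find_min hex hj hne
  refine ⟨ι, o, PowerSeries.coeff o D, ho, ?_⟩
  have h1 : ∀ r : Fin (k + 1), ∀ᶠ i in (U : Filter ℕ), ∃ x ∈ (X i).Tails,
      pre (u r) (o + 1) <+: x.1 ∧ pre (u' r) (o + 1) <+: x.2 := fun r =>
    (Node.realized U P X hL (hb r (o + 1)))
  filter_upwards [Filter.eventually_all.2 h1] with i hi
  choose x hx1 hx2 hx3 using hi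
  refine ⟨x, hx1, fun j hj => ?_, ?_⟩
  · rw [coeff_detP_of_prefix hx2 hx3 ι (Nat.lt_succ_of_lt hj)]
    exact ho' j hj
  · rw [coeff_detP_of_prefix hx2 hx3 ι (Nat.lt_succ_self o)]

end Vale.Agent.P114.Com
end
end

section

/-! Algebraic approximants (weighted version of HomApprox). The numerical lemmas, `dvd_of_small`,
`factor_facts`, `root_lower`, `zero_near`, `growth_of_hN` of `Vale.Agent.P114` are used with the
parameters `2 * k + 2` for `k` and `wA Λ * n` for `n`. -/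

open scoped Classical
open Polynomial

noncomputable section

namespace Vale.Agent.P114.Com

open FinProb

variable {Λ : Type} [Fintype Λ] [Wts Λ]

omit [Fintype Λ] in
theorem ap_nice_of_tails [Fintype Λ] {k : ℕ} (X : Lev Λ) (x : Fin (k + 1) → List Λ × List Λ)
    (hx : ∀ r, x r ∈ X.Tails) (ι : Fin (k + 1) → Λ) :
    Nice (2 * k + 2) (wA Λ * X.n) (detP x ι) := by
  apply nice_detP
  intro r
  obtain ⟨w, w', j, _, _, h⟩ := hx r
  rw [h]
  simp only [List.length_drop, List.length_ofFn]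
  omega

/-- the pointwise statement. -/
theorem ap_key (lam : ℝ) (h1 : |lam| < 1) (k K : ℕ) (hKk : K = 2 * k + 2)
    (X : Lev Λ) (n' : ℕ) (hn'X : n' = wA Λ * X.n) (hn : 1 ≤ n')
    (N : ℝ) (hN0 : 0 ≤ N) (c₀ : ℤ) (hc₀ : c₀ ≠ 0) (o : ℕ)
    (c c₁ C' ρ₀ E mn : ℝ) (m₀ : ℕ) (hc0 : 0 < c) (hc1 : c ≤ 1) (hcm : c * m₀ ≤ 1 / 2)
    (hc₁ : 0 < c₁) (hc₁1 : c₁ ≤ 1) (hC'1 : 1 ≤ C') (hE : 0 ≤ E)
    (hmn0 : 0 < mn) (hmn1 : mn ≤ |lam|) (hmn2 : mn ≤ 1 - |lam|)
    (hlogA : Real.log (Anice K n') ≤ E * Real.log (n' + 2))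
    (hzero : ∀ (n : ℕ) (p : ℤ[X]), 1 ≤ n → Nice K n p → (∃ o' ≤ o, p.coeff o' ≠ 0) →
      (∀ δ : ℝ, 0 < δ → δ ≤ 1 → (∀ η : ℂ, aeval η p = 0 → δ ≤ ‖(lam : ℂ) - η‖) →
        c₁ ^ n * δ ^ m₀ ≤ |aeval lam p|))
    (hroot : ∀ (n : ℕ) (p h : ℤ[X]), Nice K n p →
      p = Polynomial.X ^ o * h → h.coeff 0 ≠ 0 → ∀ α : ℂ, aeval α h = 0 → ρ₀ ≤ ‖α‖)
    (hall : ∀ (y : Fin (k + 1) → List Λ × List Λ), (∀ r, y r ∈ X.Tails) →
        ∀ ι' : Fin (k + 1) → Λ, |aeval lam (detP y ι')| ≤ C' * (2 : ℝ) ^ (-N))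
    (x : Fin (k + 1) → List Λ × List Λ) (hxT : ∀ r, x r ∈ X.Tails) (ι : Fin (k + 1) → Λ)
    (hx0 : ∀ m < o, (detP x ι).coeff m = 0) (hxo : (detP x ι).coeff o = c₀)
    (g1 : 2 * (Real.log C' + Real.log (1 / c₁) + 1) / (Real.log 2 * Real.log 2) *
      (((n' : ℝ) + 1) * Real.log (n' + 2)) ≤ N)
    (g2 : (Real.log (1 / mn) + 1) / (c * Real.log 2 * Real.log 2) *
      (((n' : ℝ) + 1) * Real.log (n' + 2)) ≤ N)
    (g3 : (Real.log (C' + K + 1) / Real.log 2 + 1 + E + 2 * (K + 1) * E + 1) /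
      (c * Real.log 2) * (((n' : ℝ) + 1) * Real.log (n' + 2)) ≤ N) :
    ∃ (g : ℤ[X]) (z : ℂ), Irreducible g ∧ aeval z g = 0 ∧
        ‖(lam : ℂ) - z‖ ≤ (2 : ℝ) ^ (-c * N) ∧
        g.natDegree ≤ (K + 1) * n' ∧
        g.coeff 0 ≠ 0 ∧ |((g.coeff 0 : ℤ) : ℝ)| ≤ |((c₀ : ℤ) : ℝ)| ∧
        (∀ α : ℂ, aeval α g = 0 → ρ₀ ≤ ‖α‖) ∧
        (∀ (x : Fin (k + 1) → List Λ × List Λ), (∀ r, x r ∈ X.Tails) →
          ∀ ι : Fin (k + 1) → Λ, g ∣ detP x ι) := by
  have hn' : (1 : ℝ) ≤ n' := by exact_mod_cast hn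
  have hnt : ∀ (y : Fin (k + 1) → List Λ × List Λ), (∀ r, y r ∈ X.Tails) →
      ∀ ι' : Fin (k + 1) → Λ, Nice K n' (detP y ι') := by
    intro y hy ι'
    rw [hKk, hn'X]
    exact ap_nice_of_tails X y hy ι'
  have hnice : Nice K n' (detP x ι) := hnt x hxT ι
  have hp0 : detP x ι ≠ 0 := by
    intro h
    rw [h] at hxo
    exact hc₀ (by rw [← hxo]; simp)
  have hδ1 : (2 : ℝ) ^ (-c * N) ≤ 1 := by
    apply Real.rpow_le_one_of_one_le_of_nonpos (by norm_num)
    have : 0 ≤ c * N := by (clear * - hc0 hN0; positivity)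
    linarith only [this]
  have hex : ∃ z : ℂ, aeval z (detP x ι) = 0 ∧ ‖(lam : ℂ) - z‖ ≤ (2 : ℝ) ^ (-c * N) := by
    by_contra hcon
    push Not at hcon
    have h2 := hzero n' (detP x ι) hn hnice ⟨o, le_rfl, by rw [hxo]; exact hc₀⟩
      ((2 : ℝ) ^ (-c * N)) (by positivity) hδ1 (fun η hη => (hcon η hη).le)
    exact num_A c c₁ C' N n' n' m₀ rfl hcm hc₁ hc₁1 hC'1 hN0 hn' g1
      (h2.trans (hall x hxT ι))
  obtain ⟨z, hz, hzlam⟩ := hex
  have hmn : (2 : ℝ) ^ (-c * N) < mn :=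
    num_B c mn N n' hc0 hmn0 (by linarith only [h1, hmn1]) hn' g2
  have h3 : ‖(lam : ℂ)‖ = |lam| := by rw [Complex.norm_real, Real.norm_eq_abs]
  have hz1 : ‖z‖ ≤ 1 := by
    have h4 : ‖z‖ ≤ ‖(lam : ℂ)‖ + ‖(lam : ℂ) - z‖ := by
      have := norm_sub_le (lam : ℂ) ((lam : ℂ) - z)
      rwa [sub_sub_cancel] at this
    rw [h3] at h4
    linarith only [hmn2, hzlam, hmn, h4]
  have hz0 : z ≠ 0 := by
    rintro rfl
    rw [sub_zero, h3] at hzlam
    linarith only [hmn1, hmn, hzlam]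
  obtain ⟨g, hg, hgp, hgz, hg0, hgc, hgr⟩ :=
    factor_facts hc₀ hnice hx0 hxo z hz hz0 ρ₀ hroot
  refine ⟨g, z, hg, hgz, hzlam, le_trans (natDegree_le_of_dvd hgp hp0) hnice.1, hg0, hgc, hgr,
    fun y hy ι' => ?_⟩
  exact dvd_of_small hn hg hgp hp0 hnice (hnt y hy ι') z hgz hz1 lam h1.le c C' N E
    hc0 hc1 hC'1 hN0 hE hlogA hzlam (hall y hy ι') g3

/-- growth with the weighted length -/
theorem ap_growth (A : ℕ) (hA : 1 ≤ A) (G : ℝ) : ∃ G' : ℝ, ∀ (n : ℕ) (N : ℝ),
    G' * (((n : ℝ) + 1) * Real.log (n + 2)) ≤ N →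
      G * ((((A * n : ℕ) : ℝ) + 1) * Real.log (((A * n : ℕ) : ℝ) + 2)) ≤ N := by
  have hl2 := log_two_pos'
  have hA' : (1 : ℝ) ≤ A := by exact_mod_cast hA
  have hlA : 0 ≤ Real.log A := Real.log_nonneg hA'
  refine ⟨max G 0 * (A * (Real.log A / Real.log 2 + 1)), fun n N h => le_trans ?_ h⟩
  have hn : (0 : ℝ) ≤ n := Nat.cast_nonneg n
  have hlogn : Real.log 2 ≤ Real.log (n + 2) := Real.log_le_log (by norm_num) (by linarith only [])
  have h1 : Real.log (((A * n : ℕ) : ℝ) + 2) ≤ (Real.log A / Real.log 2 + 1) * Real.log (n + 2) := by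
    have h2 : Real.log (((A * n : ℕ) : ℝ) + 2) ≤ Real.log (A * ((n : ℝ) + 2)) := by
      apply Real.log_le_log (by (clear * -; positivity))
      push_cast
      linarith only [hA']
    rw [Real.log_mul (by positivity) (by positivity)] at h2
    refine h2.trans ?_
    have h3 : Real.log A ≤ Real.log A / Real.log 2 * Real.log (n + 2) := by
      rw [div_mul_eq_mul_div, le_div_iff₀ hl2]
      exact mul_le_mul_of_nonneg_left hlogn hlA
    linarith only [h3]
  have h4 : (((A * n : ℕ) : ℝ) + 1) ≤ A * ((n : ℝ) + 1) := by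
    push_cast
    nlinarith only [hA']
  have h5 : 0 ≤ Real.log (((A * n : ℕ) : ℝ) + 2) := Real.log_nonneg (by
    have : (0 : ℝ) ≤ ((A * n : ℕ) : ℝ) := Nat.cast_nonneg _
    linarith only [])
  have h6 : (((A * n : ℕ) : ℝ) + 1) * Real.log (((A * n : ℕ) : ℝ) + 2) ≤
      (A * ((n : ℝ) + 1)) * ((Real.log A / Real.log 2 + 1) * Real.log (n + 2)) :=
    mul_le_mul h4 h1 h5 (by (clear * - hA; positivity))
  have h7 : 0 ≤ (((A * n : ℕ) : ℝ) + 1) * Real.log (((A * n : ℕ) : ℝ) + 2) :=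
    mul_nonneg (by (clear * -; positivity)) h5
  calc G * ((((A * n : ℕ) : ℝ) + 1) * Real.log (((A * n : ℕ) : ℝ) + 2))
      ≤ max G 0 * ((((A * n : ℕ) : ℝ) + 1) * Real.log (((A * n : ℕ) : ℝ) + 2)) :=
        mul_le_mul_of_nonneg_right (le_max_left _ _) h7
    _ ≤ max G 0 * ((A * ((n : ℝ) + 1)) *
        ((Real.log A / Real.log 2 + 1) * Real.log (n + 2))) :=
        mul_le_mul_of_nonneg_left h6 (le_max_right _ _)
    _ = _ := by ring

theorem approximants (P : FinProb Λ) (lam : ℝ) (h0 : lam ≠ 0) (h1 : |lam| < 1)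
    (V : Submodule ℝ (Λ → ℝ)) (k : ℕ) (hk : k + Module.finrank ℝ V = Fintype.card Λ)
    (U : Ultrafilter ℕ) (X : ℕ → Lev Λ) (hL : LargeLev U X) (N : ℕ → ℝ)
    (hN : ∀ A : ℝ, ∀ᶠ i in (U : Filter ℕ), A * ((X i).n * Real.log (X i).n) ≤ N i)
    (hT : QTiny U lam X V N) (hnd : ¬ Degenerate U P X k) :
    ∃ (c B ρ₀ : ℝ) (f : ℕ → ℤ[X]) (η : ℕ → ℂ), 0 < c ∧ 0 < ρ₀ ∧
      ∀ᶠ i in (U : Filter ℕ), Irreducible (f i) ∧ aeval (η i) (f i) = 0 ∧
        ‖(lam : ℂ) - η i‖ ≤ (2 : ℝ) ^ (-c * N i) ∧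
        (f i).natDegree ≤ (2 * k + 3) * (wA Λ * (X i).n) ∧
        (f i).coeff 0 ≠ 0 ∧ |(((f i).coeff 0 : ℤ) : ℝ)| ≤ B ∧
        (∀ α : ℂ, aeval α (f i) = 0 → ρ₀ ≤ ‖α‖) ∧
        (∀ (x : Fin (k + 1) → List Λ × List Λ), (∀ r, x r ∈ (X i).Tails) →
          ∀ ι : Fin (k + 1) → Λ, f i ∣ detP x ι) := by
  have habs : 0 < |lam| := abs_pos.2 h0
  have hwA : 1 ≤ wA Λ := by
    have hne : Nonempty Λ := by
      by_contra hcon
      rw [not_nonempty_iff] at hcon
      have := P.sum_one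
      simp at this
    obtain ⟨a⟩ := hne
    exact (wt_pos a).trans (wt_le a)
  obtain ⟨ι, o, c₀, hc₀, hx⟩ := exists_det_coeff U P X k hL hnd
  obtain ⟨C, hC, hsmall⟩ := detP_small lam h1 V k hk
  obtain ⟨c₁, m₀, hc₁, hc₁1, hzero⟩ := zero_near lam h0 h1 (2 * k + 2) o
  obtain ⟨ρ₀, hρ₀, hroot⟩ := root_lower (2 * k + 2) o
  obtain ⟨E, hE, hlogA⟩ := log_Anice_le (2 * k + 2)
  obtain ⟨c, hc0, hcm, hc1⟩ : ∃ c : ℝ, 0 < c ∧ c * m₀ ≤ 1 / 2 ∧ c ≤ 1 := by
    have hm₀ : (0 : ℝ) ≤ m₀ := Nat.cast_nonneg _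
    refine ⟨1 / (2 * (m₀ + 1)), by (clear * -; positivity), ?_, ?_⟩
    · rw [one_div_mul_eq_div, div_le_div_iff₀ (by (clear * -; positivity)) (by norm_num)]
      linarith only []
    · rw [div_le_one (by (clear * -; positivity))]
      linarith only []
  obtain ⟨C', hC'1, hCC'⟩ : ∃ C' : ℝ, 1 ≤ C' ∧ C ≤ C' :=
    ⟨max C 1, le_max_right _ _, le_max_left _ _⟩
  obtain ⟨mn, hmn0, hmn1, hmn2⟩ : ∃ mn : ℝ, 0 < mn ∧ mn ≤ |lam| ∧ mn ≤ 1 - |lam| :=
    ⟨min |lam| (1 - |lam|), lt_min habs (by linarith only [h1]), min_le_left _ _, min_le_right _ _⟩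
  obtain ⟨G1, hG1⟩ := ap_growth (wA Λ) hwA
    (2 * (Real.log C' + Real.log (1 / c₁) + 1) / (Real.log 2 * Real.log 2))
  obtain ⟨G2, hG2⟩ := ap_growth (wA Λ) hwA
    ((Real.log (1 / mn) + 1) / (c * Real.log 2 * Real.log 2))
  obtain ⟨G3, hG3⟩ := ap_growth (wA Λ) hwA
    ((Real.log (C' + ((2 * k + 2 : ℕ) : ℝ) + 1) / Real.log 2 + 1 + E +
      2 * (((2 * k + 2 : ℕ) : ℝ) + 1) * E + 1) / (c * Real.log 2))
  have g0 := growth_of_hN U X hL N hN 0
  have g1 := growth_of_hN U X hL N hN G1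
  have g2 := growth_of_hN U X hL N hN G2
  have g3 := growth_of_hN U X hL N hN G3
  have key : ∀ᶠ i in (U : Filter ℕ), ∃ (q : ℤ[X] × ℂ), Irreducible q.1 ∧ aeval q.2 q.1 = 0 ∧
        ‖(lam : ℂ) - q.2‖ ≤ (2 : ℝ) ^ (-c * N i) ∧
        q.1.natDegree ≤ (2 * k + 3) * (wA Λ * (X i).n) ∧
        q.1.coeff 0 ≠ 0 ∧ |((q.1.coeff 0 : ℤ) : ℝ)| ≤ |((c₀ : ℤ) : ℝ)| ∧
        (∀ α : ℂ, aeval α q.1 = 0 → ρ₀ ≤ ‖α‖) ∧
        (∀ (x : Fin (k + 1) → List Λ × List Λ), (∀ r, x r ∈ (X i).Tails) →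
          ∀ ι : Fin (k + 1) → Λ, q.1 ∣ detP x ι) := by
    filter_upwards [hx, hT, hL 1, g0, g1, g2, g3] with i hx hT hn g0 g1 g2 g3
    obtain ⟨x, hxT, hx0, hxo⟩ := hx
    have hN0 : 0 ≤ N i := by simpa only [zero_mul] using g0
    obtain ⟨g, z, h⟩ := ap_key lam h1 k (2 * k + 2) rfl (X i) (wA Λ * (X i).n) rfl
      (Nat.one_le_iff_ne_zero.2 (Nat.mul_ne_zero (by (clear * - hwA; omega)) (by omega))) (N i) hN0 c₀ hc₀ o c c₁
      C' ρ₀ E mn m₀ hc0 hc1 hcm hc₁ hc₁1 hC'1 hE hmn0 hmn1 hmn2 (hlogA _)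
      (fun n p h1 h2 h3 => (hzero n p h1 h2 h3).1) hroot
      (fun y hy ι' => by
        refine (hsmall y ι' ((2 : ℝ) ^ (-N i)) (by positivity)
          fun r v hv => hT _ (hy r) v hv).trans ?_
        exact mul_le_mul_of_nonneg_right hCC' (by positivity))
      x hxT ι hx0 hxo (hG1 _ _ g1) (hG2 _ _ g2) (hG3 _ _ g3)
    exact ⟨(g, z), h⟩
  obtain ⟨q, hq⟩ := Filter.Eventually.choice key
  exact ⟨c, |((c₀ : ℤ) : ℝ)|, ρ₀, fun i => (q i).1, fun i => (q i).2, hc0, hρ₀, hq⟩

end Vale.Agent.P114.Com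
end
end

section

/-! Innovations (weighted version of HomMahlerA; `ce`, `sum_sq_diff`, `h_mono` etc. of
`Vale.Agent.P114.MB` are used unchanged). -/

open scoped Classical
open Polynomial

noncomputable section

namespace Vale.Agent.P114.Com.MB

open FinProb Vale.Agent.P114.MB

variable {Λ : Type} [Fintype Λ] [Wts Λ]

/-- coefficient of the polynomial of the letter `a` at degree `q` -/
def Yv {n : ℕ} (a : Λ) (q : ℕ) (w : Fin n → Λ) : ℝ := (((cpoly (List.ofFn w) a).coeff q : ℤ) : ℝ)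

/-- prefix of length `j` -/
def pf {n : ℕ} (j : ℕ) (w : Fin n → Λ) : List Λ := (List.ofFn w).take j

omit [Fintype Λ] in
lemma Yv_take {n : ℕ} (a : Λ) (q j : ℕ) {w w' : Fin n → Λ} (hj : q < wtL (pf j w) ∨ n ≤ j)
    (h : (List.ofFn w).take j = (List.ofFn w').take j) : Yv a q w = Yv a q w' := by
  unfold Yv
  rcases hj with hj | hj
  · have hj' : q < wtL (pf j w') := by
      have e : pf j w = pf j w' := h
      rwa [← e]
    rw [cpoly_coeff_prefix (pf j w) (List.ofFn w) (List.take_prefix _ _) a q hj,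
      cpoly_coeff_prefix (pf j w') (List.ofFn w') (List.take_prefix _ _) a q hj']
    have e : pf j w = pf j w' := h
    rw [e]
  · rw [List.take_of_length_le (by simpa only [List.length_ofFn] using hj), List.take_of_length_le (by simpa only [List.length_ofFn] using hj)] at h
    rw [h]

omit [Fintype Λ] in
lemma Yv_out {n : ℕ} (a : Λ) (q : ℕ) (hq : wA Λ * n ≤ q) (w : Fin n → Λ) : Yv a q w = 0 := by
  unfold Yv
  have h := wtL_le (List.ofFn w)
  rw [List.length_ofFn] at h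
  rw [cpoly_coeff_zero _ _ _ (h.trans hq)]
  simp

lemma sum_Yv_sq {n : ℕ} (w : Fin n → Λ) :
    ∑ a, ∑ q ∈ Finset.range (wA Λ * n), Yv a q w ^ 2 = n := by
  have h := wtL_le (List.ofFn w)
  rw [List.length_ofFn] at h
  have h1 := sum_cpoly_sq (List.ofFn w) (wA Λ * n) h
  rw [List.length_ofFn] at h1
  have h2 : ((∑ a, ∑ q ∈ Finset.range (wA Λ * n), ((cpoly (List.ofFn w) a).coeff q) ^ 2 : ℤ) : ℝ)
      = ((n : ℤ) : ℝ) := by rw [h1]
  push_cast at h2
  exact h2

section lev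
variable (P : FinProb Λ) (X : Lev Λ)

/-- innovation coefficient (absolute degree `q`) -/
def dd (j q : ℕ) (a : Λ) (w : Fin X.n → Λ) : ℝ :=
  ce (P.pi X.n) (X.h (j + 1)) (Yv a q) w - ce (P.pi X.n) (X.h j) (Yv a q) w

lemma sum_dd_sq (J q : ℕ) (a : Λ) :
    ∑ j ∈ Finset.range J, ∑ w, (P.pi X.n).w w * dd P X j q a w ^ 2 ≤
      ∑ w, (P.pi X.n).w w * Yv a q w ^ 2 := by
  have e : ∀ j, ∑ w, (P.pi X.n).w w * dd P X j q a w ^ 2 =
      ∑ w, (P.pi X.n).w w * (ce (P.pi X.n) (X.h (j + 1)) (Yv a q) w) ^ 2 -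
        ∑ w, (P.pi X.n).w w * (ce (P.pi X.n) (X.h j) (Yv a q) w) ^ 2 := fun j =>
    sum_sq_diff (P.pi X.n) (X.h j) (X.h (j + 1)) (fun w w' e => h_mono X j (j + 1) (by omega) e) _
  rw [Finset.sum_congr rfl fun j _ => e j,
    Finset.sum_range_sub (fun j => ∑ w, (P.pi X.n).w w * (ce (P.pi X.n) (X.h j) (Yv a q) w) ^ 2)]
  have h1 := sum_ce_sq_le (P.pi X.n) (X.h J) (Yv a q)
  have h2 : 0 ≤ ∑ w, (P.pi X.n).w w * (ce (P.pi X.n) (X.h 0) (Yv a q) w) ^ 2 :=
    Finset.sum_nonneg fun ω _ => mul_nonneg ((P.pi X.n).nonneg ω) (sq_nonneg _)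
  linarith only [h1, h2]

/-- squared norm of the innovation -/
def N2 (j : ℕ) (w : Fin X.n → Λ) : ℝ := ∑ a, ∑ q ∈ Finset.range (wA Λ * X.n), dd P X j q a w ^ 2

lemma dd_out (j q : ℕ) (hq : wA Λ * X.n ≤ q) (a : Λ) (w : Fin X.n → Λ) : dd P X j q a w = 0 := by
  have : Yv (n := X.n) a q = fun _ => 0 := funext fun w => Yv_out a q hq w
  unfold dd ce
  rw [this]; simp only [mul_zero, Finset.sum_const_zero, sub_self]

/-- conditional expectation of a function that is constant on the cell of `ω` -/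
lemma ce_of_cell {Ω : Type*} [Fintype Ω] (Q : FinProb Ω) {γ : Type*} (h : Ω → γ) (G : Ω → ℝ)
    {ω : Ω} (hG : ∀ ω', h ω' = h ω → G ω' = G ω) (hw : 0 < Q.w ω) : ce Q h G ω = G ω := by
  unfold ce
  have h1 : ∀ ω', (Q.cond h (h ω)).w ω' * G ω' = (Q.cond h (h ω)).w ω' * G ω := by
    intro ω'
    rw [Q.cond_w h _ (Q.p_pos hw h)]
    by_cases h2 : h ω' = h ω
    · rw [hG _ h2]
    · simp [h2]
  rw [Finset.sum_congr rfl fun ω' _ => h1 ω', ← Finset.sum_mul, (Q.cond h _).sum_one, one_mul]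

/-- no innovation below the weight of the prefix -/
lemma dd_low (j q : ℕ) (a : Λ) (w : Fin X.n → Λ) (hw : 0 < (P.pi X.n).w w)
    (hq : q < wtL (pf j w)) : dd P X j q a w = 0 := by
  have key : ∀ w' : Fin X.n → Λ, X.h j w' = X.h j w → Yv a q w' = Yv a q w := by
    intro w' e
    unfold Lev.h at e
    simp only [Prod.mk.injEq] at e
    exact (Yv_take a q j (Or.inl hq) e.2.symm).symm
  unfold dd
  rw [ce_of_cell (P.pi X.n) (X.h (j + 1)) (Yv a q)
      (fun w' e => key w' (h_mono X j (j + 1) (by omega) e)) hw,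
    ce_of_cell (P.pi X.n) (X.h j) (Yv a q) key hw, sub_self]

lemma N2_nonneg (j : ℕ) (w : Fin X.n → Λ) : 0 ≤ N2 P X j w :=
  Finset.sum_nonneg fun _ _ => Finset.sum_nonneg fun _ _ => sq_nonneg _

lemma sum_N2 (J : ℕ) :
    ∑ j ∈ Finset.range J, ∑ w, (P.pi X.n).w w * N2 P X j w ≤ X.n := by
  calc ∑ j ∈ Finset.range J, ∑ w, (P.pi X.n).w w * N2 P X j w
      = ∑ a, ∑ q ∈ Finset.range (wA Λ * X.n), ∑ j ∈ Finset.range J,
          ∑ w, (P.pi X.n).w w * dd P X j q a w ^ 2 := by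
        unfold N2
        simp only [Finset.mul_sum]
        rw [Finset.sum_comm]
        rw [Finset.sum_congr rfl fun w _ => Finset.sum_comm]
        rw [Finset.sum_comm]
        refine Finset.sum_congr rfl fun a _ => ?_
        rw [Finset.sum_congr rfl fun w _ => Finset.sum_comm]
        rw [Finset.sum_comm]
        refine Finset.sum_congr rfl fun q _ => ?_
        rw [Finset.sum_comm]
    _ ≤ ∑ a, ∑ q ∈ Finset.range (wA Λ * X.n), ∑ w, (P.pi X.n).w w * Yv a q w ^ 2 :=
        Finset.sum_le_sum fun a _ => Finset.sum_le_sum fun q _ => sum_dd_sq P X J q a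
    _ = ∑ w, (P.pi X.n).w w * ∑ a, ∑ q ∈ Finset.range (wA Λ * X.n), Yv a q w ^ 2 := by
        simp only [Finset.mul_sum]
        rw [Finset.sum_congr rfl fun a _ => Finset.sum_comm]
        rw [Finset.sum_comm]
    _ = ∑ w, (P.pi X.n).w w * X.n := by
        refine Finset.sum_congr rfl fun w _ => ?_
        rw [sum_Yv_sq]
    _ = X.n := by rw [← Finset.sum_mul, (P.pi X.n).sum_one, one_mul]

end lev

end Vale.Agent.P114.Com.MB
end
end

section

/-! Innovation polynomials (weighted version of HomMahlerB; `det_expand`, `cond_zero` of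
`Vale.Agent.P114.MB` are used unchanged). -/

set_option linter.all false

open scoped Classical
open Polynomial

noncomputable section

namespace Vale.Agent.P114.Com.MB

open FinProb Vale.Agent.P114.MB

variable {Λ : Type} [Fintype Λ] [Wts Λ]

section lev
variable (P : FinProb Λ) (X : Lev Λ)

/-- innovation polynomial, normalised by the slope of the prefix -/
def dP (j : ℕ) (w : Fin X.n → Λ) (a : Λ) : ℂ[X] :=
  ∑ m ∈ Finset.range (wA Λ * X.n), Polynomial.monomial m
    ((((sgL (pf j w) : ℤ) : ℝ) * dd P X j (wtL (pf j w) + m) a w : ℝ) : ℂ)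

lemma dP_coeff (j : ℕ) (w : Fin X.n → Λ) (a : Λ) (m : ℕ) :
    (dP P X j w a).coeff m
      = ((((sgL (pf j w) : ℤ) : ℝ) * dd P X j (wtL (pf j w) + m) a w : ℝ) : ℂ) := by
  unfold dP
  rw [Polynomial.finsetSum_coeff]
  simp only [Polynomial.coeff_monomial]
  rw [Finset.sum_ite_eq']
  split_ifs with h
  · rfl
  · rw [dd_out P X j (wtL (pf j w) + m) (by rw [Finset.mem_range] at h; omega), mul_zero]
    simp

lemma mb_sgL_sq (l : List Λ) : (((sgL l : ℤ) : ℝ)) ^ 2 = 1 := by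
  have h := sgL_sq l
  have h2 : ((sgL l * sgL l : ℤ) : ℝ) = 1 := by rw [h]; simp
  rw [sq]
  push_cast at h2
  exact h2

lemma mb_dP_support (j : ℕ) (w : Fin X.n → Λ) (a : Λ) :
    (dP P X j w a).support ⊆
      (Finset.range (wA Λ * X.n)).filter (fun m => wtL (pf j w) + m < wA Λ * X.n) := by
  intro m hm
  rw [Finset.mem_filter, Finset.mem_range]
  by_contra h
  have h' : wA Λ * X.n ≤ wtL (pf j w) + m := by
    by_contra h2
    exact h ⟨by omega, by omega⟩
  rw [Polynomial.mem_support_iff, dP_coeff, dd_out P X j _ h', mul_zero] at hm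
  simp at hm

lemma dP_norm (j : ℕ) (w : Fin X.n → Λ) (a : Λ) :
    ∑ i ∈ (dP P X j w a).support, ‖(dP P X j w a).coeff i‖ ^ 2 ≤ N2 P X j w := by
  have h1 : ∑ i ∈ (dP P X j w a).support, ‖(dP P X j w a).coeff i‖ ^ 2 ≤
      ∑ m ∈ (Finset.range (wA Λ * X.n)).filter (fun m => wtL (pf j w) + m < wA Λ * X.n),
        dd P X j (wtL (pf j w) + m) a w ^ 2 := by
    refine (Finset.sum_le_sum_of_subset_of_nonneg (mb_dP_support P X j w a)
      fun _ _ _ => sq_nonneg _).trans (le_of_eq ?_)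
    refine Finset.sum_congr rfl fun m _ => ?_
    rw [dP_coeff, Complex.norm_real, Real.norm_eq_abs, sq_abs, mul_pow, mb_sgL_sq, one_mul]
  refine h1.trans ?_
  rw [← Finset.sum_image (f := fun q => dd P X j q a w ^ 2) (g := fun m => wtL (pf j w) + m)
    (fun _ _ _ _ h => by simpa using h)]
  have h2 : ∑ q ∈ ((Finset.range (wA Λ * X.n)).filter
      (fun m => wtL (pf j w) + m < wA Λ * X.n)).image (fun m => wtL (pf j w) + m),
        dd P X j q a w ^ 2 ≤ ∑ q ∈ Finset.range (wA Λ * X.n), dd P X j q a w ^ 2 := by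
    refine Finset.sum_le_sum_of_subset_of_nonneg ?_ fun _ _ _ => sq_nonneg _
    intro q hq
    obtain ⟨m, hm, rfl⟩ := Finset.mem_image.1 hq
    exact Finset.mem_range.2 (Finset.mem_filter.1 hm).2
  refine h2.trans ?_
  unfold N2
  exact Finset.single_le_sum
    (f := fun a => ∑ q ∈ Finset.range (wA Λ * X.n), dd P X j q a w ^ 2)
    (fun _ _ => Finset.sum_nonneg fun _ _ => sq_nonneg _) (Finset.mem_univ a)

/-- polynomial of the tail -/
def Tp {n : ℕ} (j : ℕ) (w : Fin n → Λ) (a : Λ) : ℂ[X] :=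
  (cpoly ((List.ofFn w).drop j) a).map (Int.castRingHom ℂ)

omit [Fintype Λ] in
lemma Tp_coeff {n : ℕ} (j : ℕ) (w : Fin n → Λ) (a : Λ) (m : ℕ) :
    (Tp j w a).coeff m = ((((sgL (pf j w) : ℤ) : ℝ) * Yv a (wtL (pf j w) + m) w : ℝ) : ℂ) := by
  have h1 : (cpoly (List.ofFn w) a).coeff (wtL (pf j w) + m) =
      sgL (pf j w) * (cpoly ((List.ofFn w).drop j) a).coeff m := by
    have h := cpoly_coeff_append' ((List.ofFn w).take j) ((List.ofFn w).drop j) a m
    rw [List.take_append_drop] at h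
    exact h
  have h2 : sgL (pf j w) * (cpoly (List.ofFn w) a).coeff (wtL (pf j w) + m) =
      (cpoly ((List.ofFn w).drop j) a).coeff m := by
    rw [h1, ← mul_assoc, sgL_sq, one_mul]
  unfold Tp Yv
  rw [Polynomial.coeff_map, ← h2]
  push_cast
  simp

lemma dP_eq_sum (j : ℕ) (w : Fin X.n → Λ) (hw : 0 < (P.pi X.n).w w) (a : Λ) :
    dP P X j w a = ∑ p : (Fin X.n → Λ) × (Fin X.n → Λ),
      (((((P.pi X.n).cond (X.h (j + 1)) (X.h (j + 1) w)).w p.1 : ℝ) : ℂ) *
        ((((P.pi X.n).cond (X.h j) (X.h j w)).w p.2 : ℝ) : ℂ)) • (Tp j p.1 a - Tp j p.2 a) := by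
  ext m
  rw [dP_coeff, Polynomial.finsetSum_coeff]
  simp only [Polynomial.coeff_smul, Polynomial.coeff_sub, Tp_coeff, smul_eq_mul]
  unfold dd ce
  rw [Fintype.sum_prod_type]
  set c1 := ((P.pi X.n).cond (X.h (j + 1)) (X.h (j + 1) w)) with hc1
  set c2 := ((P.pi X.n).cond (X.h j) (X.h j w)) with hc2
  set s : ℝ := ((sgL (pf j w) : ℤ) : ℝ) with hs
  set q := wtL (pf j w) + m with hq
  have hp : ∀ x : Fin X.n → Λ, X.h j x = X.h j w → pf j x = pf j w := by
    intro x hx
    unfold Lev.h at hx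
    rw [Prod.mk.injEq] at hx
    exact hx.2
  have hz1 : ∀ x, c1.w x = 0 ∨ pf j x = pf j w := by
    intro x
    by_cases h : X.h (j + 1) x = X.h (j + 1) w
    · exact Or.inr (hp x (h_mono X j (j + 1) (by omega) h))
    · exact Or.inl (cond_zero (P.pi X.n) (X.h (j + 1)) hw h)
  have hz2 : ∀ x, c2.w x = 0 ∨ pf j x = pf j w := by
    intro x
    by_cases h : X.h j x = X.h j w
    · exact Or.inr (hp x h)
    · exact Or.inl (cond_zero (P.pi X.n) (X.h j) hw h)
  have e : s * (∑ w', c1.w w' * Yv a q w' - ∑ w', c2.w w' * Yv a q w') =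
      ∑ x, ∑ y, c1.w x * c2.w y * (s * Yv a q x - s * Yv a q y) := by
    have h1 : ∀ x, ∑ y, c1.w x * c2.w y * (s * Yv a q x - s * Yv a q y) =
        s * (c1.w x * Yv a q x) - s * (c1.w x * ∑ y, c2.w y * Yv a q y) := by
      intro x
      have : ∀ y, c1.w x * c2.w y * (s * Yv a q x - s * Yv a q y) =
          (s * (c1.w x * Yv a q x)) * c2.w y - (s * c1.w x) * (c2.w y * Yv a q y) :=
        fun y => by ring
      rw [Finset.sum_congr rfl fun y _ => this y, Finset.sum_sub_distrib, ← Finset.mul_sum,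
        ← Finset.mul_sum, c2.sum_one, mul_one]
      ring
    rw [Finset.sum_congr rfl fun x _ => h1 x, Finset.sum_sub_distrib, ← Finset.mul_sum,
      ← Finset.mul_sum, ← Finset.sum_mul, c1.sum_one, one_mul, mul_sub]
  rw [e]
  push_cast
  refine Finset.sum_congr rfl fun x _ => Finset.sum_congr rfl fun y _ => ?_
  rcases hz1 x with h | hx
  · rw [h]; simp
  · rcases hz2 y with h | hy
    · rw [h]; simp
    · rw [hx, hy]
      rw [hs]
      push_cast
      rfl

omit [Fintype Λ] in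
lemma detP_map {k : ℕ} (x : Fin (k + 1) → List Λ × List Λ) (ι : Fin (k + 1) → Λ) :
    (detP x ι).map (Int.castRingHom ℂ) =
      (Matrix.of fun r s => (dpoly (x r) (ι s)).map (Int.castRingHom ℂ)).det := by
  unfold detP
  have := RingHom.map_det (Polynomial.mapRingHom (Int.castRingHom ℂ))
    (Matrix.of fun r s => dpoly (x r) (ι s))
  rw [Polynomial.coe_mapRingHom] at this
  rw [this]
  rfl

lemma det_dP_eval {k : ℕ} (ι : Fin (k + 1) → Λ) (α : ℂ)
    (hα : ∀ x : Fin (k + 1) → List Λ × List Λ, (∀ r, x r ∈ X.Tails) → aeval α (detP x ι) = 0)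
    (j : Fin (k + 1) → ℕ) (w : Fin (k + 1) → Fin X.n → Λ) (hw : ∀ r, 0 < (P.pi X.n).w (w r)) :
    ((Matrix.of fun r s => dP P X (j r) (w r) (ι s)).det).eval α = 0 := by
  have h1 : ((Matrix.of fun r s => dP P X (j r) (w r) (ι s)).det).eval α =
      (Matrix.of fun r s => (dP P X (j r) (w r) (ι s)).eval α).det := by
    have := RingHom.map_det (Polynomial.evalRingHom α)
      (Matrix.of fun r s => dP P X (j r) (w r) (ι s))
    rw [Polynomial.coe_evalRingHom] at this
    rw [this]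
    rfl
  rw [h1]
  have h2 : (Matrix.of fun r s => (dP P X (j r) (w r) (ι s)).eval α) =
      Matrix.of fun r s => ∑ p : (Fin X.n → Λ) × (Fin X.n → Λ),
      (((((P.pi X.n).cond (X.h (j r + 1)) (X.h (j r + 1) (w r))).w p.1 : ℝ) : ℂ) *
        ((((P.pi X.n).cond (X.h (j r)) (X.h (j r) (w r))).w p.2 : ℝ) : ℂ)) *
          (Tp (j r) p.1 (ι s) - Tp (j r) p.2 (ι s)).eval α := by
    ext r s
    simp only [Matrix.of_apply]
    rw [dP_eq_sum P X (j r) (w r) (hw r), Polynomial.eval_finsetSum]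
    simp only [Polynomial.eval_smul, smul_eq_mul]
  rw [h2, det_expand]
  refine Finset.sum_eq_zero fun f _ => ?_
  by_cases hf : ∀ r, X.h (j r + 1) (f r).1 = X.h (j r + 1) (w r) ∧
      X.h (j r) (f r).2 = X.h (j r) (w r)
  · have h3 : (Matrix.of fun r s => (Tp (j r) (f r).1 (ι s) - Tp (j r) (f r).2 (ι s)).eval α).det =
        aeval α (detP (fun r => ((List.ofFn (f r).1).drop (j r), (List.ofFn (f r).2).drop (j r))) ι)
        := by
      rw [Polynomial.aeval_def, Polynomial.eval₂_eq_eval_map]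
      have e0 : (algebraMap ℤ ℂ) = Int.castRingHom ℂ := rfl
      rw [e0, detP_map]
      have := RingHom.map_det (Polynomial.evalRingHom α)
        (Matrix.of fun r s => (dpoly ((List.ofFn (f r).1).drop (j r),
          (List.ofFn (f r).2).drop (j r)) (ι s)).map (Int.castRingHom ℂ))
      rw [Polynomial.coe_evalRingHom] at this
      rw [this]
      congr 1
      ext r s
      simp only [Tp, eval_sub, Matrix.of_apply, dpoly, Polynomial.map_sub, RingHom.mapMatrix_apply, coe_evalRingHom, Matrix.map_apply]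
    rw [h3, hα, mul_zero]
    intro r
    have e1 := h_mono X (j r) (j r + 1) (by omega) (hf r).1
    have e2 : X.h (j r) (f r).1 = X.h (j r) (f r).2 := e1.trans (hf r).2.symm
    unfold Lev.h at e2
    rw [Prod.mk.injEq] at e2
    exact ⟨(f r).1, (f r).2, j r, e2.1, e2.2, rfl⟩
  · push Not at hf
    obtain ⟨r, hr⟩ := hf
    have : (∏ r, (((((P.pi X.n).cond (X.h (j r + 1)) (X.h (j r + 1) (w r))).w (f r).1 : ℝ) : ℂ) *
        ((((P.pi X.n).cond (X.h (j r)) (X.h (j r) (w r))).w (f r).2 : ℝ) : ℂ))) = 0 := by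
      refine Finset.prod_eq_zero (Finset.mem_univ r) ?_
      by_cases h4 : X.h (j r + 1) (f r).1 = X.h (j r + 1) (w r)
      · rw [cond_zero (P.pi X.n) (X.h (j r)) (hw r) (hr h4)]; simp
      · rw [cond_zero (P.pi X.n) (X.h (j r + 1)) (hw r) h4]; simp
    rw [this, zero_mul]

end lev

end Vale.Agent.P114.Com.MB
end
end

section

/-! Determinants of tail differences (weighted version of HomMahlerD; `cauchy_coeff`,
`det_coeff_congr`, `blaschke_det`, `det_expand` are used unchanged). -/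

open scoped Classical
open Polynomial

noncomputable section

namespace Vale.Agent.P114.Com.MB

open FinProb Vale.Agent.P114.MB

variable {Λ : Type} [Fintype Λ] [Wts Λ]

section lev
variable (P : FinProb Λ) (X : Lev Λ)

/-- row size -/
def gg (k : ℕ) (j : ℕ) (w : Fin X.n → Λ) : ℝ := Real.sqrt (3 * (k + 1) * N2 P X j w)

lemma gg_nonneg (k j : ℕ) (w : Fin X.n → Λ) : 0 ≤ gg P X k j w := Real.sqrt_nonneg _

lemma gg_le (k j : ℕ) (w : Fin X.n → Λ) : gg P X k j w ≤ (1 + 3 * (k + 1) * N2 P X j w) / 2 := by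
  unfold gg
  have h0 : 0 ≤ 3 * ((k : ℝ) + 1) * N2 P X j w :=
    mul_nonneg (by (clear * -; positivity)) (N2_nonneg P X j w)
  have h1 := Real.sq_sqrt h0
  linarith only [sq_nonneg (Real.sqrt (3 * ((k : ℝ) + 1) * N2 P X j w) - 1), h1]

/-- coefficient bound for the determinant of innovations -/
lemma coeff_det_dP {k : ℕ} (ι : Fin (k + 1) → Λ) (s : Finset ℂ) (hs : ∀ α ∈ s, ‖α‖ < 1)
    (hroot : ∀ α ∈ s, ∀ x : Fin (k + 1) → List Λ × List Λ, (∀ r, x r ∈ X.Tails) →
      aeval α (detP x ι) = 0) (η : ℝ)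
    (hη : ∀ z : ℂ, ‖z‖ ≤ 1 / 2 → ∏ α ∈ s, ‖(z - α) / (1 - (starRingEnd ℂ) α * z)‖ ≤ η)
    (j : Fin (k + 1) → ℕ) (w : Fin (k + 1) → Fin X.n → Λ) (hw : ∀ r, 0 < (P.pi X.n).w (w r))
    (m : ℕ) :
    ‖((Matrix.of fun r s => dP P X (j r) (w r) (ι s)).det).coeff m‖ ≤
      2 ^ m * ((k + 1).factorial * η * ∏ r, gg P X k (j r) (w r)) := by
  refine cauchy_coeff _ _ (fun z hz => ?_) m
  have h1 := blaschke_det k (fun r s => dP P X (j r) (w r) (ι s)) s hs
    (fun α hα => det_dP_eval P X ι α (hroot α hα) j w hw) z hz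
  refine h1.trans ?_
  have h2 : (∏ r, Real.sqrt (3 * ∑ a, ∑ i ∈ ((dP P X (j r) (w r) (ι a)).support),
      ‖(dP P X (j r) (w r) (ι a)).coeff i‖ ^ 2)) ≤ ∏ r, gg P X k (j r) (w r) := by
    refine Finset.prod_le_prod (fun _ _ => Real.sqrt_nonneg _) fun r _ => ?_
    unfold gg
    apply Real.sqrt_le_sqrt
    rw [mul_assoc]
    refine mul_le_mul_of_nonneg_left ?_ (by norm_num)
    refine (Finset.sum_le_sum fun a _ => dP_norm P X (j r) (w r) (ι a)).trans ?_
    simp
  have h3 : 0 ≤ ∏ r, gg P X k (j r) (w r) := Finset.prod_nonneg fun _ _ => gg_nonneg P X k _ _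
  have h4 : 0 ≤ ∏ α ∈ s, ‖(z - α) / (1 - (starRingEnd ℂ) α * z)‖ :=
    Finset.prod_nonneg fun _ _ => norm_nonneg _
  have h5 : (0 : ℝ) ≤ (k + 1).factorial := by positivity
  calc _ ≤ ((k + 1).factorial : ℝ) * (∏ r, gg P X k (j r) (w r)) * η := by
        refine mul_le_mul (mul_le_mul_of_nonneg_left h2 h5) (hη z hz) h4
          (mul_nonneg h5 h3)
    _ = _ := by ring

/-- difference of the tail polynomials -/
def Fp {n : ℕ} (J : ℕ) (w w' : Fin n → Λ) (a : Λ) : ℂ[X] := Tp J w a - Tp J w' a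

/-- slope monomial of the block `[J, J + l)` -/
def mb {n : ℕ} (J l : ℕ) (w : Fin n → Λ) : ℂ[X] :=
  C (((sgL (Lev.blk J l w) : ℤ) : ℂ)) * (Polynomial.X : ℂ[X]) ^ wtL (Lev.blk J l w)

/-- conditional expectation of a function that is constant on the atom -/
lemma ce_of_meas_at {Ω : Type*} [Fintype Ω] (Q : FinProb Ω) {γ : Type*} (h : Ω → γ) (G : Ω → ℝ)
    {ω : Ω} (hG : ∀ ω', h ω' = h ω → G ω' = G ω) (hw : 0 < Q.w ω) : ce Q h G ω = G ω := by
  unfold ce
  have h1 : ∀ ω', (Q.cond h (h ω)).w ω' * G ω' = (Q.cond h (h ω)).w ω' * G ω := by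
    intro ω'
    rw [Q.cond_w h _ (Q.p_pos hw h)]
    by_cases h2 : h ω' = h ω
    · rw [hG _ h2]
    · simp [h2]
  rw [Finset.sum_congr rfl fun ω' _ => h1 ω', ← Finset.sum_mul, (Q.cond h _).sum_one, one_mul]

omit [Fintype Λ] [Wts Λ] in
lemma pf_add {n : ℕ} (J l : ℕ) (w : Fin n → Λ) : pf (J + l) w = pf J w ++ Lev.blk J l w := by
  unfold pf Lev.blk
  exact List.take_add

lemma ce_next (J m L : ℕ) (hm : m < L) (a : Λ) (w : Fin X.n → Λ) (hw : 0 < (P.pi X.n).w w) :
    ce (P.pi X.n) (X.h (J + L)) (Yv a (wtL (pf J w) + m)) w = Yv a (wtL (pf J w) + m) w := by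
  refine ce_of_meas_at (P.pi X.n) (X.h (J + L)) (Yv a (wtL (pf J w) + m)) (fun u e => ?_) hw
  unfold Lev.h at e
  rw [Prod.mk.injEq] at e
  refine (Yv_take a (wtL (pf J w) + m) (J + L) ?_ e.2.symm).symm
  by_cases h : X.n ≤ J + L
  · exact Or.inr h
  · left
    rw [pf_add, wtL_append]
    have h1 := length_le_wtL (Lev.blk J L w)
    have h2 : (Lev.blk J L w).length = L := by
      unfold Lev.blk
      rw [List.length_take, List.length_drop, List.length_ofFn]
      omega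
    omega

lemma sum_dd_tele (J m L : ℕ) (hm : m < L) (a : Λ) (w : Fin X.n → Λ)
    (hw : 0 < (P.pi X.n).w w) :
    ∑ l ∈ Finset.range L, dd P X (J + l) (wtL (pf J w) + m) a w =
      Yv a (wtL (pf J w) + m) w - ce (P.pi X.n) (X.h J) (Yv a (wtL (pf J w) + m)) w := by
  unfold dd
  have := Finset.sum_range_sub
    (fun l => ce (P.pi X.n) (X.h (J + l)) (Yv a (wtL (pf J w) + m)) w) L
  simp only [← add_assoc] at this
  rw [this, add_zero, ce_next P X J m L hm a w hw]

lemma mb_dP_coeff (J m l : ℕ) (a : Λ) (w : Fin X.n → Λ) (hw : 0 < (P.pi X.n).w w) :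
    (mb J l w * dP P X (J + l) w a).coeff m =
      ((((sgL (pf J w) : ℤ) : ℝ) * dd P X (J + l) (wtL (pf J w) + m) a w : ℝ) : ℂ) := by
  unfold mb
  rw [mul_assoc, Polynomial.coeff_C_mul, Polynomial.coeff_X_pow_mul']
  have h2 : wtL (pf (J + l) w) = wtL (pf J w) + wtL (Lev.blk J l w) := by
    rw [pf_add, wtL_append]
  split_ifs with h
  · have h1 : wtL (pf (J + l) w) + (m - wtL (Lev.blk J l w)) = wtL (pf J w) + m := by omega
    have h3 : sgL (pf (J + l) w) = sgL (pf J w) * sgL (Lev.blk J l w) := by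
      rw [pf_add, sgL_append]
    rw [dP_coeff, h1, h3]
    have h4 := sgL_sq (Lev.blk J l w)
    have h5 : (((sgL (Lev.blk J l w) : ℤ) : ℂ)) * ((sgL (Lev.blk J l w) : ℤ) : ℂ) = 1 := by
      exact_mod_cast h4
    push_cast
    linear_combination (((sgL (pf J w) : ℤ) : ℂ) * (dd P X (J + l) (wtL (pf J w) + m) a w : ℂ)) * h5
  · rw [dd_low P X (J + l) (wtL (pf J w) + m) a w hw (by omega)]
    simp

/-- the tail difference is congruent to the sum of the innovations -/
lemma Fp_coeff (J m L : ℕ) (hm : m < L) (a : Λ) (w w' : Fin X.n → Λ)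
    (hw : 0 < (P.pi X.n).w w) (hw' : 0 < (P.pi X.n).w w') (hh : X.h J w = X.h J w') :
    (Fp J w w' a).coeff m = (∑ l ∈ Finset.range L,
      (mb J l w * dP P X (J + l) w a - mb J l w' * dP P X (J + l) w' a)).coeff m := by
  have hpf : pf J w = pf J w' := by
    have e := hh
    unfold Lev.h at e
    rw [Prod.mk.injEq] at e
    exact e.2
  rw [Polynomial.finsetSum_coeff]
  simp only [Polynomial.coeff_sub]
  have h2 : ∀ l ∈ Finset.range L, ((mb J l w * dP P X (J + l) w a).coeff m -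
      (mb J l w' * dP P X (J + l) w' a).coeff m) =
      ((((sgL (pf J w) : ℤ) : ℝ) * (dd P X (J + l) (wtL (pf J w) + m) a w -
        dd P X (J + l) (wtL (pf J w') + m) a w') : ℝ) : ℂ) := by
    intro l _
    rw [mb_dP_coeff P X J m l a w hw, mb_dP_coeff P X J m l a w' hw', ← hpf]
    push_cast
    ring
  rw [Finset.sum_congr rfl h2, ← Complex.ofReal_sum, ← Finset.mul_sum, Finset.sum_sub_distrib,
    sum_dd_tele P X J m L hm a w hw, sum_dd_tele P X J m L hm a w' hw']
  unfold Fp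
  rw [Polynomial.coeff_sub, Tp_coeff, Tp_coeff, ← hpf, ← Complex.ofReal_sub]
  congr 1
  rw [ce_same (P.pi X.n) (X.h J) (Yv a (wtL (pf J w) + m)) hh]
  ring

/-- total size of the innovations in a window -/
def GG (k L : ℕ) (J : ℕ) (w w' : Fin X.n → Λ) : ℝ :=
  ∑ l ∈ Finset.range L, (gg P X k (J + l) w + gg P X k (J + l) w')

lemma coeff_det_Fp {k : ℕ} (ι : Fin (k + 1) → Λ) (s : Finset ℂ) (hs : ∀ α ∈ s, ‖α‖ < 1)
    (hroot : ∀ α ∈ s, ∀ x : Fin (k + 1) → List Λ × List Λ, (∀ r, x r ∈ X.Tails) →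
      aeval α (detP x ι) = 0) (η : ℝ)
    (hη : ∀ z : ℂ, ‖z‖ ≤ 1 / 2 → ∏ α ∈ s, ‖(z - α) / (1 - (starRingEnd ℂ) α * z)‖ ≤ η)
    (J : Fin (k + 1) → ℕ) (w w' : Fin (k + 1) → Fin X.n → Λ)
    (hw : ∀ r, 0 < (P.pi X.n).w (w r)) (hw' : ∀ r, 0 < (P.pi X.n).w (w' r))
    (hh : ∀ r, X.h (J r) (w r) = X.h (J r) (w' r)) (L m : ℕ) (hm : m < L) :
    ‖((Matrix.of fun r s => Fp (J r) (w r) (w' r) (ι s)).det).coeff m‖ ≤
      2 ^ m * ((k + 1).factorial * η) * ∏ r, GG P X k L (J r) (w r) (w' r) := by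
  have hη0 : 0 ≤ η := le_trans (Finset.prod_nonneg fun _ _ => norm_nonneg _) (hη 0 (by simp only [norm_zero, one_div, inv_nonneg, Nat.ofNat_nonneg]))
  -- T = Fin L × Bool
  set W : Fin (k + 1) → Fin L × Bool → Fin X.n → Λ := fun r t => if t.2 then w r else w' r with hW
  set c : Fin (k + 1) → Fin L × Bool → ℂ[X] := fun r t =>
    mb (J r) (t.1 : ℕ) (W r t) * C (if t.2 then 1 else -1) with hc
  set v : Fin (k + 1) → Fin L × Bool → Fin (k + 1) → ℂ[X] := fun r t s =>
    dP P X (J r + t.1) (W r t) (ι s) with hv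
  have h1 : ((Matrix.of fun r s => Fp (J r) (w r) (w' r) (ι s)).det).coeff m =
      ((Matrix.of fun r s => ∑ t, c r t * v r t s).det).coeff m := by
    refine det_coeff_congr (L := L) _ _ (fun r s m hm => ?_) m hm
    simp only [Matrix.of_apply]
    rw [Fp_coeff P X (J r) m L hm (ι s) (w r) (w' r) (hw r) (hw' r) (hh r)]
    congr 1
    rw [Fintype.sum_prod_type, ← Fin.sum_univ_eq_sum_range (fun l =>
      (mb (J r) l (w r) * dP P X (J r + l) (w r) (ι s) -
        mb (J r) l (w' r) * dP P X (J r + l) (w' r) (ι s))) L]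
    refine Finset.sum_congr rfl fun l _ => ?_
    rw [Fintype.sum_bool]
    simp only [hc, hv, hW]
    simp only [↓reduceIte, map_one, mul_one, Bool.false_eq_true, map_neg, mul_neg, neg_mul]
    ring
  rw [h1, det_expand, Polynomial.finsetSum_coeff]
  refine (norm_sum_le _ _).trans ?_
  have h2 : ∀ f : Fin (k + 1) → Fin L × Bool,
      ‖((∏ r, c r (f r)) * (Matrix.of fun r s => v r (f r) s).det).coeff m‖ ≤
        2 ^ m * ((k + 1).factorial * η) * ∏ r, gg P X k (J r + (f r).1) (W r (f r)) := by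
    intro f
    have e1 : (∏ r, c r (f r)) =
        C (∏ r, (((sgL (Lev.blk (J r) ((f r).1 : ℕ) (W r (f r))) : ℤ) : ℂ) *
          (if (f r).2 then (1 : ℂ) else -1))) *
        (Polynomial.X : ℂ[X]) ^ (∑ r, wtL (Lev.blk (J r) ((f r).1 : ℕ) (W r (f r)))) := by
      rw [map_prod, ← Finset.prod_pow_eq_pow_sum, ← Finset.prod_mul_distrib]
      refine Finset.prod_congr rfl fun r _ => ?_
      simp only [hc, mb]
      rw [map_mul]
      ring
    have e2 : ‖(∏ r, (((sgL (Lev.blk (J r) ((f r).1 : ℕ) (W r (f r))) : ℤ) : ℂ) *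
          (if (f r).2 then (1 : ℂ) else -1)))‖ = 1 := by
      rw [norm_prod]
      refine Finset.prod_eq_one fun r _ => ?_
      rcases sgL_cases (Lev.blk (J r) ((f r).1 : ℕ) (W r (f r))) with h | h <;>
        · rw [h]; split_ifs <;> simp
    rw [e1, mul_assoc, Polynomial.coeff_C_mul, norm_mul, e2, one_mul, Polynomial.coeff_X_pow_mul']
    have h3 : 0 ≤ ∏ r, gg P X k (J r + (f r).1) (W r (f r)) :=
      Finset.prod_nonneg fun _ _ => gg_nonneg P X k _ _
    split_ifs with h4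
    · have h5 := coeff_det_dP P X ι s hs hroot η hη (fun r => J r + ((f r).1 : ℕ))
        (fun r => W r (f r)) (fun r => by
          simp only [hW]; split_ifs; exacts [hw r, hw' r])
        (m - ∑ r, wtL (Lev.blk (J r) ((f r).1 : ℕ) (W r (f r))))
      refine h5.trans ?_
      have h6 : (2 : ℝ) ^ (m - ∑ r, wtL (Lev.blk (J r) ((f r).1 : ℕ) (W r (f r)))) ≤ 2 ^ m :=
        pow_le_pow_right₀ (by norm_num) (Nat.sub_le _ _)
      have h7 : 0 ≤ ((k + 1).factorial : ℝ) * η * ∏ r, gg P X k (J r + (f r).1) (W r (f r)) := by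
        (clear * - hη0 h3; positivity)
      calc _ ≤ 2 ^ m * (((k + 1).factorial : ℝ) * η *
            ∏ r, gg P X k (J r + (f r).1) (W r (f r))) := mul_le_mul_of_nonneg_right h6 h7
        _ = _ := by ring
    · simp only [norm_zero]
      (clear * - hη0 h3; positivity)
  refine (Finset.sum_le_sum fun f _ => h2 f).trans (le_of_eq ?_)
  rw [← Finset.mul_sum]
  congr 1
  have h3 := Finset.prod_univ_sum (fun _ : Fin (k + 1) => (Finset.univ : Finset (Fin L × Bool)))
    (fun r t => gg P X k (J r + t.1) (W r t))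
  rw [Fintype.piFinset_univ] at h3
  rw [← h3]
  refine Finset.prod_congr rfl fun r _ => ?_
  unfold GG
  rw [Fintype.sum_prod_type, ← Fin.sum_univ_eq_sum_range (fun l =>
    gg P X k (J r + l) (w r) + gg P X k (J r + l) (w' r)) L]
  refine Finset.sum_congr rfl fun l _ => ?_
  rw [Fintype.sum_bool]
  simp [hW]

end lev

end Vale.Agent.P114.Com.MB
end
end

section

/-! Boundedness of the Mahler measures (weighted version of HomMahlerE and HomMahler; `marg1`,
`marg2`, `Wt`, `Mt`, `sum_Wt_Mt`, `nu_lower`, `exists_K`, `eta_bound`, `prod_rts` of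
`Vale.Agent.P114.MB` are used unchanged). -/

open scoped Classical
open Polynomial

noncomputable section

namespace Vale.Agent.P114.Com

open FinProb

variable {Λ : Type} [Fintype Λ] [Wts Λ]

namespace MB

open Vale.Agent.P114.MB

section lev
variable (P : FinProb Λ) (X : Lev Λ)

lemma sum_N2_shift (l : ℕ) :
    ∑ j ∈ Finset.range X.n, ∑ w, (P.pi X.n).w w * N2 P X (j + l) w ≤ X.n := by
  refine le_trans ?_ (sum_N2 P X (X.n + l))
  rw [← Finset.sum_image (f := fun q => ∑ w, (P.pi X.n).w w * N2 P X q w) (g := fun j => j + l)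
    (fun _ _ _ _ h => by simpa using h)]
  refine Finset.sum_le_sum_of_subset_of_nonneg ?_ fun _ _ _ =>
    Finset.sum_nonneg fun w _ => mul_nonneg ((P.pi X.n).nonneg w) (N2_nonneg P X _ w)
  intro q hq
  obtain ⟨m, hm, rfl⟩ := Finset.mem_image.1 hq
  exact Finset.mem_range.2 (by have := Finset.mem_range.1 hm; omega)

lemma sum_gg (k l : ℕ) :
    ∑ j ∈ Finset.range X.n, ∑ w, (P.pi X.n).w w * gg P X k (j + l) w ≤
      (3 * k + 4) / 2 * X.n := by
  have h1 : ∀ j, ∑ w, (P.pi X.n).w w * gg P X k (j + l) w ≤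
      1 / 2 + 3 * (k + 1) / 2 * ∑ w, (P.pi X.n).w w * N2 P X (j + l) w := by
    intro j
    have e : 1 / 2 + 3 * ((k : ℝ) + 1) / 2 * ∑ w, (P.pi X.n).w w * N2 P X (j + l) w =
        ∑ w, (P.pi X.n).w w * ((1 + 3 * (k + 1) * N2 P X (j + l) w) / 2) := by
      rw [Finset.mul_sum]
      have : (1 : ℝ) / 2 = ∑ w, (P.pi X.n).w w * (1 / 2) := by
        rw [← Finset.sum_mul, (P.pi X.n).sum_one, one_mul]
      rw [this, ← Finset.sum_add_distrib]
      exact Finset.sum_congr rfl fun w _ => by ring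
    rw [e]
    exact Finset.sum_le_sum fun w _ => mul_le_mul_of_nonneg_left (gg_le P X k _ w)
      ((P.pi X.n).nonneg w)
  refine (Finset.sum_le_sum fun j _ => h1 j).trans ?_
  rw [Finset.sum_add_distrib, ← Finset.mul_sum]
  have h2 := sum_N2_shift P X l
  have h3 : ∑ i ∈ Finset.range X.n, (1 / 2 : ℝ) = X.n / 2 := by simp; ring
  rw [h3]
  have h4 := mul_le_mul_of_nonneg_left h2 (show 0 ≤ 3 * ((k : ℝ) + 1) / 2 by positivity)
  linarith

lemma sum_Wt_GG (k L : ℕ) (hn : 0 < X.n) :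
    ∑ θ, Wt P X θ * GG P X k L θ.1 θ.2.1 θ.2.2 ≤ L * (3 * k + 4) := by
  have hn' : (0 : ℝ) < X.n := by exact_mod_cast hn
  have h1 : ∑ θ, Wt P X θ * GG P X k L θ.1 θ.2.1 θ.2.2 =
      ∑ j : Fin X.n, (1 / (X.n : ℝ)) * ∑ l ∈ Finset.range L,
        (2 * ∑ w, (P.pi X.n).w w * gg P X k (j + l) w) := by
    rw [Fintype.sum_prod_type]
    refine Finset.sum_congr rfl fun j _ => ?_
    unfold Wt
    simp only [mul_assoc]
    rw [← Finset.mul_sum]
    congr 1
    unfold GG
    simp only [Finset.mul_sum, mul_add]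
    rw [Finset.sum_comm]
    refine Finset.sum_congr rfl fun l _ => ?_
    rw [Finset.sum_add_distrib, marg1 (P.pi X.n) (X.h j) (gg P X k (j + l)),
      marg2 (P.pi X.n) (X.h j) (gg P X k (j + l)), ← Finset.mul_sum]
    ring
  rw [h1, Fin.sum_univ_eq_sum_range (fun j => (1 / (X.n : ℝ)) * ∑ l ∈ Finset.range L,
        (2 * ∑ w, (P.pi X.n).w w * gg P X k (j + l) w)) X.n, ← Finset.mul_sum,
    Finset.sum_comm]
  have h2 : ∑ l ∈ Finset.range L, ∑ j ∈ Finset.range X.n,
      (2 * ∑ w, (P.pi X.n).w w * gg P X k (j + l) w) ≤ ∑ l ∈ Finset.range L,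
        (3 * (k : ℝ) + 4) * X.n := by
    refine Finset.sum_le_sum fun l _ => ?_
    rw [← Finset.mul_sum]
    have := sum_gg P X k l
    linarith only [this]
  rw [Finset.sum_const, Finset.card_range, nsmul_eq_mul] at h2
  calc 1 / (X.n : ℝ) * ∑ l ∈ Finset.range L, ∑ j ∈ Finset.range X.n,
      (2 * ∑ w, (P.pi X.n).w w * gg P X k (j + l) w) ≤
        1 / (X.n : ℝ) * ((L : ℝ) * ((3 * (k : ℝ) + 4) * X.n)) :=
        mul_le_mul_of_nonneg_left h2 (by positivity)
    _ = L * (3 * k + 4) := by field_simp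

omit [Fintype Λ] in
lemma Fp_coeff_blk {n : ℕ} (J L m : ℕ) (hm : m < L) (a : Λ) (w w' : Fin n → Λ) (b b' : List Λ)
    (hb : Lev.blk J L w = b) (hb' : Lev.blk J L w' = b') (hl : b.length = L)
    (hl' : b'.length = L) :
    (Fp J w w' a).coeff m = (((dpoly (b, b') a).map (Int.castRingHom ℂ))).coeff m := by
  have e : ∀ (v : Fin n → Λ) (c : List Λ), Lev.blk J L v = c → c.length = L →
      (cpoly ((List.ofFn v).drop J) a).coeff m = (cpoly c a).coeff m := by
    intro v c hc hcl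
    refine cpoly_coeff_prefix c _ ?_ a m ?_
    · rw [← hc]
      exact List.take_prefix _ _
    · have := length_le_wtL c
      omega
  unfold Fp Tp dpoly
  rw [Polynomial.coeff_sub, Polynomial.coeff_map, Polynomial.coeff_map, Polynomial.coeff_map,
    Polynomial.coeff_sub, map_sub, e w b hb hl, e w' b' hb' hl']

omit [Fintype Λ] in
lemma one_le_coeff {k : ℕ} (ι : Fin (k + 1) → Λ) (L m : ℕ) (hm : m < L)
    (b b' : Fin (k + 1) → List Λ) (hc : (detP (fun r => (b r, b' r)) ι).coeff m ≠ 0)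
    (hb : ∀ r, (b r).length = L ∧ (b' r).length = L)
    (θ : Fin (k + 1) → Fin X.n × ((Fin X.n → Λ) × (Fin X.n → Λ)))
    (hθ : ∀ r, Mt X L (b r) (b' r) (θ r)) :
    1 ≤ ‖((Matrix.of fun r s =>
      Fp ((θ r).1 : ℕ) (θ r).2.1 (θ r).2.2 (ι s)).det).coeff m‖ := by
  have h1 : ((Matrix.of fun r s =>
      Fp ((θ r).1 : ℕ) (θ r).2.1 (θ r).2.2 (ι s)).det).coeff m =
      ((Matrix.of fun r s => (dpoly (b r, b' r) (ι s)).map (Int.castRingHom ℂ)).det).coeff m := by
    refine det_coeff_congr (L := L) _ _ (fun r s m hm => ?_) m hm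
    exact Fp_coeff_blk _ L m hm _ _ _ _ _ (hθ r).1 (hθ r).2 (hb r).1 (hb r).2
  rw [h1, ← detP_map (fun r => (b r, b' r)) ι, Polynomial.coeff_map]
  simp only [eq_intCast, Complex.norm_intCast]
  have := Int.one_le_abs hc
  exact_mod_cast this

end lev

/-- the finite bound -/
theorem finite_bound (P : FinProb Λ) (X : Lev Λ) {k : ℕ} (ι : Fin (k + 1) → Λ) (s : Finset ℂ)
    (hs : ∀ α ∈ s, ‖α‖ < 1)
    (hroot : ∀ α ∈ s, ∀ x : Fin (k + 1) → List Λ × List Λ, (∀ r, x r ∈ X.Tails) →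
      aeval α (detP x ι) = 0) (η : ℝ)
    (hη : ∀ z : ℂ, ‖z‖ ≤ 1 / 2 → ∏ α ∈ s, ‖(z - α) / (1 - (starRingEnd ℂ) α * z)‖ ≤ η)
    (L m : ℕ) (hm : m < L) (b b' : Fin (k + 1) → List Λ)
    (hc : (detP (fun r => (b r, b' r)) ι).coeff m ≠ 0) (hn : 0 < X.n)
    (hb : ∀ r, (b r).length = L ∧ (b' r).length = L) :
    ∏ r, ((1 / (X.n : ℝ)) * ∑ j ∈ Finset.range X.n,
        ((P.pi X.n).couple (X.h j)).p (fun x => (Lev.blk j L x.1, Lev.blk j L x.2)) (b r, b' r)) ≤
      2 ^ m * ((k + 1).factorial * η) * (L * (3 * k + 4)) ^ (k + 1) := by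
  have hη0 : 0 ≤ η := le_trans (Finset.prod_nonneg fun _ _ => norm_nonneg _) (hη 0 (by simp only [norm_zero, one_div, inv_nonneg, Nat.ofNat_nonneg]))
  simp only [← sum_Wt_Mt P X L]
  rw [Finset.prod_univ_sum, Fintype.piFinset_univ]
  have h1 : ∀ f : Fin (k + 1) → Fin X.n × ((Fin X.n → Λ) × (Fin X.n → Λ)),
      ∏ r, (Wt P X (f r) * (if Mt X L (b r) (b' r) (f r) then 1 else 0)) ≤
        2 ^ m * ((k + 1).factorial * η) *
          ∏ r, (Wt P X (f r) * GG P X k L (f r).1 (f r).2.1 (f r).2.2) := by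
    intro f
    have hR : 0 ≤ 2 ^ m * ((k + 1).factorial * η) *
          ∏ r, (Wt P X (f r) * GG P X k L (f r).1 (f r).2.1 (f r).2.2) := by
      refine mul_nonneg (by positivity) (Finset.prod_nonneg fun r _ =>
        mul_nonneg (Wt_nonneg P X _) (Finset.sum_nonneg fun _ _ =>
          add_nonneg (gg_nonneg P X k _ _) (gg_nonneg P X k _ _)))
    by_cases hM : ∀ r, Mt X L (b r) (b' r) (f r)
    · by_cases hW : ∀ r, 0 < Wt P X (f r)
      · have h2 : ∀ r, 0 < ((P.pi X.n).couple (X.h (f r).1)).w (f r).2 := by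
          intro r
          have := hW r
          unfold Wt at this
          exact pos_of_mul_pos_right this (by positivity)
        have h3 := coeff_det_Fp P X ι s hs hroot η hη (fun r => ((f r).1 : ℕ))
          (fun r => (f r).2.1) (fun r => (f r).2.2)
          (fun r => couple_pos1 (P.pi X.n) (X.h (f r).1) (f r).2 (h2 r))
          (fun r => couple_pos2 (P.pi X.n) (X.h (f r).1) (f r).2 (h2 r))
          (fun r => (P.pi X.n).couple_same (X.h (f r).1) (f r).2 (h2 r)) L m hm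
        have h4 := (one_le_coeff X ι L m hm b b' hc hb f hM).trans h3
        have h5 : ∏ r, (Wt P X (f r) * (if Mt X L (b r) (b' r) (f r) then 1 else 0)) =
            ∏ r, Wt P X (f r) :=
          Finset.prod_congr rfl fun r _ => by rw [if_pos (hM r), mul_one]
        rw [h5, Finset.prod_mul_distrib]
        have h6 : 0 ≤ ∏ r, Wt P X (f r) := Finset.prod_nonneg fun r _ => Wt_nonneg P X _
        calc ∏ r, Wt P X (f r) = (∏ r, Wt P X (f r)) * 1 := (mul_one _).symm
          _ ≤ (∏ r, Wt P X (f r)) * (2 ^ m * ((k + 1).factorial * η) *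
              ∏ r, GG P X k L (f r).1 (f r).2.1 (f r).2.2) := mul_le_mul_of_nonneg_left h4 h6
          _ = _ := by ring
      · push Not at hW
        obtain ⟨r, hr⟩ := hW
        have h2 : Wt P X (f r) = 0 := le_antisymm hr (Wt_nonneg P X _)
        rw [Finset.prod_eq_zero (Finset.mem_univ r) (by rw [h2, zero_mul])]
        exact hR
    · push Not at hM
      obtain ⟨r, hr⟩ := hM
      rw [Finset.prod_eq_zero (Finset.mem_univ r) (by rw [if_neg hr, mul_zero])]
      exact hR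
  refine (Finset.sum_le_sum fun f _ => h1 f).trans ?_
  rw [← Finset.mul_sum]
  refine mul_le_mul_of_nonneg_left ?_ (by positivity)
  have h2 := Finset.prod_univ_sum
    (fun _ : Fin (k + 1) => (Finset.univ : Finset (Fin X.n × ((Fin X.n → Λ) × (Fin X.n → Λ)))))
    (fun _ θ => Wt P X θ * GG P X k L θ.1 θ.2.1 θ.2.2)
  rw [Fintype.piFinset_univ] at h2
  rw [← h2]
  have h3 : ∏ _r : Fin (k + 1), ∑ θ, Wt P X θ * GG P X k L θ.1 θ.2.1 θ.2.2 ≤
      ∏ _r : Fin (k + 1), ((L : ℝ) * (3 * k + 4)) :=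
    Finset.prod_le_prod (fun r _ => Finset.sum_nonneg fun θ _ =>
        mul_nonneg (Wt_nonneg P X _) (Finset.sum_nonneg fun _ _ =>
          add_nonneg (gg_nonneg P X k _ _) (gg_nonneg P X k _ _)))
      fun r _ => sum_Wt_GG P X k L hn
  refine h3.trans (le_of_eq ?_)
  simp

end MB

theorem mahler_bounded (P : FinProb Λ) (k : ℕ)
    (U : Ultrafilter ℕ) (X : ℕ → Lev Λ) (hL : LargeLev U X) (hnd : ¬ Degenerate U P X k)
    (f : ℕ → ℤ[X]) (B ρ₀ : ℝ) (hρ₀ : 0 < ρ₀)
    (hf : ∀ᶠ i in (U : Filter ℕ), Irreducible (f i) ∧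
        (f i).coeff 0 ≠ 0 ∧ |(((f i).coeff 0 : ℤ) : ℝ)| ≤ B ∧
        (∀ α : ℂ, aeval α (f i) = 0 → ρ₀ ≤ ‖α‖) ∧
        (∀ (x : Fin (k + 1) → List Λ × List Λ), (∀ r, x r ∈ (X i).Tails) →
          ∀ ι : Fin (k + 1) → Λ, f i ∣ detP x ι)) :
    ∃ C₀ : ℝ, ∀ᶠ i in (U : Filter ℕ), ((f i).map (Int.castRingHom ℂ)).mahlerMeasure ≤ C₀ := by
  unfold Degenerate at hnd
  push Not at hnd
  obtain ⟨u, u', hbr, ι, hdet⟩ := hnd
  obtain ⟨m, hm⟩ : ∃ m, PowerSeries.coeff m
      (Matrix.of fun r s => ps (u r) (u' r) (ι s)).det ≠ 0 := by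
    by_contra hcon
    push Not at hcon
    exact hdet (PowerSeries.ext fun m => by rw [hcon m]; simp)
  rw [← coeff_detP_of_prefix (u := u) (u' := u') (L := m + 1)
    (x := fun r => (pre (u r) (m + 1), pre (u' r) (m + 1))) (fun r => List.prefix_rfl)
    (fun r => List.prefix_rfl) ι (Nat.lt_succ_self m)] at hm
  have hnode : ∀ r, ∃ δ > 0, ∀ᶠ i in (U : Filter ℕ),
      δ ≤ (X i).nu P (m + 1) (pre (u r) (m + 1)) (pre (u' r) (m + 1)) := by
    intro r
    obtain ⟨-, δ, hδ, h⟩ := hbr r (m + 1)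
    refine ⟨δ, hδ, ?_⟩
    have hlen : (pre (u r) (m + 1)).length = m + 1 := by simp only [pre, List.ofFn_succ, Fin.coe_ofNat_eq_mod, Nat.zero_mod, Fin.val_succ, List.length_cons, List.length_ofFn, Nat.add_left_cancel_iff]
    rw [hlen] at h
    exact h
  choose δ hδ hδ' using hnode
  obtain ⟨K, hK0, hK⟩ := Vale.Agent.P114.MB.exists_K
    (2 ^ m * (k + 1).factorial * (((m + 1 : ℕ) : ℝ) * (3 * k + 4)) ^ (k + 1))
    (∏ r, (δ r / 2)) B (ρ₀ ^ 2 / 3) (Finset.prod_pos fun r _ => half_pos (hδ r)) (by positivity)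
  refine ⟨K, ?_⟩
  by_contra hcon
  have hcon' : ∀ᶠ i in (U : Filter ℕ),
      ¬ ((f i).map (Int.castRingHom ℂ)).mahlerMeasure ≤ K := Ultrafilter.eventually_not.2 hcon
  have hall : ∀ᶠ i in (U : Filter ℕ), ∀ r, δ r ≤
      (X i).nu P (m + 1) (pre (u r) (m + 1)) (pre (u' r) (m + 1)) :=
    Filter.eventually_all.2 hδ'
  obtain ⟨i, ⟨hirr, hc0, hcB, hroot, hdvd⟩, hM, hnu, hn⟩ :=
    (hf.and (hcon'.and (hall.and (hL (2 * (m + 1)))))).exists
  have hfin := MB.finite_bound P (X i) ι (Vale.Agent.P114.MB.rts (f i))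
    (fun α hα => (Vale.Agent.P114.MB.mem_rts hα).1)
    (fun α hα x hx => by
      obtain ⟨g, hg⟩ := hdvd x hx ι
      rw [hg, map_mul, (Vale.Agent.P114.MB.mem_rts hα).2, zero_mul])
    ((B / K) ^ (ρ₀ ^ 2 / 3))
    (fun z hz => Vale.Agent.P114.MB.eta_bound hirr B ρ₀ hρ₀ hcB hroot K hK0 (not_le.1 hM) z hz)
    (m + 1) m (Nat.lt_succ_self m) (fun r => pre (u r) (m + 1)) (fun r => pre (u' r) (m + 1))
    hm (by omega) (fun r => ⟨pre_length' _ _, pre_length' _ _⟩)
  have hlow : ∏ r, (δ r / 2) ≤ ∏ r, ((1 / ((X i).n : ℝ)) * ∑ j ∈ Finset.range (X i).n,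
        ((P.pi (X i).n).couple ((X i).h j)).p
          (fun x => (Lev.blk j (m + 1) x.1, Lev.blk j (m + 1) x.2))
          (pre (u r) (m + 1), pre (u' r) (m + 1))) :=
    Finset.prod_le_prod (fun r _ => (half_pos (hδ r)).le) fun r _ =>
      Vale.Agent.P114.MB.nu_lower P (X i) (m + 1) (Nat.succ_pos m) hn _ _ (δ r) (hδ r) (hnu r)
  have hbig := hlow.trans hfin
  have e : 2 ^ m * ((k + 1).factorial * (B / K) ^ (ρ₀ ^ 2 / 3)) *
      (((m + 1 : ℕ) : ℝ) * (3 * k + 4)) ^ (k + 1) =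
      2 ^ m * (k + 1).factorial * (((m + 1 : ℕ) : ℝ) * (3 * k + 4)) ^ (k + 1) *
        (B / K) ^ (ρ₀ ^ 2 / 3) := by ring
  rw [e] at hbig
  exact absurd hbig (not_le.2 hK)

end Vale.Agent.P114.Com
end
end

section

/-! The contradiction at the scale of the approximants (weighted version of HomFinal). -/

open scoped Classical
open Polynomial

noncomputable section

namespace Vale.Agent.P114.Com

open FinProb

variable {Λ : Type} [Fintype Λ] [Wts Λ]

/-- As `Vale.Agent.P114.final_contra`: apply `hf_step` with `2 * k + 2` for `k`, `wA Λ * m i` for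
`m`, `wA Λ * (X κ' i).n` for `n`, where `κ' = κ / wA Λ`; `κ = 1 / (C3 + 2)`,
`C3 = (2 * k + 3) * log (max C₀ 1) + 1`. -/
theorem final_contra (P : FinProb Λ) (lam : ℝ) (h0 : lam ≠ 0) (h1 : |lam| < 1)
    (V : Submodule ℝ (Λ → ℝ)) (k : ℕ) (hk : k + Module.finrank ℝ V = Fintype.card Λ)
    (U : Ultrafilter ℕ) (m : ℕ → ℕ) (f : ℕ → ℤ[X]) (η : ℕ → ℂ) (C₀ : ℝ)
    (hf : ∀ᶠ i in (U : Filter ℕ), Irreducible (f i) ∧ aeval (η i) (f i) = 0 ∧
        (f i).natDegree ≤ (2 * k + 3) * (wA Λ * m i) ∧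
        ((f i).map (Int.castRingHom ℂ)).mahlerMeasure ≤ C₀ ∧ (lam : ℂ) ≠ η i)
    (X : ℝ → ℕ → Lev Λ)
    (hX : ∀ κ > 0, κ ≤ 1 → LargeLev U (X κ) ∧ ¬ Degenerate U P (X κ) k ∧
      (∀ᶠ i in (U : Filter ℕ), ((X κ i).n : ℝ) ≤ κ * Real.log (1 / ‖(lam : ℂ) - η i‖) ∧
        κ / 2 * Real.log (1 / ‖(lam : ℂ) - η i‖) ≤ (X κ i).n ∧
        (m i : ℝ) * Real.log (X κ i).n ≤ (X κ i).n) ∧
      (∀ A : ℝ, QTiny U lam (X κ) V (fun i => A * (X κ i).n))) : False := by
  -- the alphabet is nonempty, so `wA ≥ 1`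
  have hΛ : Nonempty Λ := by
    by_contra hcon
    rw [not_nonempty_iff] at hcon
    have := P.sum_one
    rw [Finset.univ_eq_empty, Finset.sum_empty] at this
    exact zero_ne_one this
  obtain ⟨a₀⟩ := hΛ
  have hA1 : 1 ≤ wA Λ := (wt_pos a₀).trans (wt_le a₀)
  have hA1r : (1 : ℝ) ≤ (wA Λ : ℝ) := by exact_mod_cast hA1
  have hApos : (0 : ℝ) < (wA Λ : ℝ) := by linarith only [hA1r]
  set K : ℕ := 2 * k + 2 with hK
  have hKr : ((K : ℕ) : ℝ) = 2 * (k : ℝ) + 2 := by rw [hK]; push_cast; ring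
  set C3 : ℝ := ((K : ℝ) + 1) * Real.log (max C₀ 1) + 1 with hC3
  have hlog0 : 0 ≤ Real.log (max C₀ 1) := Real.log_nonneg (le_max_right _ _)
  have hC31 : 1 ≤ C3 := by
    have : 0 ≤ ((K : ℝ) + 1) * Real.log (max C₀ 1) := by (clear * - hlog0; positivity)
    rw [hC3]; linarith only [this]
  set κ : ℝ := 1 / (C3 + 2) with hκ
  have hκ0 : 0 < κ := by (clear * - hlog0; positivity)
  have hκ1 : κ ≤ 1 := by
    rw [hκ, div_le_one (by linarith only [hC31])]; linarith only [hC31]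
  set κ' : ℝ := κ / wA Λ with hκ'
  have hκ'0 : 0 < κ' := by (clear * - hlog0 hA1; positivity)
  have hκ'1 : κ' ≤ 1 := by
    rw [hκ', div_le_one hApos]; linarith only [hA1r, hκ1]
  have hκκ' : (wA Λ : ℝ) * κ' = κ := by
    rw [hκ']; field_simp
  obtain ⟨hL, hnd, hev, hQ⟩ := hX κ' hκ'0 hκ'1
  obtain ⟨ι, o, c, hc, hreal⟩ := exists_det_coeff U P (X κ') k hL hnd
  obtain ⟨c1, m₀, hc1, hc1', hzn⟩ := zero_near lam h0 h1 K o
  obtain ⟨Cs, hCs0, hsmall⟩ := detP_small lam h1 V k hk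
  set E : ℕ := 2 * (K + m₀) + 3 with hE
  have hO := hf_littleo U m (fun i => Real.log (1 / ‖(lam : ℂ) - η i‖)) X
    (fun κ h h' => ⟨(hX κ h h').1, (hX κ h h').2.2.1⟩) κ' hκ'0 hκ'1
    (1 / (2 * ((E : ℝ) * (K + 1)))) (by (clear * -; positivity)) (by
      rw [div_le_one (by (clear * -; positivity))]
      have h2 : (1 : ℝ) ≤ E := by exact_mod_cast (by (clear * - hk; omega) : 1 ≤ E)
      have h3 : (1 : ℝ) ≤ (K : ℝ) + 1 := by have := Nat.cast_nonneg (α := ℝ) K; linarith only []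
      nlinarith only [h2])
  set A : ℝ := (2 * m₀ / κ + C3 + 1) * wA Λ / Real.log 2 with hA
  -- large n conditions
  have hρ0 : 0 < (1 - |lam|) / 2 := by linarith only [h1]
  have hlarge : ∃ N : ℕ, ∀ n ≥ N, (K + 1).factorial ≤ n ∧ K + 2 ≤ n ∧
      (n : ℝ) ^ E * (((1 - |lam|) / 2)⁻¹) ^ (m₀ + 1) * 2 ≤ Real.exp (2 * n) ∧
      Real.exp (-((C3 + 2) * n)) ≤ (1 - |lam|) / 2 ∧
      Cs * Real.exp (-(n : ℝ)) < 1 / 2 := by
    have e1 : ∀ᶠ n : ℕ in Filter.atTop, (K + 1).factorial ≤ n := Filter.eventually_ge_atTop _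
    have e2 : ∀ᶠ n : ℕ in Filter.atTop, K + 2 ≤ n := Filter.eventually_ge_atTop _
    have hnt : Filter.Tendsto (fun n : ℕ => (n : ℝ)) Filter.atTop Filter.atTop :=
      tendsto_natCast_atTop_atTop
    have t3 : Filter.Tendsto (fun x : ℝ => x ^ E * Real.exp (-x)) Filter.atTop (nhds 0) :=
      Real.tendsto_pow_mul_exp_neg_atTop_nhds_zero E
    have e3 : ∀ᶠ n : ℕ in Filter.atTop,
        (n : ℝ) ^ E * (((1 - |lam|) / 2)⁻¹) ^ (m₀ + 1) * 2 ≤ Real.exp (2 * n) := by
      have t4 := ((t3.comp hnt).mul_const ((((1 - |lam|) / 2)⁻¹) ^ (m₀ + 1) * 2))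
      rw [zero_mul] at t4
      have t5 := t4.eventually (gt_mem_nhds (show (0 : ℝ) < 1 by norm_num))
      filter_upwards [t5] with n hn
      simp only [Function.comp_apply] at hn
      have h5 : (n : ℝ) ^ E * (((1 - |lam|) / 2)⁻¹) ^ (m₀ + 1) * 2 ≤ Real.exp n := by
        rw [Real.exp_neg] at hn
        have h6 : (n : ℝ) ^ E * (Real.exp n)⁻¹ * ((((1 - |lam|) / 2)⁻¹) ^ (m₀ + 1) * 2)
          = ((n : ℝ) ^ E * (((1 - |lam|) / 2)⁻¹) ^ (m₀ + 1) * 2) / Real.exp n := by
          rw [div_eq_mul_inv]; ring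
        rw [h6, div_lt_one (Real.exp_pos _)] at hn
        exact hn.le
      refine h5.trans (Real.exp_le_exp.2 ?_)
      have := Nat.cast_nonneg (α := ℝ) n
      linarith only []
    have t6 : Filter.Tendsto (fun n : ℕ => Real.exp (-(n : ℝ))) Filter.atTop (nhds 0) :=
      (Real.tendsto_exp_neg_atTop_nhds_zero).comp hnt
    have e4 : ∀ᶠ n : ℕ in Filter.atTop, Real.exp (-((C3 + 2) * n)) ≤ (1 - |lam|) / 2 := by
      filter_upwards [t6.eventually (gt_mem_nhds hρ0)] with n hn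
      refine le_trans (Real.exp_le_exp.2 ?_) hn.le
      have := Nat.cast_nonneg (α := ℝ) n
      nlinarith only [hC31]
    have e5 : ∀ᶠ n : ℕ in Filter.atTop, Cs * Real.exp (-(n : ℝ)) < 1 / 2 := by
      have t7 := t6.const_mul Cs
      rw [mul_zero] at t7
      exact t7.eventually (gt_mem_nhds (by norm_num))
    obtain ⟨N, hN⟩ := Filter.eventually_atTop.1
      (e1.and (e2.and (e3.and (e4.and e5))))
    exact ⟨N, fun n hn => hN n hn⟩
  obtain ⟨N, hN⟩ := hlarge
  have hall : ∀ᶠ i in (U : Filter ℕ), False := by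
    filter_upwards [hf, hev, hreal, hO, hL (max N (wA Λ)), hQ A] with i hfi hevi hri hOi hLi hQi
    obtain ⟨x, hx, _, hxo⟩ := hri
    have hLN : N ≤ (X κ' i).n := (le_max_left _ _).trans hLi
    have hLA : wA Λ ≤ (X κ' i).n := (le_max_right _ _).trans hLi
    have hnn : (X κ' i).n ≤ wA Λ * (X κ' i).n := Nat.le_mul_of_pos_left _ hA1
    obtain ⟨g1, g2, g3, g4, g5⟩ := hN (wA Λ * (X κ' i).n) (hLN.trans hnn)
    have hnice : Nice K (wA Λ * (X κ' i).n) (detP x ι) :=
      nice_detP x ι (fun r => Tails_length (X κ' i) (x r) (hx r))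
    have hco : (detP x ι).coeff o ≠ 0 := by rw [hxo]; exact hc
    have hp0 : detP x ι ≠ 0 := by
      intro h; rw [h] at hco; simp at hco
    have hn1 : 1 ≤ (X κ' i).n := hA1.trans hLA
    have hn1' : 1 ≤ wA Λ * (X κ' i).n := hn1.trans hnn
    obtain ⟨_, hmult⟩ := hzn (wA Λ * (X κ' i).n) (detP x ι) hn1' hnice ⟨o, le_rfl, hco⟩
    have hsm := hsmall x ι ((2 : ℝ) ^ (-(A * (X κ' i).n))) (by positivity)
      (fun r v hv => hQi (x r) (hx r) v hv)
    have hcast : ((wA Λ * (X κ' i).n : ℕ) : ℝ) = (wA Λ : ℝ) * ((X κ' i).n : ℝ) := by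
      push_cast; ring
    have h2A : (2 : ℝ) ^ (-(A * (X κ' i).n))
        = Real.exp (-((2 * m₀ / κ + C3 + 1) * ((wA Λ * (X κ' i).n : ℕ) : ℝ))) := by
      rw [Real.rpow_def_of_pos (by norm_num), hcast]
      congr 1
      have hl2 : Real.log 2 ≠ 0 := (Real.log_pos (by norm_num)).ne'
      rw [hA]
      (clear * - hκ0 hl2 hn1 hA1 hC31; field_simp)
    rw [h2A] at hsm
    have hnr : (0 : ℝ) ≤ ((X κ' i).n : ℝ) := Nat.cast_nonneg _
    have hnr1 : (1 : ℝ) ≤ ((X κ' i).n : ℝ) := by exact_mod_cast hn1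
    have hD1 : ((wA Λ * (X κ' i).n : ℕ) : ℝ) ≤ κ * Real.log (1 / ‖(lam : ℂ) - η i‖) := by
      rw [hcast, ← hκκ', mul_assoc]
      exact mul_le_mul_of_nonneg_left hevi.1 hApos.le
    have hD2 : κ / 2 * Real.log (1 / ‖(lam : ℂ) - η i‖) ≤ ((wA Λ * (X κ' i).n : ℕ) : ℝ) := by
      have h3 : κ / 2 * Real.log (1 / ‖(lam : ℂ) - η i‖) =
          (wA Λ : ℝ) * (κ' / 2 * Real.log (1 / ‖(lam : ℂ) - η i‖)) := by
        rw [← hκκ']; ring
      rw [hcast, h3]
      exact mul_le_mul_of_nonneg_left hevi.2.1 hApos.le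
    have hOO : ((wA Λ * m i : ℕ) : ℝ) * Real.log ((wA Λ * (X κ' i).n : ℕ) : ℝ) ≤
        1 / (((2 * (K + m₀) + 3 : ℕ) : ℝ) * (K + 1)) * ((wA Λ * (X κ' i).n : ℕ) : ℝ) := by
      have hlogA : Real.log ((wA Λ * (X κ' i).n : ℕ) : ℝ) ≤ 2 * Real.log (X κ' i).n := by
        rw [hcast, Real.log_mul hApos.ne' (by linarith only [hnr1])]
        have : Real.log (wA Λ : ℝ) ≤ Real.log ((X κ' i).n : ℝ) :=
          Real.log_le_log hApos (by exact_mod_cast hLA)
        linarith only [this]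
      calc ((wA Λ * m i : ℕ) : ℝ) * Real.log ((wA Λ * (X κ' i).n : ℕ) : ℝ)
          ≤ ((wA Λ * m i : ℕ) : ℝ) * (2 * Real.log (X κ' i).n) :=
            mul_le_mul_of_nonneg_left hlogA (Nat.cast_nonneg _)
        _ = 2 * (wA Λ : ℝ) * ((m i : ℝ) * Real.log (X κ' i).n) := by push_cast; ring
        _ ≤ 2 * (wA Λ : ℝ) * (1 / (2 * ((E : ℝ) * (K + 1))) * (X κ' i).n) :=
            mul_le_mul_of_nonneg_left hOi (by positivity)
        _ = 1 / (((2 * (K + m₀) + 3 : ℕ) : ℝ) * (K + 1)) * ((wA Λ * (X κ' i).n : ℕ) : ℝ) := by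
            rw [hcast, ← hE]
            have hE0 : (E : ℝ) ≠ 0 := by
              have : (1 : ℝ) ≤ E := by exact_mod_cast (by omega : 1 ≤ E)
              linarith only [this]
            have hK0 : (K : ℝ) + 1 ≠ 0 := by (clear * -; positivity)
            (clear * - hn1 hK0 hE0 hA1; field_simp)
    exact hf_step lam K (wA Λ * (X κ' i).n) (wA Λ * m i) m₀ h1 (detP x ι) (f i) hp0 hnice (η i)
      C₀ Cs κ hκ0 hfi.1 hfi.2.1 hfi.2.2.1 hfi.2.2.2.1 hfi.2.2.2.2 (fun h => hmult (η i) h) C3 hC3 hκ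
      hD1 hD2 hOO g1 g2 g3 g4 g5 hsm
  exact (Filter.Eventually.exists hall).elim (fun _ h => h)

end Vale.Agent.P114.Com
end
end

section

/-! The commensurable transcendental step (weighted version of HomStep). -/

open scoped Classical
open Polynomial

noncomputable section

namespace Vale.Agent.P114.Com

open FinProb

variable {Λ : Type} [Fintype Λ] [Wts Λ]

/-- The level of the words of length `n` with the class slope and `⌊2^N tr v⌋`. -/
def csLev (S : Sys Λ) (v : Λ → ℝ) (n N : ℕ) : Lev Λ :=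
  ⟨n, ℝ × ℤ, fun w => (sl S.r w, ⌊(2 : ℝ) ^ N * tr S.r v w⌋)⟩

lemma csGeneric (S : Sys Λ) (lam : ℝ) (hr : IsCom S lam) (V : Submodule ℝ (Λ → ℝ)) :
    ∃ v ∈ V, ∃ C' : ℝ, 0 ≤ C' ∧ ∀ n N : ℕ, 1 ≤ n → ∀ x ∈ (csLev S v n N).Tails, ∀ y ∈ V,
      |dval lam x ⬝ᵥ y| ≤ (2 : ℝ) ^ (-((N : ℝ) - C' * n)) * ‖y‖ := by
  have hl0 := hr.pos
  have hl1 := hr.lt_one
  obtain ⟨i0⟩ := S.nonempty
  have hcard : (1 : ℝ) ≤ Fintype.card Λ := by
    exact_mod_cast Fintype.card_pos_iff.2 ⟨i0⟩
  obtain ⟨v, hv, c, C, hc0, hc1, hC, hgen⟩ := exists_generic (ι := Λ)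
    ((Fintype.card Λ : ℝ) ^ 2) (one_le_pow₀ hcard)
    (fun n => Finset.univ.image fun p : (Fin n → Λ) × (Fin n → Λ) => S.dv p) (by
      intro n
      have h1 : (Finset.univ.image fun p : (Fin n → Λ) × (Fin n → Λ) => S.dv p).card
          ≤ Fintype.card Λ ^ n * Fintype.card Λ ^ n := by
        refine Finset.card_image_le.trans ?_
        simp only [Finset.card_univ, Fintype.card_prod, Fintype.card_pi, Finset.prod_const, Fintype.card_fin, Std.le_refl]
      have h2 : ((Fintype.card Λ : ℝ) ^ 2) ^ n = (Fintype.card Λ : ℝ) ^ n * (Fintype.card Λ : ℝ) ^ n := by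
        rw [← pow_mul, two_mul, pow_add]
      rw [h2]
      exact_mod_cast h1) V
  set la : ℝ := lam ^ wA Λ with hla
  have hla0 : 0 < la := pow_pos hl0 _
  have hla1 : la ≤ 1 := pow_le_one₀ hl0.le hl1.le
  set B : ℝ := max C 1 / (c * la) with hB
  have hcl : 0 < c * la := by (clear * - hc0 hl0; positivity)
  have hcl1 : c * la ≤ 1 := by nlinarith only [hc1, hc0, hla1]
  have hB1 : 1 ≤ B := by
    rw [hB, le_div_iff₀ hcl, one_mul]
    exact hcl1.trans (le_max_right _ _)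
  refine ⟨v, hv, Real.logb 2 B, Real.logb_nonneg (by norm_num) hB1, ?_⟩
  intro n N hn x hx y hy
  have hBn : (2 : ℝ) ^ (-((N : ℝ) - Real.logb 2 B * n)) = (2 : ℝ)⁻¹ ^ N * B ^ n := by
    have e : -((N : ℝ) - Real.logb 2 B * n) = Real.logb 2 B * n + -(N : ℝ) := by ring
    rw [e, Real.rpow_add (by norm_num), Real.rpow_mul (by norm_num),
      Real.rpow_logb (by norm_num) (by norm_num) (by linarith only [hB1]), Real.rpow_natCast,
      Real.rpow_neg (by norm_num), Real.rpow_natCast, inv_pow]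
    ring
  rw [hBn]
  obtain ⟨w, w', j, hc, ht, rfl⟩ := hx
  have hf : ⌊(2 : ℝ) ^ N * tr S.r v w⌋ = ⌊(2 : ℝ) ^ N * tr S.r v w'⌋ := (Prod.ext_iff.1 hc).2
  have h1 := Int.abs_sub_lt_one_of_floor_eq_floor hf
  rw [← mul_sub, abs_mul, abs_of_pos (by positivity : (0 : ℝ) < 2 ^ N)] at h1
  have h2 : |tr S.r v w - tr S.r v w'| ≤ (2 : ℝ)⁻¹ ^ N := by
    rw [inv_pow, ← one_div, le_div_iff₀ (by positivity)]
    linarith only [h1]
  have h3 := hgen n hn (S.dv (w, w')) (Finset.mem_image_of_mem _ (Finset.mem_univ _)) y hy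
  rw [S.dv_dot, S.dv_dot] at h3
  simp only at h3
  have e1 : ∀ z : Λ → ℝ, tr S.r z w - tr S.r z w'
      = slL S.r ((List.ofFn w).take j)
        * (dval lam ((List.ofFn w).drop j, (List.ofFn w').drop j) ⬝ᵥ z) := by
    intro z
    rw [hr.dval_dot]
    unfold tr
    conv_lhs => rw [← List.take_append_drop j (List.ofFn w),
      ← List.take_append_drop j (List.ofFn w'), ← ht]
    rw [trL_append, trL_append]
    ring
  have e2 : |slL S.r ((List.ofFn w).take j)| = lam ^ wtL ((List.ofFn w).take j) :=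
    hr.abs_slL _
  have h4 : la ^ n ≤ |slL S.r ((List.ofFn w).take j)| := by
    rw [e2, hla, ← pow_mul]
    refine pow_le_pow_of_le_one hl0.le hl1.le ((wtL_le _).trans (Nat.mul_le_mul_left _ ?_))
    rw [List.length_take, List.length_ofFn]
    exact min_le_right _ _
  set q := dval lam ((List.ofFn w).drop j, (List.ofFn w').drop j) ⬝ᵥ y with hq
  rw [e1 y, abs_mul] at h3
  have hny : 0 ≤ ‖y‖ := norm_nonneg y
  have h5 : (c * la) ^ n * |q| ≤ C * ‖y‖ * (2 : ℝ)⁻¹ ^ N := by
    calc (c * la) ^ n * |q| = c ^ n * (la ^ n * |q|) := by rw [mul_pow]; ring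
      _ ≤ c ^ n * (|slL S.r ((List.ofFn w).take j)| * |q|) := by (clear * - h4 hc0; gcongr)
      _ ≤ C * ‖y‖ * |tr S.r v w - tr S.r v w'| := h3
      _ ≤ _ := by (clear * - h2 hC; gcongr)
  have h6 : |q| ≤ C * ‖y‖ * (2 : ℝ)⁻¹ ^ N / (c * la) ^ n := by
    rw [le_div_iff₀ (by positivity)]
    linarith only [h5]
  refine h6.trans ?_
  have h7 : C / (c * la) ^ n ≤ B ^ n := by
    rw [hB, div_pow]
    refine div_le_div_of_nonneg_right ?_ (by positivity)
    calc C ≤ max C 1 := le_max_left _ _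
      _ = (max C 1) ^ 1 := (pow_one _).symm
      _ ≤ (max C 1) ^ n := pow_le_pow_right₀ (le_max_right _ _) hn
  calc C * ‖y‖ * (2 : ℝ)⁻¹ ^ N / (c * la) ^ n
      = (2 : ℝ)⁻¹ ^ N * (C / (c * la) ^ n) * ‖y‖ := by ring
    _ ≤ (2 : ℝ)⁻¹ ^ N * B ^ n * ‖y‖ := by (clear * - h7; gcongr)

/-- `QTiny` with `N → ∞` gives `TinyLev`. -/
lemma csTiny (U : Ultrafilter ℕ) (lam : ℝ) (X : ℕ → Lev Λ) (V : Submodule ℝ (Λ → ℝ)) (N : ℕ → ℝ)
    (h : QTiny U lam X V N) (hN : ∀ A : ℝ, ∀ᶠ i in (U : Filter ℕ), A ≤ N i) :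
    TinyLev U lam X V := by
  intro v hv ε hε
  have h1 : ∃ A : ℝ, ‖v‖ ≤ ε * (2 : ℝ) ^ A := by
    refine ⟨Real.logb 2 (‖v‖ / ε + 1), ?_⟩
    have : 0 < ‖v‖ / ε + 1 := by (clear * - hε; positivity)
    rw [Real.rpow_logb (by norm_num) (by norm_num) this, mul_add, mul_div_cancel₀ _ hε.ne']
    linarith only [hε]
  obtain ⟨A, hA⟩ := h1
  filter_upwards [h, hN A] with i hi hi2 x hx
  refine (hi x hx v hv).trans ?_
  have h3 : (2 : ℝ) ^ (-N i) ≤ (2 : ℝ) ^ (-A) :=
    Real.rpow_le_rpow_of_exponent_le (by norm_num) (by linarith)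
  calc (2 : ℝ) ^ (-N i) * ‖v‖ ≤ (2 : ℝ) ^ (-A) * (ε * (2 : ℝ) ^ A) := by (clear * - h3 hA; gcongr)
    _ = ε := by
      rw [mul_comm, mul_assoc, ← Real.rpow_add (by norm_num)]
      simp

/-- The transcendental commensurable step. -/
theorem com_step (S : Sys Λ) (lam : ℝ) (hr : IsCom S lam) (hlam : Transcendental ℤ lam)
    (t : Λ → ℝ) (hα : S.alpha t < 1) (ε : ℝ) (hε : 0 < ε) :
    ∃ n > 0, S.HG t n ≤ (S.alpha t * S.χ + ε) * n := by
  by_contra hcon
  push Not at hcon
  have hl1 := hr.abs_lt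
  have hlam0 : lam ≠ 0 := hr.ne_zero
  have hlog : 0 < Real.log 2 := Real.log_pos (by norm_num)
  have hχ := S.χ_pos
  obtain ⟨V, htV, hV, hmax⟩ := S.exists_maximal_subspace t
  set α₀ := S.alpha t with hα₀
  have hfin : Module.finrank ℝ V ≤ Fintype.card Λ := by
    have := Submodule.finrank_le V
    rwa [Module.finrank_fintype_fun_eq_card] at this
  obtain ⟨k, hk⟩ : ∃ k, k + Module.finrank ℝ V = Fintype.card Λ :=
    ⟨Fintype.card Λ - Module.finrank ℝ V, by (clear * - hfin; omega)⟩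
  obtain ⟨v, hv, C', hC', hgen⟩ := csGeneric S lam hr V
  have hαv : S.alpha v ≤ α₀ := hV v hv
  set U : Ultrafilter ℕ := Filter.hyperfilter ℕ with hU
  have hUtop : (U : Filter ℕ) ≤ Filter.atTop := by
    rw [hU, ← Nat.cofinite_eq_atTop]
    exact Filter.hyperfilter_le_cofinite
  have hnd : ∀ X : ℕ → Lev Λ, LargeLev U X → EntLev U S.P X (α₀ * S.χ) → TinyLev U lam X V →
      ¬ Degenerate U S.P X k := by
    intro X hL hE hT hdeg
    obtain ⟨n0, hn0⟩ := degenerate_step S lam hr α₀ V hV hmax U X hL hE hT k hk hdeg ε hε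
    have h1 := hn0 (n0 + 1) (by omega) t htV
    have h2 := hcon (n0 + 1) (by omega)
    linarith only [h1, h2]
  -- family A
  have hA : ∀ i : ℕ, ∃ n ≥ i + 1,
      (S.P.pi n).H (fun w => (sl S.r w, ⌊(2 : ℝ) ^ (n * (Nat.log 2 n) ^ 2) * tr S.r v w⌋))
        ≤ (S.alpha v * S.χ + 1 / ((i : ℝ) + 1)) * n := fun i =>
    S.H_prime_slope v (hαv.trans_lt hα) (1 / ((i : ℝ) + 1)) (by (clear * -; positivity)) (i + 1)
  choose n hn hHn using hA
  have hnt : Filter.Tendsto n (U : Filter ℕ) Filter.atTop := by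
    refine Filter.Tendsto.mono_left ?_ hUtop
    exact Filter.tendsto_atTop_mono (fun i => (Nat.le_succ i).trans (hn i)) Filter.tendsto_id
  set l : ℕ → ℕ := fun i => Nat.log 2 (n i) with hl
  have hlt : Filter.Tendsto l (U : Filter ℕ) Filter.atTop := by
    rw [Filter.tendsto_atTop]
    intro b
    filter_upwards [hnt.eventually_ge_atTop (2 ^ b)] with i hi
    exact Nat.le_log_of_pow_le (by norm_num) hi
  set X : ℕ → Lev Λ := fun i => csLev S v (n i) (n i * (l i) ^ 2) with hX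
  have hXn : ∀ i, (X i).n = n i := fun i => rfl
  have hXL : LargeLev U X := fun N => hnt.eventually_ge_atTop N
  have hXE : EntLev U S.P X (α₀ * S.χ) := by
    intro e he
    have h1 : Filter.Tendsto (fun i : ℕ => 1 / ((i : ℝ) + 1)) (U : Filter ℕ) (nhds 0) :=
      tendsto_one_div_add_atTop_nhds_zero_nat.mono_left hUtop
    filter_upwards [h1.eventually_lt_const he] with i hi
    refine (hHn i).trans ?_
    have h2 := mul_le_mul_of_nonneg_right hαv hχ.le
    exact mul_le_mul_of_nonneg_right (by linarith only [hi, h2]) (Nat.cast_nonneg _)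
  set NA : ℕ → ℝ := fun i => ((n i * (l i) ^ 2 : ℕ) : ℝ) - C' * n i with hNA
  have hXQ : QTiny U lam X V NA := by
    refine Filter.Eventually.of_forall fun i x hx y hy => ?_
    exact hgen (n i) (n i * (l i) ^ 2) (by have := hn i; omega) x hx y hy
  have hnlog : ∀ i, Real.log (n i) ≤ (l i : ℝ) + 1 := by
    intro i
    have h1 : n i < 2 ^ (l i + 1) := Nat.lt_pow_succ_log_self (by norm_num) _
    have h2 : (n i : ℝ) ≤ (2 : ℝ) ^ (l i + 1) := by exact_mod_cast h1.le
    have h3 : (0 : ℝ) < n i := by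
      have : 0 < n i := by have := hn i; (clear * - this; omega)
      exact_mod_cast this
    have h4 := Real.log_le_log h3 h2
    rw [Real.log_pow] at h4
    push_cast at h4
    have h5 : Real.log 2 ≤ 1 := by
      have := Real.log_two_lt_d9
      linarith only [this]
    have h6 : (0 : ℝ) ≤ (l i : ℝ) + 1 := by (clear * -; positivity)
    nlinarith only [h4, h5]
  have hn1 : ∀ i, (1 : ℝ) ≤ n i := fun i => by
    have : 1 ≤ n i := by have := hn i; omega
    exact_mod_cast this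
  have hNAgrow : ∀ A : ℝ, ∀ᶠ i in (U : Filter ℕ), A * ((X i).n * Real.log (X i).n) ≤ NA i := by
    intro A
    obtain ⟨b, hb⟩ := exists_nat_gt (|A| + |A| + C' + 1)
    filter_upwards [hlt.eventually_ge_atTop b] with i hi
    have hb1 : |A| + |A| + C' + 1 ≤ (l i : ℝ) := by
      have : (b : ℝ) ≤ l i := by exact_mod_cast hi
      linarith only [hb, this]
    have h1 := hnlog i
    have h2 := hn1 i
    have h0 : 0 ≤ Real.log (n i) := Real.log_nonneg h2
    have hA0 := abs_nonneg A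
    have hl0' : (0 : ℝ) ≤ l i := Nat.cast_nonneg _
    simp only [hXn, hNA]
    push_cast
    calc A * (n i * Real.log (n i)) ≤ |A| * (n i * Real.log (n i)) :=
          mul_le_mul_of_nonneg_right (le_abs_self A) (by (clear * - h2; positivity))
      _ ≤ |A| * (n i * ((l i : ℝ) + 1)) := by (clear * - h1 h2; gcongr)
      _ = n i * (|A| * l i + |A|) := by ring
      _ ≤ n i * ((l i : ℝ) ^ 2 - C') := by
          refine mul_le_mul_of_nonneg_left ?_ (by linarith only [])
          nlinarith only [hb1, hA0, hC']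
      _ = _ := by ring
  have hNAinf : ∀ A : ℝ, ∀ᶠ i in (U : Filter ℕ), A ≤ NA i := by
    intro A
    have h1 := hNAgrow 1
    have h2 : Filter.Tendsto (fun i => (n i : ℝ)) (U : Filter ℕ) Filter.atTop :=
      tendsto_natCast_atTop_atTop.comp hnt
    filter_upwards [h1, h2.eventually_ge_atTop (max A (Real.exp 1))] with i hi hi2
    have h3 : A ≤ n i := (le_max_left _ _).trans hi2
    have h4 : Real.exp 1 ≤ n i := (le_max_right _ _).trans hi2
    have h5 : 1 ≤ Real.log (n i) := by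
      rw [Real.le_log_iff_exp_le (by linarith only [hn1 i])]
      exact h4
    rw [one_mul, hXn] at hi
    have := hn1 i
    nlinarith only [hi, h3, h5]
  have hXT : TinyLev U lam X V := csTiny U lam X V NA hXQ hNAinf
  have hXnd := hnd X hXL hXE hXT
  obtain ⟨c, B, ρ₀, f, η, hc, hρ₀, happ⟩ := approximants S.P lam hlam0 hl1 V k hk U X hXL NA
    hNAgrow hXQ hXnd
  obtain ⟨C₀, hC₀⟩ := mahler_bounded S.P k U X hXL hXnd f B ρ₀ hρ₀ (by
    filter_upwards [happ] with i hi
    exact ⟨hi.1, hi.2.2.2.2.1, hi.2.2.2.2.2.1, hi.2.2.2.2.2.2.1, hi.2.2.2.2.2.2.2⟩)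
  have hne : ∀ i, Irreducible (f i) → aeval (η i) (f i) = 0 → (lam : ℂ) ≠ η i := by
    intro i hirr h0 heq
    rw [← heq] at h0
    have h1 : aeval lam (f i) = 0 := by
      have h2 : ((aeval lam (f i) : ℝ) : ℂ) = 0 := by
        rw [← h0]
        exact (aeval_algebraMap_apply ℂ lam (f i)).symm
      exact_mod_cast h2
    exact hirr.ne_zero ((transcendental_iff.1 hlam) (f i) h1)
  set D : ℕ → ℝ := fun i => Real.log (1 / ‖(lam : ℂ) - η i‖) with hD
  have hDge : ∀ᶠ i in (U : Filter ℕ), c * Real.log 2 * NA i ≤ D i := by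
    filter_upwards [happ] with i hi
    have h1 := hi.2.2.1
    have h2 : 0 < ‖(lam : ℂ) - η i‖ := norm_pos_iff.2 (sub_ne_zero.2 (hne i hi.1 hi.2.1))
    have h3 := Real.log_le_log h2 h1
    rw [Real.log_rpow (by norm_num)] at h3
    simp only [hD, one_div, Real.log_inv]
    linarith only [h3]
  have hcl : 0 < c * Real.log 2 := by (clear * - hc; positivity)
  have hDinf : ∀ A : ℝ, ∀ᶠ i in (U : Filter ℕ), A ≤ D i := by
    intro A
    filter_upwards [hDge, hNAinf (A / (c * Real.log 2))] with i hi hi2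
    rw [div_le_iff₀ hcl] at hi2
    linarith only [hi, hi2]
  -- family B
  obtain ⟨q, hq, n1, hn1'⟩ := hsDiag (fun q n => (S.P.pi n).H
      (fun w => (sl S.r w, ⌊(2 : ℝ) ^ (q * n) * tr S.r v w⌋))
      ≤ (S.alpha v * S.χ + 1 / ((q : ℝ) + 1)) * n)
    (fun q => S.H_upper v (hαv.trans_lt hα) q (1 / ((q : ℝ) + 1)) (by (clear * -; positivity)))
  set Y : ℝ → ℕ → Lev Λ := fun κ i => csLev S v ⌊κ * D i⌋₊ (q ⌊κ * D i⌋₊ * ⌊κ * D i⌋₊) with hY
  have hYn : ∀ κ i, (Y κ i).n = ⌊κ * D i⌋₊ := fun κ i => rfl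
  refine final_contra S.P lam hlam0 hl1 V k hk U n f η C₀ ?_ Y ?_
  · filter_upwards [happ, hC₀] with i hi hi2
    exact ⟨hi.1, hi.2.1, hi.2.2.2.1, hi2, hne i hi.1 hi.2.1⟩
  · intro κ hκ0 hκ1
    have hYt : Filter.Tendsto (fun i => ⌊κ * D i⌋₊) (U : Filter ℕ) Filter.atTop := by
      rw [Filter.tendsto_atTop]
      intro b
      filter_upwards [hDinf (b / κ)] with i hi
      rw [div_le_iff₀ hκ0] at hi
      exact Nat.le_floor (by linarith only [hi])
    have hqt : Filter.Tendsto (fun i => q ⌊κ * D i⌋₊) (U : Filter ℕ) Filter.atTop := hq.comp hYt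
    have hYL : LargeLev U (Y κ) := fun N => hYt.eventually_ge_atTop N
    have hYE : EntLev U S.P (Y κ) (α₀ * S.χ) := by
      intro e he
      obtain ⟨b, hb⟩ := exists_nat_gt (1 / e)
      filter_upwards [hYt.eventually_ge_atTop n1, hqt.eventually_ge_atTop b] with i hi hi2
      have h1 := hn1' _ hi
      have h2 := mul_le_mul_of_nonneg_right hαv hχ.le
      have h3 : 1 / ((q ⌊κ * D i⌋₊ : ℝ) + 1) ≤ e := by
        have h4 : (b : ℝ) ≤ q ⌊κ * D i⌋₊ := by exact_mod_cast hi2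
        rw [div_le_iff₀ (by (clear * -; positivity))]
        rw [div_lt_iff₀ he] at hb
        nlinarith only [hb, h4]
      exact h1.trans (mul_le_mul_of_nonneg_right (by linarith only [h2, h3]) (Nat.cast_nonneg _))
    have hYQ : ∀ A : ℝ, QTiny U lam (Y κ) V (fun i => A * (Y κ i).n) := by
      intro A
      obtain ⟨b, hb⟩ := exists_nat_gt (A + C')
      filter_upwards [hYt.eventually_ge_atTop 1, hqt.eventually_ge_atTop b] with i hi hi2 x hx y hy
      refine (hgen _ _ hi x hx y hy).trans ?_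
      refine mul_le_mul_of_nonneg_right ?_ (norm_nonneg _)
      refine Real.rpow_le_rpow_of_exponent_le (by norm_num) ?_
      rw [hYn]
      push_cast
      have h4 : (b : ℝ) ≤ q ⌊κ * D i⌋₊ := by exact_mod_cast hi2
      have h5 : (0 : ℝ) ≤ (⌊κ * D i⌋₊ : ℝ) := Nat.cast_nonneg _
      nlinarith only [hb, h4]
    have hYT : TinyLev U lam (Y κ) V := by
      refine csTiny U lam (Y κ) V _ (hYQ 1) fun A => ?_
      obtain ⟨b, hb⟩ := exists_nat_gt A
      filter_upwards [hYt.eventually_ge_atTop b] with i hi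
      rw [hYn, one_mul]
      have : (b : ℝ) ≤ (⌊κ * D i⌋₊ : ℝ) := by exact_mod_cast hi
      linarith only [hb, this]
    refine ⟨hYL, hnd _ hYL hYE hYT, ?_, hYQ⟩
    -- size conditions
    obtain ⟨b, hb⟩ := exists_nat_gt (2 + 16 / (κ * (c * Real.log 2)) + 2 * C')
    filter_upwards [hDinf (2 / κ), hDge, hlt.eventually_ge_atTop b] with i hi1 hi2 hi3
    have hDpos : 0 < D i := lt_of_lt_of_le (by (clear * - hκ0; positivity)) hi1
    have h1 : ((Y κ i).n : ℝ) ≤ κ * D i := by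
      rw [hYn]
      exact Nat.floor_le (by (clear * - hκ0 hDpos; positivity))
    have h2 : κ / 2 * D i ≤ (Y κ i).n := by
      rw [hYn]
      have h3 := Nat.lt_floor_add_one (κ * D i)
      rw [div_le_iff₀ hκ0] at hi1
      linarith only [hi1, h3]
    refine ⟨h1, h2, ?_⟩
    -- the logarithmic condition
    set y : ℝ := ((Y κ i).n : ℝ) / n i with hy
    have hni := hn1 i
    have hni0 : (0 : ℝ) < n i := by linarith only [hni]
    have hlge : 2 + 16 / (κ * (c * Real.log 2)) + 2 * C' ≤ (l i : ℝ) := by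
      have : (b : ℝ) ≤ l i := by exact_mod_cast hi3
      linarith only [hb, this]
    have hkc : 0 < κ * (c * Real.log 2) := by (clear * - hκ0 hc; positivity)
    have h8 : 0 < 16 / (κ * (c * Real.log 2)) := by (clear * - hκ0 hc; positivity)
    have hy1 : 2 * ((l i : ℝ) + 1) ≤ y := by
      rw [hy, le_div_iff₀ hni0]
      have h3 : κ / 2 * (c * Real.log 2 * NA i) ≤ (Y κ i).n :=
        (mul_le_mul_of_nonneg_left hi2 (by (clear * - hκ0; positivity))).trans h2
      refine le_trans ?_ h3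
      simp only [hNA]
      push_cast
      have h4 : (l i : ℝ) ^ 2 - C' ≥ (l i : ℝ) ^ 2 / 2 := by nlinarith only [hlge, h8]
      have h5 : 16 ≤ (l i : ℝ) * (κ * (c * Real.log 2)) := by
        have : 16 / (κ * (c * Real.log 2)) ≤ l i := by linarith only [hC', hlge]
        rwa [div_le_iff₀ hkc] at this
      have h6 : 2 * ((l i : ℝ) + 1) ≤ κ / 2 * (c * Real.log 2) * ((l i : ℝ) ^ 2 / 2) := by
        have h7 : κ / 2 * (c * Real.log 2) * ((l i : ℝ) ^ 2 / 2)
            = ((l i : ℝ) * (κ * (c * Real.log 2))) * (l i : ℝ) / 4 := by ring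
        rw [h7]
        have hl0' : (0 : ℝ) ≤ l i := Nat.cast_nonneg _
        have h9 := mul_le_mul_of_nonneg_right h5 hl0'
        linarith only [hC', hlge, h8, h9]
      calc 2 * ((l i : ℝ) + 1) * n i
          ≤ κ / 2 * (c * Real.log 2) * ((l i : ℝ) ^ 2 / 2) * n i := by (clear * - h6 hni; gcongr)
        _ ≤ κ / 2 * (c * Real.log 2) * ((l i : ℝ) ^ 2 - C') * n i := by (clear * - h4 hκ0 hc hni; gcongr)
        _ = _ := by ring
    have hl0' : (0 : ℝ) ≤ l i := Nat.cast_nonneg _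
    have hy0 : 0 < y := by linarith only [hy1]
    have h3 : ((Y κ i).n : ℝ) = n i * y := by rw [hy]; (clear * - hni; field_simp)
    have h4 : Real.log ((Y κ i).n : ℝ) = Real.log (n i) + Real.log y := by
      rw [h3, Real.log_mul hni0.ne' hy0.ne']
    have h5 : Real.log y ≤ y / 2 := by
      have h6 := Real.log_le_sub_one_of_pos (show 0 < y / 2 by (clear * - hy0; positivity))
      have h7 : Real.log y = Real.log (y / 2) + Real.log 2 := by
        rw [← Real.log_mul (by (clear * - hy0; positivity)) (by norm_num)]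
        congr 1
        ring
      have h8 := Real.log_two_lt_d9
      linarith only [h6, h7, h8]
    rw [h4, h3]
    refine mul_le_mul_of_nonneg_left ?_ hni0.le
    have := hnlog i
    linarith only [hy1, h5, this]


end Vale.Agent.P114.Com
end
end

section

/-! The dimension formula for commensurable ratios. -/

open scoped Classical ENNReal

noncomputable section

namespace Vale.Agent.P114.Com

open MeasureTheory Vale.Agent.P114

/-- All ratios are signed integer powers of `lam`. -/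
theorem main_commensurable {Λ : Type} [Fintype Λ] [Nonempty Λ] (r t p : Λ → ℝ) (lam : ℝ)
    (hl0 : 0 < lam) (hl1 : lam < 1) (a : Λ → ℕ) (ha : ∀ i, 1 ≤ a i)
    (hr : ∀ i, |r i| = lam ^ a i)
    (hp : ∀ i, 0 < p i) (hp1 : ∑ i, p i = 1) (μ : Measure ℝ) (hμ : IsSelfSimilar r t p μ) :
    lowerDimH μ = ENNReal.ofReal (min 1 (hRW r t p / lyap r p)) := by
  have h0 : ∀ i, r i ≠ 0 := fun i => by
    rw [← abs_pos, hr i]; positivity
  have h1 : ∀ i, |r i| < 1 := fun i => by
    rw [hr i]; exact pow_lt_one₀ hl0.le hl1 (by have := ha i; omega)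
  by_cases halg : IsAlgebraic ℚ lam
  · refine main_algebraic r t p h0 h1 (fun i => ?_) hp hp1 μ hμ
    have h2 : IsAlgebraic ℚ (lam ^ a i) := halg.pow _
    rcases abs_choice (r i) with h | h
    · rw [hr i] at h; rw [← h]; exact h2
    · rw [hr i] at h
      have : r i = -(lam ^ a i) := by rw [h]; ring
      rw [this]; exact h2.neg
  · refine le_antisymm (lowerDimH_le r t p h0 h1 hp hp1 μ hμ) ?_
    obtain ⟨S, rfl, rfl⟩ := exists_sys r p h0 h1 (fun i => (hp i).le) hp1
    refine lower_of_step S t (fun hα ε hε => ?_) μ hμ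
    have htr : Transcendental ℤ lam := by
      intro h
      exact halg ((IsFractionRing.isAlgebraic_iff ℤ ℚ ℝ).1 h)
    letI : Wts Λ :=
      { wt := a
        sg := fun i => if 0 ≤ S.r i then 1 else -1
        A := ∑ i, a i
        wt_pos := ha
        wt_le := fun i => Finset.single_le_sum (fun _ _ => Nat.zero_le _) (Finset.mem_univ i)
        sg_sq := fun i => by split_ifs <;> norm_num }
    have hcom : IsCom S lam := by
      refine ⟨hl0, hl1, fun i => ?_⟩
      change S.r i = (((if 0 ≤ S.r i then 1 else -1 : ℤ)) : ℝ) * lam ^ a i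
      split_ifs with h
      · rw [← hr i, abs_of_nonneg h]; simp
      · rw [← hr i, abs_of_neg (not_le.1 h)]; push_cast; ring
    exact com_step S lam hcom htr t hα ε hε

/-- All quotients of the logarithms of the ratios are rational. -/
theorem main_rational {Λ : Type} [Fintype Λ] [Nonempty Λ] (r t p : Λ → ℝ)
    (h0 : ∀ i, r i ≠ 0) (h1 : ∀ i, |r i| < 1)
    (hq : ∀ i j, ¬ Irrational (Real.log |r i| / Real.log |r j|))
    (hp : ∀ i, 0 < p i) (hp1 : ∑ i, p i = 1) (μ : Measure ℝ) (hμ : IsSelfSimilar r t p μ) :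
    lowerDimH μ = ENNReal.ofReal (min 1 (hRW r t p / lyap r p)) := by
  obtain ⟨i0⟩ := ‹Nonempty Λ›
  have hl0 : Real.log |r i0| < 0 := Real.log_neg (abs_pos.2 (h0 i0)) (h1 i0)
  -- common denominator
  have hrat : ∀ i, ∃ q : ℚ, (q : ℝ) = Real.log |r i| / Real.log |r i0| := by
    intro i
    have := hq i i0
    rw [Irrational, not_not] at this
    exact this
  choose q hq' using hrat
  set d : ℕ := ∏ i, (q i).den with hd
  have hd0 : 0 < d := Finset.prod_pos fun i _ => (q i).den_pos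
  have hqpos : ∀ i, 0 < q i := by
    intro i
    have h2 : (0 : ℝ) < (q i : ℝ) := by
      rw [hq' i]
      exact div_pos_of_neg_of_neg (Real.log_neg (abs_pos.2 (h0 i)) (h1 i)) hl0
    exact_mod_cast h2
  have hint : ∀ i, ∃ a : ℕ, 1 ≤ a ∧ (a : ℝ) = (q i : ℝ) * d := by
    intro i
    obtain ⟨e, he⟩ : (q i).den ∣ d := Finset.dvd_prod_of_mem _ (Finset.mem_univ i)
    have hnum : 0 < (q i).num := Rat.num_pos.2 (hqpos i)
    have he0 : 0 < e := by
      rcases Nat.eq_zero_or_pos e with h | h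
      · rw [h, mul_zero] at he; omega
      · exact h
    refine ⟨(q i).num.toNat * e, ?_, ?_⟩
    · have : 0 < (q i).num.toNat := by omega
      exact Nat.mul_pos this he0
    · have e1 : ((q i).num.toNat : ℝ) = ((q i).num : ℝ) := by
        have : (((q i).num.toNat : ℤ) : ℝ) = ((q i).num : ℝ) := by
          rw [Int.toNat_of_nonneg hnum.le]
        exact_mod_cast this
      have e2 : (q i : ℝ) * (q i).den = (q i).num := by
        exact_mod_cast Rat.mul_den_eq_num (q i)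
      rw [he]
      push_cast
      rw [e1, ← e2]
      ring
  choose a ha1 ha using hint
  set lam : ℝ := Real.exp (Real.log |r i0| / d) with hlam
  have hdR : (0 : ℝ) < d := by exact_mod_cast hd0
  haveI : Nonempty Λ := ⟨i0⟩
  refine main_commensurable r t p lam (Real.exp_pos _) ?_ a ha1 (fun i => ?_) hp hp1 μ hμ
  · rw [hlam, Real.exp_lt_one_iff]
    exact div_neg_of_neg_of_pos hl0 hdR
  · rw [hlam, ← Real.exp_nat_mul, ha i, hq' i]
    have e3 : Real.log |r i| / Real.log |r i0| * d * (Real.log |r i0| / d) = Real.log |r i| := by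
      have h5 : Real.log |r i0| ≠ 0 := hl0.ne
      rw [div_mul_eq_mul_div, div_mul_div_comm, mul_comm (Real.log |r i0|) (d : ℝ), mul_assoc,
        mul_div_assoc, div_self (by (clear * - h5; positivity)), mul_one]
    rw [e3, Real.exp_log (abs_pos.2 (h0 i))]

end Vale.Agent.P114.Com
end
end
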